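import Crest.Agent.R077.Defs

/-! Row 77: elementary facts on `tent` and `phi`. -/

set_option autoImplicit false
open MeasureTheory Set Filter Topology

namespace Crest.Agent.R077.TP

variable {lam a t s : ℝ}

theorem tent_nonneg (lam a t : ℝ) : 0 ≤ tent lam a t := by
  unfold tent; positivity

theorem tent_continuous (lam a : ℝ) : Continuous (tent lam a) := by
  unfold tent; fun_prop

theorem tent_eq_zero_left (h : t ≤ lam) : tent lam a t = 0 := by
  unfold tent
  have : min (t - lam) (lam + a - t) ≤ 0 := (min_le_left _ _).trans (by linarith)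
  rw [max_eq_left this, mul_zero]

theorem tent_eq_zero_right (h : lam + a ≤ t) : tent lam a t = 0 := by
  unfold tent
  have : min (t - lam) (lam + a - t) ≤ 0 := (min_le_right _ _).trans (by linarith)
  rw [max_eq_left this, mul_zero]

theorem tent_eq_zero_of_notMem (h : t ∉ Icc lam (lam + a)) : tent lam a t = 0 := by
  by_cases h1 : t ≤ lam
  · exact tent_eq_zero_left h1
  · apply tent_eq_zero_right
    by_contra h2
    push Not at h1 h2
    exact h ⟨h1.le, h2.le⟩

theorem tent_pos (ha : 0 < a) (h1 : lam < t) (h2 : t < lam + a) : 0 < tent lam a t := by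
  unfold tent
  have : 0 < min (t - lam) (lam + a - t) := lt_min (by linarith) (by linarith)
  rw [max_eq_right this.le]
  positivity

theorem tent_le (ha : 0 < a) (lam t : ℝ) : tent lam a t ≤ 2 / a := by
  unfold tent
  have h1 : min (t - lam) (lam + a - t) ≤ a / 2 := by
    rcases le_total (t - lam) (a / 2) with h | h
    · exact (min_le_left _ _).trans h
    · exact (min_le_right _ _).trans (by linarith)
  have h2 : max 0 (min (t - lam) (lam + a - t)) ≤ a / 2 := max_le (by positivity) h1
  calc 4 / a ^ 2 * max 0 (min (t - lam) (lam + a - t)) ≤ 4 / a ^ 2 * (a / 2) :=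
        mul_le_mul_of_nonneg_left h2 (by positivity)
    _ = 2 / a := by field_simp; norm_num

theorem tent_abs_sub_le (lam a t s : ℝ) :
    |tent lam a t - tent lam a s| ≤ (4 / a ^ 2) * |t - s| := by
  unfold tent
  rw [← mul_sub, abs_mul, abs_of_nonneg (by positivity : (0:ℝ) ≤ 4 / a ^ 2)]
  apply mul_le_mul_of_nonneg_left _ (by positivity)
  have h1 : |max 0 (min (t - lam) (lam + a - t)) - max 0 (min (s - lam) (lam + a - s))|
      ≤ |min (t - lam) (lam + a - t) - min (s - lam) (lam + a - s)| := by
    have := abs_max_sub_max_le_abs (min (t - lam) (lam + a - t)) (min (s - lam) (lam + a - s)) 0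
    rwa [max_comm _ (0:ℝ), max_comm _ (0:ℝ)] at this
  refine h1.trans ?_
  have h2 := abs_min_sub_min_le_max (t - lam) (lam + a - t) (s - lam) (lam + a - s)
  refine h2.trans (max_le ?_ ?_)
  · rw [show t - lam - (s - lam) = t - s by ring]
  · rw [show lam + a - t - (lam + a - s) = -(t - s) by ring, abs_neg]

theorem tent_lipschitz_add (lam a t s : ℝ) :
    tent lam a t ≤ tent lam a s + (4 / a ^ 2) * |t - s| := by
  have := tent_abs_sub_le lam a t s
  have := le_abs_self (tent lam a t - tent lam a s)
  linarith

theorem tent_measurable (lam a : ℝ) : Measurable (tent lam a) := (tent_continuous lam a).measurable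

theorem tent_integrable (lam a : ℝ) : Integrable (tent lam a) := by
  have h : HasCompactSupport (tent lam a) := by
    apply HasCompactSupport.intro (K := Icc lam (lam + a)) isCompact_Icc
    intro x hx
    exact tent_eq_zero_of_notMem hx
  exact (tent_continuous lam a).integrable_of_hasCompactSupport h

theorem phi_hasDerivAt (lam a t : ℝ) : HasDerivAt (phi lam a) (-(tent lam a t)) t := by
  have h := intervalIntegral.integral_hasDerivAt_right (a := lam) (b := t) (f := tent lam a)
    ((tent_continuous lam a).intervalIntegrable _ _)
    ((tent_continuous lam a).stronglyMeasurableAtFilter _ _) (tent_continuous lam a).continuousAt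
  have := h.const_sub 1
  exact this

theorem phi_continuous (lam a : ℝ) : Continuous (phi lam a) :=
  continuous_iff_continuousAt.2 fun t => (phi_hasDerivAt lam a t).continuousAt

theorem phi_measurable (lam a : ℝ) : Measurable (phi lam a) := (phi_continuous lam a).measurable

theorem phi_sub_phi (lam a s t : ℝ) : phi lam a s - phi lam a t = ∫ r in s..t, tent lam a r := by
  unfold phi
  have := intervalIntegral.integral_add_adjacent_intervals (μ := volume) (a := lam) (b := s) (c := t)
    ((tent_continuous lam a).intervalIntegrable _ _) ((tent_continuous lam a).intervalIntegrable _ _)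
  linarith

theorem phi_antitone (lam a : ℝ) : Antitone (phi lam a) := by
  intro s t hst
  have h := phi_sub_phi lam a s t
  have h2 : 0 ≤ ∫ r in s..t, tent lam a r :=
    intervalIntegral.integral_nonneg hst fun r _ => tent_nonneg lam a r
  linarith

theorem phi_eq_one (h : t ≤ lam) : phi lam a t = 1 := by
  unfold phi
  have : ∫ r in lam..t, tent lam a r = 0 := by
    rw [intervalIntegral.integral_symm, neg_eq_zero]
    apply intervalIntegral.integral_zero_ae
    filter_upwards with r hr
    rw [uIoc_of_le h] at hr
    exact tent_eq_zero_left hr.2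
  rw [this, sub_zero]

theorem integral_tent_interval (ha : 0 < a) (lam : ℝ) : ∫ r in lam..(lam + a), tent lam a r = 1 := by
  have h1 : ∫ r in lam..(lam + a / 2), tent lam a r = 1 / 2 := by
    have e : ∀ r ∈ uIcc lam (lam + a / 2), tent lam a r = (4 / a ^ 2) * (r - lam) := by
      intro r hr
      rw [uIcc_of_le (by linarith)] at hr
      unfold tent
      rw [min_eq_left (by linarith [hr.1, hr.2]), max_eq_right (by linarith [hr.1])]
    rw [intervalIntegral.integral_congr e, intervalIntegral.integral_const_mul]
    simp only [intervalIntegral.integral_sub, intervalIntegral.intervalIntegrable_id,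
      intervalIntegrable_const, integral_id, intervalIntegral.integral_const]
    simp only [smul_eq_mul]
    field_simp
    ring
  have h2 : ∫ r in (lam + a / 2)..(lam + a), tent lam a r = 1 / 2 := by
    have e : ∀ r ∈ uIcc (lam + a / 2) (lam + a), tent lam a r = (4 / a ^ 2) * (lam + a - r) := by
      intro r hr
      rw [uIcc_of_le (by linarith)] at hr
      unfold tent
      rw [min_eq_right (by linarith [hr.1, hr.2]), max_eq_right (by linarith [hr.2])]
    rw [intervalIntegral.integral_congr e, intervalIntegral.integral_const_mul,
      intervalIntegral.integral_comp_sub_left (fun x => x) (lam + a), integral_id]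
    field_simp
    ring
  have := intervalIntegral.integral_add_adjacent_intervals (μ := volume) (a := lam)
    (b := lam + a / 2) (c := lam + a)
    ((tent_continuous lam a).intervalIntegrable _ _) ((tent_continuous lam a).intervalIntegrable _ _)
  rw [h1, h2] at this
  linarith

theorem phi_eq_zero (ha : 0 < a) (h : lam + a ≤ t) : phi lam a t = 0 := by
  have h1 : phi lam a (lam + a) = 0 := by
    unfold phi
    rw [integral_tent_interval ha]; ring
  have h2 := phi_sub_phi lam a (lam + a) t
  have h3 : ∫ r in (lam + a)..t, tent lam a r = 0 := by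
    apply intervalIntegral.integral_zero_ae
    filter_upwards with r hr
    rw [uIoc_of_le h] at hr
    exact tent_eq_zero_right hr.1.le
  rw [h3] at h2
  linarith

theorem phi_le_one (lam a t : ℝ) : phi lam a t ≤ 1 := by
  rcases le_total t lam with h | h
  · rw [phi_eq_one h]
  · have := phi_antitone lam a h
    rwa [phi_eq_one le_rfl] at this

theorem phi_nonneg (ha : 0 < a) (lam t : ℝ) : 0 ≤ phi lam a t := by
  rcases le_total t (lam + a) with h | h
  · have := phi_antitone lam a h
    rwa [phi_eq_zero ha le_rfl] at this
  · rw [phi_eq_zero ha h]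

theorem phi_sub_le (ha : 0 < a) (lam : ℝ) (h : s ≤ t) :
    phi lam a s - phi lam a t ≤ (2 / a) * (t - s) := by
  rw [phi_sub_phi]
  have := intervalIntegral.integral_mono_on h ((tent_continuous lam a).intervalIntegrable s t)
    (intervalIntegrable_const (μ := volume) (c := 2 / a)) (fun r _ => tent_le ha lam r)
  rw [intervalIntegral.integral_const, smul_eq_mul] at this
  linarith

theorem phi_abs_sub_le (ha : 0 < a) (lam s t : ℝ) :
    |phi lam a s - phi lam a t| ≤ (2 / a) * |s - t| := by
  rcases le_total s t with h | h
  · have h1 := phi_sub_le ha lam h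
    have h2 := phi_antitone lam a h
    rw [abs_of_nonneg (by linarith), abs_of_nonpos (by linarith)]
    linarith
  · have h1 := phi_sub_le ha lam h
    have h2 := phi_antitone lam a h
    rw [abs_of_nonpos (by linarith), abs_of_nonneg (by linarith)]
    linarith

theorem integral_tent (ha : 0 < a) (lam : ℝ) : ∫ r, tent lam a r = 1 := by
  have h1 : ∫ r, tent lam a r = ∫ r in Ioc lam (lam + a), tent lam a r := by
    rw [setIntegral_eq_integral_of_forall_compl_eq_zero]
    intro r hr
    by_cases h : r ≤ lam
    · exact tent_eq_zero_left h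
    · apply tent_eq_zero_right
      by_contra h2
      push Not at h h2
      exact hr ⟨h, h2.le⟩
  rw [h1, ← intervalIntegral.integral_of_le (by linarith), integral_tent_interval ha]

/-- quantitative: for `|s - t| ≤ r`, `|φ t - φ s| ≤ r (w t + (4/a²) r)` -/
theorem phi_abs_sub_le_tent {r : ℝ} (lam a : ℝ) {s t : ℝ} (h : |s - t| ≤ r) :
    |phi lam a t - phi lam a s| ≤ r * (tent lam a t + (4 / a ^ 2) * r) := by
  have hr : 0 ≤ r := (abs_nonneg _).trans h
  rw [phi_sub_phi]
  have hb : ∀ x ∈ uIoc t s, ‖tent lam a x‖ ≤ tent lam a t + (4 / a ^ 2) * r := by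
    intro x hx
    rw [Real.norm_eq_abs, abs_of_nonneg (tent_nonneg _ _ _)]
    have h1 := tent_lipschitz_add lam a x t
    have h2 : |x - t| ≤ |s - t| := by
      apply abs_sub_left_of_mem_uIcc
      exact uIoc_subset_uIcc hx
    have h3 : (4 / a ^ 2) * |x - t| ≤ (4 / a ^ 2) * r :=
      mul_le_mul_of_nonneg_left (h2.trans h) (by positivity)
    linarith
  have := intervalIntegral.norm_integral_le_of_norm_le_const hb
  rw [Real.norm_eq_abs] at this
  refine this.trans ?_
  rw [mul_comm]
  apply mul_le_mul_of_nonneg_right h
  have := tent_nonneg lam a t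
  positivity

end Crest.Agent.R077.TP
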