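import Crest.Agent.R077.EndGame

/-!
Row 77 (Hénon–Lane–Emden): real-arithmetic assembly of the core inequality over all scales.

Scales: `δ_j = ep ^ j * (c₀ * a ^ 2)`.  Inputs for every scale `j` (with `δ = δ_j`, `η = δ_{j+1}`,
`ζ = δ_{j+2}`, near range `δ' = δ_{j+3}`), `TV j` standing for `η * (TV_F + TV_G)`:
* `h1 : D * Jm ≤ X₀ j - E (j+1) + T * TV j + T * (δ_j / a) * JJ + (T / a) * B j + T * r`
* `h2 : TV j ≤ T * (ep * E j + (E (j+1) - E j)) + T * (δ_j / a ^ 2) * JJ + T * r`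
* `h3 : S * (1 - T * ep) * X₀ j ≤ (1 + T * δ_j) * E (j+2) + T * ep * TV j + T * c₀ * JJ + T * r`
* `hB : B j ≤ T * δ_{j+3} ^ (-m)`.
-/

set_option autoImplicit false

namespace Crest.Agent.R077

open Real

namespace Asm

theorem coefE {S T x : ℝ} (hS : 1 < S) (hT : 1 ≤ T) (hx : 0 < x) (hTx : T * x ≤ 1 / 4)
    (hTx2 : 10 * T ^ 2 * x ≤ 1 - 1 / S) :
    (1 / S) * (1 + 2 * (T * x)) * ((1 + x) * (1 + x) + T * x * (T * (2 * x)))
      + T * (T * (2 * x)) ≤ 1 := by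
  have hSpos : 0 < S := by linarith
  have hTpos : 0 < T := by linarith
  have hinvS : 1 / S ≤ 1 := by
    rw [div_le_one hSpos]; linarith
  have hinvS0 : 0 < 1 / S := by positivity
  obtain ⟨P, hP⟩ : ∃ P, P = T * x := ⟨_, rfl⟩
  have hPpos : 0 < P := by rw [hP]; positivity
  have hP4 : P ≤ 1 / 4 := by rw [hP]; exact hTx
  have hxP : x ≤ P := by rw [hP]; nlinarith
  rw [← hP]
  have h4 : (1 + x) * (1 + x) ≤ 1 + 3 * P := by nlinarith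
  have h5 : P * (T * (2 * x)) = 2 * P * P := by rw [hP]; ring
  have h8 : P * P ≤ P * (1 / 4) := mul_le_mul_of_nonneg_left hP4 hPpos.le
  have h9 : P * P * P ≤ P * (1 / 4) * (1 / 4) := mul_le_mul h8 hP4 hPpos.le (by positivity)
  have h6 : (1 + 2 * P) * ((1 + x) * (1 + x) + P * (T * (2 * x))) ≤ 1 + 8 * P := by
    rw [h5]
    have h7 : (1 + 2 * P) * ((1 + x) * (1 + x) + 2 * P * P)
        ≤ (1 + 2 * P) * (1 + 3 * P + 2 * P * P) :=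
      mul_le_mul_of_nonneg_left (by linarith) (by linarith)
    have h10 : (1 + 2 * P) * (1 + 3 * P + 2 * P * P) = 1 + 5 * P + 8 * (P * P) + 4 * (P * P * P) := by
      ring
    linarith
  have h7 : (1 / S) * (1 + 2 * P) * ((1 + x) * (1 + x) + P * (T * (2 * x)))
      ≤ (1 / S) * (1 + 8 * P) := by
    rw [mul_assoc]; exact mul_le_mul_of_nonneg_left h6 hinvS0.le
  have h11 : (1 / S) * P ≤ 1 * P := mul_le_mul_of_nonneg_right hinvS hPpos.le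
  have h12 : (1 / S) * (1 + 8 * P) = 1 / S + 8 * ((1 / S) * P) := by ring
  have h13 : T * (T * (2 * x)) = 2 * (T ^ 2 * x) := by ring
  have h14 : P ≤ T ^ 2 * x := by
    rw [hP]
    have : T ≤ T ^ 2 := by nlinarith
    exact mul_le_mul_of_nonneg_right this hx.le
  linarith

theorem coefJ {T x c₀ c₁ : ℝ} (hT : 1 ≤ T) (hx : 0 < x) (hTx : T * x ≤ 1 / 4)
    (hc₁ : 0 < c₁) (hc₀ : 0 < c₀) :
    (1 + x) * c₁ + T * x * (T * c₁ + T * c₀) + T * c₀ ≤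
      2 * T ^ 2 * c₁ + 2 * T ^ 2 * c₀ := by
  have hTpos : 0 < T := by linarith
  have hTT : T ≤ T ^ 2 := by nlinarith
  have hx4 : x ≤ 1 / 4 := by nlinarith
  have hT2 : 1 ≤ T ^ 2 := by nlinarith
  have h1 : c₁ ≤ T ^ 2 * c₁ := by nlinarith
  have h2 : (1 + x) * c₁ ≤ (5 / 4) * c₁ := mul_le_mul_of_nonneg_right (by linarith) hc₁.le
  have h3 : T * c₁ ≤ T ^ 2 * c₁ := mul_le_mul_of_nonneg_right hTT hc₁.le
  have h4 : T * c₀ ≤ T ^ 2 * c₀ := mul_le_mul_of_nonneg_right hTT hc₀.le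
  have h5 : T * x * (T * c₁ + T * c₀) ≤ (1 / 4) * (T * c₁ + T * c₀) :=
    mul_le_mul_of_nonneg_right hTx (by positivity)
  have h6 : 0 < T ^ 2 * c₁ := by positivity
  have h7 : 0 < T ^ 2 * c₀ := by positivity
  linarith

theorem x0_bound {S T x U x0 : ℝ} (hS : 1 < S) (hTx0 : 0 < T * x) (hTx : T * x ≤ 1 / 4)
    (hU : 0 ≤ U) (h : S * (1 - T * x) * x0 ≤ U) :
    x0 ≤ (1 / S) * (1 + 2 * (T * x)) * U := by
  have hSpos : 0 < S := by linarith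
  obtain ⟨P, hP⟩ : ∃ P, P = T * x := ⟨_, rfl⟩
  rw [← hP] at hTx0 hTx h ⊢
  have h4 : 0 < 1 - P := by linarith
  have h5 : x0 ≤ U / (S * (1 - P)) := by
    rw [le_div_iff₀ (by positivity)]; linarith
  have h6 : U / (S * (1 - P)) ≤ (1 / S) * (1 + 2 * P) * U := by
    rw [div_le_iff₀ (by positivity)]
    have h7 : 1 ≤ (1 + 2 * P) * (1 - P) := by nlinarith
    have h8 : (1 / S) * (1 + 2 * P) * U * (S * (1 - P)) =
        ((1 + 2 * P) * (1 - P)) * U := by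
      field_simp
    rw [h8]
    have := mul_le_mul_of_nonneg_right h7 hU
    linarith
  linarith

theorem core_num {S T x c₀ c₁ ε e e1 e2 tv x0 JJ r DJ d u u2 v : ℝ}
    (hS : 1 < S) (hT : 1 ≤ T) (hx : 0 < x) (hTx : T * x ≤ 1 / 4)
    (hTx2 : 10 * T ^ 2 * x ≤ 1 - 1 / S) (hc₁ : 0 < c₁) (hc₀ : 0 < c₀)
    (hε : 5 * T ^ 2 * c₁ + 6 * T ^ 2 * c₀ ≤ ε)
    (hJJ : 0 ≤ JJ) (hr : 0 ≤ r) (he : 0 ≤ e) (he1 : e ≤ e1) (he2 : e1 ≤ e2)
    (hpi : e2 ≤ (1 + x) * e + c₁ * JJ)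
    (hTd : T * d ≤ x) (hu : u ≤ c₀) (hu2 : u2 ≤ c₀)
    (h1 : DJ ≤ x0 - e1 + T * tv + T * u * JJ + v + T * r)
    (h2 : tv ≤ T * (x * e + (e1 - e)) + T * u2 * JJ + T * r)
    (h3 : S * (1 - T * x) * x0 ≤ (1 + T * d) * e2 + T * x * tv + T * c₀ * JJ + T * r) :
    DJ ≤ ε * JJ + v + 6 * T ^ 2 * r := by
  have hTpos : 0 < T := by linarith
  have hSpos : 0 < S := by linarith
  have hTT : T ≤ T ^ 2 := by nlinarith
  have hTxpos : 0 < T * x := by positivity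
  -- tv
  obtain ⟨W, hW⟩ : ∃ W, W = T * (2 * x) * e + (T * c₁ + T * c₀) * JJ + T * r := ⟨_, rfl⟩
  have hW0 : 0 ≤ W := by rw [hW]; positivity
  have htv' : tv ≤ W := by
    have h5 : T * (x * e + (e1 - e)) ≤ T * (x * e + (x * e + c₁ * JJ)) := by
      apply mul_le_mul_of_nonneg_left _ hTpos.le
      linarith
    have h6 : T * u2 * JJ ≤ T * c₀ * JJ :=
      mul_le_mul_of_nonneg_right (mul_le_mul_of_nonneg_left hu2 hTpos.le) hJJ
    have h7 : T * (x * e + (x * e + c₁ * JJ)) + T * c₀ * JJ + T * r = W := by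
      rw [hW]; ring
    linarith
  obtain ⟨U, hU⟩ : ∃ U, U = (1 + x) * ((1 + x) * e + c₁ * JJ) + T * x * W
      + T * c₀ * JJ + T * r := ⟨_, rfl⟩
  have hU0 : 0 ≤ U := by rw [hU]; positivity
  have hx0' : S * (1 - T * x) * x0 ≤ U := by
    have h5 : 0 ≤ e2 := by linarith
    have h6 : (1 + T * d) * e2 ≤ (1 + x) * e2 :=
      mul_le_mul_of_nonneg_right (by linarith) h5
    have h7 : (1 + x) * e2 ≤ (1 + x) * ((1 + x) * e + c₁ * JJ) :=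
      mul_le_mul_of_nonneg_left hpi (by linarith)
    have h8 : T * x * tv ≤ T * x * W := mul_le_mul_of_nonneg_left htv' hTxpos.le
    rw [hU]; linarith
  have hκ := x0_bound hS hTxpos hTx hU0 hx0'
  obtain ⟨κ, hκd⟩ : ∃ κ, κ = (1 / S) * (1 + 2 * (T * x)) := ⟨_, rfl⟩
  have hE := coefE hS hT hx hTx hTx2
  have hJ := coefJ hT hx hTx hc₁ hc₀
  rw [← hκd] at hκ hE
  have hκ0 : 0 ≤ κ := by rw [hκd]; positivity
  have hκ2 : κ ≤ 2 := by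
    have hinvS : 1 / S ≤ 1 := by
      rw [div_le_one hSpos]; linarith
    rw [hκd]
    calc (1 / S) * (1 + 2 * (T * x)) ≤ 1 * (1 + 2 * (T * x)) :=
          mul_le_mul_of_nonneg_right hinvS (by positivity)
      _ ≤ 2 := by linarith
  obtain ⟨α, hα⟩ : ∃ α, α = (1 + x) * (1 + x) + T * x * (T * (2 * x)) := ⟨_, rfl⟩
  obtain ⟨β, hβ⟩ : ∃ β, β = (1 + x) * c₁ + T * x * (T * c₁ + T * c₀) + T * c₀ := ⟨_, rfl⟩
  obtain ⟨γ, hγ⟩ : ∃ γ, γ = T * x * T + T := ⟨_, rfl⟩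
  have hβ0 : 0 ≤ β := by rw [hβ]; positivity
  have hγ0 : 0 ≤ γ := by rw [hγ]; positivity
  have hγ2 : γ ≤ 2 * T ^ 2 := by
    rw [hγ]
    have : T * x * T ≤ (1 / 4) * T := mul_le_mul_of_nonneg_right hTx hTpos.le
    linarith
  have hUexp : U = α * e + β * JJ + γ * r := by
    rw [hU, hW, hα, hβ, hγ]; ring
  rw [← hα] at hE
  rw [← hβ] at hJ
  have hκU : κ * U ≤ κ * α * e + (4 * T ^ 2 * c₁ + 4 * T ^ 2 * c₀) * JJ + 4 * T ^ 2 * r := by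
    have h4 : κ * β ≤ 2 * (2 * T ^ 2 * c₁ + 2 * T ^ 2 * c₀) :=
      mul_le_mul hκ2 hJ hβ0 (by norm_num)
    have h5 : κ * γ ≤ 2 * (2 * T ^ 2) := mul_le_mul hκ2 hγ2 hγ0 (by norm_num)
    have h6 : κ * β * JJ ≤ 2 * (2 * T ^ 2 * c₁ + 2 * T ^ 2 * c₀) * JJ :=
      mul_le_mul_of_nonneg_right h4 hJJ
    have h7 : κ * γ * r ≤ 2 * (2 * T ^ 2) * r := mul_le_mul_of_nonneg_right h5 hr
    have h8 : κ * U = κ * α * e + κ * β * JJ + κ * γ * r := by rw [hUexp]; ring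
    rw [h8]; linarith
  have hTtv : T * tv ≤ T * (T * (2 * x)) * e + (T ^ 2 * c₁ + T ^ 2 * c₀) * JJ + T ^ 2 * r := by
    have h4 := mul_le_mul_of_nonneg_left htv' hTpos.le
    have h5 : T * W = T * (T * (2 * x)) * e + (T ^ 2 * c₁ + T ^ 2 * c₀) * JJ + T ^ 2 * r := by
      rw [hW]; ring
    linarith
  have hTda : T * u * JJ ≤ T ^ 2 * c₀ * JJ := by
    apply mul_le_mul_of_nonneg_right _ hJJ
    calc T * u ≤ T * c₀ := mul_le_mul_of_nonneg_left hu hTpos.le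
      _ ≤ T ^ 2 * c₀ := mul_le_mul_of_nonneg_right hTT hc₀.le
  have hTr : T * r ≤ T ^ 2 * r := mul_le_mul_of_nonneg_right hTT hr
  have hEcoef : (κ * α + T * (T * (2 * x))) * e ≤ 1 * e :=
    mul_le_mul_of_nonneg_right hE he
  have hJfinal : (5 * T ^ 2 * c₁ + 6 * T ^ 2 * c₀) * JJ ≤ ε * JJ :=
    mul_le_mul_of_nonneg_right hε hJJ
  linarith

end Asm

theorem assemble {D S T m : ℝ} (hS : 1 < S) (hT : 1 ≤ T) (hm : 0 ≤ m) {ε : ℝ} (hε : 0 < ε) :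
    ∃ ep c₀ C K a₀ C₀ : ℝ, 0 < ep ∧ ep ≤ 1 / (4 * T) ∧ 0 < c₀ ∧ c₀ ≤ 1 ∧ 0 < a₀ ∧ a₀ ≤ 1 / 2 ∧
      0 ≤ C ∧ 0 ≤ K ∧ 0 ≤ C₀ ∧
      ∀ a : ℝ, 0 < a → a ≤ a₀ → ∀ (Jm JJ r : ℝ) (E TV X₀ B : ℕ → ℝ),
        0 ≤ JJ → 0 ≤ r → r ≤ 1 →
        (∀ j, 0 ≤ E j) → (∀ j, E j ≤ E (j + 1)) → (∀ j, E j ≤ (2 / a) * JJ) →
        (∀ j : ℕ, (j : ℝ) ≤ 2 * (C₀ * Real.log (1 / a)) →
          D * Jm ≤ X₀ j - E (j + 1) + T * TV j + T * (ep ^ j * (c₀ * a ^ 2) / a) * JJ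
            + (T / a) * B j + T * r ∧
          TV j ≤ T * (ep * E j + (E (j + 1) - E j))
            + T * (ep ^ j * (c₀ * a ^ 2) / a ^ 2) * JJ + T * r ∧
          S * (1 - T * ep) * X₀ j ≤ (1 + T * (ep ^ j * (c₀ * a ^ 2))) * E (j + 2)
            + T * ep * TV j + T * c₀ * JJ + T * r ∧
          B j ≤ T * (ep ^ (j + 3) * (c₀ * a ^ 2)) ^ (-m)) →
        D * Jm ≤ ε * JJ + C * a ^ (-K) := by
  have hTpos : 0 < T := by linarith
  have hSpos : 0 < S := by linarith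
  have hg : 0 < 1 - 1 / S := by
    rw [sub_pos, div_lt_one hSpos]; exact hS
  -- the parameter x = ep = ε₁
  obtain ⟨x, hx⟩ : ∃ x, x = min (1 / (4 * T)) ((1 - 1 / S) / (10 * T ^ 2)) := ⟨_, rfl⟩
  have hxpos : 0 < x := by rw [hx]; exact lt_min (by positivity) (by positivity)
  have hx1 : x ≤ 1 / (4 * T) := by rw [hx]; exact min_le_left _ _
  have hx2 : x ≤ (1 - 1 / S) / (10 * T ^ 2) := by rw [hx]; exact min_le_right _ _
  have hTx : T * x ≤ 1 / 4 := by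
    calc T * x ≤ T * (1 / (4 * T)) := mul_le_mul_of_nonneg_left hx1 hTpos.le
      _ = 1 / 4 := by field_simp
  have hxle : x ≤ 1 / 4 := by nlinarith
  have hTx2 : 10 * T ^ 2 * x ≤ 1 - 1 / S := by
    rw [le_div_iff₀ (by positivity)] at hx2
    linarith
  obtain ⟨c₁, hc₁⟩ : ∃ c₁, c₁ = ε / (14 * T ^ 2) := ⟨_, rfl⟩
  have hc₁pos : 0 < c₁ := by rw [hc₁]; positivity
  obtain ⟨c₀, hc₀⟩ : ∃ c₀, c₀ = min 1 (ε / (12 * T ^ 2)) := ⟨_, rfl⟩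
  have hc₀pos : 0 < c₀ := by rw [hc₀]; exact lt_min one_pos (by positivity)
  have hc₀1 : c₀ ≤ 1 := by rw [hc₀]; exact min_le_left _ _
  have hc₀2 : c₀ ≤ ε / (12 * T ^ 2) := by rw [hc₀]; exact min_le_right _ _
  have hεc : 5 * T ^ 2 * c₁ + 6 * T ^ 2 * c₀ ≤ ε := by
    have h4 : T ^ 2 * c₁ = ε / 14 := by rw [hc₁]; field_simp
    have h5 : T ^ 2 * c₀ ≤ ε / 12 := by
      rw [le_div_iff₀ (by positivity)] at hc₀2
      linarith
    linarith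
  obtain ⟨C₀, hC₀, hpig⟩ := pigeon hxpos hc₁pos
  obtain ⟨K₀, hK₀, hscale⟩ := scale_lower hxpos (by linarith : x ≤ 1) hC₀ hc₀pos 3
  refine ⟨x, c₀, T ^ 2 + 6 * T ^ 2, K₀ * m + 1, min (1 / 2) (x / T), C₀, hxpos, hx1, hc₀pos, hc₀1,
    lt_min (by norm_num) (by positivity),
    min_le_left _ _, by positivity, by positivity, hC₀, ?_⟩
  intro a ha haa₀ Jm JJ r E TV X₀ B hJJ hr hr1 hE0 hEmono hEle hall
  have ha2 : a ≤ 1 / 2 := haa₀.trans (min_le_left _ _)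
  have haT : a ≤ x / T := haa₀.trans (min_le_right _ _)
  obtain ⟨i, hi, hpi⟩ := hpig a ha ha2 JJ E hJJ hE0 hEle
  have hi2 : (((2 * i : ℕ)) : ℝ) ≤ 2 * (C₀ * Real.log (1 / a)) := by
    push_cast; linarith
  obtain ⟨h1, h2, h3, hB⟩ := hall (2 * i) hi2
  have hsc := hscale a ha ha2 i hi
  have hxpow : x ^ (2 * i) ≤ 1 := pow_le_one₀ hxpos.le (by linarith)
  have hca : 0 < c₀ * a ^ 2 := by positivity
  have haa : a ^ 2 ≤ a := by
    rw [pow_two]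
    exact mul_le_of_le_one_right ha.le (by linarith)
  have hdle : x ^ (2 * i) * (c₀ * a ^ 2) ≤ 1 * (c₀ * a ^ 2) :=
    mul_le_mul_of_nonneg_right hxpow hca.le
  have hda2 : x ^ (2 * i) * (c₀ * a ^ 2) / a ^ 2 ≤ c₀ := by
    rw [div_le_iff₀ (by positivity)]
    linarith
  have hda : x ^ (2 * i) * (c₀ * a ^ 2) / a ≤ c₀ := by
    rw [div_le_iff₀ ha]
    have : c₀ * a ^ 2 ≤ c₀ * a := mul_le_mul_of_nonneg_left haa hc₀pos.le
    linarith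
  have hTd : T * (x ^ (2 * i) * (c₀ * a ^ 2)) ≤ x := by
    have h4 : x ^ (2 * i) * (c₀ * a ^ 2) ≤ a := by
      have h5 : c₀ * a ^ 2 ≤ 1 * a ^ 2 := mul_le_mul_of_nonneg_right hc₀1 (by positivity)
      linarith
    have h5 : T * a ≤ x := by
      rw [le_div_iff₀ hTpos] at haT; linarith
    have h6 := mul_le_mul_of_nonneg_left h4 hTpos.le
    linarith
  have key := Asm.core_num hS hT hxpos hTx hTx2 hc₁pos hc₀pos hεc hJJ hr (hE0 (2 * i))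
    (hEmono (2 * i)) (hEmono (2 * i + 1)) hpi hTd hda hda2 h1 h2 h3
  -- B
  have hBb : (T / a) * B (2 * i) ≤ T ^ 2 * a ^ (-(K₀ * m + 1)) := by
    have h4 : (x ^ (2 * i + 3) * (c₀ * a ^ 2)) ^ (-m) ≤ (a ^ K₀) ^ (-m) :=
      Real.rpow_le_rpow_of_nonpos (by positivity) hsc (by linarith)
    have h5 : (a ^ K₀) ^ (-m) = a ^ (-(K₀ * m)) := by
      rw [← Real.rpow_mul ha.le]; congr 1; ring
    rw [h5] at h4
    have h6 : B (2 * i) ≤ T * a ^ (-(K₀ * m)) :=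
      hB.trans (mul_le_mul_of_nonneg_left h4 hTpos.le)
    have h7 : a ^ (-(K₀ * m + 1)) = a ^ (-(K₀ * m)) * a⁻¹ := by
      rw [neg_add, Real.rpow_add ha, Real.rpow_neg_one]
    calc (T / a) * B (2 * i) ≤ (T / a) * (T * a ^ (-(K₀ * m))) :=
          mul_le_mul_of_nonneg_left h6 (by positivity)
      _ = T ^ 2 * a ^ (-(K₀ * m + 1)) := by
          rw [h7]; field_simp
  have hone : 1 ≤ a ^ (-(K₀ * m + 1)) := by
    apply Real.one_le_rpow_of_pos_of_le_one_of_nonpos ha (by linarith)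
    have : 0 ≤ K₀ * m := mul_nonneg hK₀ hm
    linarith
  have hrfinal : 6 * T ^ 2 * r ≤ 6 * T ^ 2 * a ^ (-(K₀ * m + 1)) :=
    mul_le_mul_of_nonneg_left (hr1.trans hone) (by positivity)
  have hexp : (T ^ 2 + 6 * T ^ 2) * a ^ (-(K₀ * m + 1)) =
      T ^ 2 * a ^ (-(K₀ * m + 1)) + 6 * T ^ 2 * a ^ (-(K₀ * m + 1)) := by ring
  rw [hexp]
  linarith

end Crest.Agent.R077
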