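import Mathlib

/-! Row 77 (Henon-Lane-Emden): the integration by parts
`∫ φ F V' = (1/(p+1)) ∫ w F V - (b/(p+1)) ∫ φ F V`, `F = exp (b t) V^p`, and the abstract
argument `J(∞) = ∞`. -/

set_option autoImplicit false
open MeasureTheory Filter Topology Set

namespace Crest.Agent.R077

theorem phi_by_parts {p b : ℝ} (hp : 0 < p) {V V' φ w : ℝ → ℝ} (hV : ∀ t, 0 < V t)
    (hd : ∀ t, HasDerivAt V (V' t) t) (hφ : ∀ t, HasDerivAt φ (-(w t)) t)
    (h1 : Integrable (fun t => φ t * (Real.exp (b * t) * V t ^ p * V t)))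
    (h2 : Integrable (fun t => φ t * (Real.exp (b * t) * V t ^ p * V' t)))
    (h3 : Integrable (fun t => w t * (Real.exp (b * t) * V t ^ p * V t))) :
    ∫ t, φ t * (Real.exp (b * t) * V t ^ p * V' t)
      = (1 / (p + 1)) * (∫ t, w t * (Real.exp (b * t) * V t ^ p * V t))
        - (b / (p + 1)) * (∫ t, φ t * (Real.exp (b * t) * V t ^ p * V t)) := by
  have hpow : ∀ t, V t ^ p * V t = V t ^ (p + 1) := fun t => by
    rw [Real.rpow_add_one (hV t).ne']
  have hder : ∀ t, HasDerivAt (fun t => φ t * (Real.exp (b * t) * V t ^ p * V t))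
      (-(w t * (Real.exp (b * t) * V t ^ p * V t))
        + (b * (φ t * (Real.exp (b * t) * V t ^ p * V t))
          + (p + 1) * (φ t * (Real.exp (b * t) * V t ^ p * V' t)))) t := by
    intro t
    have e1 : HasDerivAt (fun t => Real.exp (b * t)) (Real.exp (b * t) * b) t := by
      have := ((hasDerivAt_id t).const_mul b).exp
      simpa using this
    have e2 : HasDerivAt (fun t => V t ^ (p + 1)) (V' t * (p + 1) * V t ^ (p + 1 - 1)) t :=
      (hd t).rpow_const (Or.inl (hV t).ne')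
    have e3 := (hφ t).mul (e1.mul e2)
    have hfun : (fun t => φ t * (Real.exp (b * t) * V t ^ p * V t))
        = (φ * ((fun t => Real.exp (b * t)) * (fun t => V t ^ (p + 1)))) := by
      funext s
      simp only [Pi.mul_apply]
      rw [← hpow s]; ring
    rw [hfun]
    refine e3.congr_deriv ?_
    have : p + 1 - 1 = p := by ring
    rw [this]
    simp only [Pi.mul_apply]
    rw [← hpow t]
    ring
  have hint' : Integrable (fun t => -(w t * (Real.exp (b * t) * V t ^ p * V t))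
        + (b * (φ t * (Real.exp (b * t) * V t ^ p * V t))
          + (p + 1) * (φ t * (Real.exp (b * t) * V t ^ p * V' t)))) :=
    h3.neg.add ((h1.const_mul b).add (h2.const_mul (p + 1)))
  have h0 := integral_eq_zero_of_hasDerivAt_of_integrable hder hint' h1
  have hA : Integrable (fun t => -(w t * (Real.exp (b * t) * V t ^ p * V t))) := h3.neg
  have hB : Integrable (fun t => b * (φ t * (Real.exp (b * t) * V t ^ p * V t))) := h1.const_mul b
  have hC : Integrable (fun t => (p + 1) * (φ t * (Real.exp (b * t) * V t ^ p * V' t))) :=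
    h2.const_mul (p + 1)
  have hBC : Integrable (fun t => b * (φ t * (Real.exp (b * t) * V t ^ p * V t))
      + (p + 1) * (φ t * (Real.exp (b * t) * V t ^ p * V' t))) := hB.add hC
  rw [integral_add hA hBC, integral_add hB hC, integral_const_mul,
    integral_const_mul, integral_neg] at h0
  have hp1 : p + 1 ≠ 0 := by positivity
  set X := ∫ t, φ t * (Real.exp (b * t) * V t ^ p * V' t)
  set Y := ∫ t, w t * (Real.exp (b * t) * V t ^ p * V t)
  set Z := ∫ t, φ t * (Real.exp (b * t) * V t ^ p * V t)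
  field_simp
  linarith

/-- Abstract form of `J(∞) = ∞`. -/
theorem tendsto_atTop_of_pohozaev {J1 J2 P1 P2 : ℝ → ℝ} {A1 A2 C a : ℝ}
    (hD : 0 < A1 + A2)
    (hm1 : Monotone J1) (hm2 : Monotone J2)
    (hpos : ∃ T, 0 < J1 T)
    (hlim : ∀ S1 S2 : ℝ, Tendsto J1 atTop (𝓝 S1) → Tendsto J2 atTop (𝓝 S2) → S1 = S2)
    (hbd : ∃ C', ∀ T, J2 T ≤ J1 (T + 1) + C')
    (hP1 : ∀ l, J1 l ≤ P1 l ∧ P1 l ≤ J1 (l + a)) (hP2 : ∀ l, J2 l ≤ P2 l ∧ P2 l ≤ J2 (l + a))
    (hP : ∀ l, A1 * P1 l + A2 * P2 l ≤ C * ((J1 (l + a) - J1 l) + (J2 (l + a) - J2 l))) :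
    Tendsto J1 atTop atTop := by
  rcases tendsto_atTop_of_monotone hm1 with h | ⟨S1, hS1⟩
  · exact h
  exfalso
  have hle1 : ∀ T, J1 T ≤ S1 := fun T => hm1.ge_of_tendsto hS1 T
  have hS1pos : 0 < S1 := by
    obtain ⟨T, hT⟩ := hpos
    exact hT.trans_le (hle1 T)
  obtain ⟨C', hC'⟩ := hbd
  have hJ2 : ∃ S2, Tendsto J2 atTop (𝓝 S2) := by
    rcases tendsto_atTop_of_monotone hm2 with h | h
    · exfalso
      have := (h.eventually (eventually_gt_atTop (S1 + C'))).exists
      obtain ⟨T, hT⟩ := this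
      have h1 := hC' T
      have h2 := hle1 (T + 1)
      linarith
    · exact h
  obtain ⟨S2, hS2⟩ := hJ2
  have hS12 := hlim S1 S2 hS1 hS2
  subst hS12
  have hshift : Tendsto (fun l : ℝ => l + a) atTop atTop :=
    tendsto_atTop_add_const_right _ _ tendsto_id
  have h1a : Tendsto (fun l => J1 (l + a)) atTop (𝓝 S1) := hS1.comp hshift
  have h2a : Tendsto (fun l => J2 (l + a)) atTop (𝓝 S1) := hS2.comp hshift
  have hP1' : Tendsto P1 atTop (𝓝 S1) :=
    tendsto_of_tendsto_of_tendsto_of_le_of_le hS1 h1a (fun l => (hP1 l).1) (fun l => (hP1 l).2)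
  have hP2' : Tendsto P2 atTop (𝓝 S1) :=
    tendsto_of_tendsto_of_tendsto_of_le_of_le hS2 h2a (fun l => (hP2 l).1) (fun l => (hP2 l).2)
  have hL : Tendsto (fun l => A1 * P1 l + A2 * P2 l) atTop (𝓝 (A1 * S1 + A2 * S1)) :=
    (hP1'.const_mul A1).add (hP2'.const_mul A2)
  have hR : Tendsto (fun l => C * ((J1 (l + a) - J1 l) + (J2 (l + a) - J2 l))) atTop
      (𝓝 (C * ((S1 - S1) + (S1 - S1)))) :=
    ((h1a.sub hS1).add (h2a.sub hS2)).const_mul C
  have := le_of_tendsto_of_tendsto' hL hR hP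
  have h3 : A1 * S1 + A2 * S1 = (A1 + A2) * S1 := by ring
  have h4 : 0 < (A1 + A2) * S1 := mul_pos hD hS1pos
  have h5 : C * ((S1 - S1) + (S1 - S1)) = 0 := by ring
  rw [h3, h5] at this
  linarith

end Crest.Agent.R077
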