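import Mathlib

/-!
Row 77 (Henon-Lane-Emden): lifting functions from `EuclideanSpace ℝ (Fin n)` to the cylinder
`ℝ × sphere`, regularity in `t`.
-/

set_option autoImplicit false

open MeasureTheory Metric Set Real

namespace Crest.Agent.R077.CylOf

noncomputable section

/-- `W` is jointly continuous, differentiable in `t` with jointly continuous derivative. -/
def C1t {M : Type*} [TopologicalSpace M] (W : ℝ → M → ℝ) : Prop :=
  Continuous (Function.uncurry W) ∧ ∃ W' : ℝ → M → ℝ, Continuous (Function.uncurry W') ∧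
    ∀ t θ, HasDerivAt (fun s => W s θ) (W' t θ) t

section
variable {M : Type*} [TopologicalSpace M]

theorem C1t.exp_mul_rpow {V : ℝ → M → ℝ} (hV : C1t V) (hpos : ∀ t θ, 0 < V t θ) (b p : ℝ) :
    C1t fun t θ => Real.exp (b * t) * V t θ ^ p := by
  obtain ⟨h1, V', h2, h3⟩ := hV
  have hc : Continuous fun z : ℝ × M => V z.1 z.2 := h1
  have hc' : Continuous fun z : ℝ × M => V' z.1 z.2 := h2
  refine ⟨?_, fun t θ => Real.exp (b * t) * b * V t θ ^ p +
    Real.exp (b * t) * (V' t θ * p * V t θ ^ (p - 1)), ?_, ?_⟩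
  · refine Continuous.mul (by fun_prop) ?_
    exact hc.rpow_const fun z => Or.inl (hpos _ _).ne'
  · have e1 : Continuous fun z : ℝ × M => V z.1 z.2 ^ p :=
      hc.rpow_const fun z => Or.inl (hpos _ _).ne'
    have e2 : Continuous fun z : ℝ × M => V z.1 z.2 ^ (p - 1) :=
      hc.rpow_const fun z => Or.inl (hpos _ _).ne'
    have e3 : Continuous fun z : ℝ × M => Real.exp (b * z.1) := by fun_prop
    exact ((e3.mul continuous_const).mul e1).add (e3.mul ((hc'.mul continuous_const).mul e2))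
  · intro t θ
    have d1 : HasDerivAt (fun s => Real.exp (b * s)) (Real.exp (b * t) * b) t := by
      have := ((hasDerivAt_id t).const_mul b).exp
      simpa using this
    have d2 := (h3 t θ).rpow_const (p := p) (Or.inl (hpos t θ).ne')
    exact d1.mul d2

/-- uniform Lipschitz bound on windows -/
theorem C1t.lipschitz [CompactSpace M] {W : ℝ → M → ℝ} (hW : C1t W) (a b : ℝ) :
    ∃ L : ℝ, 0 ≤ L ∧ ∀ θ, ∀ s ∈ Icc a b, ∀ t ∈ Icc a b, |W s θ - W t θ| ≤ L * |s - t| := by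
  obtain ⟨h1, W', h2, h3⟩ := hW
  have hK : IsCompact (Icc a b ×ˢ (univ : Set M)) := isCompact_Icc.prod isCompact_univ
  obtain ⟨L, hL⟩ := hK.exists_bound_of_continuousOn (f := fun z : ℝ × M => W' z.1 z.2)
    (Continuous.continuousOn h2)
  refine ⟨max L 0, le_max_right _ _, fun θ s hs t ht => ?_⟩
  have hconv : Convex ℝ (Icc a b) := convex_Icc a b
  have := hconv.norm_image_sub_le_of_norm_hasDerivWithin_le (f := fun r => W r θ)
    (f' := fun r => W' r θ) (C := max L 0) (x := t) (y := s)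
    (fun r hr => (h3 r θ).hasDerivWithinAt)
    (fun r hr => (hL (r, θ) ⟨hr, mem_univ _⟩).trans (le_max_left _ _)) ht hs
  simpa [Real.norm_eq_abs] using this

/-- uniform bound on windows -/
theorem C1t.bounded [CompactSpace M] {W : ℝ → M → ℝ} (hW : C1t W) (a b : ℝ) :
    ∃ L : ℝ, 0 ≤ L ∧ ∀ θ, ∀ s ∈ Icc a b, |W s θ| ≤ L := by
  have hK : IsCompact (Icc a b ×ˢ (univ : Set M)) := isCompact_Icc.prod isCompact_univ
  obtain ⟨L, hL⟩ := hK.exists_bound_of_continuousOn (f := fun z : ℝ × M => W z.1 z.2)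
    (Continuous.continuousOn hW.1)
  exact ⟨max L 0, le_max_right _ _, fun θ s hs => (hL (s, θ) ⟨hs, mem_univ _⟩).trans
    (le_max_left _ _)⟩

/-- uniform positive lower bound on windows -/
theorem C1t.lower [CompactSpace M] [Nonempty M] {W : ℝ → M → ℝ} (hW : C1t W)
    (hpos : ∀ t θ, 0 < W t θ) (a b : ℝ) :
    ∃ L : ℝ, 0 < L ∧ ∀ θ, ∀ s ∈ Icc a b, L ≤ W s θ := by
  rcases le_or_gt a b with hab | hab
  · have hK : IsCompact (Icc a b ×ˢ (univ : Set M)) := isCompact_Icc.prod isCompact_univ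
    have hne : (Icc a b ×ˢ (univ : Set M)).Nonempty :=
      ⟨(a, Classical.arbitrary M), ⟨left_mem_Icc.2 hab, mem_univ _⟩⟩
    obtain ⟨z, hz, hmin⟩ := hK.exists_isMinOn hne
      (f := fun z : ℝ × M => W z.1 z.2) (Continuous.continuousOn hW.1)
    exact ⟨W z.1 z.2, hpos _ _, fun θ s hs => hmin (show (s, θ) ∈ _ from ⟨hs, mem_univ _⟩)⟩
  · exact ⟨1, one_pos, fun θ s hs => absurd (hs.1.trans hs.2) (not_le.2 hab)⟩

end

variable {n : ℕ}

local notation "𝔼" => EuclideanSpace ℝ (Fin n)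

/-- The cylinder lift `exp (c t) * w (exp t • θ)`. -/
def lf (c : ℝ) (w : EuclideanSpace ℝ (Fin n) → ℝ) (t : ℝ)
    (θ : sphere (0 : EuclideanSpace ℝ (Fin n)) 1) : ℝ :=
  Real.exp (c * t) * w (Real.exp t • (θ : EuclideanSpace ℝ (Fin n)))

theorem cyl_ne_zero (t : ℝ) (θ : sphere (0 : 𝔼) 1) : Real.exp t • (θ : 𝔼) ≠ 0 := by
  refine smul_ne_zero (Real.exp_pos t).ne' ?_
  intro h
  have := θ.2
  rw [mem_sphere_zero_iff_norm] at this
  rw [h] at this
  simp at this

theorem lf_pos {c : ℝ} {w : 𝔼 → ℝ} (hw : ∀ x, x ≠ 0 → 0 < w x) (t : ℝ)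
    (θ : sphere (0 : 𝔼) 1) : 0 < lf c w t θ :=
  mul_pos (Real.exp_pos _) (hw _ (cyl_ne_zero t θ))

theorem C1t_lf {c : ℝ} {w : 𝔼 → ℝ} (hw : ContDiffOn ℝ 2 w {0}ᶜ) : C1t (lf c w) := by
  have hopen : IsOpen ({0}ᶜ : Set 𝔼) := isOpen_compl_singleton
  have hcont : ContinuousOn w {0}ᶜ := hw.continuousOn
  have hfd : ContinuousOn (fderiv ℝ w) {0}ᶜ :=
    hw.continuousOn_fderiv_of_isOpen hopen (by norm_num)
  have hmap : Continuous fun z : ℝ × sphere (0 : 𝔼) 1 => Real.exp z.1 • (z.2 : 𝔼) := by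
    fun_prop
  have hmem : ∀ z : ℝ × sphere (0 : 𝔼) 1, Real.exp z.1 • (z.2 : 𝔼) ∈ ({0}ᶜ : Set 𝔼) :=
    fun z => cyl_ne_zero z.1 z.2
  have hwc : Continuous fun z : ℝ × sphere (0 : 𝔼) 1 => w (Real.exp z.1 • (z.2 : 𝔼)) :=
    hcont.comp_continuous hmap hmem
  have hdc : Continuous fun z : ℝ × sphere (0 : 𝔼) 1 =>
      fderiv ℝ w (Real.exp z.1 • (z.2 : 𝔼)) :=
    hfd.comp_continuous hmap hmem
  refine ⟨?_, fun t θ => Real.exp (c * t) * c * w (Real.exp t • (θ : 𝔼)) +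
    Real.exp (c * t) * (fderiv ℝ w (Real.exp t • (θ : 𝔼)) (Real.exp t • (θ : 𝔼))), ?_, ?_⟩
  · exact Continuous.mul (by fun_prop) hwc
  · have e3 : Continuous fun z : ℝ × sphere (0 : 𝔼) 1 => Real.exp (c * z.1) := by fun_prop
    exact ((e3.mul continuous_const).mul hwc).add (e3.mul (hdc.clm_apply hmap))
  · intro t θ
    have d1 : HasDerivAt (fun s => Real.exp (c * s)) (Real.exp (c * t) * c) t := by
      have := ((hasDerivAt_id t).const_mul c).exp
      simpa using this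
    have d2 : HasDerivAt (fun s => Real.exp s • (θ : 𝔼)) (Real.exp t • (θ : 𝔼)) t :=
      (Real.hasDerivAt_exp t).smul_const _
    have d3 : HasFDerivAt w (fderiv ℝ w (Real.exp t • (θ : 𝔼))) (Real.exp t • (θ : 𝔼)) :=
      ((hw.differentiableOn (by norm_num)).differentiableAt
        (hopen.mem_nhds (cyl_ne_zero t θ))).hasFDerivAt
    have d4 := d3.comp_hasDerivAt t d2
    exact d1.mul d4

end

end Crest.Agent.R077.CylOf
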