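import Mathlib

/-!
Row 77 (Henon--Lane--Emden).  Frozen definitions (captain helper427).
`Cyl` = the data on the cylinder `ℝ × M` (`M` = sphere).  The core theorem is `Cyl → False`.
-/

set_option autoImplicit false
open MeasureTheory Set Real
open scoped ENNReal

namespace Crest.Agent.R077

/-! ### one dimensional discrete layers -/

/-- tent function of mass one on `[lam, lam+a]`, Lipschitz constant `4/a^2`, `≤ 2/a` -/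
noncomputable def tent (lam a t : ℝ) : ℝ := (4 / a ^ 2) * max 0 (min (t - lam) (lam + a - t))

/-- cut off: `1` for `t ≤ lam`, `0` for `t ≥ lam + a`, derivative `- tent` -/
noncomputable def phi (lam a t : ℝ) : ℝ := 1 - ∫ s in lam..t, tent lam a s

/-- mesh of the grid -/
noncomputable def msh (a : ℝ) (m : ℕ) : ℝ := 2 * a / m

/-- nodes of the grid of the window `[lam - a/2, lam + 3a/2]`, `k = 0..m` -/
noncomputable def nd (lam a : ℝ) (m k : ℕ) : ℝ := lam - a / 2 + k * msh a m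

/-- `(l,r)` is a maximal run of `{k | σ < x k}` -/
def IsRun (x : ℕ → ℝ) (l r : ℕ) (σ : ℝ) : Prop :=
  1 ≤ l ∧ l ≤ r ∧ x (l - 1) ≤ σ ∧ x (r + 1) ≤ σ ∧ ∀ k, l ≤ k → k ≤ r → σ < x k

/-- measure of the levels at which `(l,r)` is a run -/
noncomputable def rc (x : ℕ → ℝ) (i : ℕ × ℕ) : ℝ :=
  (volume {σ : ℝ | 0 < σ ∧ IsRun x i.1 i.2 σ}).toReal

/-- all index pairs `1 ≤ l ≤ r ≤ m` -/
def prs (m : ℕ) : Finset (ℕ × ℕ) :=
  ((Finset.Icc 1 m) ×ˢ (Finset.Icc 1 m)).filter (fun i => i.1 ≤ i.2)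

/-- short index pairs at scale `η`: interior and of length `< η` -/
noncomputable def shortI (a : ℝ) (m : ℕ) (η : ℝ) : Finset (ℕ × ℕ) :=
  open Classical in
  (prs m).filter (fun i => 2 ≤ i.1 ∧ i.2 + 1 ≤ m ∧ ((i.2 : ℝ) - i.1 + 1) * msh a m < η)

/-- long index pairs at scale `η` -/
noncomputable def longI (a : ℝ) (m : ℕ) (η : ℝ) : Finset (ℕ × ℕ) :=
  prs m \ shortI a m η

/-- left end of the interval of the pair `i` -/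
noncomputable def lft (lam a : ℝ) (m : ℕ) (i : ℕ × ℕ) : ℝ := nd lam a m (i.1 - 1)
/-- right end of the interval of the pair `i` -/
noncomputable def rgt (lam a : ℝ) (m : ℕ) (i : ℕ × ℕ) : ℝ := nd lam a m i.2
/-- centre of the interval of the pair `i` -/
noncomputable def mid (lam a : ℝ) (m : ℕ) (i : ℕ × ℕ) : ℝ := (lft lam a m i + rgt lam a m i) / 2

/-- indicator of the interval `[lft, rgt)` of the pair `i` -/
noncomputable def ind (lam a : ℝ) (m : ℕ) (i : ℕ × ℕ) (t : ℝ) : ℝ :=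
  if lft lam a m i ≤ t ∧ t < rgt lam a m i then 1 else 0

/-- sampled lower values of `f` on the grid; `0` outside `1..m` -/
noncomputable def samp (f : ℝ → ℝ) (lam a : ℝ) (m : ℕ) (L : ℝ) (k : ℕ) : ℝ :=
  if 1 ≤ k ∧ k ≤ m then f (nd lam a m k) - L * msh a m else 0

/-- step function `∑_{i ∈ S} rc x i * 1_i` -/
noncomputable def stepF (x : ℕ → ℝ) (S : Finset (ℕ × ℕ)) (lam a : ℝ) (m : ℕ) (t : ℝ) : ℝ :=
  ∑ i ∈ S, rc x i * ind lam a m i t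

/-- momentum density: `φ f + ∑_{short} rc (φ(mid) - φ) 1_i` -/
noncomputable def omega (f : ℝ → ℝ) (x : ℕ → ℝ) (S : Finset (ℕ × ℕ)) (lam a : ℝ) (m : ℕ) (t : ℝ) : ℝ :=
  phi lam a t * f t + ∑ i ∈ S, rc x i * ((phi lam a (mid lam a m i) - phi lam a t) * ind lam a m i t)

/-- box average `∫_{t-ρ}^{t+ρ} f` -/
noncomputable def box (f : ℝ → ℝ) (ρ t : ℝ) : ℝ := ∫ s in (t - ρ)..(t + ρ), f s

/-- `ψ(t,x) = ∫_0^x (e^{-bt}σ)^{1/p} dσ` -/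
noncomputable def psi (b p t x : ℝ) : ℝ := (p / (p + 1)) * Real.exp (-(b * t) / p) * x ^ ((p + 1) / p)

/-- weight at the ends of long runs -/
noncomputable def wend (lam a η y : ℝ) : ℝ :=
  if lam - 2 * η ≤ y ∧ y ≤ lam + a + 2 * η then tent lam a y + 2 * (4 / a ^ 2) * η else 0

/-- `∑_{i ∈ S} rc x i (wend(lft) v(lft) + wend(rgt) v(rgt))` -/
noncomputable def tvS (v : ℝ → ℝ) (x : ℕ → ℝ) (S : Finset (ℕ × ℕ)) (lam a : ℝ) (m : ℕ) (η : ℝ) : ℝ :=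
  ∑ i ∈ S, rc x i * (wend lam a η (lft lam a m i) * v (lft lam a m i)
      + wend lam a η (rgt lam a m i) * v (rgt lam a m i))

/-- the box kernel pairing
`∫ (Om1(t) g(t+ρ) - f(t) Om2(t+ρ)) - (Om1(t) g(t-ρ) - f(t) Om2(t-ρ)) dt` -/
noncomputable def dRho (f g o1 o2 : ℝ → ℝ) (ρ : ℝ) : ℝ :=
  ∫ t, ((o1 t * g (t + ρ) - f t * o2 (t + ρ)) - (o1 t * g (t - ρ) - f t * o2 (t - ρ)))

/-! ### cylinder data -/

/-- A positive solution on the cylinder `ℝ × M`.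
`U = k * F`, `V = k * G`, `F = e^{b₁t}V^p`, `G = e^{b₂t}U^q`, kernel
`k(τ,θ,θ') = ∫_{|τ|}^∞ H(ρ,θ,θ') dρ`. -/
structure Cyl (M : Type) [MeasurableSpace M] (μ : Measure M) where
  p : ℝ
  q : ℝ
  b₁ : ℝ
  b₂ : ℝ
  hp : 0 < p
  hq : 0 < q
  hpq : 1 < p * q
  hD : 0 < b₁ / (p + 1) + b₂ / (q + 1)
  U : ℝ → M → ℝ
  V : ℝ → M → ℝ
  H : ℝ → M → M → ℝ
  U_pos : ∀ t θ, 0 < U t θ
  V_pos : ∀ t θ, 0 < V t θ
  U_meas : Measurable (fun z : ℝ × M => U z.1 z.2)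
  V_meas : Measurable (fun z : ℝ × M => V z.1 z.2)
  U_C1 : ∀ θ, ContDiff ℝ 1 (fun t => U t θ)
  V_C1 : ∀ θ, ContDiff ℝ 1 (fun t => V t θ)
  bdd : ∀ T : ℝ, ∃ L : ℝ, 1 ≤ L ∧ ∀ θ, ∀ t ∈ Icc (-T) T,
    U t θ ≤ L ∧ V t θ ≤ L ∧ 1 ≤ L * U t θ ∧ 1 ≤ L * V t θ ∧
    |deriv (fun s => U s θ) t| ≤ L ∧ |deriv (fun s => V s θ) t| ≤ L
  H_nonneg : ∀ ρ θ θ', 0 ≤ H ρ θ θ'
  H_symm : ∀ ρ θ θ', H ρ θ θ' = H ρ θ' θ
  H_meas : Measurable (fun z : ℝ × M × M => H z.1 z.2.1 z.2.2)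
  repU : ∀ t θ, ENNReal.ofReal (U t θ) = ∫⁻ θ', ∫⁻ ρ in Ioi (0:ℝ), ENNReal.ofReal (H ρ θ θ') *
      ∫⁻ s in Ioo (t - ρ) (t + ρ), ENNReal.ofReal (Real.exp (b₁ * s) * V s θ' ^ p) ∂volume ∂volume ∂μ
  repV : ∀ t θ, ENNReal.ofReal (V t θ) = ∫⁻ θ', ∫⁻ ρ in Ioi (0:ℝ), ENNReal.ofReal (H ρ θ θ') *
      ∫⁻ s in Ioo (t - ρ) (t + ρ), ENNReal.ofReal (Real.exp (b₂ * s) * U s θ' ^ q) ∂volume ∂volume ∂μ
  /-- absolute convergence of the force -/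
  int1 : ∀ T : ℝ, ∫⁻ θ, ∫⁻ θ', ∫⁻ ρ in Ioi (0:ℝ), ENNReal.ofReal (H ρ θ θ') *
      ∫⁻ t in Iic T, ENNReal.ofReal (Real.exp (b₁ * t) * V t θ ^ p) *
        (ENNReal.ofReal (Real.exp (b₂ * (t + ρ)) * U (t + ρ) θ' ^ q)
          + ENNReal.ofReal (Real.exp (b₂ * (t - ρ)) * U (t - ρ) θ' ^ q)) ∂volume ∂volume ∂μ ∂μ ≠ ∞
  int2 : ∀ T : ℝ, ∫⁻ θ, ∫⁻ θ', ∫⁻ ρ in Ioi (0:ℝ), ENNReal.ofReal (H ρ θ θ') *
      ∫⁻ t in Iic T, ENNReal.ofReal (Real.exp (b₂ * t) * U t θ ^ q) *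
        (ENNReal.ofReal (Real.exp (b₁ * (t + ρ)) * V (t + ρ) θ' ^ p)
          + ENNReal.ofReal (Real.exp (b₁ * (t - ρ)) * V (t - ρ) θ' ^ p)) ∂volume ∂volume ∂μ ∂μ ≠ ∞
  /-- far energy -/
  far : ∃ C κ : ℝ, 0 ≤ C ∧ 0 ≤ κ ∧ ∀ δ ∈ Ioc (0:ℝ) 1,
    ∫⁻ θ, ∫⁻ θ', ∫⁻ ρ in Ioi δ, ENNReal.ofReal (H ρ θ θ') *
      ∫⁻ t, ENNReal.ofReal (Real.exp (b₁ * t) * V t θ ^ p) *
        ∫⁻ s in Ioo (t - ρ) (t + ρ), ENNReal.ofReal (Real.exp (b₂ * s) * U s θ' ^ q)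
          ∂volume ∂volume ∂volume ∂μ ∂μ ≤ ENNReal.ofReal (C * δ ^ (-κ))
  fin1 : ∀ T : ℝ, ∫⁻ θ, ∫⁻ t in Iic T, ENNReal.ofReal (Real.exp (b₁ * t) * V t θ ^ p * V t θ)
      ∂volume ∂μ ≠ ∞
  fin2 : ∀ T : ℝ, ∫⁻ θ, ∫⁻ t in Iic T, ENNReal.ofReal (Real.exp (b₂ * t) * U t θ ^ q * U t θ)
      ∂volume ∂μ ≠ ∞

namespace Cyl

variable {M : Type} [MeasurableSpace M] {μ : Measure M} (S : Cyl M μ)

/-- `F = e^{b₁t}V^p` -/
noncomputable def F (t : ℝ) (θ : M) : ℝ := Real.exp (S.b₁ * t) * S.V t θ ^ S.p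
/-- `G = e^{b₂t}U^q` -/
noncomputable def G (t : ℝ) (θ : M) : ℝ := Real.exp (S.b₂ * t) * S.U t θ ^ S.q

/-- `D` -/
noncomputable def D : ℝ := S.b₁ / (S.p + 1) + S.b₂ / (S.q + 1)

/-- energies -/
noncomputable def J1 (T : ℝ) : ℝ := ∫ θ, ∫ t in Iic T, S.F t θ * S.V t θ ∂volume ∂μ
noncomputable def J2 (T : ℝ) : ℝ := ∫ θ, ∫ t in Iic T, S.G t θ * S.U t θ ∂volume ∂μ

/-- the kernel measure `H dρ dθ dθ'` on `(0,∞) × M × M` -/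
noncomputable def nu : Measure (ℝ × M × M) :=
  ((volume.restrict (Ioi (0:ℝ))).prod (μ.prod μ)).withDensity
    (fun z => ENNReal.ofReal (S.H z.1 z.2.1 z.2.2))

/-- near part, `ρ < δ` -/
noncomputable def nuN (δ : ℝ) : Measure (ℝ × M × M) := S.nu.restrict {z | z.1 < δ}

/-- discrete data for `F(·,θ)` and `G(·,θ)` -/
noncomputable def xF (lam a : ℝ) (m : ℕ) (L : ℝ) (θ : M) : ℕ → ℝ := samp (fun t => S.F t θ) lam a m L
noncomputable def xG (lam a : ℝ) (m : ℕ) (L : ℝ) (θ : M) : ℕ → ℝ := samp (fun t => S.G t θ) lam a m L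

/-- long parts (step functions supported in the window) -/
noncomputable def FLo (lam a : ℝ) (m : ℕ) (L η t : ℝ) (θ : M) : ℝ :=
  stepF (S.xF lam a m L θ) (longI a m η) lam a m t
noncomputable def GLo (lam a : ℝ) (m : ℕ) (L η t : ℝ) (θ : M) : ℝ :=
  stepF (S.xG lam a m L θ) (longI a m η) lam a m t

/-- momentum densities -/
noncomputable def OmF (lam a : ℝ) (m : ℕ) (L η t : ℝ) (θ : M) : ℝ :=
  omega (fun t => S.F t θ) (S.xF lam a m L θ) (shortI a m η) lam a m t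
noncomputable def OmG (lam a : ℝ) (m : ℕ) (L η t : ℝ) (θ : M) : ℝ :=
  omega (fun t => S.G t θ) (S.xG lam a m L θ) (shortI a m η) lam a m t

/-- opening energies `∫∫ w ψ(t, F^L)` -/
noncomputable def EF (lam a : ℝ) (m : ℕ) (L η : ℝ) : ℝ :=
  ∫ θ, ∫ t, tent lam a t * psi S.b₁ S.p t (S.FLo lam a m L η t θ) ∂volume ∂μ
noncomputable def EG (lam a : ℝ) (m : ℕ) (L η : ℝ) : ℝ :=
  ∫ θ, ∫ t, tent lam a t * psi S.b₂ S.q t (S.GLo lam a m L η t θ) ∂volume ∂μ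

/-- end terms -/
noncomputable def TVF (lam a : ℝ) (m : ℕ) (L η : ℝ) : ℝ :=
  ∫ θ, tvS (fun t => S.V t θ) (S.xF lam a m L θ) (longI a m η) lam a m η ∂μ
noncomputable def TVG (lam a : ℝ) (m : ℕ) (L η : ℝ) : ℝ :=
  ∫ θ, tvS (fun t => S.U t θ) (S.xG lam a m L θ) (longI a m η) lam a m η ∂μ

/-- near long-long energy, weight at the `F` point -/
noncomputable def X0 (lam a : ℝ) (m : ℕ) (L η δ : ℝ) : ℝ :=
  ∫ z, (∫ t, tent lam a t * S.FLo lam a m L η t z.2.1 *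
    box (fun s => S.GLo lam a m L η s z.2.2) z.1 t) ∂(S.nuN δ)

/-- near long-long energy, weight at the `G` point -/
noncomputable def X0' (lam a : ℝ) (m : ℕ) (L η δ : ℝ) : ℝ :=
  ∫ z, (∫ t, tent lam a t * S.GLo lam a m L η t z.2.2 *
    box (fun s => S.FLo lam a m L η s z.2.1) z.1 t) ∂(S.nuN δ)

/-- far energy (real valued) -/
noncomputable def Bfar (δ : ℝ) : ℝ :=
  (∫⁻ θ, ∫⁻ θ', ∫⁻ ρ in Ioi δ, ENNReal.ofReal (S.H ρ θ θ') *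
      ∫⁻ t, ENNReal.ofReal (S.F t θ) *
        ∫⁻ s in Ioo (t - ρ) (t + ρ), ENNReal.ofReal (S.G s θ')
          ∂volume ∂volume ∂volume ∂μ ∂μ).toReal

end Cyl

end Crest.Agent.R077
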