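import Crest.Agent.R077.Mass

/-!
R077 / Far: exponents and the finiteness of the long range interaction.
-/

set_option autoImplicit false
open MeasureTheory Metric Set Filter
open scoped ENNReal Topology

namespace Crest.Agent.R077.Mass

variable {n : ℕ} {p q A B κ : ℝ} {u v : EuclideanSpace ℝ (Fin n) → ℝ}

/-! ### exponents -/

theorem exp_identity {p q A B N : ℝ} (hp : 0 < p) (hq : 0 < q) (hpq : 1 < p * q) :
    (N + A) / (p + 1) + (N + B) / (q + 1) - (N - 2)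
      = (al p q A B + al q p B A - (N - 2)) * (1 - (1 / (p + 1) + 1 / (q + 1))) := by
  have h1 : p * q - 1 ≠ 0 := by linarith
  have h2 : q * p - 1 ≠ 0 := by rw [mul_comm]; exact h1
  have h3 : p + 1 ≠ 0 := by positivity
  have h4 : q + 1 ≠ 0 := by positivity
  unfold al
  rw [mul_comm q p]
  field_simp
  ring

theorem s_lt_one {p q : ℝ} (hp : 0 < p) (hq : 0 < q) (hpq : 1 < p * q) :
    1 / (p + 1) + 1 / (q + 1) < 1 := by
  rw [div_add_div _ _ (by positivity) (by positivity), div_lt_one (by positivity)]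
  nlinarith

theorem al_add_be {p q A B N : ℝ} (hp : 0 < p) (hq : 0 < q) (hpq : 1 < p * q)
    (hsub : N - 2 < (N + A) / (p + 1) + (N + B) / (q + 1)) :
    N - 2 < al p q A B + al q p B A := by
  have h1 := exp_identity (A := A) (B := B) (N := N) hp hq hpq
  have h2 := s_lt_one hp hq hpq
  have h3 : 0 < (al p q A B + al q p B A - (N - 2)) * (1 - (1 / (p + 1) + 1 / (q + 1))) := by
    rw [← h1]; linarith
  have h4 : 0 < 1 - (1 / (p + 1) + 1 / (q + 1)) := by linarith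
  have h5 := (mul_pos_iff_of_pos_right h4).1 h3
  linarith

/-! ### dyadic tail estimate -/

theorem tail_lt_top {g : EuclideanSpace ℝ (Fin n) → ℝ} (hg : Measurable g) {α γ C : ℝ}
    (hC : 0 ≤ C) (hα : 0 ≤ α) (hγ : γ < α)
    (hmass : ∀ R : ℝ, 0 < R → mass g R ≤ ENNReal.ofReal (C * R ^ γ)) :
    ∫⁻ y in (ball (0 : EuclideanSpace ℝ (Fin n)) 1)ᶜ,
      ENNReal.ofReal (‖y‖ ^ (-α)) * ENNReal.ofReal (g y) < ⊤ := by
  classical
  have hpt : ∀ y ∈ (ball (0 : EuclideanSpace ℝ (Fin n)) 1)ᶜ,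
      ENNReal.ofReal (‖y‖ ^ (-α)) * ENNReal.ofReal (g y)
        ≤ ∑' j : ℕ, (ball (0 : EuclideanSpace ℝ (Fin n)) ((2 : ℝ) ^ (j + 1))).indicator
          (fun y => ENNReal.ofReal (((2 : ℝ) ^ j) ^ (-α)) * ENNReal.ofReal (g y)) y := by
    intro y hy
    have hy1 : 1 ≤ ‖y‖ := by
      simpa [mem_compl_iff, mem_ball, dist_zero_right, not_lt] using hy
    obtain ⟨j, hj1, hj2⟩ := exists_nat_pow_near hy1 (by norm_num : (1 : ℝ) < 2)
    refine le_trans ?_ (ENNReal.le_tsum j)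
    rw [indicator_of_mem (by simpa using hj2)]
    have h1 : ‖y‖ ^ (-α) ≤ ((2 : ℝ) ^ j) ^ (-α) :=
      Real.rpow_le_rpow_of_nonpos (by positivity) hj1 (by linarith)
    exact mul_le_mul_left (ENNReal.ofReal_le_ofReal h1) _
  calc ∫⁻ y in (ball (0 : EuclideanSpace ℝ (Fin n)) 1)ᶜ,
        ENNReal.ofReal (‖y‖ ^ (-α)) * ENNReal.ofReal (g y)
      ≤ ∫⁻ y in (ball (0 : EuclideanSpace ℝ (Fin n)) 1)ᶜ,
        ∑' j : ℕ, (ball (0 : EuclideanSpace ℝ (Fin n)) ((2 : ℝ) ^ (j + 1))).indicator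
          (fun y => ENNReal.ofReal (((2 : ℝ) ^ j) ^ (-α)) * ENNReal.ofReal (g y)) y :=
        setLIntegral_mono' measurableSet_ball.compl hpt
    _ ≤ ∫⁻ y, ∑' j : ℕ, (ball (0 : EuclideanSpace ℝ (Fin n)) ((2 : ℝ) ^ (j + 1))).indicator
          (fun y => ENNReal.ofReal (((2 : ℝ) ^ j) ^ (-α)) * ENNReal.ofReal (g y)) y :=
        setLIntegral_le_lintegral _ _
    _ < ⊤ := by
        have hmeas : ∀ j : ℕ, AEMeasurable ((ball (0 : EuclideanSpace ℝ (Fin n))
            ((2 : ℝ) ^ (j + 1))).indicator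
            (fun y => ENNReal.ofReal (((2 : ℝ) ^ j) ^ (-α)) * ENNReal.ofReal (g y))) volume :=
          fun j => ((hg.ennreal_ofReal.const_mul _).indicator measurableSet_ball).aemeasurable
        rw [lintegral_tsum hmeas]
        have hterm : ∀ j : ℕ, ∫⁻ y, (ball (0 : EuclideanSpace ℝ (Fin n)) ((2 : ℝ) ^ (j + 1))).indicator
            (fun y => ENNReal.ofReal (((2 : ℝ) ^ j) ^ (-α)) * ENNReal.ofReal (g y)) y
            ≤ ENNReal.ofReal (C * 2 ^ γ) * (ENNReal.ofReal ((2 : ℝ) ^ (γ - α))) ^ j := by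
          intro j
          rw [lintegral_indicator measurableSet_ball, lintegral_const_mul _ hg.ennreal_ofReal]
          have h1 := hmass ((2 : ℝ) ^ (j + 1)) (by positivity)
          calc ENNReal.ofReal (((2 : ℝ) ^ j) ^ (-α)) *
                ∫⁻ y in ball (0 : EuclideanSpace ℝ (Fin n)) ((2 : ℝ) ^ (j + 1)), ENNReal.ofReal (g y)
              ≤ ENNReal.ofReal (((2 : ℝ) ^ j) ^ (-α)) *
                ENNReal.ofReal (C * ((2 : ℝ) ^ (j + 1)) ^ γ) := mul_le_mul_right h1 _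
            _ = ENNReal.ofReal (C * 2 ^ γ * (((2 : ℝ) ^ (γ - α)) ^ j)) := by
                rw [← ENNReal.ofReal_mul (by positivity)]
                congr 1
                rw [← Real.rpow_natCast, ← Real.rpow_natCast, ← Real.rpow_natCast,
                  ← Real.rpow_mul (by norm_num), ← Real.rpow_mul (by norm_num),
                  ← Real.rpow_mul (by norm_num)]
                have : (2 : ℝ) ^ ((j : ℝ) * -α) * (C * (2 : ℝ) ^ (((j + 1 : ℕ) : ℝ) * γ))
                    = C * ((2 : ℝ) ^ ((j : ℝ) * -α) * (2 : ℝ) ^ (((j + 1 : ℕ) : ℝ) * γ)) := by ring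
                rw [this, mul_assoc, ← Real.rpow_add (by norm_num), ← Real.rpow_add (by norm_num)]
                congr 2
                push_cast
                ring
            _ = _ := by
                rw [ENNReal.ofReal_mul (by positivity), ENNReal.ofReal_pow (by positivity)]
        refine lt_of_le_of_lt (ENNReal.tsum_le_tsum hterm) ?_
        rw [ENNReal.tsum_mul_left, ENNReal.tsum_geometric]
        refine ENNReal.mul_lt_top ENNReal.ofReal_lt_top ?_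
        rw [ENNReal.inv_lt_top, tsub_pos_iff_lt]
        rw [← ENNReal.ofReal_one]
        refine (ENNReal.ofReal_lt_ofReal_iff one_pos).2 ?_
        exact Real.rpow_lt_one_of_one_lt_of_neg (by norm_num) (by linarith)

/-! ### long range interaction -/

/-- half of the long range interaction -/
theorem half_far {f g : EuclideanSpace ℝ (Fin n) → ℝ} (hn : 3 ≤ n)
    (hg : Measurable g) {α β C D : ℝ} (hC : 0 ≤ C) (hα : 0 ≤ α)
    (hαβ : (n : ℝ) - 2 < α + β)
    (hf1 : ∀ R : ℝ, 0 < R → mass f R ≤ ENNReal.ofReal (C * R ^ ((n : ℝ) - 2 - α)))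
    (hf2 : ∀ R : ℝ, 0 < R → mass f R ≤ ENNReal.ofReal (D * R ^ ((n : ℝ) - 2)))
    (hg1 : ∀ R : ℝ, 0 < R → mass g R ≤ ENNReal.ofReal (C * R ^ ((n : ℝ) - 2 - β))) :
    ∫⁻ y, ENNReal.ofReal (‖y‖ ^ ((2 : ℝ) - n)) * mass f (2 * ‖y‖) * ENNReal.ofReal (g y) < ⊤ := by
  rw [← lintegral_add_compl _ (measurableSet_ball : MeasurableSet (ball (0 : EuclideanSpace ℝ (Fin n)) 1))]
  refine ENNReal.add_lt_top.2 ⟨?_, ?_⟩
  · have h1 : ∫⁻ y in ball (0 : EuclideanSpace ℝ (Fin n)) 1,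
        ENNReal.ofReal (‖y‖ ^ ((2 : ℝ) - n)) * mass f (2 * ‖y‖) * ENNReal.ofReal (g y)
        ≤ ∫⁻ y in ball (0 : EuclideanSpace ℝ (Fin n)) 1,
          ENNReal.ofReal (D * 2 ^ ((n : ℝ) - 2)) * ENNReal.ofReal (g y) := by
      refine lintegral_mono_ae ?_
      filter_upwards [ae_restrict_of_ae (ae_ne_point hn 0)] with y hy
      have hy0 : 0 < ‖y‖ := norm_pos_iff.2 hy
      refine mul_le_mul_left ?_ _
      refine le_trans (mul_le_mul_right (hf2 (2 * ‖y‖) (by positivity)) _) ?_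
      rw [← ENNReal.ofReal_mul (by positivity)]
      refine ENNReal.ofReal_le_ofReal (le_of_eq ?_)
      rw [Real.mul_rpow (by norm_num) hy0.le]
      calc ‖y‖ ^ ((2 : ℝ) - n) * (D * (2 ^ ((n : ℝ) - 2) * ‖y‖ ^ ((n : ℝ) - 2)))
          = D * 2 ^ ((n : ℝ) - 2) * (‖y‖ ^ ((2 : ℝ) - n) * ‖y‖ ^ ((n : ℝ) - 2)) := by ring
        _ = D * 2 ^ ((n : ℝ) - 2) := by
            rw [← Real.rpow_add hy0]; simp
    refine lt_of_le_of_lt h1 ?_
    rw [lintegral_const_mul _ hg.ennreal_ofReal]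
    refine ENNReal.mul_lt_top ENNReal.ofReal_lt_top ?_
    exact lt_of_le_of_lt (hg1 1 one_pos) ENNReal.ofReal_lt_top
  · have h1 : ∫⁻ y in (ball (0 : EuclideanSpace ℝ (Fin n)) 1)ᶜ,
        ENNReal.ofReal (‖y‖ ^ ((2 : ℝ) - n)) * mass f (2 * ‖y‖) * ENNReal.ofReal (g y)
        ≤ ∫⁻ y in (ball (0 : EuclideanSpace ℝ (Fin n)) 1)ᶜ,
          ENNReal.ofReal (C * 2 ^ ((n : ℝ) - 2 - α)) *
            (ENNReal.ofReal (‖y‖ ^ (-α)) * ENNReal.ofReal (g y)) := by
      refine lintegral_mono_ae ?_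
      filter_upwards [ae_restrict_of_ae (ae_ne_point hn 0)] with y hy
      have hy0 : 0 < ‖y‖ := norm_pos_iff.2 hy
      rw [← mul_assoc]
      refine mul_le_mul_left ?_ _
      refine le_trans (mul_le_mul_right (hf1 (2 * ‖y‖) (by positivity)) _) ?_
      rw [← ENNReal.ofReal_mul (by positivity), ← ENNReal.ofReal_mul (by positivity)]
      refine ENNReal.ofReal_le_ofReal (le_of_eq ?_)
      rw [Real.mul_rpow (by norm_num) hy0.le]
      calc ‖y‖ ^ ((2 : ℝ) - n) * (C * (2 ^ ((n : ℝ) - 2 - α) * ‖y‖ ^ ((n : ℝ) - 2 - α)))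
          = C * 2 ^ ((n : ℝ) - 2 - α) * (‖y‖ ^ ((2 : ℝ) - n) * ‖y‖ ^ ((n : ℝ) - 2 - α)) := by ring
        _ = C * 2 ^ ((n : ℝ) - 2 - α) * ‖y‖ ^ (-α) := by
            rw [← Real.rpow_add hy0]; congr 2; ring
    refine lt_of_le_of_lt h1 ?_
    have hm : Measurable fun y : EuclideanSpace ℝ (Fin n) =>
        ENNReal.ofReal (‖y‖ ^ (-α)) * ENNReal.ofReal (g y) :=
      (measurable_norm.pow_const _).ennreal_ofReal.mul hg.ennreal_ofReal
    rw [lintegral_const_mul _ hm]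
    exact ENNReal.mul_lt_top ENNReal.ofReal_lt_top
      (tail_lt_top hg hC hα (by linarith) hg1)

theorem mass_measurable (f : EuclideanSpace ℝ (Fin n) → ℝ) : Measurable (mass f) := by
  refine Monotone.measurable ?_
  intro a b hab
  exact lintegral_mono_set (ball_subset_ball hab)

/-- pointwise domination of the long range kernel -/
theorem kernel_le {x y : EuclideanSpace ℝ (Fin n)} :
    ENNReal.ofReal (max ‖x‖ ‖y‖ ^ ((2 : ℝ) - n))
      ≤ {z : EuclideanSpace ℝ (Fin n) × EuclideanSpace ℝ (Fin n) | ‖z.1‖ ≤ ‖z.2‖}.indicator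
          (fun z => ENNReal.ofReal (‖z.2‖ ^ ((2 : ℝ) - n))) (x, y)
        + {z : EuclideanSpace ℝ (Fin n) × EuclideanSpace ℝ (Fin n) | ‖z.2‖ ≤ ‖z.1‖}.indicator
          (fun z => ENNReal.ofReal (‖z.1‖ ^ ((2 : ℝ) - n))) (x, y) := by
  rcases le_total ‖x‖ ‖y‖ with h | h
  · rw [indicator_of_mem (show (x, y) ∈ {z : EuclideanSpace ℝ (Fin n) × EuclideanSpace ℝ (Fin n) |
      ‖z.1‖ ≤ ‖z.2‖} from h), max_eq_right h]
    exact le_self_add
  · rw [indicator_of_mem (show (x, y) ∈ {z : EuclideanSpace ℝ (Fin n) × EuclideanSpace ℝ (Fin n) |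
      ‖z.2‖ ≤ ‖z.1‖} from h), max_eq_left h]
    exact le_add_self

theorem inner_le {f : EuclideanSpace ℝ (Fin n) → ℝ} {y : EuclideanSpace ℝ (Fin n)} (hy : y ≠ 0) :
    ∫⁻ x, {z : EuclideanSpace ℝ (Fin n) × EuclideanSpace ℝ (Fin n) | ‖z.1‖ ≤ ‖z.2‖}.indicator
          (fun z => ENNReal.ofReal (‖z.2‖ ^ ((2 : ℝ) - n))) (x, y) * ENNReal.ofReal (f x)
      ≤ ENNReal.ofReal (‖y‖ ^ ((2 : ℝ) - n)) * mass f (2 * ‖y‖) := by
  have hy0 : 0 < ‖y‖ := norm_pos_iff.2 hy
  have h1 : ∀ x : EuclideanSpace ℝ (Fin n),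
      {z : EuclideanSpace ℝ (Fin n) × EuclideanSpace ℝ (Fin n) | ‖z.1‖ ≤ ‖z.2‖}.indicator
          (fun z => ENNReal.ofReal (‖z.2‖ ^ ((2 : ℝ) - n))) (x, y) * ENNReal.ofReal (f x)
      ≤ ENNReal.ofReal (‖y‖ ^ ((2 : ℝ) - n)) *
        (ball (0 : EuclideanSpace ℝ (Fin n)) (2 * ‖y‖)).indicator (fun x => ENNReal.ofReal (f x)) x := by
    intro x
    by_cases hx : ‖x‖ ≤ ‖y‖
    · rw [indicator_of_mem (show (x, y) ∈ {z : EuclideanSpace ℝ (Fin n) × EuclideanSpace ℝ (Fin n) |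
        ‖z.1‖ ≤ ‖z.2‖} from hx), indicator_of_mem]
      simp only [mem_ball, dist_zero_right]
      linarith
    · rw [indicator_of_notMem (show (x, y) ∉ {z : EuclideanSpace ℝ (Fin n) × EuclideanSpace ℝ (Fin n) |
        ‖z.1‖ ≤ ‖z.2‖} from hx), zero_mul]
      exact zero_le
  refine le_trans (lintegral_mono h1) ?_
  rw [lintegral_const_mul' _ _ ENNReal.ofReal_ne_top, lintegral_indicator measurableSet_ball]
  rfl

/-- FAR: the long range interaction is finite -/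
theorem far {f g : EuclideanSpace ℝ (Fin n) → ℝ} (hn : 3 ≤ n) (hf : Measurable f)
    (hg : Measurable g) {α β C D : ℝ} (hC : 0 ≤ C) (hD : 0 ≤ D) (hα : 0 ≤ α) (hβ : 0 ≤ β)
    (hαβ : (n : ℝ) - 2 < α + β)
    (hf1 : ∀ R : ℝ, 0 < R → mass f R ≤ ENNReal.ofReal (C * R ^ ((n : ℝ) - 2 - α)))
    (hf2 : ∀ R : ℝ, 0 < R → mass f R ≤ ENNReal.ofReal (D * R ^ ((n : ℝ) - 2)))
    (hg1 : ∀ R : ℝ, 0 < R → mass g R ≤ ENNReal.ofReal (C * R ^ ((n : ℝ) - 2 - β)))
    (hg2 : ∀ R : ℝ, 0 < R → mass g R ≤ ENNReal.ofReal (D * R ^ ((n : ℝ) - 2))) :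
    ∫⁻ x, ∫⁻ y, ENNReal.ofReal (f x) * ENNReal.ofReal (g y) *
      ENNReal.ofReal (max ‖x‖ ‖y‖ ^ ((2 : ℝ) - n)) < ⊤ := by
  have hm1 : Measurable (({z : EuclideanSpace ℝ (Fin n) × EuclideanSpace ℝ (Fin n) |
      ‖z.1‖ ≤ ‖z.2‖}.indicator (fun z => ENNReal.ofReal (‖z.2‖ ^ ((2 : ℝ) - n))))) :=
    ((measurable_norm.comp measurable_snd).pow_const _).ennreal_ofReal.indicator
      (measurableSet_le (measurable_norm.comp measurable_fst) (measurable_norm.comp measurable_snd))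
  have hm2 : Measurable (({z : EuclideanSpace ℝ (Fin n) × EuclideanSpace ℝ (Fin n) |
      ‖z.2‖ ≤ ‖z.1‖}.indicator (fun z => ENNReal.ofReal (‖z.1‖ ^ ((2 : ℝ) - n))))) :=
    ((measurable_norm.comp measurable_fst).pow_const _).ennreal_ofReal.indicator
      (measurableSet_le (measurable_norm.comp measurable_snd) (measurable_norm.comp measurable_fst))
  set k1 := ({z : EuclideanSpace ℝ (Fin n) × EuclideanSpace ℝ (Fin n) |
      ‖z.1‖ ≤ ‖z.2‖}.indicator (fun z => ENNReal.ofReal (‖z.2‖ ^ ((2 : ℝ) - n)))) with hk1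
  set k2 := ({z : EuclideanSpace ℝ (Fin n) × EuclideanSpace ℝ (Fin n) |
      ‖z.2‖ ≤ ‖z.1‖}.indicator (fun z => ENNReal.ofReal (‖z.1‖ ^ ((2 : ℝ) - n)))) with hk2
  have hF : Measurable fun x => ENNReal.ofReal (f x) := hf.ennreal_ofReal
  have hG : Measurable fun x => ENNReal.ofReal (g x) := hg.ennreal_ofReal
  have h1 : ∫⁻ x, ∫⁻ y, ENNReal.ofReal (f x) * ENNReal.ofReal (g y) *
      ENNReal.ofReal (max ‖x‖ ‖y‖ ^ ((2 : ℝ) - n))
      ≤ (∫⁻ x, ∫⁻ y, ENNReal.ofReal (f x) * ENNReal.ofReal (g y) * k1 (x, y))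
        + ∫⁻ x, ∫⁻ y, ENNReal.ofReal (f x) * ENNReal.ofReal (g y) * k2 (x, y) := by
    rw [← lintegral_add_left]
    · refine lintegral_mono fun x => ?_
      rw [← lintegral_add_left]
      · refine lintegral_mono fun y => ?_
        rw [← mul_add]
        exact mul_le_mul_right kernel_le _
      · exact (measurable_const.mul hG).mul (hm1.comp measurable_prodMk_left)
    · have : Measurable fun z : EuclideanSpace ℝ (Fin n) × EuclideanSpace ℝ (Fin n) =>
          ENNReal.ofReal (f z.1) * ENNReal.ofReal (g z.2) * k1 z :=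
        ((hF.comp measurable_fst).mul (hG.comp measurable_snd)).mul hm1
      exact this.lintegral_prod_right'
  refine lt_of_le_of_lt h1 (ENNReal.add_lt_top.2 ⟨?_, ?_⟩)
  · have hmm : Measurable fun z : EuclideanSpace ℝ (Fin n) × EuclideanSpace ℝ (Fin n) =>
        ENNReal.ofReal (f z.1) * ENNReal.ofReal (g z.2) * k1 z :=
      ((hF.comp measurable_fst).mul (hG.comp measurable_snd)).mul hm1
    rw [lintegral_lintegral_swap hmm.aemeasurable]
    refine lt_of_le_of_lt ?_ (half_far hn hg hC hα hαβ hf1 hf2 hg1)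
    refine lintegral_mono_ae ?_
    filter_upwards [ae_ne_point hn 0] with y hy
    calc ∫⁻ x, ENNReal.ofReal (f x) * ENNReal.ofReal (g y) * k1 (x, y)
        = ∫⁻ x, (k1 (x, y) * ENNReal.ofReal (f x)) * ENNReal.ofReal (g y) := by
          refine lintegral_congr fun x => ?_
          ring
      _ = (∫⁻ x, k1 (x, y) * ENNReal.ofReal (f x)) * ENNReal.ofReal (g y) :=
          lintegral_mul_const' _ _ ENNReal.ofReal_ne_top
      _ ≤ _ := mul_le_mul_left (inner_le hy) _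
  · refine lt_of_le_of_lt ?_ (half_far hn hf hC hβ (by linarith) hg1 hg2 hf1)
    refine lintegral_mono_ae ?_
    filter_upwards [ae_ne_point hn 0] with x hx
    calc ∫⁻ y, ENNReal.ofReal (f x) * ENNReal.ofReal (g y) * k2 (x, y)
        = ∫⁻ y, (k1 (y, x) * ENNReal.ofReal (g y)) * ENNReal.ofReal (f x) := by
          refine lintegral_congr fun y => ?_
          have : k2 (x, y) = k1 (y, x) := by
            simp only [hk1, hk2, indicator, Set.mem_ofPred_eq]
          rw [this]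
          ring
      _ = (∫⁻ y, k1 (y, x) * ENNReal.ofReal (g y)) * ENNReal.ofReal (f x) :=
          lintegral_mul_const' _ _ ENNReal.ofReal_ne_top
      _ ≤ _ := mul_le_mul_left (inner_le hx) _

/-! ### the results for supersolution pairs -/

theorem mass_decay (h : Sup n p q A B κ u v) :
    ∃ C : ℝ, 0 < C ∧ ∀ R : ℝ, 0 < R →
      mass (den A p v) R ≤ ENNReal.ofReal (C * R ^ ((n : ℝ) - 2 - al p q A B)) := by
  obtain ⟨C, hC, h1⟩ := mr_decay h
  exact ⟨C, hC, fun R hR => by rw [← ofReal_mr h]; exact ENNReal.ofReal_le_ofReal (h1 R hR)⟩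

theorem mass_near (h : Sup n p q A B κ u v) :
    ∃ C : ℝ, 0 < C ∧ ∀ R : ℝ, 0 < R →
      mass (den A p v) R ≤ ENNReal.ofReal (C * R ^ ((n : ℝ) - 2)) := by
  refine ⟨κ * u 0 * 2 ^ ((n : ℝ) - 2), ?_, fun R hR => ?_⟩
  · have h2 := h.hκ
    have h3 := h.hu0 0
    positivity
  · rw [← ofReal_mr h]; exact ENNReal.ofReal_le_ofReal (mr_le_near h hR)

/-- the long range interaction energy of the pair is finite -/
theorem far_lt_top (h : Sup n p q A B κ u v)
    (hsub : (n : ℝ) - 2 < ((n : ℝ) + A) / (p + 1) + ((n : ℝ) + B) / (q + 1)) :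
    ∫⁻ x, ∫⁻ y, ENNReal.ofReal (den A p v x) * ENNReal.ofReal (den B q u y) *
      ENNReal.ofReal (max ‖x‖ ‖y‖ ^ ((2 : ℝ) - n)) < ⊤ := by
  obtain ⟨C1, hC1, h1⟩ := mass_decay h
  obtain ⟨C2, hC2, h2⟩ := mass_decay h.symm
  obtain ⟨D1, hD1, h3⟩ := mass_near h
  obtain ⟨D2, hD2, h4⟩ := mass_near h.symm
  have hpq := pq_gt h
  refine far (C := max C1 C2) (D := max D1 D2) h.hn (den_measurable h.hv) (den_measurable h.hu)
    (le_max_of_le_left hC1.le) (le_max_of_le_left hD1.le) (al_pos h).le (al_pos h.symm).le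
    (al_add_be h.hp h.hq hpq hsub) ?_ ?_ ?_ ?_
  · intro R hR
    refine (h1 R hR).trans (ENNReal.ofReal_le_ofReal ?_)
    exact mul_le_mul_of_nonneg_right (le_max_left _ _) (by positivity)
  · intro R hR
    refine (h3 R hR).trans (ENNReal.ofReal_le_ofReal ?_)
    exact mul_le_mul_of_nonneg_right (le_max_left _ _) (by positivity)
  · intro R hR
    refine (h2 R hR).trans (ENNReal.ofReal_le_ofReal ?_)
    exact mul_le_mul_of_nonneg_right (le_max_right _ _) (by positivity)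
  · intro R hR
    refine (h4 R hR).trans (ENNReal.ofReal_le_ofReal ?_)
    exact mul_le_mul_of_nonneg_right (le_max_right _ _) (by positivity)

/-- `∫_{B_R} f w < ∞` for continuous `w` -/
theorem local_energy (h : Sup n p q A B κ u v) {w : EuclideanSpace ℝ (Fin n) → ℝ}
    (hw : Continuous w) (R : ℝ) :
    ∫⁻ y in ball 0 R, ENNReal.ofReal (den A p v y * w y) < ⊤ := by
  obtain ⟨M, hM⟩ := (isCompact_closedBall (0 : EuclideanSpace ℝ (Fin n)) R).exists_bound_of_continuousOn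
    hw.continuousOn
  have h1 : ∫⁻ y in ball 0 R, ENNReal.ofReal (den A p v y * w y)
      ≤ ∫⁻ y in ball 0 R, ENNReal.ofReal (den A p v y) * ENNReal.ofReal M := by
    refine setLIntegral_mono' measurableSet_ball fun y hy => ?_
    have h2 := den_nonneg (A := A) (p := p) h.hv0 y
    rw [← ENNReal.ofReal_mul h2]
    refine ENNReal.ofReal_le_ofReal (mul_le_mul_of_nonneg_left ?_ h2)
    exact (le_abs_self _).trans (hM y (ball_subset_closedBall hy))
  refine lt_of_le_of_lt h1 ?_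
  rw [lintegral_mul_const' _ _ ENNReal.ofReal_ne_top]
  exact ENNReal.mul_lt_top (mass_lt_top h R) ENNReal.ofReal_lt_top

end Crest.Agent.R077.Mass
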