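import Mathlib

/-!
Row 77 (Henon-Lane-Emden): cylinder coordinates `x = exp t • θ` on `EuclideanSpace ℝ (Fin n)`.
-/

set_option autoImplicit false

open MeasureTheory Metric Set Real
open scoped ENNReal

namespace Crest.Agent.R077

noncomputable section

/-- The exponential map as a measure preserving map onto `(0,∞)` with `r^(m) dr`. -/
theorem mp_exp (m : ℕ) :
    MeasurePreserving (fun t : ℝ => (⟨Real.exp t, Real.exp_pos t⟩ : Ioi (0 : ℝ)))
      ((volume : Measure ℝ).withDensity fun t => ENNReal.ofReal (Real.exp (((m : ℝ) + 1) * t)))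
      (Measure.volumeIoiPow m) := by
  have hmeas : Measurable (fun t : ℝ => (⟨Real.exp t, Real.exp_pos t⟩ : Ioi (0 : ℝ))) :=
    Real.measurable_exp.subtype_mk
  refine ⟨hmeas, ?_⟩
  ext s hs
  rw [Measure.map_apply hmeas hs, withDensity_apply _ (hmeas hs), Measure.volumeIoiPow,
    withDensity_apply _ hs]
  rw [MeasureTheory.setLIntegral_subtype measurableSet_Ioi s
    (fun a : ℝ => ENNReal.ofReal (a ^ m))]
  have himg : Subtype.val '' s = Real.exp '' ((fun t : ℝ =>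
      (⟨Real.exp t, Real.exp_pos t⟩ : Ioi (0 : ℝ))) ⁻¹' s) := by
    ext x
    constructor
    · rintro ⟨⟨y, hy⟩, hys, rfl⟩
      refine ⟨Real.log y, ?_, Real.exp_log hy⟩
      simp only [mem_preimage]
      have : (⟨Real.exp (Real.log y), Real.exp_pos _⟩ : Ioi (0 : ℝ)) = ⟨y, hy⟩ :=
        Subtype.ext (Real.exp_log hy)
      rw [this]; exact hys
    · rintro ⟨t, ht, rfl⟩
      exact ⟨⟨Real.exp t, Real.exp_pos t⟩, ht, rfl⟩
  rw [himg, lintegral_image_eq_lintegral_abs_deriv_mul (hmeas hs)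
    (fun t _ => (Real.hasDerivAt_exp t).hasDerivWithinAt) (Real.exp_injective.injOn)]
  refine lintegral_congr fun t => ?_
  rw [abs_of_pos (Real.exp_pos t), ← ENNReal.ofReal_mul (Real.exp_pos t).le, ← Real.exp_nat_mul,
    ← Real.exp_add]
  ring_nf

variable {n : ℕ}

local notation "𝔼" => EuclideanSpace ℝ (Fin n)

/-- surface measure on the unit sphere -/
def sph (n : ℕ) : Measure (sphere (0 : EuclideanSpace ℝ (Fin n)) 1) :=
  (volume : Measure (EuclideanSpace ℝ (Fin n))).toSphere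

instance : IsFiniteMeasure (sph n) := by unfold sph; infer_instance

/-- Cylinder coordinates. -/
theorem mp_cyl (hn : 1 ≤ n) :
    MeasurePreserving (fun z : ℝ × sphere (0 : 𝔼) 1 => Real.exp z.1 • (z.2 : 𝔼))
      ((((volume : Measure ℝ).withDensity fun t => ENNReal.ofReal (Real.exp ((n : ℝ) * t)))).prod
        (sph n)) (volume : Measure 𝔼) := by
  have : Nonempty (Fin n) := ⟨⟨0, hn⟩⟩
  have h1 := mp_exp (n - 1)
  have hcast : (((n - 1 : ℕ) : ℝ) + 1) = n := by
    rw [Nat.cast_sub hn]; simp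
  rw [hcast] at h1
  have hfr : Module.finrank ℝ 𝔼 = n := by simp
  have h2 := Measure.measurePreserving_homeomorphUnitSphereProd (volume : Measure 𝔼)
  rw [hfr] at h2
  have h3 : MeasurePreserving (homeomorphUnitSphereProd 𝔼).symm
      ((sph n).prod (Measure.volumeIoiPow (n - 1))) ((volume : Measure 𝔼).comap (↑)) :=
    h2.symm (homeomorphUnitSphereProd 𝔼).toMeasurableEquiv
  have h4 : MeasurePreserving (Subtype.val : ({0}ᶜ : Set 𝔼) → 𝔼)
      ((volume : Measure 𝔼).comap (↑)) ((volume : Measure 𝔼).restrict {0}ᶜ) :=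
    ⟨measurable_subtype_coe, map_comap_subtype_coe (measurableSet_singleton _).compl _⟩
  have h5 : (volume : Measure 𝔼).restrict {0}ᶜ = volume :=
    Measure.restrict_eq_self_of_ae_mem (by
      rw [ae_iff]; simp)
  rw [h5] at h4
  have h6 : MeasurePreserving (Prod.swap : ℝ × sphere (0 : 𝔼) 1 → sphere (0 : 𝔼) 1 × ℝ)
      ((((volume : Measure ℝ).withDensity fun t => ENNReal.ofReal (Real.exp ((n : ℝ) * t)))).prod
        (sph n)) ((sph n).prod
        ((volume : Measure ℝ).withDensity fun t => ENNReal.ofReal (Real.exp ((n : ℝ) * t)))) :=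
    Measure.measurePreserving_swap
  have h7 : MeasurePreserving (Prod.map id (fun t : ℝ => (⟨Real.exp t, Real.exp_pos t⟩ : Ioi (0 : ℝ))))
      ((sph n).prod
        ((volume : Measure ℝ).withDensity fun t => ENNReal.ofReal (Real.exp ((n : ℝ) * t))))
      ((sph n).prod (Measure.volumeIoiPow (n - 1))) :=
    (MeasurePreserving.id _).prod h1
  have := h4.comp (h3.comp (h7.comp h6))
  have hfun : (fun z : ℝ × sphere (0 : 𝔼) 1 => Real.exp z.1 • (z.2 : 𝔼)) =
      (Subtype.val ∘ (homeomorphUnitSphereProd 𝔼).symm ∘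
        (Prod.map id (fun t : ℝ => (⟨Real.exp t, Real.exp_pos t⟩ : Ioi (0 : ℝ)))) ∘ Prod.swap) := by
    funext z
    rcases z with ⟨t, θ⟩
    simp [homeomorphUnitSphereProd]
  rw [hfun]
  exact this

theorem meas_cyl {h : 𝔼 → ℝ≥0∞} (hn : 1 ≤ n) (hh : Measurable h) :
    Measurable fun z : ℝ × sphere (0 : 𝔼) 1 => h (Real.exp z.1 • (z.2 : 𝔼)) :=
  hh.comp (mp_cyl hn).measurable

theorem meas_cyl_left {h : 𝔼 → ℝ≥0∞} (hn : 1 ≤ n) (hh : Measurable h) (t : ℝ) :
    Measurable fun θ : sphere (0 : 𝔼) 1 => h (Real.exp t • (θ : 𝔼)) :=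
  (meas_cyl hn hh).comp (measurable_prodMk_left (x := t))

/-- Lebesgue integral in cylinder coordinates, `t` outside. -/
theorem lintegral_cyl (hn : 1 ≤ n) {h : 𝔼 → ℝ≥0∞} (hh : Measurable h) :
    ∫⁻ x, h x = ∫⁻ t : ℝ, ∫⁻ θ, ENNReal.ofReal (Real.exp ((n : ℝ) * t)) *
      h (Real.exp t • (θ : 𝔼)) ∂(sph n) := by
  have hm := mp_cyl hn
  rw [← hm.lintegral_comp hh,
    lintegral_prod (fun z : ℝ × sphere (0 : 𝔼) 1 => h (Real.exp z.1 • (z.2 : 𝔼)))
      (meas_cyl hn hh).aemeasurable]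
  have hmeas : Measurable fun t : ℝ => ∫⁻ θ, h (Real.exp t • (θ : 𝔼)) ∂(sph n) :=
    (meas_cyl hn hh).lintegral_prod_right'
  rw [lintegral_withDensity_eq_lintegral_mul _ (by fun_prop) hmeas]
  refine lintegral_congr fun t => ?_
  simp only [Pi.mul_apply]
  rw [lintegral_const_mul _ (meas_cyl_left hn hh t)]

/-- Lebesgue integral in cylinder coordinates, `θ` outside. -/
theorem lintegral_cyl' (hn : 1 ≤ n) {h : 𝔼 → ℝ≥0∞} (hh : Measurable h) :
    ∫⁻ x, h x = ∫⁻ θ, (∫⁻ t : ℝ, ENNReal.ofReal (Real.exp ((n : ℝ) * t)) *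
      h (Real.exp t • (θ : 𝔼))) ∂(sph n) := by
  rw [lintegral_cyl hn hh]
  have : Measurable (Function.uncurry fun (t : ℝ) (θ : sphere (0 : 𝔼) 1) =>
      ENNReal.ofReal (Real.exp ((n : ℝ) * t)) * h (Real.exp t • (θ : 𝔼))) := by
    refine Measurable.mul ?_ (meas_cyl hn hh)
    fun_prop
  exact lintegral_lintegral_swap this.aemeasurable

theorem norm_cyl (t : ℝ) (θ : sphere (0 : 𝔼) 1) : ‖Real.exp t • (θ : 𝔼)‖ = Real.exp t := by
  rw [norm_smul, Real.norm_of_nonneg (Real.exp_pos t).le]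
  simp

/-- Lebesgue integral over `{‖x‖ ∈ s}` in cylinder coordinates. -/
theorem setLIntegral_cyl (hn : 1 ≤ n) {h : 𝔼 → ℝ≥0∞} (hh : Measurable h) {s : Set ℝ}
    (hs : MeasurableSet s) :
    ∫⁻ x in {x : 𝔼 | ‖x‖ ∈ s}, h x = ∫⁻ t in Real.exp ⁻¹' s, ∫⁻ θ,
      ENNReal.ofReal (Real.exp ((n : ℝ) * t)) * h (Real.exp t • (θ : 𝔼)) ∂(sph n) := by
  have hS : MeasurableSet {x : 𝔼 | ‖x‖ ∈ s} := measurable_norm hs
  rw [← lintegral_indicator hS, lintegral_cyl hn (hh.indicator hS),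
    ← lintegral_indicator (Real.measurable_exp hs)]
  refine lintegral_congr fun t => ?_
  by_cases ht : Real.exp t ∈ s
  · rw [indicator_of_mem (show t ∈ Real.exp ⁻¹' s from ht)]
    refine lintegral_congr fun θ => ?_
    rw [indicator_of_mem]
    show ‖Real.exp t • (θ : 𝔼)‖ ∈ s
    rw [norm_cyl]; exact ht
  · rw [indicator_of_notMem (show t ∉ Real.exp ⁻¹' s from ht)]
    have hz : ∀ θ : sphere (0 : 𝔼) 1, ENNReal.ofReal (Real.exp ((n : ℝ) * t)) *
        {x : 𝔼 | ‖x‖ ∈ s}.indicator h (Real.exp t • (θ : 𝔼)) = 0 := fun θ => by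
      have : Real.exp t • (θ : 𝔼) ∉ {x : 𝔼 | ‖x‖ ∈ s} := by
        show ¬ ‖Real.exp t • (θ : 𝔼)‖ ∈ s
        rw [norm_cyl]; exact ht
      rw [indicator_of_notMem this, mul_zero]
    simp only [hz, lintegral_zero]

end

end Crest.Agent.R077
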