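import Crest.Agent.R077.Kern2
import Crest.Agent.R077.Polar
import Crest.Agent.R077.Far

/-! Row 77: the far energy and the local energies on the cylinder. -/

set_option autoImplicit false

open MeasureTheory Set Filter Topology
open scoped ENNReal RealInnerProductSpace

namespace Crest.Agent.R077.Kern

variable {n : ℕ}

/-- `min (kk τ) (kk δ) ≤ C δ^{-(n-2)} e^{-c|τ|}` in the form with the maximum inside -/
theorem kk_max_le (hn : 3 ≤ n) {δ : ℝ} (h0 : 0 < δ) (h1 : δ ≤ 1) (τ : ℝ) (θ θ' : Sph n) :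
    kk (max δ |τ|) θ θ' ≤ (4 ^ (cc n) + Real.exp (cc n)) * δ ^ (-((n : ℝ) - 2)) *
      Real.exp (-(cc n) * |τ|) := by
  have hc := cc_pos hn
  have hn3 : (3 : ℝ) ≤ n := by exact_mod_cast hn
  have hd1 : 1 ≤ δ ^ (-((n : ℝ) - 2)) :=
    Real.one_le_rpow_of_pos_of_le_one_of_nonpos h0 h1 (by linarith)
  have h4 : (0 : ℝ) < 4 ^ (cc n) := Real.rpow_pos_of_pos (by norm_num) _
  rcases le_or_gt 1 |τ| with h | h
  · have hmax : max δ |τ| = |τ| := max_eq_right (h1.trans h)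
    rw [hmax]
    have h2 : kk |τ| θ θ' ≤ 4 ^ (cc n) * Real.exp (-(cc n) * |τ|) := by
      have := kk_le_exp hn (τ := |τ|) (by rwa [abs_abs]) θ θ'
      rwa [abs_abs] at this
    refine h2.trans ?_
    have h5 : 4 ^ (cc n) ≤ (4 ^ (cc n) + Real.exp (cc n)) * δ ^ (-((n : ℝ) - 2)) := by
      have := Real.exp_pos (cc n)
      nlinarith
    exact mul_le_mul_of_nonneg_right h5 (Real.exp_pos _).le
  · have h2 : kk (max δ |τ|) θ θ' ≤ kk δ θ θ' := by
      refine kk_anti hn ?_ (base_pos_of_ne h0.ne' θ θ')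
      rw [abs_of_pos h0, abs_of_pos (lt_max_of_lt_left h0)]
      exact le_max_left _ _
    refine h2.trans ((kk_le_rpow hn h0 θ θ').trans ?_)
    have h5 : 1 ≤ Real.exp (cc n) * Real.exp (-(cc n) * |τ|) := by
      rw [← Real.exp_add]
      refine Real.one_le_exp ?_
      nlinarith
    have h6 : 0 < δ ^ (-((n : ℝ) - 2)) := lt_of_lt_of_le one_pos hd1
    have h7 := Real.exp_pos (-(cc n) * |τ|)
    calc δ ^ (-((n : ℝ) - 2)) = δ ^ (-((n : ℝ) - 2)) * 1 := (mul_one _).symm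
      _ ≤ δ ^ (-((n : ℝ) - 2)) * (Real.exp (cc n) * Real.exp (-(cc n) * |τ|)) :=
          mul_le_mul_of_nonneg_left h5 h6.le
      _ ≤ δ ^ (-((n : ℝ) - 2)) * ((4 ^ (cc n) + Real.exp (cc n)) * Real.exp (-(cc n) * |τ|)) := by
          refine mul_le_mul_of_nonneg_left ?_ h6.le
          refine mul_le_mul_of_nonneg_right ?_ h7.le
          linarith
      _ = _ := by ring

/-- the inner integral over `ρ` -/
theorem inner_rho (hn : 3 ≤ n) {δ : ℝ} (h0 : 0 < δ) (h1 : δ ≤ 1) (t s : ℝ) (θ θ' : Sph n) :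
    ∫⁻ ρ in Ioi δ, ENNReal.ofReal (HH ρ θ θ') * (Ioo (t - ρ) (t + ρ)).indicator (fun _ => 1) s
      ≤ ENNReal.ofReal ((4 ^ (cc n) + Real.exp (cc n)) * δ ^ (-((n : ℝ) - 2)) *
        Real.exp (-(cc n) * |t - s|)) := by
  have hpos : 0 < max δ |t - s| := lt_max_of_lt_left h0
  have h2 : ∫⁻ ρ in Ioi δ, ENNReal.ofReal (HH ρ θ θ') * (Ioo (t - ρ) (t + ρ)).indicator (fun _ => 1) s
      ≤ ∫⁻ ρ in Ioi (max δ |t - s|), ENNReal.ofReal (HH ρ θ θ') := by
    rw [← lintegral_indicator measurableSet_Ioi, ← lintegral_indicator measurableSet_Ioi]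
    refine lintegral_mono fun ρ => ?_
    by_cases hρ : ρ ∈ Ioi δ
    · rw [indicator_of_mem hρ]
      by_cases hs : s ∈ Ioo (t - ρ) (t + ρ)
      · rw [indicator_of_mem hs, mul_one, indicator_of_mem]
        refine mem_Ioi.2 (max_lt hρ ?_)
        rw [abs_lt]
        constructor <;> linarith [hs.1, hs.2]
      · rw [indicator_of_notMem hs, mul_zero]; exact zero_le
    · rw [indicator_of_notMem hρ]; exact zero_le
  refine h2.trans ?_
  rw [lintegral_HH hn hpos.le (base_pos_of_ne hpos.ne' θ θ')]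
  exact ENNReal.ofReal_le_ofReal (kk_max_le hn h0 h1 (t - s) θ θ')

/-- fixed angles -/
theorem far_angles (hn : 3 ≤ n) {f g : ℝ → ℝ≥0∞} (hf : Measurable f) (hg : Measurable g)
    {δ : ℝ} (h0 : 0 < δ) (h1 : δ ≤ 1) (θ θ' : Sph n) :
    ∫⁻ ρ in Ioi δ, ENNReal.ofReal (HH ρ θ θ') * ∫⁻ t, f t * ∫⁻ s in Ioo (t - ρ) (t + ρ), g s
      ≤ ∫⁻ t, ∫⁻ s, f t * g s * ENNReal.ofReal ((4 ^ (cc n) + Real.exp (cc n)) *
          δ ^ (-((n : ℝ) - 2)) * Real.exp (-(cc n) * |t - s|)) := by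
  have hH : Measurable fun ρ : ℝ => ENNReal.ofReal (HH ρ θ θ') := by
    have := (measurable_HH (n := n)).comp
      (measurable_id.prodMk (measurable_const (a := (θ, θ'))) : Measurable fun ρ : ℝ => (ρ, (θ, θ')))
    exact this.ennreal_ofReal
  -- joint measurability of the indicator
  have hind : Measurable fun z : ℝ × ℝ × ℝ =>
      (Ioo (z.2.1 - z.1) (z.2.1 + z.1)).indicator (fun _ => (1 : ℝ≥0∞)) z.2.2 := by
    have hset : MeasurableSet {z : ℝ × ℝ × ℝ | z.2.1 - z.1 < z.2.2 ∧ z.2.2 < z.2.1 + z.1} := by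
      have m1 : Measurable fun z : ℝ × ℝ × ℝ => z.2.1 - z.1 := by fun_prop
      have m2 : Measurable fun z : ℝ × ℝ × ℝ => z.2.2 := by fun_prop
      have m3 : Measurable fun z : ℝ × ℝ × ℝ => z.2.1 + z.1 := by fun_prop
      exact (measurableSet_lt m1 m2).inter (measurableSet_lt m2 m3)
    have : (fun z : ℝ × ℝ × ℝ =>
        (Ioo (z.2.1 - z.1) (z.2.1 + z.1)).indicator (fun _ => (1 : ℝ≥0∞)) z.2.2)
        = {z : ℝ × ℝ × ℝ | z.2.1 - z.1 < z.2.2 ∧ z.2.2 < z.2.1 + z.1}.indicator (fun _ => 1) := by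
      funext z
      by_cases hz : z.2.1 - z.1 < z.2.2 ∧ z.2.2 < z.2.1 + z.1
      · rw [indicator_of_mem (show z.2.2 ∈ Ioo (z.2.1 - z.1) (z.2.1 + z.1) from hz),
          indicator_of_mem (show z ∈ {z : ℝ × ℝ × ℝ | z.2.1 - z.1 < z.2.2 ∧ z.2.2 < z.2.1 + z.1}
            from hz)]
      · rw [indicator_of_notMem (show z.2.2 ∉ Ioo (z.2.1 - z.1) (z.2.1 + z.1) from hz),
          indicator_of_notMem (show z ∉ {z : ℝ × ℝ × ℝ | z.2.1 - z.1 < z.2.2 ∧ z.2.2 < z.2.1 + z.1}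
            from hz)]
    rw [this]
    exact measurable_const.indicator hset
  have hK : Measurable fun z : ℝ × ℝ × ℝ => f z.2.1 * g z.2.2 * (ENNReal.ofReal (HH z.1 θ θ') *
      (Ioo (z.2.1 - z.1) (z.2.1 + z.1)).indicator (fun _ => (1 : ℝ≥0∞)) z.2.2) :=
    ((hf.comp (by fun_prop)).mul (hg.comp (by fun_prop))).mul
      ((hH.comp measurable_fst).mul hind)
  have step1 : ∀ ρ : ℝ, ENNReal.ofReal (HH ρ θ θ') *
      ∫⁻ t, f t * ∫⁻ s in Ioo (t - ρ) (t + ρ), g s
      = ∫⁻ t, ∫⁻ s, f t * g s * (ENNReal.ofReal (HH ρ θ θ') *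
          (Ioo (t - ρ) (t + ρ)).indicator (fun _ => (1 : ℝ≥0∞)) s) := by
    intro ρ
    rw [← lintegral_const_mul' _ _ ENNReal.ofReal_ne_top]
    refine lintegral_congr fun t => ?_
    have hm : Measurable fun s => (Ioo (t - ρ) (t + ρ)).indicator g s := hg.indicator measurableSet_Ioo
    rw [← lintegral_indicator measurableSet_Ioo, ← lintegral_const_mul _ hm,
      ← lintegral_const_mul _ (hm.const_mul _)]
    refine lintegral_congr fun s => ?_
    by_cases hs : s ∈ Ioo (t - ρ) (t + ρ)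
    · rw [indicator_of_mem hs, indicator_of_mem hs]; ring
    · rw [indicator_of_notMem hs, indicator_of_notMem hs]; ring
  calc ∫⁻ ρ in Ioi δ, ENNReal.ofReal (HH ρ θ θ') * ∫⁻ t, f t * ∫⁻ s in Ioo (t - ρ) (t + ρ), g s
      = ∫⁻ ρ in Ioi δ, ∫⁻ t, ∫⁻ s, f t * g s * (ENNReal.ofReal (HH ρ θ θ') *
          (Ioo (t - ρ) (t + ρ)).indicator (fun _ => (1 : ℝ≥0∞)) s) :=
        lintegral_congr fun ρ => step1 ρ
    _ = ∫⁻ t, ∫⁻ ρ in Ioi δ, ∫⁻ s, f t * g s * (ENNReal.ofReal (HH ρ θ θ') *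
          (Ioo (t - ρ) (t + ρ)).indicator (fun _ => (1 : ℝ≥0∞)) s) := by
        refine lintegral_lintegral_swap ?_
        have h3 : Measurable fun z : ℝ × ℝ => ∫⁻ s, f z.2 * g s * (ENNReal.ofReal (HH z.1 θ θ') *
          (Ioo (z.2 - z.1) (z.2 + z.1)).indicator (fun _ => (1 : ℝ≥0∞)) s) := by
          have h4 : Measurable fun z : (ℝ × ℝ) × ℝ => f z.1.2 * g z.2 * (ENNReal.ofReal (HH z.1.1 θ θ') *
              (Ioo (z.1.2 - z.1.1) (z.1.2 + z.1.1)).indicator (fun _ => (1 : ℝ≥0∞)) z.2) :=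
            hK.comp (show Measurable fun z : (ℝ × ℝ) × ℝ => (z.1.1, z.1.2, z.2) by fun_prop)
          exact h4.lintegral_prod_right'
        exact h3.aemeasurable
    _ = ∫⁻ t, ∫⁻ s, ∫⁻ ρ in Ioi δ, f t * g s * (ENNReal.ofReal (HH ρ θ θ') *
          (Ioo (t - ρ) (t + ρ)).indicator (fun _ => (1 : ℝ≥0∞)) s) := by
        refine lintegral_congr fun t => ?_
        refine lintegral_lintegral_swap ?_
        have h4 : Measurable fun z : ℝ × ℝ => f t * g z.2 * (ENNReal.ofReal (HH z.1 θ θ') *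
              (Ioo (t - z.1) (t + z.1)).indicator (fun _ => (1 : ℝ≥0∞)) z.2) :=
            hK.comp (show Measurable fun z : ℝ × ℝ => (z.1, t, z.2) by fun_prop)
        exact h4.aemeasurable
    _ ≤ _ := by
        refine lintegral_mono fun t => lintegral_mono fun s => ?_
        have h5 : Measurable fun ρ : ℝ => ENNReal.ofReal (HH ρ θ θ') *
            (Ioo (t - ρ) (t + ρ)).indicator (fun _ => (1 : ℝ≥0∞)) s :=
          hH.mul (hind.comp (show Measurable fun ρ : ℝ => (ρ, t, s) by fun_prop))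
        rw [lintegral_const_mul _ h5]
        exact mul_le_mul_right (inner_rho hn h0 h1 t s θ θ') _

/-- the far energy on the cylinder -/
theorem far_of (hn : 3 ≤ n) {F G : ℝ → Sph n → ℝ≥0∞} (hF : Measurable (Function.uncurry F))
    (hG : Measurable (Function.uncurry G)) {δ : ℝ} (h0 : 0 < δ) (h1 : δ ≤ 1) :
    ∫⁻ θ, (∫⁻ θ', (∫⁻ ρ in Ioi δ, ENNReal.ofReal (HH ρ θ θ') *
        ∫⁻ t, F t θ * ∫⁻ s in Ioo (t - ρ) (t + ρ), G s θ') ∂(sph n)) ∂(sph n)
      ≤ ENNReal.ofReal ((4 ^ (cc n) + Real.exp (cc n)) * δ ^ (-((n : ℝ) - 2))) *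
        ∫⁻ t, ∫⁻ θ, (∫⁻ s, ∫⁻ θ', F t θ * G s θ' *
          ENNReal.ofReal (Real.exp (-(cc n) * |t - s|)) ∂(sph n)) ∂(sph n) := by
  have hFθ : ∀ θ, Measurable fun t => F t θ := fun θ =>
    hF.comp (show Measurable fun t : ℝ => (t, θ) by fun_prop)
  have hGθ : ∀ θ, Measurable fun t => G t θ := fun θ =>
    hG.comp (show Measurable fun t : ℝ => (t, θ) by fun_prop)
  have hE : Measurable fun z : ℝ × ℝ => ENNReal.ofReal (Real.exp (-(cc n) * |z.1 - z.2|)) := by
    fun_prop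
  have hC : 0 ≤ (4 ^ (cc n) + Real.exp (cc n)) * δ ^ (-((n : ℝ) - 2)) := by
    have := Real.exp_pos (cc n)
    positivity
  -- the four variable function
  have hM : Measurable fun z : (ℝ × Sph n) × (ℝ × Sph n) => F z.1.1 z.1.2 * G z.2.1 z.2.2 *
      ENNReal.ofReal (Real.exp (-(cc n) * |z.1.1 - z.2.1|)) :=
    ((hF.comp (show Measurable fun z : (ℝ × Sph n) × (ℝ × Sph n) => (z.1.1, z.1.2) by fun_prop)).mul
      (hG.comp (show Measurable fun z : (ℝ × Sph n) × (ℝ × Sph n) => (z.2.1, z.2.2) by fun_prop))).mul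
      (hE.comp (show Measurable fun z : (ℝ × Sph n) × (ℝ × Sph n) => (z.1.1, z.2.1) by fun_prop))
  calc ∫⁻ θ, (∫⁻ θ', (∫⁻ ρ in Ioi δ, ENNReal.ofReal (HH ρ θ θ') *
        ∫⁻ t, F t θ * ∫⁻ s in Ioo (t - ρ) (t + ρ), G s θ') ∂(sph n)) ∂(sph n)
      ≤ ∫⁻ θ, (∫⁻ θ', (∫⁻ t, ∫⁻ s, F t θ * G s θ' *
          ENNReal.ofReal ((4 ^ (cc n) + Real.exp (cc n)) *
          δ ^ (-((n : ℝ) - 2)) * Real.exp (-(cc n) * |t - s|))) ∂(sph n)) ∂(sph n) :=
        lintegral_mono fun θ => lintegral_mono fun θ' =>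
          far_angles hn (hFθ θ) (hGθ θ') h0 h1 θ θ'
    _ = ∫⁻ θ, (∫⁻ θ', (ENNReal.ofReal ((4 ^ (cc n) + Real.exp (cc n)) * δ ^ (-((n : ℝ) - 2))) *
          ∫⁻ t, ∫⁻ s, F t θ * G s θ' *
            ENNReal.ofReal (Real.exp (-(cc n) * |t - s|))) ∂(sph n)) ∂(sph n) := by
        refine lintegral_congr fun θ => lintegral_congr fun θ' => ?_
        rw [← lintegral_const_mul' _ _ ENNReal.ofReal_ne_top]
        refine lintegral_congr fun t => ?_
        rw [← lintegral_const_mul' _ _ ENNReal.ofReal_ne_top]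
        refine lintegral_congr fun s => ?_
        rw [ENNReal.ofReal_mul hC]
        ring
    _ = ENNReal.ofReal ((4 ^ (cc n) + Real.exp (cc n)) * δ ^ (-((n : ℝ) - 2))) *
          ∫⁻ θ, (∫⁻ θ', (∫⁻ t, ∫⁻ s, F t θ * G s θ' *
            ENNReal.ofReal (Real.exp (-(cc n) * |t - s|))) ∂(sph n)) ∂(sph n) := by
        rw [← lintegral_const_mul' _ _ ENNReal.ofReal_ne_top]
        refine lintegral_congr fun θ => ?_
        rw [← lintegral_const_mul' _ _ ENNReal.ofReal_ne_top]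
    _ = _ := by
        congr 1
        have e1 : ∀ θ, ∫⁻ θ', (∫⁻ t, ∫⁻ s, F t θ * G s θ' *
            ENNReal.ofReal (Real.exp (-(cc n) * |t - s|))) ∂(sph n)
            = ∫⁻ t, (∫⁻ θ', (∫⁻ s, F t θ * G s θ' *
            ENNReal.ofReal (Real.exp (-(cc n) * |t - s|))) ∂(sph n)) := by
          intro θ
          refine lintegral_lintegral_swap ?_
          have h4 : Measurable fun z : (Sph n × ℝ) × ℝ => F z.1.2 θ * G z.2 z.1.1 *
              ENNReal.ofReal (Real.exp (-(cc n) * |z.1.2 - z.2|)) :=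
            hM.comp (show Measurable fun z : (Sph n × ℝ) × ℝ => ((z.1.2, θ), (z.2, z.1.1)) by fun_prop)
          exact h4.lintegral_prod_right'.aemeasurable
        have e2 : ∀ θ t, ∫⁻ θ', (∫⁻ s, F t θ * G s θ' *
            ENNReal.ofReal (Real.exp (-(cc n) * |t - s|))) ∂(sph n)
            = ∫⁻ s, ∫⁻ θ', F t θ * G s θ' *
            ENNReal.ofReal (Real.exp (-(cc n) * |t - s|)) ∂(sph n) := by
          intro θ t
          refine lintegral_lintegral_swap ?_
          have h4 : Measurable fun z : Sph n × ℝ => F t θ * G z.2 z.1 *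
              ENNReal.ofReal (Real.exp (-(cc n) * |t - z.2|)) :=
            hM.comp (show Measurable fun z : Sph n × ℝ => ((t, θ), (z.2, z.1)) by fun_prop)
          exact h4.aemeasurable
        have e3 : ∫⁻ θ, (∫⁻ t, (∫⁻ s, ∫⁻ θ', F t θ * G s θ' *
            ENNReal.ofReal (Real.exp (-(cc n) * |t - s|)) ∂(sph n))) ∂(sph n)
            = ∫⁻ t, (∫⁻ θ, (∫⁻ s, ∫⁻ θ', F t θ * G s θ' *
            ENNReal.ofReal (Real.exp (-(cc n) * |t - s|)) ∂(sph n)) ∂(sph n)) := by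
          refine lintegral_lintegral_swap ?_
          have h4 : Measurable fun z : (Sph n × ℝ) × ℝ × Sph n => F z.1.2 z.1.1 * G z.2.1 z.2.2 *
              ENNReal.ofReal (Real.exp (-(cc n) * |z.1.2 - z.2.1|)) :=
            hM.comp (show Measurable fun z : (Sph n × ℝ) × ℝ × Sph n =>
              ((z.1.2, z.1.1), (z.2.1, z.2.2)) by fun_prop)
          have h5 : Measurable fun z : ((Sph n × ℝ) × ℝ) × Sph n => F z.1.1.2 z.1.1.1 * G z.1.2 z.2 *
              ENNReal.ofReal (Real.exp (-(cc n) * |z.1.1.2 - z.1.2|)) :=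
            h4.comp (show Measurable fun z : ((Sph n × ℝ) × ℝ) × Sph n =>
              (z.1.1, (z.1.2, z.2)) by fun_prop)
          exact (h5.lintegral_prod_right' (ν := sph n)).lintegral_prod_right'.aemeasurable
        rw [← e3]
        refine lintegral_congr fun θ => ?_
        rw [e1 θ]
        exact lintegral_congr fun t => e2 θ t

/-- exchange of the order of integration on the cylinder -/
theorem cyl_swap (hn1 : 1 ≤ n) {g : EuclideanSpace ℝ (Fin n) → ℝ≥0∞} (hg : Measurable g) (T : ℝ) :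
    ∫⁻ θ, (∫⁻ t in Iic T, ENNReal.ofReal (Real.exp ((n : ℝ) * t)) *
        g (Real.exp t • (θ : EuclideanSpace ℝ (Fin n)))) ∂(sph n)
      = ∫⁻ t in Iic T, ∫⁻ θ, ENNReal.ofReal (Real.exp ((n : ℝ) * t)) *
        g (Real.exp t • (θ : EuclideanSpace ℝ (Fin n))) ∂(sph n) := by
  refine lintegral_lintegral_swap ?_
  have h0 : Measurable fun z : ℝ × Sph n => g (Real.exp z.1 • (z.2 : EuclideanSpace ℝ (Fin n))) :=
    meas_cyl hn1 hg
  have h2 : Measurable fun z : Sph n × ℝ => ENNReal.ofReal (Real.exp ((n : ℝ) * z.2)) := by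
    fun_prop
  exact (h2.mul (h0.comp measurable_swap)).aemeasurable

/-- finiteness of the local energy on the cylinder -/
theorem fin_of {p q A B κ : ℝ} {u v : EuclideanSpace ℝ (Fin n) → ℝ}
    (h : Mass.Sup n p q A B κ u v) (T : ℝ) :
    ∫⁻ θ, (∫⁻ t in Iic T, ENNReal.ofReal (Real.exp ((cc n + 2 + A - p * cc n) * t) *
      (Real.exp (cc n * t) * v (Real.exp t • (θ : EuclideanSpace ℝ (Fin n)))) ^ p *
      (Real.exp (cc n * t) * v (Real.exp t • (θ : EuclideanSpace ℝ (Fin n)))))) ∂(sph n) ≠ ∞ := by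
  have hn1 : 1 ≤ n := by have := h.hn; omega
  set g : EuclideanSpace ℝ (Fin n) → ℝ≥0∞ :=
    fun x => ENNReal.ofReal (Mass.den A p v x * v x) with hg
  have hgm : Measurable g := ((Mass.den_measurable h.hv).mul h.hv.measurable).ennreal_ofReal
  have hle : ∫⁻ x in {x : EuclideanSpace ℝ (Fin n) | ‖x‖ ∈ Iic (Real.exp T)}, g x < ∞ := by
    refine lt_of_le_of_lt (lintegral_mono_set ?_) (Mass.local_energy h h.hv (Real.exp T + 1))
    intro x hx
    have hx' : ‖x‖ ≤ Real.exp T := hx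
    simp only [Metric.mem_ball, dist_zero_right]
    linarith
  rw [setLIntegral_cyl hn1 hgm measurableSet_Iic] at hle
  have hpre : Real.exp ⁻¹' (Iic (Real.exp T)) = Iic T := by
    ext t; simp
  rw [hpre] at hle
  have hpt : ∀ (t : ℝ) (θ : Sph n), ENNReal.ofReal (Real.exp ((cc n + 2 + A - p * cc n) * t) *
      (Real.exp (cc n * t) * v (Real.exp t • (θ : EuclideanSpace ℝ (Fin n)))) ^ p *
      (Real.exp (cc n * t) * v (Real.exp t • (θ : EuclideanSpace ℝ (Fin n)))))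
      = ENNReal.ofReal (Real.exp ((n : ℝ) * t)) * g (Real.exp t • (θ : EuclideanSpace ℝ (Fin n))) := by
    intro t θ
    rw [hg, ← ENNReal.ofReal_mul (Real.exp_pos _).le]
    congr 1
    have hv0 := h.hv0 (Real.exp t • (θ : EuclideanSpace ℝ (Fin n)))
    rw [Mass.den, norm_cyl, Real.mul_rpow (Real.exp_pos _).le hv0.le, ← Real.exp_mul,
      ← Real.exp_mul]
    have e1 : Real.exp ((cc n + 2 + A - p * cc n) * t) * Real.exp (cc n * t * p) *
        Real.exp (cc n * t) = Real.exp ((n : ℝ) * t) * Real.exp (t * A) := by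
      rw [← Real.exp_add, ← Real.exp_add, ← Real.exp_add]
      congr 1
      unfold cc
      ring
    calc Real.exp ((cc n + 2 + A - p * cc n) * t) * (Real.exp (cc n * t * p) *
          v (Real.exp t • (θ : EuclideanSpace ℝ (Fin n))) ^ p) *
          (Real.exp (cc n * t) * v (Real.exp t • (θ : EuclideanSpace ℝ (Fin n))))
        = (Real.exp ((cc n + 2 + A - p * cc n) * t) * Real.exp (cc n * t * p) *
          Real.exp (cc n * t)) * (v (Real.exp t • (θ : EuclideanSpace ℝ (Fin n))) ^ p *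
          v (Real.exp t • (θ : EuclideanSpace ℝ (Fin n)))) := by ring
      _ = _ := by rw [e1]; ring
  have hgo : ∀ θ : Sph n, (∫⁻ t in Iic T, ENNReal.ofReal (Real.exp ((cc n + 2 + A - p * cc n) * t) *
      (Real.exp (cc n * t) * v (Real.exp t • (θ : EuclideanSpace ℝ (Fin n)))) ^ p *
      (Real.exp (cc n * t) * v (Real.exp t • (θ : EuclideanSpace ℝ (Fin n))))))
      = ∫⁻ t in Iic T, ENNReal.ofReal (Real.exp ((n : ℝ) * t)) *
        g (Real.exp t • (θ : EuclideanSpace ℝ (Fin n))) := fun θ => lintegral_congr fun t => hpt t θ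
  rw [lintegral_congr hgo, cyl_swap hn1 hgm T]
  exact hle.ne

end Crest.Agent.R077.Kern
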