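import Crest.Agent.R077.Kern2

/-! Row 77: absolute convergence of the force (K6). -/

set_option autoImplicit false

open MeasureTheory Set Filter Topology
open scoped ENNReal RealInnerProductSpace

namespace Crest.Agent.R077.Kern

variable {n : ℕ}

theorem int_of (hn : 3 ≤ n) {F G : ℝ → Sph n → ℝ≥0∞} (hF : Measurable (Function.uncurry F))
    (hG : Measurable (Function.uncurry G))
    (hFint : ∀ T : ℝ, ∃ C : ℝ≥0∞, C ≠ ⊤ ∧ ∀ θ, ∫⁻ t in Iic T, F t θ ≤ C)
    (hGbd : ∀ T : ℝ, ∃ C : ℝ≥0∞, C ≠ ⊤ ∧ ∀ θ, ∀ t, t ≤ T → G t θ ≤ C)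
    (hfar : ∫⁻ t, ∫⁻ θ, (∫⁻ s, ∫⁻ θ2, F t θ * G s θ2 *
      ENNReal.ofReal (Real.exp (-(cc n) * |t - s|)) ∂(sph n)) ∂(sph n) < ⊤) (T : ℝ) :
    ∫⁻ θ, (∫⁻ θ2, (∫⁻ ρ in Ioi (0 : ℝ), ENNReal.ofReal (HH ρ θ θ2) *
      ∫⁻ t in Iic T, F t θ * (G (t + ρ) θ2 + G (t - ρ) θ2)) ∂(sph n)) ∂(sph n) ≠ ⊤ := by
  obtain ⟨CF, hCF, hCF'⟩ := hFint T
  obtain ⟨CG, hCG, hCG'⟩ := hGbd (T + 1)
  obtain ⟨CB, hCB, hCB'⟩ := exists_lintegral_base_le hn
  have hc := cc_pos hn
  set Ce : ℝ≥0∞ := ENNReal.ofReal (cc n * 4 ^ (cc n + 1)) with hCe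
  set N : Sph n → Sph n → ℝ≥0∞ := fun θ θ2 => (ENNReal.ofReal (4 * cc n) * (CF * (CG + CG))) *
    ∫⁻ ρ in Ioo (-1 : ℝ) 1, ENNReal.ofReal ((base ρ θ θ2) ^ (-(((n : ℝ) - 1) / 2))) with hN
  set K : ℝ → Sph n → ℝ → Sph n → ℝ≥0∞ := fun t θ s θ2 => F t θ * G s θ2 *
      ENNReal.ofReal (Real.exp (-(cc n) * |t - s|)) with hK
  set Fa : Sph n → Sph n → ℝ≥0∞ := fun θ θ2 => (Ce * 2) * ∫⁻ t, ∫⁻ s, K t θ s θ2 with hFa
  -- measurability of `K`
  have hKm : Measurable fun p : (ℝ × Sph n) × (ℝ × Sph n) => K p.1.1 p.1.2 p.2.1 p.2.2 := by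
    rw [hK]
    refine Measurable.mul (Measurable.mul ?_ ?_) ?_
    · exact hF.comp measurable_fst
    · exact hG.comp measurable_snd
    · fun_prop
  -- pointwise bound
  have key : ∀ θ θ2 : Sph n, (∫⁻ ρ in Ioi (0 : ℝ), ENNReal.ofReal (HH ρ θ θ2) *
      ∫⁻ t in Iic T, F t θ * (G (t + ρ) θ2 + G (t - ρ) θ2)) ≤ N θ θ2 + Fa θ θ2 := by
    intro θ θ2
    have hsplit : Ioi (0 : ℝ) = Ioo 0 1 ∪ Ici 1 := by
      rw [Ioo_union_Ici_eq_Ioi zero_lt_one]
    rw [hsplit]
    refine (lintegral_union_le _ _ _).trans (add_le_add ?_ ?_)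
    · -- near
      have h1 : ∀ ρ ∈ Ioo (0 : ℝ) 1, ENNReal.ofReal (HH ρ θ θ2) *
          ∫⁻ t in Iic T, F t θ * (G (t + ρ) θ2 + G (t - ρ) θ2) ≤
          (ENNReal.ofReal (4 * cc n) * (CF * (CG + CG))) *
            ENNReal.ofReal ((base ρ θ θ2) ^ (-(((n : ℝ) - 1) / 2))) := by
        intro ρ hρ
        have h2 : ∫⁻ t in Iic T, F t θ * (G (t + ρ) θ2 + G (t - ρ) θ2) ≤ CF * (CG + CG) := by
          calc ∫⁻ t in Iic T, F t θ * (G (t + ρ) θ2 + G (t - ρ) θ2)
              ≤ ∫⁻ t in Iic T, F t θ * (CG + CG) := by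
                refine setLIntegral_mono' measurableSet_Iic fun t ht => ?_
                have ht' : t ≤ T := ht
                gcongr
                · exact hCG' θ2 _ (by linarith [hρ.2])
                · exact hCG' θ2 _ (by linarith [hρ.1])
            _ = (∫⁻ t in Iic T, F t θ) * (CG + CG) :=
                lintegral_mul_const' _ _ (ENNReal.add_ne_top.2 ⟨hCG, hCG⟩)
            _ ≤ _ := by gcongr; exact hCF' θ
        have h3 : ENNReal.ofReal (HH ρ θ θ2) ≤ ENNReal.ofReal (4 * cc n) *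
            ENNReal.ofReal ((base ρ θ θ2) ^ (-(((n : ℝ) - 1) / 2))) := by
          rw [← ENNReal.ofReal_mul (by positivity)]
          exact ENNReal.ofReal_le_ofReal (HH_le_base hn hρ.1 hρ.2.le θ θ2)
        calc _ ≤ (ENNReal.ofReal (4 * cc n) *
              ENNReal.ofReal ((base ρ θ θ2) ^ (-(((n : ℝ) - 1) / 2)))) * (CF * (CG + CG)) :=
              mul_le_mul' h3 h2
          _ = _ := by ring
      calc _ ≤ ∫⁻ ρ in Ioo (0 : ℝ) 1, (ENNReal.ofReal (4 * cc n) * (CF * (CG + CG))) *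
            ENNReal.ofReal ((base ρ θ θ2) ^ (-(((n : ℝ) - 1) / 2))) :=
            setLIntegral_mono' measurableSet_Ioo h1
        _ = (ENNReal.ofReal (4 * cc n) * (CF * (CG + CG))) * ∫⁻ ρ in Ioo (0 : ℝ) 1,
            ENNReal.ofReal ((base ρ θ θ2) ^ (-(((n : ℝ) - 1) / 2))) :=
            lintegral_const_mul' _ _ (ENNReal.mul_ne_top ENNReal.ofReal_ne_top
              (ENNReal.mul_ne_top hCF (ENNReal.add_ne_top.2 ⟨hCG, hCG⟩)))
        _ ≤ _ := by
            rw [hN]
            simp only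
            gcongr
            norm_num
    · -- far
      have h1 : ∀ ρ ∈ Ici (1 : ℝ), ENNReal.ofReal (HH ρ θ θ2) *
          ∫⁻ t in Iic T, F t θ * (G (t + ρ) θ2 + G (t - ρ) θ2) ≤
          Ce * ∫⁻ t, (F t θ * G (t + ρ) θ2 * ENNReal.ofReal (Real.exp (-(cc n) * |ρ|)) +
            F t θ * G (t - ρ) θ2 * ENNReal.ofReal (Real.exp (-(cc n) * |ρ|))) := by
        intro ρ hρ
        have hρ' : |ρ| = ρ := abs_of_pos (lt_of_lt_of_le one_pos hρ)
        have h3 : ENNReal.ofReal (HH ρ θ θ2) ≤ Ce *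
            ENNReal.ofReal (Real.exp (-(cc n) * |ρ|)) := by
          rw [hCe, ← ENNReal.ofReal_mul (by positivity), hρ']
          exact ENNReal.ofReal_le_ofReal (HH_le_exp hn hρ θ θ2)
        calc _ ≤ (Ce * ENNReal.ofReal (Real.exp (-(cc n) * |ρ|))) *
              ∫⁻ t, F t θ * (G (t + ρ) θ2 + G (t - ρ) θ2) :=
              mul_le_mul' h3 (setLIntegral_le_lintegral _ _)
          _ = Ce * ∫⁻ t, ENNReal.ofReal (Real.exp (-(cc n) * |ρ|)) *
                (F t θ * (G (t + ρ) θ2 + G (t - ρ) θ2)) := by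
              rw [mul_assoc, ← lintegral_const_mul' _ _ ENNReal.ofReal_ne_top]
          _ = _ := by
              congr 1
              refine lintegral_congr fun t => ?_
              ring
      have hmF : Measurable fun p : ℝ × ℝ => F p.2 θ := hF.comp (by fun_prop :
        Measurable fun p : ℝ × ℝ => (p.2, θ))
      have hmG : Measurable fun p : ℝ × ℝ => G (p.2 + p.1) θ2 := hG.comp (by fun_prop :
        Measurable fun p : ℝ × ℝ => (p.2 + p.1, θ2))
      have hmG' : Measurable fun p : ℝ × ℝ => G (p.2 - p.1) θ2 := hG.comp (by fun_prop :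
        Measurable fun p : ℝ × ℝ => (p.2 - p.1, θ2))
      have hme : Measurable fun p : ℝ × ℝ => ENNReal.ofReal (Real.exp (-(cc n) * |p.1|)) := by
        fun_prop
      calc _ ≤ ∫⁻ ρ in Ici (1 : ℝ), Ce *
            ∫⁻ t, (F t θ * G (t + ρ) θ2 * ENNReal.ofReal (Real.exp (-(cc n) * |ρ|)) +
            F t θ * G (t - ρ) θ2 * ENNReal.ofReal (Real.exp (-(cc n) * |ρ|))) :=
            setLIntegral_mono' measurableSet_Ici h1
        _ ≤ ∫⁻ ρ, Ce *
            ∫⁻ t, (F t θ * G (t + ρ) θ2 * ENNReal.ofReal (Real.exp (-(cc n) * |ρ|)) +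
            F t θ * G (t - ρ) θ2 * ENNReal.ofReal (Real.exp (-(cc n) * |ρ|))) :=
            setLIntegral_le_lintegral _ _
        _ = Ce * ∫⁻ ρ, 
            ∫⁻ t, (F t θ * G (t + ρ) θ2 * ENNReal.ofReal (Real.exp (-(cc n) * |ρ|)) +
            F t θ * G (t - ρ) θ2 * ENNReal.ofReal (Real.exp (-(cc n) * |ρ|))) :=
            lintegral_const_mul' _ _ ENNReal.ofReal_ne_top
        _ = Ce * ∫⁻ t, 
            ∫⁻ ρ, (F t θ * G (t + ρ) θ2 * ENNReal.ofReal (Real.exp (-(cc n) * |ρ|)) +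
            F t θ * G (t - ρ) θ2 * ENNReal.ofReal (Real.exp (-(cc n) * |ρ|))) := by
            rw [lintegral_lintegral_swap]
            exact (((hmF.mul hmG).mul hme).add ((hmF.mul hmG').mul hme)).aemeasurable
        _ = Ce * ∫⁻ t, (2 * ∫⁻ s, K t θ s θ2) := by
            congr 1
            refine lintegral_congr fun t => ?_
            have hm1 : Measurable fun ρ : ℝ => F t θ * G (t + ρ) θ2 *
                ENNReal.ofReal (Real.exp (-(cc n) * |ρ|)) := by
              have : Measurable fun ρ : ℝ => G (t + ρ) θ2 := hG.comp (by fun_prop :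
                Measurable fun ρ : ℝ => (t + ρ, θ2))
              fun_prop
            rw [lintegral_add_left hm1, two_mul]
            have hKe : ∀ s, K t θ s θ2 = F t θ * G s θ2 *
              ENNReal.ofReal (Real.exp (-(cc n) * |t - s|)) := fun s => rfl
            congr 1
            · have := lintegral_add_left_eq_self (μ := (volume : Measure ℝ))
                (fun s => K t θ s θ2) t
              rw [← this]
              refine lintegral_congr fun ρ => ?_
              rw [hKe]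
              congr 4
              rw [show t - (t + ρ) = -ρ by ring, abs_neg]
            · have := lintegral_sub_left_eq_self (μ := (volume : Measure ℝ))
                (fun s => K t θ s θ2) t
              rw [← this]
              refine lintegral_congr fun ρ => ?_
              rw [hKe]
              congr 4
              rw [show t - (t - ρ) = ρ by ring]
        _ = Ce * (2 * ∫⁻ t, ∫⁻ s, K t θ s θ2) := by
            rw [lintegral_const_mul' _ _ (by norm_num)]
        _ = _ := by rw [hFa]; ring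
  -- integrate
  have hNint : ∫⁻ θ, ∫⁻ θ2, N θ θ2 ∂(sph n) ∂(sph n) ≤
      ((ENNReal.ofReal (4 * cc n) * (CF * (CG + CG))) * CB) * (sph n) univ := by
    rw [← lintegral_const]
    refine lintegral_mono fun θ => ?_
    rw [hN]
    simp only
    rw [lintegral_const_mul' _ _ (ENNReal.mul_ne_top ENNReal.ofReal_ne_top
              (ENNReal.mul_ne_top hCF (ENNReal.add_ne_top.2 ⟨hCG, hCG⟩)))]
    gcongr
    have hm : Measurable fun p : Sph n × ℝ =>
        ENNReal.ofReal ((base p.2 θ p.1) ^ (-(((n : ℝ) - 1) / 2))) := by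
      apply ENNReal.measurable_ofReal.comp
      apply Measurable.pow_const
      exact (continuous_base.comp (by fun_prop : Continuous fun p : Sph n × ℝ =>
        (p.2, θ, p.1))).measurable
    rw [lintegral_lintegral_swap hm.aemeasurable]
    exact hCB' θ
  have hFaint : ∫⁻ θ, ∫⁻ θ2, Fa θ θ2 ∂(sph n) ∂(sph n) = (Ce * 2) *
      ∫⁻ t, ∫⁻ θ, (∫⁻ s, ∫⁻ θ2, F t θ * G s θ2 *
      ENNReal.ofReal (Real.exp (-(cc n) * |t - s|)) ∂(sph n)) ∂(sph n) := by
    have hC2 : Ce * 2 ≠ ⊤ := ENNReal.mul_ne_top ENNReal.ofReal_ne_top (by norm_num)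
    rw [hFa]
    simp only
    have e1 : ∀ θ : Sph n, ∫⁻ θ2, (Ce * 2 * (∫⁻ t, ∫⁻ s, K t θ s θ2)) ∂(sph n) =
        Ce * 2 * ∫⁻ t, (∫⁻ s, ∫⁻ θ2, K t θ s θ2 ∂(sph n)) := by
      intro θ
      rw [lintegral_const_mul' _ _ hC2]
      congr 1
      rw [lintegral_lintegral_swap]
      · refine lintegral_congr fun t => ?_
        rw [lintegral_lintegral_swap]
        exact (hKm.comp (by fun_prop : Measurable fun p : Sph n × ℝ =>
          ((t, θ), (p.2, p.1)))).aemeasurable
      · have : Measurable fun p : (Sph n × ℝ) × ℝ => K p.1.2 θ p.2 p.1.1 :=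
          hKm.comp (by fun_prop : Measurable fun p : (Sph n × ℝ) × ℝ =>
            ((p.1.2, θ), (p.2, p.1.1)))
        exact this.lintegral_prod_right'.aemeasurable
    simp only [e1]
    rw [lintegral_const_mul' _ _ hC2]
    congr 1
    rw [lintegral_lintegral_swap]
    have h1 : Measurable fun p : ((Sph n × ℝ) × ℝ) × Sph n => K p.1.1.2 p.1.1.1 p.1.2 p.2 :=
      hKm.comp (by fun_prop : Measurable fun p : ((Sph n × ℝ) × ℝ) × Sph n =>
        ((p.1.1.2, p.1.1.1), (p.1.2, p.2)))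
    exact h1.lintegral_prod_right'.lintegral_prod_right'.aemeasurable
  have hFam : ∀ θ : Sph n, Measurable fun θ2 => N θ θ2 := by
    intro θ
    rw [hN]
    simp only
    have hm : Measurable fun p : Sph n × ℝ =>
        ENNReal.ofReal ((base p.2 θ p.1) ^ (-(((n : ℝ) - 1) / 2))) := by
      apply ENNReal.measurable_ofReal.comp
      apply Measurable.pow_const
      exact (continuous_base.comp (by fun_prop : Continuous fun p : Sph n × ℝ =>
        (p.2, θ, p.1))).measurable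
    exact (hm.lintegral_prod_right').const_mul _
  have hNm : Measurable fun θ => ∫⁻ θ2, N θ θ2 ∂(sph n) := by
    rw [hN]
    simp only
    have hm : Measurable fun p : (Sph n × Sph n) × ℝ =>
        ENNReal.ofReal ((base p.2 p.1.1 p.1.2) ^ (-(((n : ℝ) - 1) / 2))) := by
      apply ENNReal.measurable_ofReal.comp
      apply Measurable.pow_const
      exact (continuous_base.comp (by fun_prop : Continuous fun p : (Sph n × Sph n) × ℝ =>
        (p.2, p.1.1, p.1.2))).measurable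
    exact ((hm.lintegral_prod_right').const_mul _).lintegral_prod_right'
  refine ne_of_lt (lt_of_le_of_lt (lintegral_mono fun θ => lintegral_mono fun θ2 => key θ θ2) ?_)
  have hsum : ∫⁻ θ, ∫⁻ θ2, (N θ θ2 + Fa θ θ2) ∂(sph n) ∂(sph n) =
      ∫⁻ θ, ∫⁻ θ2, N θ θ2 ∂(sph n) ∂(sph n) + ∫⁻ θ, ∫⁻ θ2, Fa θ θ2 ∂(sph n) ∂(sph n) := by
    rw [← lintegral_add_left hNm]
    refine lintegral_congr fun θ => ?_
    rw [lintegral_add_left (hFam θ)]
  rw [hsum, hFaint]
  refine ENNReal.add_lt_top.2 ⟨lt_of_le_of_lt hNint ?_, ?_⟩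
  · exact ENNReal.mul_lt_top (ENNReal.mul_lt_top (ENNReal.mul_lt_top ENNReal.ofReal_lt_top
      (ENNReal.mul_lt_top hCF.lt_top (ENNReal.add_lt_top.2 ⟨hCG.lt_top, hCG.lt_top⟩)))
      hCB.lt_top) (measure_lt_top _ _)
  · exact ENNReal.mul_lt_top (ENNReal.mul_lt_top ENNReal.ofReal_lt_top (by norm_num)) hfar

end Crest.Agent.R077.Kern
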