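import Crest.Agent.R077.CylA
import Crest.Agent.R077.Far
import Crest.Agent.R077.Kern3
import Crest.Agent.R077.FarCyl
import Crest.Agent.R077.Defs

/-!
Row 77 (Henon-Lane-Emden): the cylinder data of a solution.
-/

set_option autoImplicit false

open MeasureTheory Metric Set Real
open scoped ENNReal

namespace Crest.Agent.R077.CylOf

noncomputable section

open Kern Mass

variable {n : ℕ}

local notation "𝔼" => EuclideanSpace ℝ (Fin n)

theorem sph_ne_zero (hn : 1 ≤ n) : sph n ≠ 0 := by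
  have : Nonempty (Fin n) := ⟨⟨0, hn⟩⟩
  have : Nontrivial 𝔼 := inferInstance
  unfold sph
  intro h0
  have h1 := Measure.toSphere_apply_univ (μ := (volume : Measure 𝔼))
  rw [h0] at h1
  simp only [Measure.coe_zero, Pi.zero_apply] at h1
  have h2 := measure_ball_pos (volume : Measure 𝔼) 0 one_pos
  have h3 : ((Module.finrank ℝ 𝔼 : ℕ) : ℝ≥0∞) ≠ 0 := by simp; omega
  exact (mul_ne_zero h3 h2.ne') h1.symm

/-- derivative bound -/
theorem C1t.deriv_bounded {M : Type*} [TopologicalSpace M] [CompactSpace M] {W : ℝ → M → ℝ}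
    (hW : C1t W) (a b : ℝ) :
    ∃ L : ℝ, 0 ≤ L ∧ ∀ θ, ∀ t ∈ Icc a b, |deriv (fun s => W s θ) t| ≤ L := by
  obtain ⟨h1, W', h2, h3⟩ := hW
  have hK : IsCompact (Icc a b ×ˢ (univ : Set M)) := isCompact_Icc.prod isCompact_univ
  obtain ⟨L, hL⟩ := hK.exists_bound_of_continuousOn (f := fun z : ℝ × M => W' z.1 z.2)
    (Continuous.continuousOn h2)
  refine ⟨max L 0, le_max_right _ _, fun θ t ht => ?_⟩
  rw [(h3 t θ).deriv]
  exact (hL (t, θ) ⟨ht, mem_univ _⟩).trans (le_max_left _ _)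

theorem C1t.contDiff {M : Type*} [TopologicalSpace M] {W : ℝ → M → ℝ}
    (hW : C1t W) (θ : M) : ContDiff ℝ 1 (fun t => W t θ) := by
  obtain ⟨h1, W', h2, h3⟩ := hW
  rw [contDiff_one_iff_deriv]
  refine ⟨fun t => (h3 t θ).differentiableAt, ?_⟩
  have : deriv (fun t => W t θ) = fun t => W' t θ := by
    funext t; exact (h3 t θ).deriv
  rw [this]
  exact Continuous.comp (g := fun z : ℝ × M => W' z.1 z.2) h2 (Continuous.prodMk_left θ)

/-- the constants of the field `bdd` -/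
theorem bdd_of {M : Type*} [TopologicalSpace M] [CompactSpace M] [Nonempty M] {U V : ℝ → M → ℝ}
    (hU : C1t U) (hV : C1t V) (hU0 : ∀ t θ, 0 < U t θ) (hV0 : ∀ t θ, 0 < V t θ) (T : ℝ) :
    ∃ L : ℝ, 1 ≤ L ∧ ∀ θ, ∀ t ∈ Icc (-T) T,
      U t θ ≤ L ∧ V t θ ≤ L ∧ 1 ≤ L * U t θ ∧ 1 ≤ L * V t θ ∧
      |deriv (fun s => U s θ) t| ≤ L ∧ |deriv (fun s => V s θ) t| ≤ L := by
  obtain ⟨a1, h1, H1⟩ := hU.bounded (-T) T
  obtain ⟨a2, h2, H2⟩ := hV.bounded (-T) T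
  obtain ⟨a3, h3, H3⟩ := hU.lower hU0 (-T) T
  obtain ⟨a4, h4, H4⟩ := hV.lower hV0 (-T) T
  obtain ⟨a5, h5, H5⟩ := C1t.deriv_bounded hU (-T) T
  obtain ⟨a6, h6, H6⟩ := C1t.deriv_bounded hV (-T) T
  have i3 : 0 < a3⁻¹ := inv_pos.2 h3
  have i4 : 0 < a4⁻¹ := inv_pos.2 h4
  refine ⟨1 + a1 + a2 + a3⁻¹ + a4⁻¹ + a5 + a6, by linarith, fun θ t ht => ?_⟩
  have e1 := (le_abs_self _).trans (H1 θ t ht)
  have e2 := (le_abs_self _).trans (H2 θ t ht)
  have e3 := H3 θ t ht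
  have e4 := H4 θ t ht
  have e5 := H5 θ t ht
  have e6 := H6 θ t ht
  refine ⟨by linarith, by linarith, ?_, ?_, by linarith, by linarith⟩
  · calc (1 : ℝ) = a3⁻¹ * a3 := (inv_mul_cancel₀ h3.ne').symm
      _ ≤ (1 + a1 + a2 + a3⁻¹ + a4⁻¹ + a5 + a6) * U t θ := by
          apply mul_le_mul _ e3 h3.le (by linarith)
          linarith
  · calc (1 : ℝ) = a4⁻¹ * a4 := (inv_mul_cancel₀ h4.ne').symm
      _ ≤ (1 + a1 + a2 + a3⁻¹ + a4⁻¹ + a5 + a6) * V t θ := by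
          apply mul_le_mul _ e4 h4.le (by linarith)
          linarith

theorem D_eq {p q A B : ℝ} (hp : 0 < p) (hq : 0 < q) :
    bb n A p / (p + 1) + bb n B q / (q + 1) =
      ((n : ℝ) + A) / (p + 1) + ((n : ℝ) + B) / (q + 1) - ((n : ℝ) - 2) := by
  unfold bb cc
  have h1 : p + 1 ≠ 0 := by positivity
  have h2 : q + 1 ≠ 0 := by positivity
  field_simp
  ring

variable {p q A B κ : ℝ} {u v : EuclideanSpace ℝ (Fin n) → ℝ}

theorem src_le (h : Sup n p q A B κ u v) (T : ℝ) : ∃ M : ℝ, 0 ≤ M ∧ ∀ θ : Sph n, ∀ t ≤ T,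
    src (bb n A p) p (lf (cc n) v) t θ ≤ M * Real.exp ((cc n + 2 + A) * t) := by
  obtain ⟨C, hC⟩ := (isCompact_closedBall (0 : 𝔼) (Real.exp T)).exists_bound_of_continuousOn
    h.hv.continuousOn
  refine ⟨(max C 0) ^ p, Real.rpow_nonneg (le_max_right _ _) _, fun θ t ht => ?_⟩
  have hx : Real.exp t • (θ : 𝔼) ∈ closedBall (0 : 𝔼) (Real.exp T) := by
    rw [mem_closedBall, dist_zero_right, norm_cyl]; exact Real.exp_le_exp.2 ht
  have h1 : v (Real.exp t • (θ : 𝔼)) ≤ max C 0 :=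
    ((le_abs_self _).trans (hC _ hx)).trans (le_max_left _ _)
  have h2 : v (Real.exp t • (θ : 𝔼)) ^ p ≤ (max C 0) ^ p :=
    Real.rpow_le_rpow (h.hv0 _).le h1 h.hp.le
  rw [src_eq h.hv0]
  unfold den
  rw [norm_cyl, ← Real.exp_mul]
  have e1 : Real.exp ((cc n + 2 + A) * t) = Real.exp (((n : ℝ) - cc n) * t) * Real.exp (t * A) := by
    rw [← Real.exp_add]; congr 1; unfold cc; ring
  rw [e1]
  calc Real.exp (((n : ℝ) - cc n) * t) * (Real.exp (t * A) * v (Real.exp t • (θ : 𝔼)) ^ p)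
      ≤ Real.exp (((n : ℝ) - cc n) * t) * (Real.exp (t * A) * (max C 0) ^ p) := by gcongr
    _ = _ := by ring

theorem hFint (h : Sup n p q A B κ u v) (T : ℝ) : ∃ C : ℝ≥0∞, C ≠ ∞ ∧ ∀ θ : Sph n,
    ∫⁻ t in Iic T, ENNReal.ofReal (src (bb n A p) p (lf (cc n) v) t θ) ≤ C := by
  obtain ⟨M, hM, hb⟩ := src_le h T
  have hc := cc_pos h.hn
  have hA := A_gt h
  have hpos : 0 < cc n + 2 + A := by linarith
  have hint : IntegrableOn (fun t : ℝ => M * Real.exp ((cc n + 2 + A) * t)) (Iic T) := by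
    have := integrableOn_exp_mul_Iic hpos T
    exact this.const_mul M
  refine ⟨ENNReal.ofReal (∫ t in Iic T, M * Real.exp ((cc n + 2 + A) * t)),
    ENNReal.ofReal_ne_top, fun θ => ?_⟩
  rw [ofReal_integral_eq_lintegral_ofReal hint
    (Filter.Eventually.of_forall fun t => mul_nonneg hM (Real.exp_pos _).le)]
  exact setLIntegral_mono' measurableSet_Iic fun t ht => ENNReal.ofReal_le_ofReal (hb θ t ht)

theorem hFbd (h : Sup n p q A B κ u v) (T : ℝ) : ∃ C : ℝ≥0∞, C ≠ ∞ ∧ ∀ θ : Sph n, ∀ t, t ≤ T →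
    ENNReal.ofReal (src (bb n A p) p (lf (cc n) v) t θ) ≤ C := by
  obtain ⟨M, hM, hb⟩ := src_le h T
  have hc := cc_pos h.hn
  have hA := A_gt h
  refine ⟨ENNReal.ofReal (M * Real.exp ((cc n + 2 + A) * T)), ENNReal.ofReal_ne_top,
    fun θ t ht => ENNReal.ofReal_le_ofReal ((hb θ t ht).trans ?_)⟩
  have : (cc n + 2 + A) * t ≤ (cc n + 2 + A) * T := by nlinarith
  gcongr

theorem src_meas {b r : ℝ} {w : 𝔼 → ℝ} (hw : Continuous w) :
    Measurable (Function.uncurry fun (t : ℝ) (θ : Sph n) =>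
      ENNReal.ofReal (src b r (lf (cc n) w) t θ)) := by
  refine Measurable.ennreal_ofReal ?_
  have hmap : Continuous fun z : ℝ × Sph n => Real.exp z.1 • (z.2 : 𝔼) := by fun_prop
  have h1 : Continuous fun z : ℝ × Sph n => lf (cc n) w z.1 z.2 := by
    unfold lf
    exact Continuous.mul (by fun_prop) (hw.comp hmap)
  have h2 : Continuous fun z : ℝ × Sph n => Real.exp (b * z.1) := by fun_prop
  exact h2.measurable.mul (h1.measurable.pow_const r)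

/-- representation in box form -/
theorem rep_of (hn : 3 ≤ n) (hκ : 0 < κ) (hv : Continuous v) (hv0 : ∀ x, 0 < v x)
    (ru : ∀ x, ∫⁻ y, ENNReal.ofReal (‖x - y‖ ^ ((2 : ℝ) - n) * den A p v y) =
      ENNReal.ofReal (κ * u x)) (t : ℝ) (θ : Sph n) :
    ENNReal.ofReal (lf (cc n) u t θ) = ∫⁻ θ', ∫⁻ ρ in Ioi (0:ℝ),
      ENNReal.ofReal (|HH ρ θ θ'| / κ) * ∫⁻ s in Ioo (t - ρ) (t + ρ),
        ENNReal.ofReal (Real.exp (bb n A p * s) * lf (cc n) v s θ' ^ p) ∂volume ∂volume ∂(sph n) := by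
  have h1 := pot_cyl hn (den_measurable (A := A) (p := p) hv) t θ
  rw [ru] at h1
  have h2 : ∀ s : ℝ, ∀ θ' : Sph n, Real.exp (((n : ℝ) - cc n) * s) *
      den A p v (Real.exp s • (θ' : 𝔼)) = src (bb n A p) p (lf (cc n) v) s θ' := fun s θ' =>
    (src_eq hv0 s θ').symm
  simp only [h2] at h1
  rw [box_cyl hn (src_meas hv)] at h1
  have h3 : ENNReal.ofReal (lf (cc n) u t θ) = ENNReal.ofReal κ⁻¹ *
      (ENNReal.ofReal (Real.exp (cc n * t)) * ENNReal.ofReal (κ * u (Real.exp t • (θ : 𝔼)))) := by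
    rw [← ENNReal.ofReal_mul (Real.exp_pos _).le, ← ENNReal.ofReal_mul (inv_pos.2 hκ).le]
    congr 1
    unfold lf
    field_simp
  rw [h3, h1, ← lintegral_const_mul' _ _ ENNReal.ofReal_ne_top]
  refine lintegral_congr fun θ' => ?_
  rw [← lintegral_const_mul' _ _ ENNReal.ofReal_ne_top]
  refine setLIntegral_congr_fun measurableSet_Ioi fun ρ hρ => ?_
  rw [abs_of_nonneg (HH_nonneg hn (le_of_lt hρ) θ θ'), div_eq_inv_mul,
    ENNReal.ofReal_mul (inv_pos.2 hκ).le, mul_assoc]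
  rfl

/-- swapping the order in the energy -/
theorem fin_of (h : Sup n p q A B κ u v) (T : ℝ) :
    ∫⁻ θ, ∫⁻ t in Iic T, ENNReal.ofReal (Real.exp (bb n A p * t) * lf (cc n) v t θ ^ p *
      lf (cc n) v t θ) ∂volume ∂(sph n) ≠ ∞ := by
  have h1 := J_lt_top h T
  have hm : Measurable (Function.uncurry fun (t : ℝ) (θ : Sph n) =>
      ENNReal.ofReal (src (bb n A p) p (lf (cc n) v) t θ * lf (cc n) v t θ)) := by
    have hmap : Continuous fun z : ℝ × Sph n => Real.exp z.1 • (z.2 : 𝔼) := by fun_prop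
    have h1 : Continuous fun z : ℝ × Sph n => lf (cc n) v z.1 z.2 := by
      unfold lf
      exact Continuous.mul (by fun_prop) (h.hv.comp hmap)
    have h2 : Continuous fun z : ℝ × Sph n => Real.exp (bb n A p * z.1) := by fun_prop
    exact ((h2.measurable.mul (h1.measurable.pow_const p)).mul h1.measurable).ennreal_ofReal
  rw [lintegral_lintegral_swap hm.aemeasurable] at h1
  have h2 : ∀ θ : Sph n, ∫⁻ t in Iic T, ENNReal.ofReal (Real.exp (bb n A p * t) *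
      lf (cc n) v t θ ^ p * lf (cc n) v t θ) = ∫⁻ t in Iio T, ENNReal.ofReal
        (src (bb n A p) p (lf (cc n) v) t θ * lf (cc n) v t θ) := fun θ => by
    rw [setLIntegral_congr Iio_ae_eq_Iic.symm]; rfl
  simp only [h2]
  exact h1.ne

/-- the far interaction of the two densities on the cylinder -/
theorem far_fin (h : Sup n p q A B κ u v)
    (hsub : (n : ℝ) - 2 < ((n : ℝ) + A) / (p + 1) + ((n : ℝ) + B) / (q + 1)) :
    ∫⁻ t : ℝ, ∫⁻ θ, (∫⁻ s : ℝ, ∫⁻ θ', ENNReal.ofReal (src (bb n A p) p (lf (cc n) v) t θ) *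
      ENNReal.ofReal (src (bb n B q) q (lf (cc n) u) s θ') *
      ENNReal.ofReal (Real.exp (-(cc n) * |t - s|)) ∂(sph n)) ∂(sph n) < ∞ := by
  have h1 := far_cyl h.hn (den_measurable (A := A) (p := p) h.hv)
    (den_measurable (A := B) (p := q) h.hu)
  have h2 := far_lt_top h hsub
  have h3 : ∫⁻ x, ∫⁻ y, ENNReal.ofReal (den A p v x) * ENNReal.ofReal (den B q u y) *
      ENNReal.ofReal (max ‖x‖ ‖y‖ ^ ((2 : ℝ) - n)) =
      ∫⁻ x : 𝔼, ∫⁻ y : 𝔼, ENNReal.ofReal (den A p v x * den B q u y *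
        (max ‖x‖ ‖y‖) ^ ((2 : ℝ) - n)) := by
    refine lintegral_congr fun x => lintegral_congr fun y => ?_
    have e1 := den_nonneg (A := A) (p := p) h.hv0 x
    have e2 := den_nonneg (A := B) (p := q) h.hu0 y
    rw [ENNReal.ofReal_mul (mul_nonneg e1 e2), ENNReal.ofReal_mul e1]
  rw [h3, ← h1] at h2
  refine lt_of_le_of_lt (le_of_eq ?_) h2
  refine lintegral_congr fun t => lintegral_congr fun θ => lintegral_congr fun s =>
    lintegral_congr fun θ' => ?_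
  have e1 : 0 ≤ src (bb n A p) p (lf (cc n) v) t θ := by
    rw [src_eq h.hv0]; exact mul_nonneg (Real.exp_pos _).le (den_nonneg h.hv0 _)
  have e2 : 0 ≤ src (bb n B q) q (lf (cc n) u) s θ' := by
    rw [src_eq h.hu0]; exact mul_nonneg (Real.exp_pos _).le (den_nonneg h.hu0 _)
  rw [← ENNReal.ofReal_mul e1, ← ENNReal.ofReal_mul (mul_nonneg e1 e2), src_eq h.hv0,
    src_eq h.hu0]

/-- pulling out the constant `κ⁻¹` -/
theorem scale_int (hn : 3 ≤ n) (hκ : 0 < κ) (X : ℝ → Sph n → Sph n → ℝ≥0∞) {s : Set ℝ}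
    (hs : MeasurableSet s) (hs0 : s ⊆ Ioi 0) :
    ∫⁻ θ, (∫⁻ θ', (∫⁻ ρ in s, ENNReal.ofReal (|HH ρ θ θ'| / κ) * X ρ θ θ') ∂(sph n)) ∂(sph n) =
    ENNReal.ofReal κ⁻¹ * ∫⁻ θ, (∫⁻ θ', (∫⁻ ρ in s, ENNReal.ofReal (HH ρ θ θ') * X ρ θ θ')
      ∂(sph n)) ∂(sph n) := by
  rw [← lintegral_const_mul' _ _ ENNReal.ofReal_ne_top]
  refine lintegral_congr fun θ => ?_
  rw [← lintegral_const_mul' _ _ ENNReal.ofReal_ne_top]
  refine lintegral_congr fun θ' => ?_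
  rw [← lintegral_const_mul' _ _ ENNReal.ofReal_ne_top]
  refine setLIntegral_congr_fun hs fun ρ hρ => ?_
  rw [abs_of_nonneg (HH_nonneg hn (le_of_lt (hs0 hρ)) θ θ'), div_eq_inv_mul,
    ENNReal.ofReal_mul (inv_pos.2 hκ).le, mul_assoc]

theorem int_fld (h : Sup n p q A B κ u v)
    (hsub : (n : ℝ) - 2 < ((n : ℝ) + A) / (p + 1) + ((n : ℝ) + B) / (q + 1)) (T : ℝ) :
    ∫⁻ θ, ∫⁻ θ', ∫⁻ ρ in Ioi (0:ℝ), ENNReal.ofReal (|HH ρ θ θ'| / κ) *
      ∫⁻ t in Iic T, ENNReal.ofReal (Real.exp (bb n A p * t) * lf (cc n) v t θ ^ p) *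
        (ENNReal.ofReal (Real.exp (bb n B q * (t + ρ)) * lf (cc n) u (t + ρ) θ' ^ q)
          + ENNReal.ofReal (Real.exp (bb n B q * (t - ρ)) * lf (cc n) u (t - ρ) θ' ^ q))
            ∂volume ∂volume ∂(sph n) ∂(sph n) ≠ ∞ := by
  have h1 := int_of h.hn (src_meas (b := bb n A p) (r := p) h.hv)
    (src_meas (b := bb n B q) (r := q) h.hu) (hFint h) (hFbd h.symm) (far_fin h hsub) T
  have h2 := scale_int h.hn h.hκ (fun ρ θ θ' => ∫⁻ t in Iic T,
    ENNReal.ofReal (src (bb n A p) p (lf (cc n) v) t θ) *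
      (ENNReal.ofReal (src (bb n B q) q (lf (cc n) u) (t + ρ) θ') +
        ENNReal.ofReal (src (bb n B q) q (lf (cc n) u) (t - ρ) θ'))) (s := Ioi 0)
        measurableSet_Ioi subset_rfl
  have h3 := ENNReal.mul_ne_top (ENNReal.ofReal_ne_top (r := κ⁻¹)) h1
  rw [← h2] at h3
  exact h3

/-- the statement of the far estimate (general form) -/
def FarOf (n : ℕ) : Prop :=
  ∀ {F G : ℝ → Sph n → ℝ≥0∞}, Measurable (Function.uncurry F) → Measurable (Function.uncurry G) →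
    ∀ {δ : ℝ}, 0 < δ → δ ≤ 1 →
    ∫⁻ θ, (∫⁻ θ', (∫⁻ ρ in Ioi δ, ENNReal.ofReal (HH ρ θ θ') * ∫⁻ t, F t θ *
      ∫⁻ s in Ioo (t - ρ) (t + ρ), G s θ') ∂(sph n)) ∂(sph n) ≤
    ENNReal.ofReal ((4 ^ (cc n) + Real.exp (cc n)) * δ ^ (-((n : ℝ) - 2))) *
      ∫⁻ t, ∫⁻ θ, (∫⁻ s, ∫⁻ θ', F t θ * G s θ' *
        ENNReal.ofReal (Real.exp (-(cc n) * |t - s|)) ∂(sph n)) ∂(sph n)

theorem far_fld (hFar : FarOf n) (h : Sup n p q A B κ u v)
    (hsub : (n : ℝ) - 2 < ((n : ℝ) + A) / (p + 1) + ((n : ℝ) + B) / (q + 1)) :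
    ∃ C κ' : ℝ, 0 ≤ C ∧ 0 ≤ κ' ∧ ∀ δ ∈ Ioc (0:ℝ) 1,
    ∫⁻ θ, ∫⁻ θ', ∫⁻ ρ in Ioi δ, ENNReal.ofReal (|HH ρ θ θ'| / κ) *
      ∫⁻ t, ENNReal.ofReal (Real.exp (bb n A p * t) * lf (cc n) v t θ ^ p) *
        ∫⁻ s in Ioo (t - ρ) (t + ρ), ENNReal.ofReal (Real.exp (bb n B q * s) *
          lf (cc n) u s θ' ^ q) ∂volume ∂volume ∂volume ∂(sph n) ∂(sph n) ≤
            ENNReal.ofReal (C * δ ^ (-κ')) := by
  have hn3 : (3 : ℝ) ≤ n := by exact_mod_cast h.hn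
  set I : ℝ≥0∞ := ∫⁻ t : ℝ, ∫⁻ θ, (∫⁻ s : ℝ, ∫⁻ θ',
    ENNReal.ofReal (src (bb n A p) p (lf (cc n) v) t θ) *
      ENNReal.ofReal (src (bb n B q) q (lf (cc n) u) s θ') *
      ENNReal.ofReal (Real.exp (-(cc n) * |t - s|)) ∂(sph n)) ∂(sph n) with hI
  have hIfin : I < ∞ := far_fin h hsub
  refine ⟨κ⁻¹ * ((4 ^ (cc n) + Real.exp (cc n)) * I.toReal), (n : ℝ) - 2, ?_, by linarith,
    fun δ hδ => ?_⟩
  · have := h.hκ
    have h4 : (0 : ℝ) < 4 ^ (cc n) := Real.rpow_pos_of_pos (by norm_num) _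
    have h5 := Real.exp_pos (cc n)
    have h6 := ENNReal.toReal_nonneg (a := I)
    positivity
  · have h1 := hFar (src_meas (b := bb n A p) (r := p) h.hv)
      (src_meas (b := bb n B q) (r := q) h.hu) hδ.1 hδ.2
    have h2 := scale_int h.hn h.hκ (fun ρ θ θ' => ∫⁻ t,
      ENNReal.ofReal (src (bb n A p) p (lf (cc n) v) t θ) *
        ∫⁻ s in Ioo (t - ρ) (t + ρ), ENNReal.ofReal (src (bb n B q) q (lf (cc n) u) s θ'))
        (s := Ioi δ) measurableSet_Ioi (fun x hx => hδ.1.trans hx)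
    have h3 : ENNReal.ofReal (κ⁻¹ * ((4 ^ (cc n) + Real.exp (cc n)) * I.toReal) *
        δ ^ (-((n : ℝ) - 2))) = ENNReal.ofReal κ⁻¹ *
        (ENNReal.ofReal ((4 ^ (cc n) + Real.exp (cc n)) * δ ^ (-((n : ℝ) - 2))) * I) := by
      have h4 : (0 : ℝ) < 4 ^ (cc n) := Real.rpow_pos_of_pos (by norm_num) _
      have h5 := Real.exp_pos (cc n)
      have h6 := ENNReal.toReal_nonneg (a := I)
      have h7 : 0 < δ ^ (-((n : ℝ) - 2)) := Real.rpow_pos_of_pos hδ.1 _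
      conv_rhs => rw [← ENNReal.ofReal_toReal hIfin.ne]
      rw [← ENNReal.ofReal_mul (by positivity), ← ENNReal.ofReal_mul (inv_pos.2 h.hκ).le]
      congr 1; ring
    rw [h3]
    refine (le_of_eq h2).trans ?_
    gcongr

/-- THE CYLINDER DATA of a solution with exact representation. -/
theorem cylOf' (hFar : FarOf n) (h : Sup n p q A B κ u v)
    (hsub : (n : ℝ) - 2 < ((n : ℝ) + A) / (p + 1) + ((n : ℝ) + B) / (q + 1))
    (hu2 : ContDiffOn ℝ 2 u {0}ᶜ) (hv2 : ContDiffOn ℝ 2 v {0}ᶜ)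
    (ru : ∀ x, ∫⁻ y, ENNReal.ofReal (‖x - y‖ ^ ((2 : ℝ) - n) * den A p v y) =
      ENNReal.ofReal (κ * u x))
    (rv : ∀ x, ∫⁻ y, ENNReal.ofReal (‖x - y‖ ^ ((2 : ℝ) - n) * den B q u y) =
      ENNReal.ofReal (κ * v x)) :
    Nonempty (Cyl (Sph n) (sph n)) := by
  have hne : Nonempty (Sph n) := by
    by_contra hcon
    have : IsEmpty (Sph n) := not_nonempty_iff.1 hcon
    exact sph_ne_zero (n := n) (le_trans (by norm_num) h.hn) (Measure.eq_zero_of_isEmpty _)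
  have hsub' : (n : ℝ) - 2 < ((n : ℝ) + B) / (q + 1) + ((n : ℝ) + A) / (p + 1) := by linarith
  have hUc : C1t (lf (cc n) u) := C1t_lf hu2
  have hVc : C1t (lf (cc n) v) := C1t_lf hv2
  have hU0 : ∀ t θ, 0 < lf (cc n) u t θ := lf_pos fun x _ => h.hu0 x
  have hV0 : ∀ t θ, 0 < lf (cc n) v t θ := lf_pos fun x _ => h.hv0 x
  refine ⟨{
    p := p
    q := q
    b₁ := bb n A p
    b₂ := bb n B q
    hp := h.hp
    hq := h.hq
    hpq := pq_gt h
    hD := by rw [D_eq h.hp h.hq]; linarith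
    U := lf (cc n) u
    V := lf (cc n) v
    H := fun ρ θ θ' => |HH ρ θ θ'| / κ
    U_pos := hU0
    V_pos := hV0
    U_meas := hUc.1.measurable
    V_meas := hVc.1.measurable
    U_C1 := fun θ => C1t.contDiff hUc θ
    V_C1 := fun θ => C1t.contDiff hVc θ
    bdd := fun T => bdd_of hUc hVc hU0 hV0 T
    H_nonneg := fun ρ θ θ' => div_nonneg (abs_nonneg _) h.hκ.le
    H_symm := fun ρ θ θ' => by rw [HH_symm]
    H_meas := (measurable_HH.abs).div_const κ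
    repU := fun t θ => rep_of h.hn h.hκ h.hv h.hv0 ru t θ
    repV := fun t θ => rep_of h.hn h.hκ h.hu h.hu0 rv t θ
    int1 := fun T => int_fld h hsub T
    int2 := fun T => int_fld h.symm hsub' T
    far := far_fld hFar h hsub
    fin1 := fun T => fin_of h T
    fin2 := fun T => fin_of h.symm T }⟩

/-- THE CYLINDER DATA of a solution with exact representation. -/
theorem cylOf (h : Sup n p q A B κ u v)
    (hsub : (n : ℝ) - 2 < ((n : ℝ) + A) / (p + 1) + ((n : ℝ) + B) / (q + 1))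
    (hu2 : ContDiffOn ℝ 2 u {0}ᶜ) (hv2 : ContDiffOn ℝ 2 v {0}ᶜ)
    (ru : ∀ x, ∫⁻ y, ENNReal.ofReal (‖x - y‖ ^ ((2 : ℝ) - n) * den A p v y) =
      ENNReal.ofReal (κ * u x))
    (rv : ∀ x, ∫⁻ y, ENNReal.ofReal (‖x - y‖ ^ ((2 : ℝ) - n) * den B q u y) =
      ENNReal.ofReal (κ * v x)) :
    Nonempty (Cyl (Sph n) (sph n)) :=
  cylOf' (fun hF hG _ h0 h1 => far_of h.hn hF hG h0 h1) h hsub hu2 hv2 ru rv

end

end Crest.Agent.R077.CylOf
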