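import Crest.Agent.R077.DPos
import Crest.Agent.R077.Layers
import Crest.Agent.R077.TentPhi
import Crest.Agent.R077.Iface

set_option autoImplicit false

namespace Crest.Agent.R077.StepR1

open MeasureTheory Set

/-! ### adapter to the frozen definitions -/

lemma rc_nonneg (x : ℕ → ℝ) (i : ℕ × ℕ) : 0 ≤ rc x i := ENNReal.toReal_nonneg

lemma mem_prs {m : ℕ} {i : ℕ × ℕ} : i ∈ prs m ↔ 1 ≤ i.1 ∧ i.1 ≤ i.2 ∧ i.2 ≤ m := by
  unfold prs
  simp only [Finset.mem_filter, Finset.mem_product, Finset.mem_Icc]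
  omega

lemma rc_le_cc (x : ℕ → ℝ) {m : ℕ} {i : ℕ × ℕ} (hi : i ∈ prs m) :
    rc x i ≤ Layers.cc x i.1 i.2 := by
  rw [mem_prs] at hi
  have hsub : {σ : ℝ | 0 < σ ∧ IsRun x i.1 i.2 σ} ⊆ Layers.lay x i := by
    rintro σ ⟨-, h1, h2, h3, h4, h5⟩
    rw [Layers.mem_lay hi.2.1]
    exact ⟨⟨h3, h4⟩, h5⟩
  have h1 := measure_mono (μ := volume) hsub
  rw [Layers.volume_lay] at h1
  unfold rc
  exact ENNReal.toReal_le_of_le_ofReal (Layers.cc_nonneg _ _ _) h1

lemma msh_pos {a : ℝ} {m : ℕ} (ha : 0 < a) (hm : 1 ≤ m) : 0 < msh a m := by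
  unfold msh
  have : (0:ℝ) < m := by exact_mod_cast hm
  positivity

lemma nd_le {lam a : ℝ} {m : ℕ} (ha : 0 < a) (hm : 1 ≤ m) {j k : ℕ} (h : j ≤ k) :
    nd lam a m j ≤ nd lam a m k := by
  unfold nd
  have h1 := msh_pos ha hm
  have h2 : (j:ℝ) ≤ k := by exact_mod_cast h
  have := mul_le_mul_of_nonneg_right h2 h1.le
  linarith

lemma stepF_eq (x : ℕ → ℝ) (S : Finset (ℕ × ℕ)) (lam a : ℝ) (m : ℕ) :
    stepF x S lam a m = st S (rc x) (lft lam a m) (rgt lam a m) := by
  funext t
  unfold stepF st ind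
  apply Finset.sum_congr rfl
  intro i _
  by_cases h : lft lam a m i ≤ t ∧ t < rgt lam a m i
  · rw [if_pos h, indicator_of_mem (show t ∈ Ico _ _ from h), mul_one]
  · rw [if_neg h, indicator_of_notMem (show t ∉ Ico _ _ from h), mul_zero]

lemma omega_eq (f : ℝ → ℝ) (x : ℕ → ℝ) (S : Finset (ℕ × ℕ)) (lam a : ℝ) (m : ℕ) :
    omega f x S lam a m = omv (phi lam a) S (rc x) (lft lam a m) (rgt lam a m) f := by
  funext t
  unfold omega omv
  simp only [st_eq]
  rw [mul_sub, Finset.mul_sum, sub_add, ← Finset.sum_sub_distrib, sub_eq_add_neg,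
    ← Finset.sum_neg_distrib]
  congr 1
  apply Finset.sum_congr rfl
  intro i _
  have hind : ind lam a m i t = un (lft lam a m i) (rgt lam a m i) t := by
    unfold ind
    by_cases h : lft lam a m i ≤ t ∧ t < rgt lam a m i
    · rw [if_pos h, un_of_mem (show t ∈ Ico _ _ from h)]
    · rw [if_neg h, un_of_notMem (show t ∉ Ico _ _ from h)]
  rw [hind]
  unfold mid
  ring

lemma st_add_of_sdiff {x : ℕ → ℝ} {m : ℕ} {A B : ℕ × ℕ → ℝ} (a η : ℝ) (t : ℝ) :
    st (shortI a m η) (rc x) A B t + st (longI a m η) (rc x) A B t = st (prs m) (rc x) A B t := by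
  classical
  unfold st longI
  rw [add_comm]
  apply Finset.sum_sdiff
  unfold shortI
  exact Finset.filter_subset _ _

/-- the cell containing `t` -/
lemma exists_cell {lam a : ℝ} {m : ℕ} (ha : 0 < a) (hm : 1 ≤ m) {t : ℝ}
    (h0 : nd lam a m 0 ≤ t) (h1 : t < nd lam a m m) :
    ∃ k, 1 ≤ k ∧ k ≤ m ∧ nd lam a m (k - 1) ≤ t ∧ t < nd lam a m k := by
  classical
  have hex : ∃ k, t < nd lam a m k := ⟨m, h1⟩
  refine ⟨Nat.find hex, ?_, Nat.find_min' hex h1, ?_, Nat.find_spec hex⟩
  · by_contra h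
    have h2 : Nat.find hex = 0 := by omega
    have := Nat.find_spec hex
    rw [h2] at this
    linarith
  · have h2 : 1 ≤ Nat.find hex := by
      by_contra h
      have h2 : Nat.find hex = 0 := by omega
      have := Nat.find_spec hex
      rw [h2] at this
      linarith
    have := Nat.find_min hex (m := Nat.find hex - 1) (by omega)
    exact not_lt.mp this

lemma nd_lt_imp {lam a : ℝ} {m : ℕ} (ha : 0 < a) (hm : 1 ≤ m) {j k : ℕ}
    (h : nd lam a m j < nd lam a m k) : j < k := by
  by_contra hc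
  exact absurd (nd_le ha hm (not_lt.mp hc)) (not_le.mpr h)

lemma st_prs_le {f : ℝ → ℝ} {x : ℕ → ℝ} {lam a : ℝ} {m : ℕ} (ha : 0 < a) (hm : 1 ≤ m)
    (hx : Lay f x lam a m) (t : ℝ) :
    st (prs m) (rc x) (lft lam a m) (rgt lam a m) t ≤ f t := by
  by_cases hw : nd lam a m 0 ≤ t ∧ t < nd lam a m m
  · obtain ⟨k, hk1, hk2, hk3, hk4⟩ := exists_cell ha hm hw.1 hw.2
    have hseq : Layers.Seq x m :=
      ⟨hx.x_zero, hx.x_out _ (Nat.lt_succ_self m), hx.x_nonneg⟩
    have h1 : st (prs m) (rc x) (lft lam a m) (rgt lam a m) t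
        ≤ ∑ p ∈ Layers.pairsAt m k, Layers.cc x p.1 p.2 := by
      rw [st_eq]
      have h2 : ∑ i ∈ prs m, rc x i * un (lft lam a m i) (rgt lam a m i) t
          = ∑ i ∈ (prs m).filter (fun i => i.1 ≤ k ∧ k ≤ i.2),
              rc x i * un (lft lam a m i) (rgt lam a m i) t := by
        symm
        apply Finset.sum_filter_of_ne
        intro i hi hne
        rw [mem_prs] at hi
        by_contra hcon
        apply hne
        have : t ∉ Ico (lft lam a m i) (rgt lam a m i) := by
          rintro ⟨g1, g2⟩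
          unfold lft at g1
          unfold rgt at g2
          have g3 := nd_lt_imp ha hm (lt_of_le_of_lt g1 hk4)
          have g4 := nd_lt_imp ha hm (lt_of_le_of_lt hk3 g2)
          apply hcon
          omega
        rw [un_of_notMem this, mul_zero]
      rw [h2]
      have h3 : (prs m).filter (fun i => i.1 ≤ k ∧ k ≤ i.2) = Layers.pairsAt m k := by
        ext i
        simp only [Finset.mem_filter, mem_prs, Layers.mem_pairsAt]
        omega
      rw [h3]
      apply Finset.sum_le_sum
      intro i hi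
      have hi' : i ∈ prs m := by
        rw [← h3] at hi
        exact (Finset.mem_filter.mp hi).1
      calc rc x i * un (lft lam a m i) (rgt lam a m i) t ≤ rc x i * 1 :=
            mul_le_mul_of_nonneg_left (un_le_one _ _ _) (rc_nonneg x i)
        _ = rc x i := mul_one _
        _ ≤ Layers.cc x i.1 i.2 := rc_le_cc x hi'
    rw [Layers.sum_cc hseq hk1 hk2] at h1
    exact h1.trans (hx.x_le k hk1 hk2 t hk3 hk4.le)
  · have h1 : st (prs m) (rc x) (lft lam a m) (rgt lam a m) t = 0 := by
      rw [st_eq]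
      apply Finset.sum_eq_zero
      intro i hi
      rw [mem_prs] at hi
      have : t ∉ Ico (lft lam a m i) (rgt lam a m i) := by
        rintro ⟨g1, g2⟩
        unfold lft at g1
        unfold rgt at g2
        apply hw
        exact ⟨(nd_le ha hm (Nat.zero_le _)).trans g1, g2.trans_le (nd_le ha hm hi.2.2)⟩
      rw [un_of_notMem this, mul_zero]
    rw [h1]
    exact hx.f_nonneg t

lemma short_len {lam a : ℝ} {m : ℕ} {η : ℝ} {i : ℕ × ℕ} (hi : i ∈ shortI a m η) :
    rgt lam a m i - lft lam a m i ≤ η := by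
  classical
  unfold shortI at hi
  rw [Finset.mem_filter] at hi
  obtain ⟨h1, h2, h3, h4⟩ := hi
  rw [mem_prs] at h1
  unfold rgt lft nd
  rw [Nat.cast_sub (by omega)]
  push_cast
  have e : lam - a / 2 + (i.2:ℝ) * msh a m - (lam - a / 2 + ((i.1:ℝ) - 1) * msh a m)
      = ((i.2 : ℝ) - i.1 + 1) * msh a m := by ring
  rw [e]
  exact h4.le

lemma long_le {lam a : ℝ} {m : ℕ} (ha : 0 < a) (hm : 1 ≤ m) {η : ℝ} {i : ℕ × ℕ}
    (hi : i ∈ longI a m η) : lft lam a m i ≤ rgt lam a m i := by
  classical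
  unfold longI at hi
  rw [Finset.mem_sdiff, mem_prs] at hi
  unfold rgt lft
  exact nd_le ha hm (by omega)

/-- integrability of the pairing integrand for any shift -/
lemma pair_integrable {ι κ : Type*} {lam a : ℝ} (ha : 0 < a) (S : Finset ι) (c A B : ι → ℝ)
    (T : Finset κ) (d A' B' : κ → ℝ) {F G : ℝ → ℝ} (hF : Continuous F) (hG : Continuous G)
    (x : ℝ) :
    Integrable (fun t => omv (phi lam a) S c A B F t * G (t + x)
      - F t * omv (phi lam a) T d A' B' G (t + x)) volume := by
  set φ := phi lam a with hφ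
  have hφc : Continuous φ := TP.phi_continuous lam a
  have i1 : Integrable (fun t => (φ t - φ (t + x)) * (F t * G (t + x))) volume := by
    apply Continuous.integrable_of_hasCompactSupport
    · exact (hφc.sub (hφc.comp (continuous_id.add continuous_const))).mul
        (hF.mul (hG.comp (continuous_id.add continuous_const)))
    · apply HasCompactSupport.of_support_subset_isCompact
        (isCompact_Icc (a := lam - |x|) (b := lam + a + |x|))
      intro t ht
      by_contra hc
      apply ht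
      simp only
      have : φ t = φ (t + x) := by
        rw [mem_Icc, not_and_or, not_le, not_le] at hc
        rcases hc with hc | hc
        · rw [hφ, TP.phi_eq_one (by linarith [abs_nonneg x]),
            TP.phi_eq_one (by linarith [le_abs_self x])]
        · rw [hφ, TP.phi_eq_zero ha (by linarith [abs_nonneg x]),
            TP.phi_eq_zero ha (by linarith [neg_abs_le x])]
      rw [this, sub_self, zero_mul]
  have lG := hG.locallyIntegrable (μ := volume)
  have lF := hF.locallyIntegrable (μ := volume)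
  have i2 := integrable_st_mul S (fun i => c i * φ ((A i + B i) / 2)) A B (loc_shift lG x)
  have i3 := integrable_st_mul S c A B (g := fun t => φ t * G (t + x))
    ((loc_shift lG x).continuous_mul hφc)
  have i4 := (integrable_st_mul T (fun i => d i * φ ((A' i + B' i) / 2)) A' B'
    (loc_shift_sub lF x)).comp_add_right x
  have i5 := (integrable_st_mul T d A' B' (g := fun t => φ t * F (t - x))
    ((loc_shift_sub lF x).continuous_mul hφc)).comp_add_right x
  refine ((((i1.add i2).sub i3).sub i4).add i5).congr (Filter.Eventually.of_forall fun t => ?_)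
  simp only [Pi.sub_apply, Pi.add_apply, add_sub_cancel_right, omv]
  ring

lemma dRho_eq {f g o1 o2 : ℝ → ℝ} {ρ : ℝ}
    (h1 : Integrable (fun t => o1 t * g (t + ρ) - f t * o2 (t + ρ)) volume)
    (h2 : Integrable (fun t => o1 t * g (t - ρ) - f t * o2 (t - ρ)) volume) :
    dRho f g o1 o2 ρ = DD ρ f o1 g o2 := by
  unfold dRho DD
  exact integral_sub h1 h2

lemma qw_le_wend (lam a η y : ℝ) (hη : 0 ≤ η) :
    qw (tent lam a) (4 / a ^ 2) η (Icc (lam - 2 * η) (lam + a + 2 * η)) y ≤ wend lam a η y := by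
  unfold qw wend
  by_cases h : lam - 2 * η ≤ y ∧ y ≤ lam + a + 2 * η
  · rw [indicator_of_mem (show y ∈ Icc _ _ from h), if_pos h]
    have : 0 ≤ 4 / a ^ 2 * η := by positivity
    linarith
  · rw [indicator_of_notMem (show y ∉ Icc _ _ from h), if_neg h]

lemma ends_le_tvS {x : ℕ → ℝ} {S : Finset (ℕ × ℕ)} {lam a : ℝ} {m : ℕ} {η : ℝ} (hη : 0 ≤ η)
    {v : ℝ → ℝ} (hv : ∀ t, 0 ≤ v t) :
    ends S (rc x) (lft lam a m) (rgt lam a m)
      (fun y => qw (tent lam a) (4 / a ^ 2) η (Icc (lam - 2 * η) (lam + a + 2 * η)) y * v y)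
    ≤ tvS v x S lam a m η := by
  unfold ends tvS
  apply Finset.sum_le_sum
  intro i _
  apply mul_le_mul_of_nonneg_left _ (rc_nonneg x i)
  exact add_le_add (mul_le_mul_of_nonneg_right (qw_le_wend _ _ _ _ hη) (hv _))
    (mul_le_mul_of_nonneg_right (qw_le_wend _ _ _ _ hη) (hv _))

end Crest.Agent.R077.StepR1

namespace Crest.Agent.R077

open MeasureTheory Set StepR1

/-- (A) positivity of the pairing for every box kernel -/
theorem Dpos : Stmt_Dpos := by
  intro f g x y lam a m η ρ ha ha1 hm hη hηa hρ hf hg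
  have I1 := pair_integrable ha (shortI a m η) (rc x) (lft lam a m) (rgt lam a m)
    (shortI a m η) (rc y) (lft lam a m) (rgt lam a m) (lam := lam) hf.f_cont hg.f_cont ρ
  have I2 := pair_integrable ha (shortI a m η) (rc x) (lft lam a m) (rgt lam a m)
    (shortI a m η) (rc y) (lft lam a m) (rgt lam a m) (lam := lam) hf.f_cont hg.f_cont (-ρ)
  simp only [← sub_eq_add_neg] at I2
  have hL : ∀ (z : ℕ → ℝ) (t : ℝ), 0 ≤ st (longI a m η) (rc z) (lft lam a m) (rgt lam a m) t :=
    fun z t => st_nonneg (fun i _ => rc_nonneg z i) t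
  rw [omega_eq, omega_eq, dRho_eq I1 I2]
  refine DD_nonneg (TP.phi_antitone lam a) (TP.phi_continuous lam a) _ _ _ _
    (fun i _ => rc_nonneg x i) _ _ _ _ (fun i _ => rc_nonneg y i)
    hf.f_cont.locallyIntegrable hg.f_cont.locallyIntegrable ?_ ?_ hρ.le I1 I2
  · intro t
    have h1 := st_prs_le ha hm hf t
    rw [← st_add_of_sdiff a η] at h1
    linarith [hL x t]
  · intro t
    have h1 := st_prs_le ha hm hg t
    rw [← st_add_of_sdiff a η] at h1
    linarith [hL y t]

/-- (C) lower bound of the pairing for `ρ ≤ η/2` -/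
theorem Dkey : Stmt_Dkey := by
  intro f g x y lam a m η ρ ha ha1 hm hη hηa hρ hρη hf hg
  have I1 := pair_integrable ha (shortI a m η) (rc x) (lft lam a m) (rgt lam a m)
    (shortI a m η) (rc y) (lft lam a m) (rgt lam a m) (lam := lam) hf.f_cont hg.f_cont ρ
  have I2 := pair_integrable ha (shortI a m η) (rc x) (lft lam a m) (rgt lam a m)
    (shortI a m η) (rc y) (lft lam a m) (rgt lam a m) (lam := lam) hf.f_cont hg.f_cont (-ρ)
  simp only [← sub_eq_add_neg] at I2
  have hφc := TP.phi_continuous lam a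
  have lf : LocallyIntegrable f volume := hf.f_cont.locallyIntegrable
  have lg : LocallyIntegrable g volume := hg.f_cont.locallyIntegrable
  have hfS : ∀ t, st (shortI a m η) (rc x) (lft lam a m) (rgt lam a m) t
      + st (longI a m η) (rc x) (lft lam a m) (rgt lam a m) t ≤ f t := by
    intro t
    rw [st_add_of_sdiff a η]
    exact st_prs_le ha hm hf t
  have hgS : ∀ t, st (shortI a m η) (rc y) (lft lam a m) (rgt lam a m) t
      + st (longI a m η) (rc y) (lft lam a m) (rgt lam a m) t ≤ g t := by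
    intro t
    rw [st_add_of_sdiff a η]
    exact st_prs_le ha hm hg t
  rw [omega_eq, omega_eq, dRho_eq I1 I2, stepF_eq, stepF_eq]
  -- positivity of the remaining part
  obtain ⟨J1, J2⟩ := decomp_integrable (longI a m η) (rc x) (lft lam a m) (rgt lam a m)
    (longI a m η) (rc y) (lft lam a m) (rgt lam a m) hφc lf
    (loc_omv hφc (shortI a m η) (rc x) (lft lam a m) (rgt lam a m) lf) lg
    (loc_omv hφc (shortI a m η) (rc y) (lft lam a m) (rgt lam a m) lg) ρ I1 I2
  simp only [← omv_sub] at J1 J2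
  have hpos := DD_nonneg (TP.phi_antitone lam a) hφc (shortI a m η) (rc x) (lft lam a m)
    (rgt lam a m) (fun i _ => rc_nonneg x i) (shortI a m η) (rc y) (lft lam a m) (rgt lam a m)
    (fun i _ => rc_nonneg y i)
    (F := fun t => f t - st (longI a m η) (rc x) (lft lam a m) (rgt lam a m) t)
    (G := fun t => g t - st (longI a m η) (rc y) (lft lam a m) (rgt lam a m) t)
    (lf.sub (loc_st _ _ _ _)) (lg.sub (loc_st _ _ _ _))
    (fun t => by linarith [hfS t]) (fun t => by linarith [hgS t]) hρ.le J1 J2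
  have hR : ∀ t, t ∉ Icc (lam - 2 * η) (lam + a + 2 * η) → ∀ r, |r - t| ≤ η →
      phi lam a r = phi lam a t := by
    intro t ht r hr
    rw [abs_le] at hr
    rw [mem_Icc, not_and_or, not_le, not_le] at ht
    rcases ht with ht | ht
    · rw [TP.phi_eq_one (by linarith), TP.phi_eq_one (by linarith)]
    · rw [TP.phi_eq_zero ha (by linarith), TP.phi_eq_zero ha (by linarith)]
  have key := stepR1 (fun t => TP.phi_hasDerivAt lam a t) (TP.tent_continuous lam a)
    (La := 4 / a ^ 2) (TP.tent_nonneg lam a) (fun s t => TP.tent_abs_sub_le lam a s t)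
    (by positivity) hη.le hρ.le (by linarith) hR
    (shortI a m η) (longI a m η) (rc x) (lft lam a m) (rgt lam a m)
    (fun i _ => rc_nonneg x i) (fun i _ => rc_nonneg x i) (fun i hi => short_len hi)
    (fun i hi => long_le ha hm hi)
    (shortI a m η) (longI a m η) (rc y) (lft lam a m) (rgt lam a m)
    (fun i _ => rc_nonneg y i) (fun i _ => rc_nonneg y i) (fun i hi => short_len hi)
    (fun i hi => long_le ha hm hi) lf lg hfS hgS I1 I2 hpos
  have hbg : ∀ t, 0 ≤ box g ρ t := fun t => bx_nonneg hρ.le hg.f_nonneg t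
  have hbf : ∀ t, 0 ≤ box f ρ t := fun t => bx_nonneg hρ.le hf.f_nonneg t
  have e1 := ends_le_tvS (x := x) (S := longI a m η) (lam := lam) (a := a) (m := m) hη.le hbg
  have e2 := ends_le_tvS (x := y) (S := longI a m η) (lam := lam) (a := a) (m := m) hη.le hbf
  refine le_trans ?_ key
  have e1' := mul_le_mul_of_nonneg_left e1 hη.le
  have e2' := mul_le_mul_of_nonneg_left e2 hη.le
  have bg : ∀ t, bx ρ g t = box g ρ t := fun _ => rfl
  have bf : ∀ t, bx ρ f t = box f ρ t := fun _ => rfl
  have bL : ∀ t, bx ρ (st (longI a m η) (rc y) (lft lam a m) (rgt lam a m)) t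
      = box (st (longI a m η) (rc y) (lft lam a m) (rgt lam a m)) ρ t := fun _ => rfl
  simp only [bg, bf, bL]
  linarith

end Crest.Agent.R077
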