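import Crest.Agent.R077.StepR1

set_option autoImplicit false

namespace Crest.Agent.R077.StepR1

open MeasureTheory Set

/-! ### positivity of the pairing (SS, SL, LS, LL) -/

/-- unit indicator of `[a,b)` -/
noncomputable def un (a b t : ℝ) : ℝ := (Ico a b).indicator (fun _ => (1:ℝ)) t

lemma un_of_mem {a b t : ℝ} (h : t ∈ Ico a b) : un a b t = 1 := by simp [un, h]
lemma un_of_notMem {a b t : ℝ} (h : t ∉ Ico a b) : un a b t = 0 := by simp [un, h]
lemma un_nonneg (a b t : ℝ) : 0 ≤ un a b t := indicator_nonneg (fun _ _ => zero_le_one) _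
lemma un_le_one (a b t : ℝ) : un a b t ≤ 1 := by
  by_cases h : t ∈ Ico a b
  · rw [un_of_mem h]
  · rw [un_of_notMem h]; exact zero_le_one

lemma st_eq {ι : Type*} (S : Finset ι) (c A B : ι → ℝ) (t : ℝ) :
    st S c A B t = ∑ i ∈ S, c i * un (A i) (B i) t := by
  unfold st un
  apply Finset.sum_congr rfl
  intro i _
  by_cases h : t ∈ Ico (A i) (B i)
  · simp [h]
  · simp [h]

lemma vel_sign {φ : ℝ → ℝ} (hφ : Antitone φ) {a b t ρ : ℝ} (hρ : 0 ≤ ρ) :
    0 ≤ (φ t - φ ((a + b) / 2)) * (un a b (t + ρ) - un a b (t - ρ)) := by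
  rcases lt_trichotomy t ((a + b) / 2) with h | h | h
  · apply mul_nonneg (sub_nonneg.mpr (hφ h.le))
    rw [sub_nonneg]
    by_cases h1 : t - ρ ∈ Ico a b
    · have h2 : t + ρ ∈ Ico a b := ⟨by linarith [h1.1], by linarith [h1.1]⟩
      rw [un_of_mem h1, un_of_mem h2]
    · rw [un_of_notMem h1]; exact un_nonneg _ _ _
  · rw [h]; simp
  · apply mul_nonneg_of_nonpos_of_nonpos (sub_nonpos.mpr (hφ h.le))
    rw [sub_nonpos]
    by_cases h1 : t + ρ ∈ Ico a b
    · have h2 : t - ρ ∈ Ico a b := ⟨by linarith [h1.2], by linarith [h1.2]⟩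
      rw [un_of_mem h1, un_of_mem h2]
    · rw [un_of_notMem h1]; exact un_nonneg _ _ _

lemma K_nonneg {ι : Type*} {φ : ℝ → ℝ} (hφ : Antitone φ) (S : Finset ι) (c A B : ι → ℝ)
    (hc : ∀ i ∈ S, 0 ≤ c i) {ρ : ℝ} (hρ : 0 ≤ ρ) (t : ℝ) :
    0 ≤ φ t * (st S c A B (t + ρ) - st S c A B (t - ρ))
      - (st S (fun i => c i * φ ((A i + B i) / 2)) A B (t + ρ)
        - st S (fun i => c i * φ ((A i + B i) / 2)) A B (t - ρ)) := by
  have e : φ t * (st S c A B (t + ρ) - st S c A B (t - ρ))
      - (st S (fun i => c i * φ ((A i + B i) / 2)) A B (t + ρ)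
        - st S (fun i => c i * φ ((A i + B i) / 2)) A B (t - ρ))
      = ∑ i ∈ S, c i * ((φ t - φ ((A i + B i) / 2)) *
          (un (A i) (B i) (t + ρ) - un (A i) (B i) (t - ρ))) := by
    simp only [st_eq]
    rw [← Finset.sum_sub_distrib, ← Finset.sum_sub_distrib, Finset.mul_sum,
      ← Finset.sum_sub_distrib]
    apply Finset.sum_congr rfl
    intro i _
    ring
  rw [e]
  exact Finset.sum_nonneg fun i hi => mul_nonneg (hc i hi) (vel_sign hφ hρ)

/-- overlap of `[a,b)` with the translate of `[c,d)` -/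
noncomputable def ovl (a b c d x : ℝ) : ℝ := ∫ t, un a b t * un c d (t + x)

lemma un_mul_un (a b c d x t : ℝ) :
    un a b t * un c d (t + x) = un (max a (c - x)) (min b (d - x)) t := by
  by_cases h1 : t ∈ Ico a b
  · by_cases h2 : t + x ∈ Ico c d
    · have h3 : t ∈ Ico (max a (c - x)) (min b (d - x)) :=
        ⟨max_le h1.1 (by linarith [h2.1]), lt_min h1.2 (by linarith [h2.2])⟩
      rw [un_of_mem h1, un_of_mem h2, un_of_mem h3, one_mul]
    · have h3 : t ∉ Ico (max a (c - x)) (min b (d - x)) := by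
        intro h
        apply h2
        exact ⟨by linarith [le_of_max_le_right h.1], by linarith [lt_of_lt_of_le h.2 (min_le_right _ _)]⟩
      rw [un_of_notMem h2, un_of_notMem h3, mul_zero]
  · have h3 : t ∉ Ico (max a (c - x)) (min b (d - x)) := by
      intro h
      apply h1
      exact ⟨le_of_max_le_left h.1, lt_of_lt_of_le h.2 (min_le_left _ _)⟩
    rw [un_of_notMem h1, un_of_notMem h3, zero_mul]

lemma integrable_un (a b : ℝ) : Integrable (un a b) volume := by
  unfold un
  rw [integrable_indicator_iff measurableSet_Ico]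
  exact integrableOn_const (by simp)

lemma integral_un (a b : ℝ) : ∫ t, un a b t = max 0 (b - a) := by
  unfold un
  rw [integral_indicator measurableSet_Ico]
  simp [Measure.real, Real.volume_Ico, ENNReal.toReal_ofReal']
  rw [max_comm]

lemma integrable_ovl (a b c d x : ℝ) :
    Integrable (fun t => un a b t * un c d (t + x)) volume := by
  simp only [un_mul_un]
  exact integrable_un _ _

lemma ovl_eq (a b c d x : ℝ) : ovl a b c d x = max 0 (min b (d - x) - max a (c - x)) := by
  unfold ovl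
  simp only [un_mul_un]
  exact integral_un _ _

lemma ovl_le {a b c d ρ : ℝ} (hρ : 0 ≤ ρ) (h : a + b ≤ c + d) :
    ovl a b c d (-ρ) ≤ ovl a b c d ρ := by
  rw [ovl_eq, ovl_eq]
  apply max_le_max le_rfl
  simp only [sub_neg_eq_add]
  rcases min_cases b (d - ρ) with h1 | h1 <;> rcases max_cases a (c - ρ) with h2 | h2 <;>
  rcases min_cases b (d + ρ) with h3 | h3 <;> rcases max_cases a (c + ρ) with h4 | h4 <;>
  linarith

lemma ovl_ge {a b c d ρ : ℝ} (hρ : 0 ≤ ρ) (h : c + d ≤ a + b) :
    ovl a b c d ρ ≤ ovl a b c d (-ρ) := by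
  rw [ovl_eq, ovl_eq]
  apply max_le_max le_rfl
  simp only [sub_neg_eq_add]
  rcases min_cases b (d - ρ) with h1 | h1 <;> rcases max_cases a (c - ρ) with h2 | h2 <;>
  rcases min_cases b (d + ρ) with h3 | h3 <;> rcases max_cases a (c + ρ) with h4 | h4 <;>
  linarith

lemma ovl_sign {φ : ℝ → ℝ} (hφ : Antitone φ) {a b c d ρ : ℝ} (hρ : 0 ≤ ρ) :
    0 ≤ (φ ((a + b) / 2) - φ ((c + d) / 2)) * (ovl a b c d ρ - ovl a b c d (-ρ)) := by
  rcases le_total (a + b) (c + d) with h | h
  · exact mul_nonneg (sub_nonneg.mpr (hφ (by linarith))) (sub_nonneg.mpr (ovl_le hρ h))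
  · exact mul_nonneg_of_nonpos_of_nonpos (sub_nonpos.mpr (hφ (by linarith)))
      (sub_nonpos.mpr (ovl_ge hρ h))

lemma SS_integral {ι κ : Type*} {φ : ℝ → ℝ} (S : Finset ι) (c A B : ι → ℝ)
    (T : Finset κ) (d A' B' : κ → ℝ) (x : ℝ) :
    Integrable (fun t => st S (fun i => c i * φ ((A i + B i) / 2)) A B t * st T d A' B' (t + x)
      - st S c A B t * st T (fun j => d j * φ ((A' j + B' j) / 2)) A' B' (t + x)) volume ∧
    ∫ t, (st S (fun i => c i * φ ((A i + B i) / 2)) A B t * st T d A' B' (t + x)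
      - st S c A B t * st T (fun j => d j * φ ((A' j + B' j) / 2)) A' B' (t + x))
      = ∑ i ∈ S, ∑ j ∈ T, c i * d j * ((φ ((A i + B i) / 2) - φ ((A' j + B' j) / 2)) *
          ovl (A i) (B i) (A' j) (B' j) x) := by
  have e : (fun t => st S (fun i => c i * φ ((A i + B i) / 2)) A B t * st T d A' B' (t + x)
      - st S c A B t * st T (fun j => d j * φ ((A' j + B' j) / 2)) A' B' (t + x))
      = fun t => ∑ i ∈ S, ∑ j ∈ T, c i * d j * ((φ ((A i + B i) / 2) - φ ((A' j + B' j) / 2)) *
          (un (A i) (B i) t * un (A' j) (B' j) (t + x))) := by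
    funext t
    simp only [st_eq, Finset.sum_mul_sum]
    rw [← Finset.sum_sub_distrib]
    apply Finset.sum_congr rfl
    intro i _
    rw [← Finset.sum_sub_distrib]
    apply Finset.sum_congr rfl
    intro j _
    ring
  have hint : ∀ i ∈ S, ∀ j ∈ T, Integrable (fun t => c i * d j *
      ((φ ((A i + B i) / 2) - φ ((A' j + B' j) / 2)) *
          (un (A i) (B i) t * un (A' j) (B' j) (t + x)))) volume := by
    intro i _ j _
    exact ((integrable_ovl _ _ _ _ _).const_mul _).const_mul _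
  rw [e]
  refine ⟨integrable_finsetSum _ fun i hi => integrable_finsetSum _ fun j hj => hint i hi j hj, ?_⟩
  rw [integral_finsetSum _ fun i hi => integrable_finsetSum _ fun j hj => hint i hi j hj]
  apply Finset.sum_congr rfl
  intro i hi
  rw [integral_finsetSum _ fun j hj => hint i hi j hj]
  apply Finset.sum_congr rfl
  intro j _
  rw [integral_const_mul, integral_const_mul]
  rfl

/-- integrability of the integrands after removing the long parts -/
lemma decomp_integrable {ι κ : Type*} (S : Finset ι) (c A B : ι → ℝ) (T : Finset κ)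
    (d A' B' : κ → ℝ)
    {φ F OF G OG : ℝ → ℝ} (hφc : Continuous φ)
    (hF : LocallyIntegrable F volume) (hOF : LocallyIntegrable OF volume)
    (hG : LocallyIntegrable G volume) (hOG : LocallyIntegrable OG volume) (ρ : ℝ)
    (hI1 : Integrable (fun t => OF t * G (t + ρ) - F t * OG (t + ρ)) volume)
    (hI2 : Integrable (fun t => OF t * G (t - ρ) - F t * OG (t - ρ)) volume) :
    Integrable (fun t => (OF t - φ t * st S c A B t) * (G (t + ρ) - st T d A' B' (t + ρ))
        - (F t - st S c A B t) * (OG (t + ρ) - φ (t + ρ) * st T d A' B' (t + ρ))) volume ∧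
    Integrable (fun t => (OF t - φ t * st S c A B t) * (G (t - ρ) - st T d A' B' (t - ρ))
        - (F t - st S c A B t) * (OG (t - ρ) - φ (t - ρ) * st T d A' B' (t - ρ))) volume := by
  obtain ⟨-, a2, a3⟩ := DD_left S c A B hφc hG hOG ρ
  obtain ⟨-, b2, b3⟩ := DD_right T d A' B' hφc hF hOF ρ
  have hT := loc_st T d A' B'
  have hφT : LocallyIntegrable (fun t => φ t * st T d A' B' t) volume := hT.continuous_mul hφc
  obtain ⟨-, c2, c3⟩ := DD_left S c A B hφc hT hφT ρ
  constructor
  · refine (((hI1.sub a2).sub b2).add c2).congr (Filter.Eventually.of_forall fun t => ?_)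
    simp only [Pi.sub_apply, Pi.add_apply]
    ring
  · refine (((hI2.sub a3).sub b3).add c3).congr (Filter.Eventually.of_forall fun t => ?_)
    simp only [Pi.sub_apply, Pi.add_apply]
    ring

/-- four-term splitting -/
lemma split4 {x1 x2 x3 x4 a : ℝ → ℝ} (h2 : Integrable x2 volume) (h3 : Integrable x3 volume)
    (h4 : Integrable x4 volume) (ha : Integrable a volume)
    (e : ∀ t, a t = x1 t + x2 t + x3 t + x4 t) :
    ∫ t, a t = (∫ t, x1 t) + (∫ t, x2 t) + (∫ t, x3 t) + ∫ t, x4 t := by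
  have h1 : Integrable x1 volume := by
    refine (((ha.sub h2).sub h3).sub h4).congr (Filter.Eventually.of_forall fun t => ?_)
    simp only [Pi.sub_apply]
    rw [e t]; ring
  have h12 : Integrable (fun t => x1 t + x2 t) volume := h1.add h2
  have h123 : Integrable (fun t => x1 t + x2 t + x3 t) volume := h12.add h3
  rw [← integral_add h1 h2, ← integral_add h12 h3, ← integral_add h123 h4]
  exact integral_congr_ae (Filter.Eventually.of_forall e)

/-- **positivity of the pairing**: rigid short layers (velocity `φ(centre)`), the rest with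
velocity `φ(t)`. -/
theorem DD_nonneg {ι κ : Type*} {φ : ℝ → ℝ} (hφa : Antitone φ) (hφc : Continuous φ)
    (S : Finset ι) (c A B : ι → ℝ) (hc : ∀ i ∈ S, 0 ≤ c i)
    (T : Finset κ) (d A' B' : κ → ℝ) (hd : ∀ i ∈ T, 0 ≤ d i)
    {F G : ℝ → ℝ} (hF : LocallyIntegrable F volume) (hG : LocallyIntegrable G volume)
    (hFS : ∀ t, st S c A B t ≤ F t) (hGS : ∀ t, st T d A' B' t ≤ G t) {ρ : ℝ} (hρ : 0 ≤ ρ)
    (hI1 : Integrable (fun t => omv φ S c A B F t * G (t + ρ)
      - F t * omv φ T d A' B' G (t + ρ)) volume)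
    (hI2 : Integrable (fun t => omv φ S c A B F t * G (t - ρ)
      - F t * omv φ T d A' B' G (t - ρ)) volume) :
    0 ≤ DD ρ F (omv φ S c A B F) G (omv φ T d A' B' G) := by
  set FS := st S c A B with hFSd
  set GS := st T d A' B' with hGSd
  set FR := st S (fun i => c i * φ ((A i + B i) / 2)) A B with hFRd
  set GR := st T (fun j => d j * φ ((A' j + B' j) / 2)) A' B' with hGRd
  have eF : ∀ t, omv φ S c A B F t = φ t * (F t - FS t) + FR t := fun t => rfl
  have eG : ∀ t, omv φ T d A' B' G t = φ t * (G t - GS t) + GR t := fun t => rfl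
  have hPF0 : ∀ t, 0 ≤ F t - FS t := fun t => sub_nonneg.mpr (hFS t)
  have hPG0 : ∀ t, 0 ≤ G t - GS t := fun t => sub_nonneg.mpr (hGS t)
  have lPF : LocallyIntegrable (fun t => F t - FS t) volume := hF.sub (loc_st S c A B)
  have lPG : LocallyIntegrable (fun t => G t - GS t) volume := hG.sub (loc_st T d A' B')
  have lφPF : LocallyIntegrable (fun t => φ t * (F t - FS t)) volume := lPF.continuous_mul hφc
  have lφPG : LocallyIntegrable (fun t => φ t * (G t - GS t)) volume := lPG.continuous_mul hφc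
  -- LS terms
  have LSi : ∀ x : ℝ, Integrable (fun t => φ t * (F t - FS t) * GS (t + x)
      - (F t - FS t) * GR (t + x)) volume := by
    intro x
    have l1 : LocallyIntegrable (fun s => φ (s - x) * (F (s - x) - FS (s - x))) volume :=
      loc_shift_sub lφPF x
    have l2 : LocallyIntegrable (fun s => F (s - x) - FS (s - x)) volume :=
      loc_shift_sub lPF x
    have i1 := (integrable_st_mul T d A' B' l1).comp_add_right x
    have i2 := (integrable_st_mul T (fun j => d j * φ ((A' j + B' j) / 2)) A' B' l2).comp_add_right x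
    refine (i1.sub i2).congr (Filter.Eventually.of_forall fun t => ?_)
    simp only [Pi.sub_apply, add_sub_cancel_right, hGSd, hGRd]
    ring
  -- SL terms
  have SLi : ∀ x : ℝ, Integrable (fun t => FR t * (G (t + x) - GS (t + x))
      - FS t * (φ (t + x) * (G (t + x) - GS (t + x)))) volume := by
    intro x
    have i1 := integrable_st_mul S (fun i => c i * φ ((A i + B i) / 2)) A B (loc_shift lPG x)
    have i2 := integrable_st_mul S c A B (loc_shift lφPG x)
    exact i1.sub i2
  -- SS terms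
  obtain ⟨SS1, SSv1⟩ := SS_integral (φ := φ) S c A B T d A' B' ρ
  obtain ⟨SS2, SSv2⟩ := SS_integral (φ := φ) S c A B T d A' B' (-ρ)
  simp only [← sub_eq_add_neg] at SS2 SSv2
  have LS1 := LSi ρ
  have LS2 := LSi (-ρ)
  have SL1 := SLi ρ
  have SL2 := SLi (-ρ)
  simp only [← sub_eq_add_neg] at LS2 SL2
  have s1 := split4
    (x1 := fun t => φ t * (F t - FS t) * (G (t + ρ) - GS (t + ρ))
      - (F t - FS t) * (φ (t + ρ) * (G (t + ρ) - GS (t + ρ)))) LS1 SL1 SS1 hI1
    (fun t => by rw [eF, eG]; ring)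
  have s2 := split4
    (x1 := fun t => φ t * (F t - FS t) * (G (t - ρ) - GS (t - ρ))
      - (F t - FS t) * (φ (t - ρ) * (G (t - ρ) - GS (t - ρ)))) LS2 SL2 SS2 hI2
    (fun t => by rw [eF, eG]; ring)
  unfold DD
  rw [s1, s2]
  -- LL
  have h1 : 0 ≤ ∫ t, (φ t * (F t - FS t) * (G (t + ρ) - GS (t + ρ))
      - (F t - FS t) * (φ (t + ρ) * (G (t + ρ) - GS (t + ρ)))) := by
    apply integral_nonneg
    intro t
    have e : φ t * (F t - FS t) * (G (t + ρ) - GS (t + ρ))
      - (F t - FS t) * (φ (t + ρ) * (G (t + ρ) - GS (t + ρ)))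
      = (φ t - φ (t + ρ)) * ((F t - FS t) * (G (t + ρ) - GS (t + ρ))) := by ring
    simp only [Pi.zero_apply]
    rw [e]
    exact mul_nonneg (sub_nonneg.mpr (hφa (by linarith))) (mul_nonneg (hPF0 _) (hPG0 _))
  have h2 : ∫ t, (φ t * (F t - FS t) * (G (t - ρ) - GS (t - ρ))
      - (F t - FS t) * (φ (t - ρ) * (G (t - ρ) - GS (t - ρ)))) ≤ 0 := by
    apply integral_nonpos
    intro t
    have e : φ t * (F t - FS t) * (G (t - ρ) - GS (t - ρ))
      - (F t - FS t) * (φ (t - ρ) * (G (t - ρ) - GS (t - ρ)))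
      = (φ t - φ (t - ρ)) * ((F t - FS t) * (G (t - ρ) - GS (t - ρ))) := by ring
    simp only [Pi.zero_apply]
    rw [e]
    exact mul_nonpos_of_nonpos_of_nonneg (sub_nonpos.mpr (hφa (by linarith)))
      (mul_nonneg (hPF0 _) (hPG0 _))
  -- LS
  have h3 : 0 ≤ (∫ t, (φ t * (F t - FS t) * GS (t + ρ) - (F t - FS t) * GR (t + ρ)))
      - ∫ t, (φ t * (F t - FS t) * GS (t - ρ) - (F t - FS t) * GR (t - ρ)) := by
    rw [← integral_sub LS1 LS2]
    apply integral_nonneg
    intro t
    have hK := K_nonneg hφa T d A' B' hd hρ t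
    rw [← hGSd, ← hGRd] at hK
    have e : φ t * (F t - FS t) * GS (t + ρ) - (F t - FS t) * GR (t + ρ)
      - (φ t * (F t - FS t) * GS (t - ρ) - (F t - FS t) * GR (t - ρ))
      = (F t - FS t) * (φ t * (GS (t + ρ) - GS (t - ρ)) - (GR (t + ρ) - GR (t - ρ))) := by ring
    simp only [Pi.zero_apply]
    rw [e]
    exact mul_nonneg (hPF0 t) hK
  -- SL
  have h4 : 0 ≤ (∫ t, (FR t * (G (t + ρ) - GS (t + ρ))
      - FS t * (φ (t + ρ) * (G (t + ρ) - GS (t + ρ)))))
      - ∫ t, (FR t * (G (t - ρ) - GS (t - ρ))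
      - FS t * (φ (t - ρ) * (G (t - ρ) - GS (t - ρ)))) := by
    have t1 : ∫ t, (FR t * (G (t + ρ) - GS (t + ρ))
        - FS t * (φ (t + ρ) * (G (t + ρ) - GS (t + ρ))))
        = ∫ s, (FR (s - ρ) * (G s - GS s) - FS (s - ρ) * (φ s * (G s - GS s))) := by
      rw [← integral_add_right_eq_self (fun s => FR (s - ρ) * (G s - GS s)
        - FS (s - ρ) * (φ s * (G s - GS s))) ρ]
      simp only [add_sub_cancel_right]
    have t2 : ∫ t, (FR t * (G (t - ρ) - GS (t - ρ))
        - FS t * (φ (t - ρ) * (G (t - ρ) - GS (t - ρ))))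
        = ∫ s, (FR (s + ρ) * (G s - GS s) - FS (s + ρ) * (φ s * (G s - GS s))) := by
      rw [← integral_sub_right_eq_self (fun s => FR (s + ρ) * (G s - GS s)
        - FS (s + ρ) * (φ s * (G s - GS s))) ρ]
      simp only [sub_add_cancel]
    have i1 : Integrable (fun s => FR (s - ρ) * (G s - GS s)
        - FS (s - ρ) * (φ s * (G s - GS s))) volume := by
      have := SL1.comp_sub_right ρ
      simpa only [sub_add_cancel] using this
    have i2 : Integrable (fun s => FR (s + ρ) * (G s - GS s)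
        - FS (s + ρ) * (φ s * (G s - GS s))) volume := by
      have := SL2.comp_add_right ρ
      simpa only [add_sub_cancel_right] using this
    rw [t1, t2, ← integral_sub i1 i2]
    apply integral_nonneg
    intro t
    have hK := K_nonneg hφa S c A B hc hρ t
    rw [← hFSd, ← hFRd] at hK
    have e : FR (t - ρ) * (G t - GS t) - FS (t - ρ) * (φ t * (G t - GS t))
      - (FR (t + ρ) * (G t - GS t) - FS (t + ρ) * (φ t * (G t - GS t)))
      = (G t - GS t) * (φ t * (FS (t + ρ) - FS (t - ρ)) - (FR (t + ρ) - FR (t - ρ))) := by ring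
    simp only [Pi.zero_apply]
    rw [e]
    exact mul_nonneg (hPG0 t) hK
  -- SS
  have h5 : 0 ≤ (∫ t, (FR t * GS (t + ρ) - FS t * GR (t + ρ)))
      - ∫ t, (FR t * GS (t - ρ) - FS t * GR (t - ρ)) := by
    rw [SSv1, SSv2, ← Finset.sum_sub_distrib]
    apply Finset.sum_nonneg
    intro i hi
    rw [← Finset.sum_sub_distrib]
    apply Finset.sum_nonneg
    intro j hj
    have := ovl_sign hφa (a := A i) (b := B i) (c := A' j) (d := B' j) hρ
    have hcd : 0 ≤ c i * d j := mul_nonneg (hc i hi) (hd j hj)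
    have e : c i * d j * ((φ ((A i + B i) / 2) - φ ((A' j + B' j) / 2)) *
          ovl (A i) (B i) (A' j) (B' j) ρ)
        - c i * d j * ((φ ((A i + B i) / 2) - φ ((A' j + B' j) / 2)) *
          ovl (A i) (B i) (A' j) (B' j) (-ρ))
        = c i * d j * ((φ ((A i + B i) / 2) - φ ((A' j + B' j) / 2)) *
          (ovl (A i) (B i) (A' j) (B' j) ρ - ovl (A i) (B i) (A' j) (B' j) (-ρ))) := by ring
    rw [e]
    exact mul_nonneg hcd this
  linarith

end Crest.Agent.R077.StepR1
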