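import Mathlib

/-!
Row 77 (Hénon–Lane–Emden): the purely real-analytic end of the proof.
* `pigeon`      : pigeonhole over scales;
* `scale_lower` : the scale found by `pigeon` is polynomial in `a`;
* `growth`      : Borel growth lemma;
* `endgame`     : final contradiction.
-/

set_option autoImplicit false

namespace Crest.Agent.R077

open Real Filter

/-- Pigeonhole over scales. -/
theorem pigeon {ε₁ c₁ : ℝ} (hε : 0 < ε₁) (hc : 0 < c₁) :
    ∃ C₀ : ℝ, 0 ≤ C₀ ∧ ∀ a : ℝ, 0 < a → a ≤ 1 / 2 → ∀ (JJ : ℝ) (E : ℕ → ℝ), 0 ≤ JJ →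
      (∀ j, 0 ≤ E j) → (∀ j, E j ≤ (2 / a) * JJ) →
      ∃ j : ℕ, (j : ℝ) ≤ C₀ * Real.log (1 / a) ∧
        E (2 * j + 2) ≤ (1 + ε₁) * E (2 * j) + c₁ * JJ := by
  have hlog1 : 0 < Real.log (1 + ε₁) := Real.log_pos (by linarith)
  have hlog2 : 0 < Real.log 2 := Real.log_pos (by norm_num)
  set C₀ : ℝ := (1 / Real.log (1 + ε₁)) * (1 + |Real.log (2 / c₁)| / Real.log 2)
    + 1 / Real.log 2 with hC₀
  have hC₀nn : 0 ≤ C₀ := by positivity
  refine ⟨C₀, hC₀nn, ?_⟩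
  intro a ha ha2 JJ E hJJ hE0 hEle
  set L : ℝ := Real.log (1 / a) with hL
  have hL2 : Real.log 2 ≤ L := by
    rw [hL]
    apply Real.log_le_log (by norm_num)
    rw [le_div_iff₀ ha]; linarith
  have hLpos : 0 < L := lt_of_lt_of_le hlog2 hL2
  rcases hJJ.eq_or_lt with h0 | hJpos
  · refine ⟨0, by simpa using mul_nonneg hC₀nn hLpos.le, ?_⟩
    have h1 := hEle (2 * 0 + 2)
    have h2 := hE0 (2 * 0)
    rw [← h0] at h1 ⊢
    nlinarith
  by_contra hcon
  push Not at hcon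
  set N : ℕ := ⌊C₀ * L⌋₊ with hN
  have hNle : ((N : ℕ) : ℝ) ≤ C₀ * L := Nat.floor_le (by positivity)
  have key : ∀ j : ℕ, j ≤ N → (1 + ε₁) ^ j * (c₁ * JJ) < E (2 * j + 2) := by
    intro j
    induction j with
    | zero =>
      intro hj
      have := hcon 0 (by simpa using mul_nonneg hC₀nn hLpos.le)
      have h2 := hE0 (2 * 0)
      simp only [pow_zero, one_mul]
      nlinarith
    | succ j ih =>
      intro hj
      have h1 := ih (by omega)
      have h2 := hcon (j + 1) (by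
        have : ((j + 1 : ℕ) : ℝ) ≤ (N : ℝ) := by exact_mod_cast hj
        linarith)
      have h3 : 2 * (j + 1) = 2 * j + 2 := by ring
      rw [h3] at h2
      have h4 : (1 + ε₁) ^ (j + 1) * (c₁ * JJ) = (1 + ε₁) * ((1 + ε₁) ^ j * (c₁ * JJ)) := by
        rw [pow_succ]; ring
      rw [h3, h4]
      have h5 : (1 + ε₁) * ((1 + ε₁) ^ j * (c₁ * JJ)) < (1 + ε₁) * E (2 * j + 2) :=
        mul_lt_mul_of_pos_left h1 (by linarith)
      have h6 : 0 < c₁ * JJ := mul_pos hc hJpos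
      linarith
  have h1 := key N le_rfl
  have h2 := hEle (2 * N + 2)
  have h3 : (1 + ε₁) ^ N * (c₁ * JJ) < (2 / a) * JJ := lt_of_lt_of_le h1 h2
  have h4 : (1 + ε₁) ^ N < (2 / c₁) * (1 / a) := by
    have h5 : ((1 + ε₁) ^ N * c₁) * JJ < (2 / a) * JJ := by linarith [h3]
    have h6 := lt_of_mul_lt_mul_right h5 hJpos.le
    have h7 : (2 / c₁) * (1 / a) = (2 / a) / c₁ := by
      field_simp
    rw [h7, lt_div_iff₀ hc]
    exact h6
  have h5 : (N : ℝ) * Real.log (1 + ε₁) < Real.log (2 / c₁) + L := by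
    have h6 := Real.log_lt_log (by positivity) h4
    rw [Real.log_pow, Real.log_mul (by positivity) (by positivity)] at h6
    exact h6
  have hNgt : C₀ * L - 1 < N := by
    have := Nat.lt_floor_add_one (C₀ * L)
    rw [← hN] at this
    linarith
  have h6 : (C₀ * L - 1) * Real.log (1 + ε₁) < (N : ℝ) * Real.log (1 + ε₁) :=
    mul_lt_mul_of_pos_right hNgt hlog1
  have h7 : L + |Real.log (2 / c₁)| ≤ (C₀ * L - 1) * Real.log (1 + ε₁) := by
    have h8 : (C₀ * L - 1) * Real.log (1 + ε₁) =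
        L + |Real.log (2 / c₁)| * (L / Real.log 2)
          + (L / Real.log 2 - 1) * Real.log (1 + ε₁) := by
      rw [hC₀]
      field_simp
      ring
    rw [h8]
    have h9 : 1 ≤ L / Real.log 2 := by
      rw [le_div_iff₀ hlog2]; linarith
    have h10 : |Real.log (2 / c₁)| * 1 ≤ |Real.log (2 / c₁)| * (L / Real.log 2) :=
      mul_le_mul_of_nonneg_left h9 (abs_nonneg _)
    have h11 : 0 ≤ (L / Real.log 2 - 1) * Real.log (1 + ε₁) :=
      mul_nonneg (by linarith) hlog1.le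
    linarith
  have h12 := le_abs_self (Real.log (2 / c₁))
  linarith

/-- The scale `ep ^ (2 j + k) * c₀ * a ^ 2` is bounded below by a power of `a` as soon as
`j ≤ C₀ log (1 / a)`. -/
theorem scale_lower {ep C₀ c₀ : ℝ} (hep : 0 < ep) (hep1 : ep ≤ 1) (hC₀ : 0 ≤ C₀)
    (hc₀ : 0 < c₀) (k : ℕ) :
    ∃ K₀ : ℝ, 0 ≤ K₀ ∧ ∀ a : ℝ, 0 < a → a ≤ 1 / 2 → ∀ j : ℕ,
      (j : ℝ) ≤ C₀ * Real.log (1 / a) →
      a ^ K₀ ≤ ep ^ (2 * j + k) * (c₀ * a ^ 2) := by
  have hlogep : 0 ≤ -Real.log ep := by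
    have := Real.log_nonpos hep.le hep1
    linarith
  obtain ⟨M, hM⟩ : ∃ M : ℕ, (1 / 2 : ℝ) ^ M < ep ^ k * c₀ :=
    exists_pow_lt_of_lt_one (by positivity) (by norm_num)
  refine ⟨2 * C₀ * (-Real.log ep) + M + 2, by positivity, ?_⟩
  intro a ha ha2 j hj
  have hlog : 0 < Real.log (1 / a) := by
    apply Real.log_pos
    rw [lt_div_iff₀ ha]; linarith
  have hloga : Real.log (1 / a) = -Real.log a := by
    rw [one_div, Real.log_inv]
  have h1 : a ^ (2 * C₀ * (-Real.log ep)) ≤ ep ^ (2 * j) := by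
    rw [Real.rpow_def_of_pos ha]
    have h2 : ep ^ (2 * j) = Real.exp (Real.log ep * ((2 * j : ℕ) : ℝ)) := by
      rw [← Real.rpow_natCast, Real.rpow_def_of_pos hep]
    rw [h2]
    apply Real.exp_le_exp.mpr
    push_cast
    have h3 : (-Real.log ep) * (j : ℝ) ≤ (-Real.log ep) * (C₀ * Real.log (1 / a)) :=
      mul_le_mul_of_nonneg_left hj hlogep
    rw [hloga] at h3
    nlinarith
  have h2 : a ^ (M : ℝ) ≤ ep ^ k * c₀ := by
    rw [Real.rpow_natCast]
    calc a ^ M ≤ (1 / 2 : ℝ) ^ M := pow_le_pow_left₀ ha.le ha2 M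
      _ ≤ ep ^ k * c₀ := hM.le
  have h3 : a ^ (2 * C₀ * (-Real.log ep) + M + 2) =
      a ^ (2 * C₀ * (-Real.log ep)) * a ^ (M : ℝ) * a ^ (2 : ℕ) := by
    rw [Real.rpow_add ha, Real.rpow_add ha]
    congr 1
    rw [← Real.rpow_natCast]
    norm_num
  rw [h3]
  have h4 : 0 ≤ a ^ (M : ℝ) := Real.rpow_nonneg ha.le _
  have h5 : 0 ≤ ep ^ (2 * j) := by positivity
  calc a ^ (2 * C₀ * (-Real.log ep)) * a ^ (M : ℝ) * a ^ (2 : ℕ)
      ≤ ep ^ (2 * j) * (ep ^ k * c₀) * a ^ 2 := by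
        apply mul_le_mul_of_nonneg_right _ (by positivity)
        exact mul_le_mul h1 h2 h4 h5
    _ = ep ^ (2 * j + k) * (c₀ * a ^ 2) := by
        rw [pow_add]; ring

/-- Borel growth lemma. -/
theorem growth {J : ℝ → ℝ} (hmono : Monotone J) (hJ : Tendsto J atTop atTop)
    {c₃ : ℝ} (hc₃ : 0 < c₃) (M L₀ : ℝ) :
    ∃ lam : ℝ, L₀ ≤ lam ∧ M ≤ J lam ∧ J (lam + 3 * (J lam) ^ (-c₃)) ≤ 2 * J lam := by
  obtain ⟨lam₀, h0, h1⟩ : ∃ lam₀, L₀ ≤ lam₀ ∧ max M 1 ≤ J lam₀ := by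
    have h2 := (tendsto_atTop.1 hJ (max M 1)).and (eventually_ge_atTop L₀)
    obtain ⟨x, hx⟩ := h2.exists
    exact ⟨x, hx.2, hx.1⟩
  by_contra hcon
  push Not at hcon
  -- iterate
  let f : ℝ → ℝ := fun x => x + 3 * (J x) ^ (-c₃)
  let s : ℕ → ℝ := fun k => f^[k] lam₀
  have hs0 : s 0 = lam₀ := rfl
  have hssucc : ∀ k, s (k + 1) = s k + 3 * (J (s k)) ^ (-c₃) := by
    intro k
    show f^[k + 1] lam₀ = _
    rw [Function.iterate_succ_apply']
  have hinv : ∀ k, lam₀ ≤ s k ∧ (2 : ℝ) ^ k ≤ J (s k) := by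
    intro k
    induction k with
    | zero =>
      rw [hs0]
      exact ⟨le_rfl, by simpa using le_trans (le_max_right _ _) h1⟩
    | succ k ih =>
      obtain ⟨i1, i2⟩ := ih
      have hpos : 0 < J (s k) := lt_of_lt_of_le (by positivity) i2
      have h3 : 0 ≤ 3 * (J (s k)) ^ (-c₃) := by positivity
      refine ⟨by rw [hssucc]; linarith, ?_⟩
      have h4 := hcon (s k) (le_trans h0 i1)
        (le_trans (le_trans (le_max_left _ _) h1) (hmono i1))
      rw [hssucc]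
      rw [pow_succ]
      linarith
  -- boundedness
  set q : ℝ := (2 : ℝ) ^ (-c₃) with hq
  have hq0 : 0 < q := by positivity
  have hq1 : q < 1 := by
    rw [hq]
    exact Real.rpow_lt_one_of_one_lt_of_neg (by norm_num) (by linarith)
  have hstep : ∀ k, (J (s k)) ^ (-c₃) ≤ q ^ k := by
    intro k
    have h2 := (hinv k).2
    have h3 : (J (s k)) ^ (-c₃) ≤ ((2 : ℝ) ^ k) ^ (-c₃) :=
      Real.rpow_le_rpow_of_nonpos (by positivity) h2 (by linarith)
    refine h3.trans (le_of_eq ?_)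
    rw [hq, ← Real.rpow_natCast, ← Real.rpow_mul (by norm_num), ← Real.rpow_natCast,
      ← Real.rpow_mul (by norm_num)]
    congr 1
    ring
  have hbound : ∀ k, s k ≤ lam₀ + 3 * ∑ i ∈ Finset.range k, q ^ i := by
    intro k
    induction k with
    | zero => simp [hs0]
    | succ k ih =>
      rw [hssucc, Finset.sum_range_succ]
      have := hstep k
      linarith
  have hsum : ∀ k, ∑ i ∈ Finset.range k, q ^ i ≤ (1 - q)⁻¹ := by
    intro k
    have hs : Summable (fun i : ℕ => q ^ i) := summable_geometric_of_lt_one hq0.le hq1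
    rw [← tsum_geometric_of_lt_one hq0.le hq1]
    exact hs.sum_le_tsum _ (fun i _ => by positivity)
  set Lam : ℝ := lam₀ + 3 * (1 - q)⁻¹ with hLam
  have hJb : ∀ k : ℕ, (2 : ℝ) ^ k ≤ J Lam := by
    intro k
    refine (hinv k).2.trans (hmono ?_)
    have := hbound k
    have := hsum k
    rw [hLam]; linarith
  obtain ⟨k, hk⟩ := pow_unbounded_of_one_lt (J Lam) (by norm_num : (1 : ℝ) < 2)
  exact absurd (hJb k) (not_le.mpr hk)

/-- Final contradiction. -/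
theorem endgame {J₁ J₂ : ℝ → ℝ} {D : ℝ} (hD : 0 < D)
    (hmono₁ : Monotone J₁) (hJ₁ : Tendsto J₁ atTop atTop)
    (H1 : ∀ ε : ℝ, 0 < ε → ∃ C K a₀ L₀ : ℝ, 0 < a₀ ∧ ∀ lam : ℝ, L₀ ≤ lam → ∀ a : ℝ,
      0 < a → a ≤ a₀ →
      D * J₁ lam ≤ ε * (J₁ (lam + 2 * a) + J₂ (lam + 2 * a)) + C * a ^ (-K))
    (H2 : ∃ C m L₀ : ℝ, ∀ T : ℝ, L₀ ≤ T → ∀ a : ℝ, 0 < a → a ≤ 1 →
      J₂ T ≤ J₁ (T + a) + C * a ^ (-m)) : False := by
  obtain ⟨C, K, a₀, L₀, ha₀, h1⟩ := H1 (D / 16) (by positivity)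
  obtain ⟨C', m, L₁, h2⟩ := H2
  set K' : ℝ := max (max K m) 1 with hK'
  have hK'1 : 1 ≤ K' := le_max_right _ _
  have hK'pos : 0 < K' := by linarith
  set c₃ : ℝ := 1 / (2 * K') with hc₃
  have hc₃pos : 0 < c₃ := by positivity
  -- choose M
  set A : ℝ := min a₀ 1 with hA
  have hApos : 0 < A := lt_min ha₀ one_pos
  set B : ℝ := (D / 16) * |C'| + |C| + 1 with hB
  have hBpos : 0 < B := by positivity
  set M : ℝ := max (max 1 (A ^ (-(1 / c₃)))) ((2 * B / D) ^ 2 + 1) with hM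
  obtain ⟨lam, hlam, hMJ, hgr⟩ := growth hmono₁ hJ₁ hc₃pos M (max L₀ L₁)
  have hJ1 : 1 ≤ J₁ lam := le_trans (le_trans (le_max_left _ _) (le_max_left _ _)) hMJ
  have hJpos : 0 < J₁ lam := by linarith
  set a : ℝ := (J₁ lam) ^ (-c₃) with ha
  have hapos : 0 < a := by positivity
  have ha_A : a ≤ A := by
    have h3 : A ^ (-(1 / c₃)) ≤ J₁ lam := le_trans (le_trans (le_max_right _ _) (le_max_left _ _)) hMJ
    have h4 : (J₁ lam) ^ (-c₃) ≤ (A ^ (-(1 / c₃))) ^ (-c₃) :=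
      Real.rpow_le_rpow_of_nonpos (by positivity) h3 (by linarith)
    refine h4.trans (le_of_eq ?_)
    rw [← Real.rpow_mul hApos.le]
    have : -(1 / c₃) * -c₃ = 1 := by field_simp
    rw [this, Real.rpow_one]
  have ha_a0 : a ≤ a₀ := ha_A.trans (min_le_left _ _)
  have ha_1 : a ≤ 1 := ha_A.trans (min_le_right _ _)
  have hpowK : ∀ x : ℝ, x ≤ K' → a ^ (-x) ≤ (J₁ lam) ^ (1 / 2 : ℝ) := by
    intro x hx
    have h3 : a ^ (-x) ≤ a ^ (-K') :=
      Real.rpow_le_rpow_of_exponent_ge hapos ha_1 (by linarith)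
    refine h3.trans (le_of_eq ?_)
    rw [ha, ← Real.rpow_mul hJpos.le]
    congr 1
    rw [hc₃]; field_simp
  have hKle : K ≤ K' := le_trans (le_max_left _ _) (le_max_left _ _)
  have hmle : m ≤ K' := le_trans (le_max_right _ _) (le_max_left _ _)
  set S : ℝ := (J₁ lam) ^ (1 / 2 : ℝ) with hS
  have hSpos : 0 < S := by positivity
  have hSS : S * S = J₁ lam := by
    rw [hS, ← Real.rpow_add hJpos]; norm_num
  have e1 := h1 lam (le_trans (le_max_left _ _) hlam) a hapos ha_a0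
  have e2 := h2 (lam + 2 * a) (by
    have := le_trans (le_max_right L₀ L₁) hlam
    linarith) a hapos ha_1
  have e3 : lam + 2 * a + a = lam + 3 * a := by ring
  rw [e3] at e2
  have e4 : J₁ (lam + 2 * a) ≤ J₁ (lam + 3 * a) := hmono₁ (by linarith)
  have e5 : C' * a ^ (-m) ≤ |C'| * S := by
    calc C' * a ^ (-m) ≤ |C'| * a ^ (-m) :=
          mul_le_mul_of_nonneg_right (le_abs_self _) (by positivity)
      _ ≤ |C'| * S := mul_le_mul_of_nonneg_left (hpowK m hmle) (abs_nonneg _)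
  have e6 : C * a ^ (-K) ≤ |C| * S := by
    calc C * a ^ (-K) ≤ |C| * a ^ (-K) :=
          mul_le_mul_of_nonneg_right (le_abs_self _) (by positivity)
      _ ≤ |C| * S := mul_le_mul_of_nonneg_left (hpowK K hKle) (abs_nonneg _)
  have e7 : J₁ (lam + 2 * a) + J₂ (lam + 2 * a) ≤ 4 * J₁ lam + |C'| * S := by
    linarith
  have e8 : D * J₁ lam ≤ D / 16 * (4 * J₁ lam + |C'| * S) + |C| * S := by
    have := mul_le_mul_of_nonneg_left e7 (by positivity : (0 : ℝ) ≤ D / 16)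
    linarith
  have e9 : D / 2 * (S * S) ≤ B * S := by
    rw [hSS, hB]
    nlinarith [hSpos, hJpos, hD]
  have e10 : D / 2 * S ≤ B := by
    have : (D / 2 * S) * S ≤ B * S := by linarith
    exact le_of_mul_le_mul_right this hSpos
  have e11 : S ≤ 2 * B / D := by
    rw [le_div_iff₀ hD]; linarith
  have e12 : S * S ≤ (2 * B / D) ^ 2 := by
    rw [sq]; exact mul_le_mul e11 e11 hSpos.le (by positivity)
  have e13 : (2 * B / D) ^ 2 + 1 ≤ J₁ lam := le_trans (le_max_right _ _) hMJ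
  linarith

end Crest.Agent.R077
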