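import Crest.Agent.R077.Iface
import Crest.Agent.R077.LayersMeas

/-!
# Row 77: adapter between `Defs` (`IsRun`, `rc`, `prs`, `stepF`, `ind`, `samp`) and `Layers` (helper201)
-/

set_option autoImplicit false

open MeasureTheory Set Real

namespace Crest.Agent.R077.LR

open Crest.Agent.R077

/-! ### grid -/

lemma msh_pos {a : ℝ} {m : ℕ} (ha : 0 < a) (hm : 1 ≤ m) : 0 < msh a m := by
  unfold msh
  have : (0 : ℝ) < m := by exact_mod_cast hm
  positivity

lemma nd_zero (lam a : ℝ) (m : ℕ) : nd lam a m 0 = lam - a / 2 := by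
  unfold nd; simp

lemma nd_last {lam a : ℝ} {m : ℕ} (hm : 1 ≤ m) : nd lam a m m = lam + 3 * a / 2 := by
  unfold nd msh
  have : (m : ℝ) ≠ 0 := by
    have : (0 : ℝ) < m := by exact_mod_cast hm
    exact this.ne'
  field_simp
  ring

lemma nd_succ (lam a : ℝ) (m k : ℕ) : nd lam a m (k + 1) = nd lam a m k + msh a m := by
  unfold nd; push_cast; ring

lemma nd_pred (lam a : ℝ) (m : ℕ) {k : ℕ} (hk : 1 ≤ k) :
    nd lam a m (k - 1) = nd lam a m k - msh a m := by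
  obtain ⟨j, rfl⟩ : ∃ j, k = j + 1 := ⟨k - 1, by omega⟩
  rw [nd_succ]; simp

lemma nd_sub (lam a : ℝ) (m j k : ℕ) :
    nd lam a m k - nd lam a m j = ((k : ℝ) - j) * msh a m := by
  unfold nd; ring

lemma nd_mono {lam a : ℝ} {m : ℕ} (ha : 0 < a) (hm : 1 ≤ m) {j k : ℕ} (h : j ≤ k) :
    nd lam a m j ≤ nd lam a m k := by
  have h1 := nd_sub lam a m j k
  have h2 : (0 : ℝ) ≤ (k : ℝ) - j := by
    have : (j : ℝ) ≤ k := by exact_mod_cast h
    linarith
  have := mul_nonneg h2 (msh_pos ha hm).le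
  linarith

lemma nd_lt {lam a : ℝ} {m : ℕ} (ha : 0 < a) (hm : 1 ≤ m) {j k : ℕ} (h : j < k) :
    nd lam a m j < nd lam a m k := by
  have h1 := nd_sub lam a m j k
  have h2 : (0 : ℝ) < (k : ℝ) - j := by
    have : (j : ℝ) < k := by exact_mod_cast h
    linarith
  have := mul_pos h2 (msh_pos ha hm)
  linarith

/-- `t` lies in the cell `k` -/
def InCell (lam a : ℝ) (m k : ℕ) (t : ℝ) : Prop :=
  1 ≤ k ∧ k ≤ m ∧ nd lam a m (k - 1) ≤ t ∧ t < nd lam a m k

lemma exists_cell {lam a : ℝ} {m : ℕ} {t : ℝ}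
    (h1 : nd lam a m 0 ≤ t) (h2 : t < nd lam a m m) : ∃ k, InCell lam a m k t := by
  classical
  have hex : ∃ k, t < nd lam a m k := ⟨m, h2⟩
  set k := Nat.find hex with hk
  have hk1 : t < nd lam a m k := Nat.find_spec hex
  have hkm : k ≤ m := Nat.find_min' hex h2
  have hk0 : 1 ≤ k := by
    rcases Nat.eq_zero_or_pos k with h | h
    · rw [h] at hk1; linarith
    · exact h
  refine ⟨k, hk0, hkm, ?_, hk1⟩
  have := Nat.find_min hex (m := k - 1) (by omega)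
  exact not_lt.1 this

lemma InCell.window {lam a : ℝ} {m k : ℕ} {t : ℝ} (ha : 0 < a) (h : InCell lam a m k t) :
    nd lam a m 0 ≤ t ∧ t < nd lam a m m := by
  obtain ⟨h1, h2, h3, h4⟩ := h
  have hm : 1 ≤ m := h1.trans h2
  exact ⟨(nd_mono ha hm (Nat.zero_le _)).trans h3, h4.trans_le (nd_mono ha hm h2)⟩

lemma InCell.mem_Icc {lam a : ℝ} {m k : ℕ} {t : ℝ} (ha : 0 < a) (h : InCell lam a m k t) :
    t ∈ Icc (lam - a / 2) (lam + 3 * a / 2) := by
  have hm : 1 ≤ m := h.1.trans h.2.1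
  have h' := h.window ha
  rw [nd_zero, nd_last hm] at h'
  exact ⟨h'.1, h'.2.le⟩

/-! ### `prs`, `ind`, `rc` -/

lemma prs_eq (m : ℕ) : prs m = Layers.pairs m := rfl

lemma mem_prs {m : ℕ} {i : ℕ × ℕ} : i ∈ prs m ↔ 1 ≤ i.1 ∧ i.1 ≤ i.2 ∧ i.2 ≤ m := by
  rw [prs_eq, Layers.mem_pairs]

lemma ind_nonneg (lam a : ℝ) (m : ℕ) (i : ℕ × ℕ) (t : ℝ) : 0 ≤ ind lam a m i t := by
  unfold ind; split_ifs <;> norm_num

lemma ind_le_one (lam a : ℝ) (m : ℕ) (i : ℕ × ℕ) (t : ℝ) : ind lam a m i t ≤ 1 := by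
  unfold ind; split_ifs <;> norm_num

lemma ind_eq_indicator (lam a : ℝ) (m : ℕ) (i : ℕ × ℕ) :
    ind lam a m i = (Ico (lft lam a m i) (rgt lam a m i)).indicator (fun _ => (1 : ℝ)) := by
  funext t
  unfold ind
  rw [Set.indicator_apply]
  rfl

lemma measurable_ind (lam a : ℝ) (m : ℕ) (i : ℕ × ℕ) : Measurable (ind lam a m i) := by
  rw [ind_eq_indicator]
  exact measurable_const.indicator measurableSet_Ico

lemma integrable_ind (lam a : ℝ) (m : ℕ) (i : ℕ × ℕ) : Integrable (ind lam a m i) := by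
  rw [ind_eq_indicator, integrable_indicator_iff measurableSet_Ico]
  exact integrableOn_const (by simp)

/-- value of the indicator on a cell -/
lemma ind_cell {lam a : ℝ} {m k : ℕ} {t : ℝ} (ha : 0 < a) (h : InCell lam a m k t) {i : ℕ × ℕ}
    (hi : 1 ≤ i.1) : ind lam a m i t = if i.1 ≤ k ∧ k ≤ i.2 then 1 else 0 := by
  obtain ⟨h1, h2, h3, h4⟩ := h
  have hm : 1 ≤ m := h1.trans h2
  unfold ind lft rgt
  by_cases hc : i.1 ≤ k ∧ k ≤ i.2
  · rw [if_pos hc, if_pos]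
    exact ⟨(nd_mono ha hm (by omega)).trans h3, h4.trans_le (nd_mono ha hm hc.2)⟩
  · rw [if_neg hc, if_neg]
    rintro ⟨h5, h6⟩
    apply hc
    constructor
    · by_contra h7
      have := nd_mono (lam := lam) ha hm (j := k) (k := i.1 - 1) (by omega)
      linarith
    · by_contra h7
      have := nd_mono (lam := lam) ha hm (j := i.2) (k := k - 1) (by omega)
      linarith

/-- the indicator vanishes outside the window -/
lemma ind_window {lam a : ℝ} {m : ℕ} {t : ℝ} (ha : 0 < a) {i : ℕ × ℕ} (hi : i ∈ prs m)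
    (ht : t < nd lam a m 0 ∨ nd lam a m m ≤ t) : ind lam a m i t = 0 := by
  rw [mem_prs] at hi
  have hm : 1 ≤ m := by omega
  unfold ind lft rgt
  rw [if_neg]
  rintro ⟨h5, h6⟩
  rcases ht with ht | ht
  · have := nd_mono (lam := lam) ha hm (Nat.zero_le (i.1 - 1))
    linarith
  · have := nd_mono (lam := lam) ha hm hi.2.2
    linarith

lemma isRun_iff {x : ℕ → ℝ} {l r : ℕ} {σ : ℝ} :
    IsRun x l r σ ↔ 1 ≤ l ∧ l ≤ r ∧ σ ∈ Layers.lay x (l, r) :=
  Layers.isRunL_iff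

lemma rc_nonneg (x : ℕ → ℝ) (i : ℕ × ℕ) : 0 ≤ rc x i := ENNReal.toReal_nonneg

/-- `rc = cc` -/
lemma rc_eq {x : ℕ → ℝ} (hx : ∀ k, 0 ≤ x k) {m : ℕ} {i : ℕ × ℕ} (hi : i ∈ prs m) :
    rc x i = Layers.cc x i.1 i.2 := by
  rw [mem_prs] at hi
  exact Layers.volume_isRunL hx hi.1 hi.2.1

lemma rc_le {x : ℕ → ℝ} (hx : ∀ k, 0 ≤ x k) {m : ℕ} {i : ℕ × ℕ} (hi : i ∈ prs m) {k : ℕ}
    (h1 : i.1 ≤ k) (h2 : k ≤ i.2) : rc x i ≤ x k := by
  rw [rc_eq hx hi]
  exact Layers.cc_le hx h1 h2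

/-- the set of run levels, up to the null set `{0}`, is the layer -/
lemma seq_of_lay {f : ℝ → ℝ} {x : ℕ → ℝ} {lam a : ℝ} {m : ℕ} (h : Lay f x lam a m) :
    Layers.Seq x m :=
  ⟨h.x_zero, h.x_out (m + 1) (Nat.lt_succ_self m), h.x_nonneg⟩

/-! ### long class -/

/-- the long class at scale `η` as a predicate -/
def Lg (a : ℝ) (m : ℕ) (η : ℝ) (i : ℕ × ℕ) : Prop :=
  ¬ (2 ≤ i.1 ∧ i.2 + 1 ≤ m ∧ ((i.2 : ℝ) - i.1 + 1) * msh a m < η)

noncomputable instance (a : ℝ) (m : ℕ) (η : ℝ) : DecidablePred (Lg a m η) :=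
  fun _ => Classical.propDecidable _

lemma mem_shortI {a : ℝ} {m : ℕ} {η : ℝ} {i : ℕ × ℕ} :
    i ∈ shortI a m η ↔ i ∈ prs m ∧ 2 ≤ i.1 ∧ i.2 + 1 ≤ m ∧
      ((i.2 : ℝ) - i.1 + 1) * msh a m < η := by
  unfold shortI
  rw [Finset.mem_filter]

lemma mem_longI {a : ℝ} {m : ℕ} {η : ℝ} {i : ℕ × ℕ} :
    i ∈ longI a m η ↔ i ∈ prs m ∧ Lg a m η i := by
  unfold longI Lg
  rw [Finset.mem_sdiff, mem_shortI]
  tauto

lemma shortI_subset (a : ℝ) (m : ℕ) (η : ℝ) : shortI a m η ⊆ prs m := fun _ hi =>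
  (mem_shortI.1 hi).1

lemma longI_subset (a : ℝ) (m : ℕ) (η : ℝ) : longI a m η ⊆ prs m := fun _ hi =>
  (mem_longI.1 hi).1

/-- alternatives for a long pair -/
lemma longI_cases {a : ℝ} {m : ℕ} {η : ℝ} {i : ℕ × ℕ} (hi : i ∈ longI a m η) :
    i.1 = 1 ∨ i.2 = m ∨ η ≤ ((i.2 : ℝ) - i.1 + 1) * msh a m := by
  rw [mem_longI, mem_prs] at hi
  unfold Lg at hi
  by_contra h
  push Not at h
  obtain ⟨h1, h2, h3⟩ := h
  exact hi.2 ⟨by omega, by omega, h3⟩

lemma upClosed_Lg {a : ℝ} {m : ℕ} (ha : 0 < a) (η : ℝ) : Layers.UpClosed (Lg a m η) m := by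
  intro p hp q hq h1 h2 hp'
  rw [Layers.mem_pairs] at hp hq
  have hm : 1 ≤ m := by omega
  unfold Lg at *
  rintro ⟨h3, h4, h5⟩
  apply hp'
  refine ⟨by omega, by omega, lt_of_le_of_lt ?_ h5⟩
  have e1 : (q.1 : ℝ) ≤ p.1 := by exact_mod_cast h1
  have e2 : (p.2 : ℝ) ≤ q.2 := by exact_mod_cast h2
  exact mul_le_mul_of_nonneg_right (by linarith) (msh_pos ha hm).le

lemma longI_anti {a : ℝ} {m : ℕ} {η δ : ℝ} (h : η ≤ δ) : longI a m δ ⊆ longI a m η := by
  intro i hi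
  rw [mem_longI] at hi ⊢
  refine ⟨hi.1, ?_⟩
  unfold Lg at *
  rintro ⟨h3, h4, h5⟩
  exact hi.2 ⟨h3, h4, lt_of_lt_of_le h5 h⟩

lemma shortI_mono {a : ℝ} {m : ℕ} {η δ : ℝ} (h : η ≤ δ) : shortI a m η ⊆ shortI a m δ := by
  intro i hi
  rw [mem_shortI] at hi ⊢
  exact ⟨hi.1, hi.2.1, hi.2.2.1, lt_of_lt_of_le hi.2.2.2 h⟩

/-! ### step functions -/

lemma stepF_nonneg (x : ℕ → ℝ) (S : Finset (ℕ × ℕ)) (lam a : ℝ) (m : ℕ) (t : ℝ) :
    0 ≤ stepF x S lam a m t :=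
  Finset.sum_nonneg (fun i _ => mul_nonneg (rc_nonneg x i) (ind_nonneg lam a m i t))

lemma stepF_subset (x : ℕ → ℝ) {S T : Finset (ℕ × ℕ)} (h : S ⊆ T) (lam a : ℝ) (m : ℕ) (t : ℝ) :
    stepF x S lam a m t ≤ stepF x T lam a m t :=
  Finset.sum_le_sum_of_subset_of_nonneg h
    (fun i _ _ => mul_nonneg (rc_nonneg x i) (ind_nonneg lam a m i t))

lemma stepF_anti (x : ℕ → ℝ) {η δ : ℝ} (h : η ≤ δ) (lam a : ℝ) (m : ℕ) (t : ℝ) :
    stepF x (longI a m δ) lam a m t ≤ stepF x (longI a m η) lam a m t :=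
  stepF_subset x (longI_anti h) lam a m t

lemma stepF_window (x : ℕ → ℝ) {S : Finset (ℕ × ℕ)} {lam a : ℝ} {m : ℕ} {t : ℝ} (ha : 0 < a)
    (hS : S ⊆ prs m) (ht : t < nd lam a m 0 ∨ nd lam a m m ≤ t) :
    stepF x S lam a m t = 0 :=
  Finset.sum_eq_zero (fun i hi => by rw [ind_window ha (hS hi) ht, mul_zero])

/-- same, window written out -/
lemma stepF_window' (x : ℕ → ℝ) {S : Finset (ℕ × ℕ)} {lam a : ℝ} {m : ℕ} {t : ℝ} (ha : 0 < a)
    (hm : 1 ≤ m) (hS : S ⊆ prs m) (ht : t ∉ Icc (lam - a / 2) (lam + 3 * a / 2)) :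
    stepF x S lam a m t = 0 := by
  apply stepF_window x ha hS
  rw [nd_zero, nd_last hm]
  rw [Set.mem_Icc, not_and_or, not_le, not_le] at ht
  rcases ht with h | h
  · exact Or.inl h
  · exact Or.inr h.le

lemma stepF_cell (x : ℕ → ℝ) {S : Finset (ℕ × ℕ)} {lam a : ℝ} {m k : ℕ} {t : ℝ} (ha : 0 < a)
    (hS : S ⊆ prs m) (ht : InCell lam a m k t) :
    stepF x S lam a m t = ∑ i ∈ S.filter (fun i => i.1 ≤ k ∧ k ≤ i.2), rc x i := by
  unfold stepF
  rw [Finset.sum_filter]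
  refine Finset.sum_congr rfl (fun i hi => ?_)
  rw [ind_cell ha ht (mem_prs.1 (hS hi)).1]
  split_ifs <;> simp

lemma filter_prs (m k : ℕ) :
    (prs m).filter (fun i => i.1 ≤ k ∧ k ≤ i.2) = Layers.pairsAt m k := rfl

/-- all layers together give `x k` on the cell `k` -/
lemma stepF_prs {x : ℕ → ℝ} {lam a : ℝ} {m k : ℕ} {t : ℝ} (ha : 0 < a) (hx : Layers.Seq x m)
    (ht : InCell lam a m k t) : stepF x (prs m) lam a m t = x k := by
  rw [stepF_cell x ha (Finset.Subset.refl _) ht, filter_prs, ← Layers.sum_cc hx ht.1 ht.2.1]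
  exact Finset.sum_congr rfl (fun i hi => rc_eq hx.nonneg (Layers.pairsAt_subset m k hi))

/-- the long part on the cell `k` -/
lemma stepF_longI {x : ℕ → ℝ} {lam a : ℝ} {m k : ℕ} {t η : ℝ} (ha : 0 < a) (hx : Layers.Seq x m)
    (ht : InCell lam a m k t) :
    stepF x (longI a m η) lam a m t = Layers.xL (Lg a m η) x m k := by
  rw [stepF_cell x ha (longI_subset a m η) ht]
  unfold Layers.xL
  have : (longI a m η).filter (fun i => i.1 ≤ k ∧ k ≤ i.2)
      = (Layers.pairsAt m k).filter (Lg a m η) := by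
    ext i
    rw [Finset.mem_filter, Finset.mem_filter, mem_longI, ← filter_prs, Finset.mem_filter]
    tauto
  rw [this]
  refine Finset.sum_congr rfl (fun i hi => ?_)
  exact rc_eq hx.nonneg (Layers.pairsAt_subset m k (Finset.mem_filter.1 hi).1)

/-- the long part, as a function of the cell; `xL ≤ x` -/
lemma stepF_longI_le {x : ℕ → ℝ} {lam a : ℝ} {m k : ℕ} {t η : ℝ} (ha : 0 < a)
    (hx : Layers.Seq x m) (ht : InCell lam a m k t) :
    stepF x (longI a m η) lam a m t ≤ x k := by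
  rw [← stepF_prs ha hx ht]
  exact stepF_subset x (longI_subset a m η) lam a m t

lemma stepF_shortI_add_longI (x : ℕ → ℝ) (lam a : ℝ) (m : ℕ) (η t : ℝ) :
    stepF x (shortI a m η) lam a m t + stepF x (longI a m η) lam a m t
      = stepF x (prs m) lam a m t := by
  unfold stepF longI
  rw [add_comm]
  exact Finset.sum_sdiff (shortI_subset a m η)

/-- any part is below `f` -/
lemma stepF_le {f : ℝ → ℝ} {x : ℕ → ℝ} {S : Finset (ℕ × ℕ)} {lam a : ℝ} {m : ℕ} (ha : 0 < a)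
    (h : Lay f x lam a m) (hS : S ⊆ prs m) (t : ℝ) : stepF x S lam a m t ≤ f t := by
  by_cases ht : nd lam a m 0 ≤ t ∧ t < nd lam a m m
  · obtain ⟨k, hk⟩ := exists_cell ht.1 ht.2
    calc stepF x S lam a m t ≤ stepF x (prs m) lam a m t := stepF_subset x hS lam a m t
      _ = x k := stepF_prs ha (seq_of_lay h) hk
      _ ≤ f t := h.x_le k hk.1 hk.2.1 t hk.2.2.1 hk.2.2.2.le
  · rw [stepF_window x ha hS (by rw [not_and_or, not_le, not_lt] at ht; exact ht)]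
    exact h.f_nonneg t

/-- opening: a long window containing `t` on which `x ≥ v` -/
lemma le_stepF_longI {x : ℕ → ℝ} {lam a : ℝ} {m k : ℕ} {t η v : ℝ} (ha : 0 < a)
    (hx : Layers.Seq x m) (ht : InCell lam a m k t) {i : ℕ × ℕ} (hi : i ∈ longI a m η)
    (h1 : i.1 ≤ k) (h2 : k ≤ i.2) (hv : ∀ j, i.1 ≤ j → j ≤ i.2 → v ≤ x j) :
    v ≤ stepF x (longI a m η) lam a m t := by
  rw [stepF_longI ha hx ht]
  rw [mem_longI, mem_prs] at hi
  exact Layers.le_xL hx (upClosed_Lg ha η) (p := i)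
    (Layers.mem_pairsAt.2 ⟨hi.1.1, h1, h2, hi.1.2.2⟩) hi.2 hv

/-- levels below the long part -/
lemma lt_stepF_longI_iff {x : ℕ → ℝ} {lam a : ℝ} {m k : ℕ} {t η σ : ℝ} (ha : 0 < a)
    (hx : Layers.Seq x m) (ht : InCell lam a m k t) (h0 : 0 ≤ σ) :
    σ < stepF x (longI a m η) lam a m t ↔
      ∃ i ∈ longI a m η, (i.1 ≤ k ∧ k ≤ i.2) ∧ ∀ j, i.1 ≤ j → j ≤ i.2 → σ < x j := by
  rw [stepF_longI ha hx ht, Layers.lt_xL_iff hx (upClosed_Lg ha η) h0]
  constructor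
  · rintro ⟨p, hp, hL, hσ⟩
    rw [Layers.mem_pairsAt] at hp
    exact ⟨p, mem_longI.2 ⟨mem_prs.2 ⟨hp.1, hp.2.1.trans hp.2.2.1, hp.2.2.2⟩, hL⟩,
      ⟨hp.2.1, hp.2.2.1⟩, hσ⟩
  · rintro ⟨p, hp, h1, hσ⟩
    rw [mem_longI, mem_prs] at hp
    exact ⟨p, Layers.mem_pairsAt.2 ⟨hp.1.1, h1.1, h1.2, hp.1.2.2⟩, hp.2, hσ⟩

lemma measurable_stepF (x : ℕ → ℝ) (S : Finset (ℕ × ℕ)) (lam a : ℝ) (m : ℕ) :
    Measurable (stepF x S lam a m) := by
  unfold stepF
  exact Finset.measurable_fun_sum _ (fun i _ => (measurable_ind lam a m i).const_mul _)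

lemma integrable_stepF (x : ℕ → ℝ) (S : Finset (ℕ × ℕ)) (lam a : ℝ) (m : ℕ) :
    Integrable (stepF x S lam a m) := by
  unfold stepF
  exact integrable_finsetSum _ (fun i _ => (integrable_ind lam a m i).const_mul _)

/-! ### integration of the levels -/

/-- `∑_{long i ∋ k} ∫_{levels of i} g = ∫_0^{F^L} g` -/
lemma sum_integral_longI {x : ℕ → ℝ} {lam a : ℝ} {m k : ℕ} {t η : ℝ} (ha : 0 < a)
    (hx : Layers.Seq x m) (ht : InCell lam a m k t) {g : ℝ → ℝ}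
    (hg : IntegrableOn g (Ico 0 (stepF x (longI a m η) lam a m t))) :
    ∑ i ∈ (longI a m η).filter (fun i => i.1 ≤ k ∧ k ≤ i.2), ∫ σ in Layers.lay x i, g σ
      = ∫ σ in Ico 0 (stepF x (longI a m η) lam a m t), g σ := by
  rw [stepF_longI ha hx ht] at hg ⊢
  rw [← Layers.sum_integral_long hx (upClosed_Lg ha η) hg]
  refine Finset.sum_congr ?_ (fun _ _ => rfl)
  ext i
  rw [Finset.mem_filter, Finset.mem_filter, mem_longI, ← filter_prs, Finset.mem_filter]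
  tauto

/-- total thickness of all layers -/
lemma sum_rc {x : ℕ → ℝ} {m : ℕ} (hx : Layers.Seq x m) :
    ∑ i ∈ prs m, rc x i = ∑ l ∈ Finset.Icc 1 m, max (x l - x (l - 1)) 0 := by
  rw [← Layers.sum_cc_all hx]
  exact Finset.sum_congr rfl (fun i hi => rc_eq hx.nonneg hi)

/-! ### the sampled data of a solution -/

lemma node_mem {lam a : ℝ} {m k : ℕ} (ha : 0 < a) (ha1 : a ≤ 1) (hm : 1 ≤ m) (hk : k ≤ m) :
    nd lam a m k ∈ Icc (lam - 2) (lam + 4) := by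
  have h1 := nd_mono (lam := lam) ha hm (Nat.zero_le k)
  have h2 := nd_mono (lam := lam) ha hm hk
  rw [nd_zero] at h1
  rw [nd_last hm] at h2
  constructor <;> linarith

lemma sol_f_cont {b p lam L : ℝ} {f v : ℝ → ℝ} (h : Sol b p f v lam L) : Continuous f := by
  have : f = fun t => Real.exp (b * t) * v t ^ p := funext h.feq
  rw [this]
  have hv : Continuous v := h.v_C1.continuous
  exact (Real.continuous_exp.comp (continuous_const.mul continuous_id)).mul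
    (hv.rpow_const (fun t => Or.inl (h.v_pos t).ne'))

lemma sol_f_pos {b p lam L : ℝ} {f v : ℝ → ℝ} (h : Sol b p f v lam L) (t : ℝ) : 0 < f t := by
  rw [h.feq]
  exact mul_pos (Real.exp_pos _) (Real.rpow_pos_of_pos (h.v_pos t) _)

lemma samp_of_mem {f : ℝ → ℝ} {lam a L : ℝ} {m k : ℕ} (h1 : 1 ≤ k) (h2 : k ≤ m) :
    samp f lam a m L k = f (nd lam a m k) - L * msh a m := by
  unfold samp; rw [if_pos ⟨h1, h2⟩]

/-- mesh condition: `L * msh ≤ 1 / (4 L)` -/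
lemma mesh_le {a L : ℝ} {m : ℕ} (hL : 1 ≤ L) (hLm : 4 * L ^ 2 * msh a m ≤ 1) :
    L * msh a m ≤ 1 / (4 * L) := by
  rw [le_div_iff₀ (by linarith)]
  nlinarith

/-- `samp` is admissible -/
lemma lay_of_sol {b p lam a L : ℝ} {f v : ℝ → ℝ} {m : ℕ} (h : Sol b p f v lam L) (ha : 0 < a)
    (ha1 : a ≤ 1) (hm : 1 ≤ m) (hLm : 4 * L ^ 2 * msh a m ≤ 1) :
    Lay f (samp f lam a m L) lam a m where
  f_cont := sol_f_cont h
  f_nonneg := fun t => (sol_f_pos h t).le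
  x_nonneg := by
    intro k
    unfold samp
    split_ifs with hk
    · have h1 := h.f_ge _ (node_mem (lam := lam) ha ha1 hm hk.2)
      have h2 := mesh_le h.hL hLm
      have hL0 : 0 < L := by linarith [h.hL]
      have h3 : 1 / L ≤ f (nd lam a m k) := by
        rw [div_le_iff₀ hL0]; linarith
      have h4 : 1 / (4 * L) ≤ 1 / L := by
        apply one_div_le_one_div_of_le hL0; linarith
      linarith
    · exact le_rfl
  x_zero := by unfold samp; simp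
  x_out := by
    intro k hk
    unfold samp
    rw [if_neg (by omega)]
  x_le := by
    intro k h1 h2 t ht1 ht2
    rw [samp_of_mem h1 h2]
    have e1 := node_mem (lam := lam) ha ha1 hm (k := k) h2
    have e2 := node_mem (lam := lam) ha ha1 hm (k := k - 1) (by omega)
    have hlip := h.f_lip (nd lam a m k) e1 t ⟨e2.1.trans ht1, ht2.trans e1.2⟩
    have h3 : |nd lam a m k - t| ≤ msh a m := by
      rw [nd_pred lam a m h1] at ht1
      rw [abs_of_nonneg (by linarith)]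
      linarith
    have hL0 : 0 ≤ L := by linarith [h.hL]
    have h4 := mul_le_mul_of_nonneg_left h3 hL0
    have h5 := abs_le.1 (hlip.trans h4)
    linarith [h5.2]

/-- upper bound: `f ≤ x k + 2 L h` on the cell `k` -/
lemma f_le_samp {b p lam a L : ℝ} {f v : ℝ → ℝ} {m k : ℕ} {t : ℝ} (h : Sol b p f v lam L)
    (ha : 0 < a) (ha1 : a ≤ 1) (ht : InCell lam a m k t) :
    f t ≤ samp f lam a m L k + 2 * L * msh a m := by
  obtain ⟨h1, h2, ht1, ht2⟩ := ht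
  have hm : 1 ≤ m := h1.trans h2
  rw [samp_of_mem h1 h2]
  have e1 := node_mem (lam := lam) ha ha1 hm (k := k) h2
  have e2 := node_mem (lam := lam) ha ha1 hm (k := k - 1) (by omega)
  have hlip := h.f_lip (nd lam a m k) e1 t ⟨e2.1.trans ht1, ht2.le.trans e1.2⟩
  have h3 : |nd lam a m k - t| ≤ msh a m := by
    rw [nd_pred lam a m h1] at ht1
    rw [abs_of_nonneg (by linarith)]
    linarith
  have hL0 : 0 ≤ L := by linarith [h.hL]
  have h4 := mul_le_mul_of_nonneg_left h3 hL0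
  have h5 := abs_le.1 (hlip.trans h4)
  linarith [h5.1]

/-- neighbouring samples differ by at most `L h` -/
lemma samp_succ {b p lam a L : ℝ} {f v : ℝ → ℝ} {m k : ℕ} (h : Sol b p f v lam L)
    (ha : 0 < a) (ha1 : a ≤ 1) (h1 : 1 ≤ k) (h2 : k + 1 ≤ m) :
    |samp f lam a m L (k + 1) - samp f lam a m L k| ≤ L * msh a m := by
  have hm : 1 ≤ m := by omega
  rw [samp_of_mem (by omega) h2, samp_of_mem h1 (by omega)]
  have e1 := node_mem (lam := lam) ha ha1 hm (k := k + 1) h2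
  have e2 := node_mem (lam := lam) ha ha1 hm (k := k) (by omega)
  have hlip := h.f_lip _ e1 _ e2
  have h3 : |nd lam a m (k + 1) - nd lam a m k| = msh a m := by
    rw [nd_succ, add_sub_cancel_left, abs_of_pos (msh_pos ha hm)]
  rw [h3] at hlip
  rwa [sub_sub_sub_cancel_right]

/-- total thickness of all layers is at most `L * (3 a)` + `L` : uniform bound -/
lemma sum_rc_samp_le {b p lam a L : ℝ} {f v : ℝ → ℝ} {m : ℕ} (h : Sol b p f v lam L)
    (ha : 0 < a) (ha1 : a ≤ 1) (hm : 1 ≤ m) (hLm : 4 * L ^ 2 * msh a m ≤ 1) :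
    ∑ i ∈ prs m, rc (samp f lam a m L) i ≤ L + 2 * a * L := by
  have hlay := lay_of_sol (lam := lam) h ha ha1 hm hLm
  have hL0 : 0 ≤ L := by linarith [h.hL]
  rw [sum_rc (seq_of_lay hlay)]
  obtain ⟨n, rfl⟩ : ∃ n, m = n + 1 := ⟨m - 1, by omega⟩
  rw [← Finset.add_sum_Ioc_eq_sum_Icc (by omega : 1 ≤ n + 1)]
  have h1 : max (samp f lam a (n + 1) L 1 - samp f lam a (n + 1) L (1 - 1)) 0 ≤ L := by
    have e0 : samp f lam a (n + 1) L (1 - 1) = 0 := hlay.x_zero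
    rw [e0, sub_zero, max_eq_left (hlay.x_nonneg 1)]
    have e1 := node_mem (lam := lam) ha ha1 hm (k := 1) (by omega)
    have e2 := hlay.x_le 1 le_rfl hm (nd lam a (n + 1) 1) (nd_mono ha hm (by omega)) le_rfl
    exact e2.trans (h.f_le _ e1)
  have h2 : ∑ l ∈ Finset.Ioc 1 (n + 1),
      max (samp f lam a (n + 1) L l - samp f lam a (n + 1) L (l - 1)) 0
      ≤ ∑ l ∈ Finset.Ioc 1 (n + 1), L * msh a (n + 1) := by
    refine Finset.sum_le_sum (fun l hl => ?_)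
    rw [Finset.mem_Ioc] at hl
    obtain ⟨k, rfl⟩ : ∃ k, l = k + 1 := ⟨l - 1, by omega⟩
    have e3 := samp_succ (lam := lam) (k := k) h ha ha1 (by omega) hl.2
    rw [Nat.add_sub_cancel]
    refine max_le ((le_abs_self _).trans e3) ?_
    exact mul_nonneg hL0 (msh_pos ha hm).le
  have h3 : ∑ l ∈ Finset.Ioc 1 (n + 1), L * msh a (n + 1) ≤ 2 * a * L := by
    rw [Finset.sum_const, Nat.card_Ioc, nsmul_eq_mul]
    have hmsh : ((n + 1 : ℕ) : ℝ) * msh a (n + 1) = 2 * a := by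
      unfold msh
      have : ((n + 1 : ℕ) : ℝ) ≠ 0 := by positivity
      field_simp
    have h4 : ((n + 1 - 1 : ℕ) : ℝ) ≤ ((n + 1 : ℕ) : ℝ) := by
      exact_mod_cast Nat.sub_le _ _
    have h5 := mul_le_mul_of_nonneg_right h4 (mul_nonneg hL0 (msh_pos ha hm).le)
    calc ((n + 1 - 1 : ℕ) : ℝ) * (L * msh a (n + 1)) ≤ ((n + 1 : ℕ) : ℝ) * (L * msh a (n + 1)) := h5
      _ = L * (((n + 1 : ℕ) : ℝ) * msh a (n + 1)) := by ring
      _ = 2 * a * L := by rw [hmsh]; ring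
  linarith

/-- end data of an interior layer: every level of the layer is `2 L h`-close to `f` at both ends -/
lemma level_end {b p lam a L : ℝ} {f v : ℝ → ℝ} {m : ℕ} (h : Sol b p f v lam L)
    (ha : 0 < a) (ha1 : a ≤ 1) {i : ℕ × ℕ} (hi : i ∈ prs m) {σ : ℝ}
    (hσ : σ ∈ Layers.lay (samp f lam a m L) i) :
    (2 ≤ i.1 → f (lft lam a m i) - L * msh a m ≤ σ ∧ σ < f (lft lam a m i)) ∧
    (i.2 + 1 ≤ m → f (rgt lam a m i) - 2 * (L * msh a m) ≤ σ ∧
      σ < f (rgt lam a m i) - L * msh a m) := by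
  rw [mem_prs] at hi
  have hm : 1 ≤ m := by omega
  rw [Layers.mem_lay hi.2.1] at hσ
  obtain ⟨⟨h1, h2⟩, h3⟩ := hσ
  constructor
  · intro h4
    rw [samp_of_mem (by omega) (by omega)] at h1
    have h5 := h3 i.1 le_rfl hi.2.1
    obtain ⟨k, hk⟩ : ∃ k, i.1 = k + 1 := ⟨i.1 - 1, by omega⟩
    have h6 := samp_succ (lam := lam) (k := k) (m := m) h ha ha1 (by omega) (by omega)
    rw [samp_of_mem (by omega) (by omega), samp_of_mem (by omega) (by omega)] at h6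
    rw [hk, samp_of_mem (by omega) (by omega)] at h5
    unfold lft
    rw [hk] at h1 ⊢
    rw [Nat.add_sub_cancel] at h1 ⊢
    have h7 := (abs_le.1 h6).2
    constructor <;> linarith
  · intro h4
    rw [samp_of_mem (by omega) h4] at h2
    have h5 := h3 i.2 hi.2.1 le_rfl
    rw [samp_of_mem (by omega) hi.2.2] at h5
    have h6 := samp_succ (lam := lam) (k := i.2) h ha ha1 (by omega) h4
    rw [samp_of_mem (by omega) h4, samp_of_mem (by omega) (by omega)] at h6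
    unfold rgt
    have h7 := (abs_le.1 h6).1
    constructor <;> linarith

end Crest.Agent.R077.LR
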