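import Crest.Agent.R077.Iface
import Crest.Agent.R077.TentPhi
import Crest.Agent.R077.LayersRun
import Crest.Agent.R077.MeasLay

/-!
Row 77: the analytic identity, one half at a time (helper795).
`Half` packages the data `(f,g,v,o)`; it is used for `(F,G,V,OmF)` and for `(G,F,U,OmG)`.
-/

set_option autoImplicit false
open MeasureTheory Set Real
open scoped ENNReal

namespace Crest.Agent.R077.II

/-! ### the momentum density lies between `0` and `f` -/

lemma omega_split (f : ℝ → ℝ) (x : ℕ → ℝ) (S : Finset (ℕ × ℕ)) (lam a : ℝ) (m : ℕ) (t : ℝ) :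
    omega f x S lam a m t = phi lam a t * (f t - stepF x S lam a m t)
      + ∑ i ∈ S, rc x i * (phi lam a (mid lam a m i) * ind lam a m i t) := by
  unfold omega stepF
  rw [mul_sub, Finset.mul_sum, sub_add, ← Finset.sum_sub_distrib, sub_eq_add_neg,
    ← Finset.sum_neg_distrib]
  congr 1
  apply Finset.sum_congr rfl
  intro i _
  ring

lemma omega_nonneg {f : ℝ → ℝ} {x : ℕ → ℝ} {lam a : ℝ} {m : ℕ} (ha : 0 < a)
    (h : Lay f x lam a m) {S : Finset (ℕ × ℕ)} (hS : S ⊆ prs m) (t : ℝ) :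
    0 ≤ omega f x S lam a m t := by
  rw [omega_split]
  have h1 := LR.stepF_le ha h hS t
  have h2 := TP.phi_nonneg ha lam t
  have h3 : 0 ≤ ∑ i ∈ S, rc x i * (phi lam a (mid lam a m i) * ind lam a m i t) :=
    Finset.sum_nonneg fun i _ => mul_nonneg (LR.rc_nonneg x i)
      (mul_nonneg (TP.phi_nonneg ha lam _) (LR.ind_nonneg lam a m i t))
  have h4 : 0 ≤ phi lam a t * (f t - stepF x S lam a m t) := mul_nonneg h2 (by linarith)
  linarith

lemma omega_le {f : ℝ → ℝ} {x : ℕ → ℝ} {lam a : ℝ} {m : ℕ} (ha : 0 < a)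
    (h : Lay f x lam a m) {S : Finset (ℕ × ℕ)} (hS : S ⊆ prs m) (t : ℝ) :
    omega f x S lam a m t ≤ f t := by
  rw [omega_split]
  have h1 := LR.stepF_le ha h hS t
  have h3 : ∑ i ∈ S, rc x i * (phi lam a (mid lam a m i) * ind lam a m i t)
      ≤ stepF x S lam a m t := by
    unfold stepF
    apply Finset.sum_le_sum
    intro i _
    apply mul_le_mul_of_nonneg_left _ (LR.rc_nonneg x i)
    have h5 := mul_le_mul_of_nonneg_right (TP.phi_le_one lam a (mid lam a m i))
      (LR.ind_nonneg lam a m i t)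
    linarith
  have h4 : phi lam a t * (f t - stepF x S lam a m t) ≤ 1 * (f t - stepF x S lam a m t) :=
    mul_le_mul_of_nonneg_right (TP.phi_le_one lam a t) (by linarith)
  linarith

lemma omega_zero {f : ℝ → ℝ} {x : ℕ → ℝ} {lam a : ℝ} {m : ℕ} (ha : 0 < a) (hm : 1 ≤ m)
    {S : Finset (ℕ × ℕ)} (hS : S ⊆ prs m) {t : ℝ} (ht : lam + 3 * a / 2 ≤ t) :
    omega f x S lam a m t = 0 := by
  unfold omega
  rw [TP.phi_eq_zero ha (by linarith), zero_mul, zero_add]
  apply Finset.sum_eq_zero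
  intro i hi
  rw [LR.ind_window ha (hS hi) (Or.inr (by rw [LR.nd_last hm]; exact ht)), mul_zero, mul_zero]

/-- before the window the momentum density is `f` -/
lemma omega_left {f : ℝ → ℝ} {x : ℕ → ℝ} {lam a : ℝ} {m : ℕ} (ha : 0 < a)
    {S : Finset (ℕ × ℕ)} (hS : S ⊆ prs m) {t : ℝ} (ht : t < lam - a / 2) :
    omega f x S lam a m t = f t := by
  unfold omega
  rw [TP.phi_eq_one (by linarith), one_mul]
  rw [Finset.sum_eq_zero, add_zero]
  intro i hi
  rw [LR.ind_window ha (hS hi) (Or.inl (by rw [LR.nd_zero]; exact ht)), mul_zero, mul_zero]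

/-! ### the kernel measure -/

section half
variable {M : Type} [MeasurableSpace M]

/-- the kernel measure for a general density -/
noncomputable def nuH (μ : Measure M) (H : ℝ → M → M → ℝ) : Measure (ℝ × M × M) :=
  ((volume.restrict (Ioi (0:ℝ))).prod (μ.prod μ)).withDensity
    (fun z => ENNReal.ofReal (H z.1 z.2.1 z.2.2))

/-- measure of the pairs `(ρ,θ')` -/
noncomputable def PP (μ : Measure M) : Measure (ℝ × M) := (volume.restrict (Ioi (0:ℝ))).prod μ

/-- reordering -/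
def re (w : M × (ℝ × M)) : ℝ × M × M := (w.2.1, w.1, w.2.2)

variable {μ : Measure M} [IsFiniteMeasure μ]

instance : SFinite (PP μ) := by unfold PP; infer_instance

instance (H : ℝ → M → M → ℝ) : SFinite (nuH μ H) := by unfold nuH; infer_instance

lemma re_mp : MeasurePreserving re (μ.prod (PP μ))
    ((volume.restrict (Ioi (0:ℝ))).prod (μ.prod μ)) := by
  have h1 := (measurePreserving_prodAssoc μ (volume.restrict (Ioi (0:ℝ))) μ).symm
  have h2 : MeasurePreserving (Prod.map Prod.swap id)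
      ((μ.prod (volume.restrict (Ioi (0:ℝ)))).prod μ)
      (((volume.restrict (Ioi (0:ℝ))).prod μ).prod μ) :=
    (Measure.measurePreserving_swap (μ := μ) (ν := volume.restrict (Ioi (0:ℝ)))).prod
      (MeasurePreserving.id μ)
  have h3 := measurePreserving_prodAssoc (volume.restrict (Ioi (0:ℝ))) μ μ
  exact h3.comp (h2.comp h1)

lemma swap_mp : MeasurePreserving (fun z : ℝ × M × M => (z.1, z.2.2, z.2.1))
    ((volume.restrict (Ioi (0:ℝ))).prod (μ.prod μ))
    ((volume.restrict (Ioi (0:ℝ))).prod (μ.prod μ)) :=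
  (MeasurePreserving.id (volume.restrict (Ioi (0:ℝ)))).prod
    (Measure.measurePreserving_swap (μ := μ) (ν := μ))

lemma pos_ae : ∀ᵐ y ∂(PP μ), 0 < y.1 := by
  have h : PP μ = (volume.prod μ).restrict (Ioi (0:ℝ) ×ˢ (univ : Set M)) := by
    unfold PP
    rw [← Measure.prod_restrict, Measure.restrict_univ]
  rw [h]
  filter_upwards [ae_restrict_mem (measurableSet_Ioi.prod MeasurableSet.univ)] with y hy
  exact hy.1

lemma lintegral_nuH {H : ℝ → M → M → ℝ}
    (hH : Measurable (fun z : ℝ × M × M => H z.1 z.2.1 z.2.2)) {Φ : ℝ × M × M → ℝ≥0∞}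
    (hΦ : Measurable Φ) :
    ∫⁻ z, Φ z ∂(nuH μ H)
      = ∫⁻ θ, ∫⁻ y, ENNReal.ofReal (H y.1 θ y.2) * Φ (y.1, θ, y.2) ∂(PP μ) ∂μ := by
  unfold nuH
  rw [lintegral_withDensity_eq_lintegral_mul _ hH.ennreal_ofReal hΦ,
    ← re_mp.lintegral_comp (hH.ennreal_ofReal.mul hΦ), lintegral_prod]
  · rfl
  · exact ((hH.ennreal_ofReal.mul hΦ).comp (re_mp (μ := μ)).measurable).aemeasurable

lemma lintegral_PP {Φ : ℝ × M → ℝ≥0∞} (hΦ : Measurable Φ) :
    ∫⁻ y, Φ y ∂(PP μ) = ∫⁻ θ', ∫⁻ ρ in Ioi (0:ℝ), Φ (ρ, θ') ∂volume ∂μ := by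
  unfold PP
  rw [lintegral_prod_symm' _ hΦ]

lemma integral_nuH {H : ℝ → M → M → ℝ} (h0 : ∀ ρ θ θ', 0 ≤ H ρ θ θ')
    (hH : Measurable (fun z : ℝ × M × M => H z.1 z.2.1 z.2.2)) {Φ : ℝ × M × M → ℝ}
    (hi : Integrable Φ (nuH μ H)) :
    ∫ z, Φ z ∂(nuH μ H) = ∫ θ, ∫ y, H y.1 θ y.2 * Φ (y.1, θ, y.2) ∂(PP μ) ∂μ := by
  have hlt : ∀ᵐ z ∂((volume.restrict (Ioi (0:ℝ))).prod (μ.prod μ)),
      ENNReal.ofReal (H z.1 z.2.1 z.2.2) < ∞ :=
    Filter.Eventually.of_forall fun z => ENNReal.ofReal_lt_top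
  have e1 : ∫ z, Φ z ∂(nuH μ H)
      = ∫ z, H z.1 z.2.1 z.2.2 * Φ z ∂((volume.restrict (Ioi (0:ℝ))).prod (μ.prod μ)) := by
    unfold nuH
    rw [integral_withDensity_eq_integral_toReal_smul hH.ennreal_ofReal hlt]
    refine integral_congr_ae (Filter.Eventually.of_forall fun z => ?_)
    simp only [smul_eq_mul]
    rw [ENNReal.toReal_ofReal (h0 _ _ _)]
  have e2 : Integrable (fun z : ℝ × M × M => H z.1 z.2.1 z.2.2 * Φ z)
      ((volume.restrict (Ioi (0:ℝ))).prod (μ.prod μ)) := by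
    unfold nuH at hi
    rw [integrable_withDensity_iff_integrable_smul' hH.ennreal_ofReal hlt] at hi
    refine hi.congr (Filter.Eventually.of_forall fun z => ?_)
    simp only [smul_eq_mul]
    rw [ENNReal.toReal_ofReal (h0 _ _ _)]
  rw [e1]
  have e3 := (re_mp (μ := μ)).integrable_comp e2.aestronglyMeasurable |>.2 e2
  have e4 : ∫ z, H z.1 z.2.1 z.2.2 * Φ z ∂((volume.restrict (Ioi (0:ℝ))).prod (μ.prod μ))
      = ∫ w, (fun z : ℝ × M × M => H z.1 z.2.1 z.2.2 * Φ z) (re w) ∂(μ.prod (PP μ)) := by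
    rw [← (re_mp (μ := μ)).map_eq, integral_map re_mp.aemeasurable]
    rw [(re_mp (μ := μ)).map_eq]
    exact e2.aestronglyMeasurable
  rw [e4]
  exact integral_prod _ e3

/-- the data of one half of the identity -/
structure Half (μ : Measure M) (H : ℝ → M → M → ℝ) (f g v o : ℝ → M → ℝ) (T : ℝ) : Prop where
  H_nonneg : ∀ ρ θ θ', 0 ≤ H ρ θ θ'
  H_meas : Measurable (fun z : ℝ × M × M => H z.1 z.2.1 z.2.2)
  f_meas : Measurable (fun z : ℝ × M => f z.1 z.2)
  g_meas : Measurable (fun z : ℝ × M => g z.1 z.2)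
  o_meas : Measurable (fun z : ℝ × M => o z.1 z.2)
  f_pos : ∀ t θ, 0 < f t θ
  f_cont : ∀ θ, Continuous (fun t => f t θ)
  g_nonneg : ∀ t θ, 0 ≤ g t θ
  g_cont : ∀ θ, Continuous (fun t => g t θ)
  v_nonneg : ∀ t θ, 0 ≤ v t θ
  v_C1 : ∀ θ, ContDiff ℝ 1 (fun t => v t θ)
  rep : ∀ t θ, ENNReal.ofReal (v t θ) = ∫⁻ θ', ∫⁻ ρ in Ioi (0:ℝ), ENNReal.ofReal (H ρ θ θ') *
      ∫⁻ s in Ioo (t - ρ) (t + ρ), ENNReal.ofReal (g s θ') ∂volume ∂volume ∂μ
  int : ∀ T : ℝ, ∫⁻ θ, ∫⁻ θ', ∫⁻ ρ in Ioi (0:ℝ), ENNReal.ofReal (H ρ θ θ') *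
      ∫⁻ t in Iic T, ENNReal.ofReal (f t θ) *
        (ENNReal.ofReal (g (t + ρ) θ') + ENNReal.ofReal (g (t - ρ) θ'))
          ∂volume ∂volume ∂μ ∂μ ≠ ∞
  o_nonneg : ∀ t θ, 0 ≤ o t θ
  o_le : ∀ t θ, o t θ ≤ f t θ
  o_zero : ∀ t θ, T < t → o t θ = 0

namespace Half
variable {H : ℝ → M → M → ℝ} {f g v o : ℝ → M → ℝ} {T : ℝ}

/-- the integrand `g(t+σρ,θ')` as a function of `((ρ,θ,θ'),t)` -/
lemma g_shift_meas (h : Half μ H f g v o T) (σ : ℝ) :
    Measurable fun y : (ℝ × M × M) × ℝ => g (y.2 + σ * y.1.1) y.1.2.2 := by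
  have h1 : Measurable fun y : (ℝ × M × M) × ℝ => (y.2 + σ * y.1.1, y.1.2.2) := by fun_prop
  exact h.g_meas.comp h1

lemma f_meas' (h : Half μ H f g v o T) :
    Measurable fun y : (ℝ × M × M) × ℝ => f y.2 y.1.2.1 := by
  have h1 : Measurable fun y : (ℝ × M × M) × ℝ => (y.2, y.1.2.1) := by fun_prop
  exact h.f_meas.comp h1

lemma o_meas' (h : Half μ H f g v o T) :
    Measurable fun y : (ℝ × M × M) × ℝ => o y.2 y.1.2.1 := by
  have h1 : Measurable fun y : (ℝ × M × M) × ℝ => (y.2, y.1.2.1) := by fun_prop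
  exact h.o_meas.comp h1

/-- the inner force integral is measurable -/
lemma force_meas (h : Half μ H f g v o T) (R : ℝ) :
    Measurable fun z : ℝ × M × M => ∫⁻ t in Iic R, ENNReal.ofReal (f t z.2.1) *
        (ENNReal.ofReal (g (t + z.1) z.2.2) + ENNReal.ofReal (g (t - z.1) z.2.2)) := by
  have h1 := (h.g_shift_meas 1).ennreal_ofReal
  have h2 := (h.g_shift_meas (-1)).ennreal_ofReal
  simp only [one_mul, neg_mul, ← sub_eq_add_neg] at h1 h2
  have h3 := h.f_meas'.ennreal_ofReal.mul (h1.add h2)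
  exact h3.lintegral_prod_right'

/-- absolute convergence as an integral over the kernel measure -/
lemma force_nu (h : Half μ H f g v o T) (R : ℝ) :
    ∫⁻ z, (∫⁻ t in Iic R, ENNReal.ofReal (f t z.2.1) *
        (ENNReal.ofReal (g (t + z.1) z.2.2) + ENNReal.ofReal (g (t - z.1) z.2.2))) ∂(nuH μ H)
      ≠ ∞ := by
  rw [lintegral_nuH h.H_meas (h.force_meas R)]
  convert h.int R using 3 with θ
  have hm : Measurable fun y : ℝ × M => ENNReal.ofReal (H y.1 θ y.2) *
      ∫⁻ t in Iic R, ENNReal.ofReal (f t θ) *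
        (ENNReal.ofReal (g (t + y.1) y.2) + ENNReal.ofReal (g (t - y.1) y.2)) := by
    have h1 : Measurable fun y : ℝ × M => (y.1, θ, y.2) := by fun_prop
    exact (h.H_meas.comp h1).ennreal_ofReal.mul ((h.force_meas R).comp h1)
  exact lintegral_PP hm

/-- both shifted products are integrable over `nu × dt` -/
lemma shift_integrable (h : Half μ H f g v o T) {σ : ℝ} (hσ : σ = 1 ∨ σ = -1) :
    Integrable (fun y : (ℝ × M × M) × ℝ => o y.2 y.1.2.1 * g (y.2 + σ * y.1.1) y.1.2.2)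
      ((nuH μ H).prod volume) := by
  have hm : Measurable (fun y : (ℝ × M × M) × ℝ => o y.2 y.1.2.1 * g (y.2 + σ * y.1.1) y.1.2.2) :=
    h.o_meas'.mul (h.g_shift_meas σ)
  refine ⟨hm.aestronglyMeasurable, ?_⟩
  rw [hasFiniteIntegral_iff_enorm, lintegral_prod _ hm.enorm.aemeasurable]
  refine lt_of_le_of_lt (lintegral_mono fun z => ?_) (h.force_nu T).lt_top
  rw [← lintegral_indicator measurableSet_Iic]
  refine lintegral_mono fun t => ?_
  by_cases ht : t ≤ T
  · rw [indicator_of_mem (show t ∈ Iic T from ht)]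
    simp only
    rw [Real.enorm_eq_ofReal (mul_nonneg (h.o_nonneg _ _) (h.g_nonneg _ _)),
      ENNReal.ofReal_mul (h.o_nonneg _ _)]
    refine mul_le_mul' (ENNReal.ofReal_le_ofReal (h.o_le _ _)) ?_
    rcases hσ with rfl | rfl
    · rw [one_mul]; exact le_self_add
    · rw [neg_one_mul, ← sub_eq_add_neg]; exact le_add_self
  · simp only
    rw [h.o_zero _ _ (not_le.mp ht), zero_mul, enorm_zero]
    exact zero_le

lemma plus_integrable (h : Half μ H f g v o T) :
    Integrable (fun y : (ℝ × M × M) × ℝ => o y.2 y.1.2.1 * g (y.2 + y.1.1) y.1.2.2)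
      ((nuH μ H).prod volume) := by
  have := h.shift_integrable (σ := 1) (Or.inl rfl)
  simpa only [one_mul] using this

lemma minus_integrable (h : Half μ H f g v o T) :
    Integrable (fun y : (ℝ × M × M) × ℝ => o y.2 y.1.2.1 * g (y.2 - y.1.1) y.1.2.2)
      ((nuH μ H).prod volume) := by
  have := h.shift_integrable (σ := -1) (Or.inr rfl)
  simpa only [neg_one_mul, ← sub_eq_add_neg] using this

lemma diff_integrable (h : Half μ H f g v o T) :
    Integrable (fun z : ℝ × M × M => ∫ t, o t z.2.1 * (g (t + z.1) z.2.2 - g (t - z.1) z.2.2))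
      (nuH μ H) := by
  have h1 := (h.plus_integrable.sub h.minus_integrable).integral_prod_left
  refine h1.congr (Filter.Eventually.of_forall fun z => ?_)
  simp only [Pi.sub_apply]
  refine integral_congr_ae (Filter.Eventually.of_forall fun t => ?_)
  simp only
  ring


/-! #### one angle -/

/-- the force of the angle `θ` is finite -/
def Fin (μ : Measure M) (H : ℝ → M → M → ℝ) (f g : ℝ → M → ℝ) (θ : M) : Prop :=
  ∀ n : ℕ, ∫⁻ y, ENNReal.ofReal (H y.1 θ y.2) *
      ∫⁻ t in Iic (n:ℝ), ENNReal.ofReal (f t θ) *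
        (ENNReal.ofReal (g (t + y.1) y.2) + ENNReal.ofReal (g (t - y.1) y.2)) ∂volume ∂(PP μ) < ∞

lemma ae_fin (h : Half μ H f g v o T) : ∀ᵐ θ ∂μ, Fin μ H f g θ := by
  unfold Fin
  rw [ae_all_iff]
  intro n
  have h1 := h.force_nu n
  rw [lintegral_nuH h.H_meas (h.force_meas _)] at h1
  refine ae_lt_top ?_ h1
  have h2 : Measurable fun w : M × (ℝ × M) => (w.2.1, w.1, w.2.2) := by fun_prop
  exact ((h.H_meas.comp h2).ennreal_ofReal.mul ((h.force_meas n).comp h2)).lintegral_prod_right'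

/-- the velocity integral -/
noncomputable def Wv (μ : Measure M) (H : ℝ → M → M → ℝ) (g : ℝ → M → ℝ) (θ : M) (t : ℝ) : ℝ :=
  ∫ y, H y.1 θ y.2 * (g (t + y.1) y.2 - g (t - y.1) y.2) ∂(PP μ)

variable {θ : M}

lemma Hθ_meas (h : Half μ H f g v o T) (θ : M) : Measurable fun y : ℝ × M => H y.1 θ y.2 := by
  have h1 : Measurable fun y : ℝ × M => (y.1, θ, y.2) := by fun_prop
  exact h.H_meas.comp h1

lemma gθ_meas (h : Half μ H f g v o T) (σ : ℝ) :
    Measurable fun x : (ℝ × M) × ℝ => g (x.2 + σ * x.1.1) x.1.2 := by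
  have h1 : Measurable fun x : (ℝ × M) × ℝ => (x.2 + σ * x.1.1, x.1.2) := by fun_prop
  exact h.g_meas.comp h1

lemma ang_integrable (h : Half μ H f g v o T) (hθ : Fin μ H f g θ) {w : ℝ → ℝ}
    (hw : Measurable w) (hw0 : ∀ t, 0 ≤ w t) {C : ℝ} (hC : 0 ≤ C) (hwf : ∀ t, w t ≤ C * f t θ)
    {n : ℕ} (hwn : ∀ t, (n:ℝ) < t → w t = 0) {σ : ℝ} (hσ : σ = 1 ∨ σ = -1) :
    Integrable (fun x : (ℝ × M) × ℝ => H x.1.1 θ x.1.2 * (w x.2 * g (x.2 + σ * x.1.1) x.1.2))
      ((PP μ).prod volume) := by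
  have hm : Measurable (fun x : (ℝ × M) × ℝ =>
      H x.1.1 θ x.1.2 * (w x.2 * g (x.2 + σ * x.1.1) x.1.2)) :=
    ((h.Hθ_meas θ).comp measurable_fst).mul ((hw.comp measurable_snd).mul (h.gθ_meas σ))
  refine ⟨hm.aestronglyMeasurable, ?_⟩
  rw [hasFiniteIntegral_iff_enorm, lintegral_prod _ hm.enorm.aemeasurable]
  have hfin : ENNReal.ofReal C * ∫⁻ y, ENNReal.ofReal (H y.1 θ y.2) *
      ∫⁻ t in Iic (n:ℝ), ENNReal.ofReal (f t θ) *
        (ENNReal.ofReal (g (t + y.1) y.2) + ENNReal.ofReal (g (t - y.1) y.2)) ∂volume ∂(PP μ) < ∞ :=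
    ENNReal.mul_lt_top ENNReal.ofReal_lt_top (hθ n)
  refine lt_of_le_of_lt ?_ hfin
  rw [← lintegral_const_mul' _ _ ENNReal.ofReal_ne_top]
  refine lintegral_mono fun y => ?_
  rw [mul_left_comm, ← lintegral_const_mul' _ _ ENNReal.ofReal_ne_top,
    ← lintegral_const_mul' _ _ ENNReal.ofReal_ne_top, ← lintegral_indicator measurableSet_Iic]
  refine lintegral_mono fun t => ?_
  by_cases ht : t ≤ n
  · rw [indicator_of_mem (show t ∈ Iic (n:ℝ) from ht)]
    simp only
    rw [Real.enorm_eq_ofReal (mul_nonneg (h.H_nonneg _ _ _)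
        (mul_nonneg (hw0 t) (h.g_nonneg _ _))), ENNReal.ofReal_mul (h.H_nonneg _ _ _),
      ENNReal.ofReal_mul (hw0 t)]
    refine mul_le_mul' le_rfl ?_
    rw [← mul_assoc, ← ENNReal.ofReal_mul hC]
    refine mul_le_mul' (ENNReal.ofReal_le_ofReal (hwf t)) ?_
    rcases hσ with rfl | rfl
    · rw [one_mul]; exact le_self_add
    · rw [neg_one_mul, ← sub_eq_add_neg]; exact le_add_self
  · simp only
    rw [hwn t (not_le.mp ht), zero_mul, mul_zero, enorm_zero]
    exact zero_le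

lemma ang_diff (h : Half μ H f g v o T) (hθ : Fin μ H f g θ) {w : ℝ → ℝ}
    (hw : Measurable w) (hw0 : ∀ t, 0 ≤ w t) {C : ℝ} (hC : 0 ≤ C) (hwf : ∀ t, w t ≤ C * f t θ)
    {n : ℕ} (hwn : ∀ t, (n:ℝ) < t → w t = 0) :
    Integrable (fun x : (ℝ × M) × ℝ => H x.1.1 θ x.1.2 *
      (w x.2 * (g (x.2 + x.1.1) x.1.2 - g (x.2 - x.1.1) x.1.2))) ((PP μ).prod volume) := by
  have h1 := h.ang_integrable hθ hw hw0 hC hwf hwn (σ := 1) (Or.inl rfl)
  have h2 := h.ang_integrable hθ hw hw0 hC hwf hwn (σ := -1) (Or.inr rfl)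
  refine (h1.sub h2).congr (Filter.Eventually.of_forall fun x => ?_)
  simp only [Pi.sub_apply, one_mul, neg_mul, ← sub_eq_add_neg]
  ring

/-- the weight `1` on a bounded interval -/
lemma win_weight (h : Half μ H f g v o T) (θ : M) (a b : ℝ) : ∃ C : ℝ, 0 ≤ C ∧
    ∀ t, (Ioc a b).indicator (fun _ => (1:ℝ)) t ≤ C * f t θ := by
  obtain ⟨c, hc, hc'⟩ : ∃ c : ℝ, 0 < c ∧ ∀ t ∈ Icc a b, c ≤ f t θ := by
    by_cases hab : a ≤ b
    · obtain ⟨t₀, ht₀, hmin⟩ := isCompact_Icc.exists_isMinOn (nonempty_Icc.2 hab)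
        (h.f_cont θ).continuousOn
      exact ⟨f t₀ θ, h.f_pos _ _, fun t ht => hmin ht⟩
    · exact ⟨1, one_pos, fun t ht => absurd (ht.1.trans ht.2) hab⟩
  refine ⟨1 / c, by positivity, fun t => ?_⟩
  by_cases ht : t ∈ Ioc a b
  · rw [indicator_of_mem ht, one_div, inv_mul_eq_div, le_div_iff₀ hc, one_mul]
    exact hc' t (Ioc_subset_Icc_self ht)
  · rw [indicator_of_notMem ht]
    exact mul_nonneg (by positivity) (h.f_pos _ _).le

lemma win_integrable (h : Half μ H f g v o T) (hθ : Fin μ H f g θ) (a b : ℝ) :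
    Integrable (fun x : (ℝ × M) × ℝ => H x.1.1 θ x.1.2 * ((Ioc a b).indicator (fun _ => (1:ℝ)) x.2 *
      (g (x.2 + x.1.1) x.1.2 - g (x.2 - x.1.1) x.1.2))) ((PP μ).prod volume) := by
  obtain ⟨C, hC, hCf⟩ := h.win_weight θ a b
  obtain ⟨n, hn⟩ := exists_nat_ge b
  refine h.ang_diff hθ (measurable_const.indicator measurableSet_Ioc)
    (fun t => indicator_nonneg (fun _ _ => zero_le_one) t) hC hCf (n := n) (fun t ht => ?_)
  exact indicator_of_notMem (fun hc => absurd (hc.2.trans hn) (not_le.2 ht)) _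

lemma W_window (h : Half μ H f g v o T) (hθ : Fin μ H f g θ) (a b : ℝ) :
    IntegrableOn (Wv μ H g θ) (Ioc a b) volume := by
  have h1 := (h.win_integrable hθ a b).integral_prod_right
  rw [← integrable_indicator_iff measurableSet_Ioc]
  refine h1.congr (Filter.Eventually.of_forall fun t => ?_)
  simp only
  by_cases ht : t ∈ Ioc a b
  · rw [indicator_of_mem ht]
    simp only [indicator_of_mem ht, one_mul]
    rfl
  · rw [indicator_of_notMem ht]
    simp only [indicator_of_notMem ht, zero_mul, mul_zero, integral_zero]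

lemma W_loc (h : Half μ H f g v o T) (hθ : Fin μ H f g θ) :
    LocallyIntegrable (Wv μ H g θ) volume := by
  rw [locallyIntegrable_iff]
  intro K hK
  obtain ⟨R, hR⟩ := hK.isBounded.subset_closedBall 0
  refine (h.W_window hθ (-(R + 1)) (R + 1)).mono_set fun t ht => ?_
  have := hR ht
  rw [mem_closedBall_zero_iff, Real.norm_eq_abs, abs_le] at this
  constructor <;> linarith [this.1, this.2]

lemma box_lint {g : ℝ → ℝ} (hg : Continuous g) (h0 : ∀ s, 0 ≤ g s) (ρ t : ℝ) :
    ∫⁻ s in Ioo (t - ρ) (t + ρ), ENNReal.ofReal (g s) = ENNReal.ofReal (box g ρ t) := by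
  by_cases hρ : 0 ≤ ρ
  · unfold box
    rw [intervalIntegral.integral_of_le (by linarith), integral_Ioc_eq_integral_Ioo,
      ofReal_integral_eq_lintegral_ofReal]
    · exact (hg.integrableOn_Icc (a := t - ρ) (b := t + ρ)).mono_set Ioo_subset_Icc_self
    · exact Filter.Eventually.of_forall fun s => h0 s
  · rw [Ioo_eq_empty (by linarith), setLIntegral_empty, eq_comm, ENNReal.ofReal_eq_zero]
    unfold box
    rw [intervalIntegral.integral_symm]
    have := intervalIntegral.integral_nonneg (f := g) (μ := volume)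
      (show t + ρ ≤ t - ρ by linarith) (fun s _ => h0 s)
    linarith

lemma box_meas (h : Half μ H f g v o T) (t : ℝ) :
    Measurable fun y : ℝ × M => box (fun s => g s y.2) y.1 t := by
  have h1 : Measurable fun z : (ℝ × M) × ℝ => (z.2, z.1.2) := by fun_prop
  exact ML.measurable_box (f := fun (y : ℝ × M) s => g s y.2) (h.g_meas.comp h1)
    measurable_fst measurable_const

lemma v_rep (h : Half μ H f g v o T) (t : ℝ) (θ : M) :
    Integrable (fun y : ℝ × M => H y.1 θ y.2 * box (fun s => g s y.2) y.1 t) (PP μ) ∧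
    v t θ = ∫ y, H y.1 θ y.2 * box (fun s => g s y.2) y.1 t ∂(PP μ) := by
  have hm : Measurable (fun y : ℝ × M => H y.1 θ y.2 * box (fun s => g s y.2) y.1 t) :=
    (h.Hθ_meas θ).mul (h.box_meas t)
  have h1 : ENNReal.ofReal (v t θ)
      = ∫⁻ y, ENNReal.ofReal (H y.1 θ y.2 * box (fun s => g s y.2) y.1 t) ∂(PP μ) := by
    rw [h.rep, lintegral_PP hm.ennreal_ofReal]
    refine lintegral_congr fun θ' => lintegral_congr fun ρ => ?_
    rw [box_lint (h.g_cont θ') (fun s => h.g_nonneg s θ'), ENNReal.ofReal_mul (h.H_nonneg _ _ _)]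
  have h2 : 0 ≤ᵐ[PP μ] fun y : ℝ × M => H y.1 θ y.2 * box (fun s => g s y.2) y.1 t := by
    filter_upwards [pos_ae (μ := μ)] with y hy
    refine mul_nonneg (h.H_nonneg _ _ _) ?_
    unfold box
    exact intervalIntegral.integral_nonneg (by linarith) (fun s _ => h.g_nonneg s y.2)
  constructor
  · refine ⟨hm.aestronglyMeasurable, ?_⟩
    rw [hasFiniteIntegral_iff_ofReal h2, ← h1]
    exact ENNReal.ofReal_lt_top
  · rw [integral_eq_lintegral_of_nonneg_ae h2 hm.aestronglyMeasurable, ← h1,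
      ENNReal.toReal_ofReal (h.v_nonneg t θ)]

lemma box_diff {g : ℝ → ℝ} (hg : Continuous g) (ρ a b : ℝ) :
    box g ρ b - box g ρ a = ∫ t in a..b, (g (t + ρ) - g (t - ρ)) := by
  have hi : ∀ x y, IntervalIntegrable g volume x y := fun x y => hg.intervalIntegrable x y
  have h1 : IntervalIntegrable (fun t => g (t + ρ)) volume a b :=
    (hg.comp (continuous_id.add continuous_const)).intervalIntegrable a b
  have h2 : IntervalIntegrable (fun t => g (t - ρ)) volume a b :=
    (hg.comp (continuous_id.sub continuous_const)).intervalIntegrable a b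
  rw [intervalIntegral.integral_sub h1 h2, intervalIntegral.integral_comp_add_right,
    intervalIntegral.integral_comp_sub_right]
  unfold box
  rw [intervalIntegral.integral_interval_sub_interval_comm' (hi _ _) (hi _ _) (hi _ _)]

lemma v_sub (h : Half μ H f g v o T) (hθ : Fin μ H f g θ) {a b : ℝ} (hab : a ≤ b) :
    v b θ - v a θ = ∫ t in a..b, Wv μ H g θ t := by
  obtain ⟨ib, eb⟩ := h.v_rep b θ
  obtain ⟨ia, ea⟩ := h.v_rep a θ
  rw [eb, ea, ← integral_sub ib ia, intervalIntegral.integral_of_le hab,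
    ← integral_indicator measurableSet_Ioc]
  have h1 := integral_integral_swap (f := fun (y : ℝ × M) (t : ℝ) => H y.1 θ y.2 *
    ((Ioc a b).indicator (fun _ => (1:ℝ)) t * (g (t + y.1) y.2 - g (t - y.1) y.2)))
    (μ := PP μ) (ν := volume) (h.win_integrable hθ a b)
  have h2 : ∀ y : ℝ × M, H y.1 θ y.2 * box (fun s => g s y.2) y.1 b
      - H y.1 θ y.2 * box (fun s => g s y.2) y.1 a
      = ∫ t, H y.1 θ y.2 * ((Ioc a b).indicator (fun _ => (1:ℝ)) t *
          (g (t + y.1) y.2 - g (t - y.1) y.2)) := by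
    intro y
    rw [← mul_sub, box_diff (h.g_cont y.2), intervalIntegral.integral_of_le hab,
      integral_const_mul, ← integral_indicator measurableSet_Ioc]
    congr 1
    refine integral_congr_ae (Filter.Eventually.of_forall fun t => ?_)
    simp only
    by_cases ht : t ∈ Ioc a b
    · rw [indicator_of_mem ht, indicator_of_mem ht, one_mul]
    · rw [indicator_of_notMem ht, indicator_of_notMem ht, zero_mul]
  rw [integral_congr_ae (Filter.Eventually.of_forall h2), h1]
  refine integral_congr_ae (Filter.Eventually.of_forall fun t => ?_)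
  simp only
  by_cases ht : t ∈ Ioc a b
  · rw [indicator_of_mem ht]
    simp only [indicator_of_mem ht, one_mul]
    rfl
  · rw [indicator_of_notMem ht]
    simp only [indicator_of_notMem ht, zero_mul, mul_zero, integral_zero]

lemma v_eq (h : Half μ H f g v o T) (hθ : Fin μ H f g θ) (x : ℝ) :
    v x θ = v 0 θ + ∫ t in (0:ℝ)..x, Wv μ H g θ t := by
  rcases le_total 0 x with hx | hx
  · linarith [h.v_sub hθ hx]
  · have := h.v_sub hθ hx
    rw [intervalIntegral.integral_symm] at this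
    linarith

/-- the derivative of `v` is the velocity integral, for a.e. `t` -/
lemma deriv_ae (h : Half μ H f g v o T) (hθ : Fin μ H f g θ) :
    ∀ᵐ t, deriv (fun s => v s θ) t = Wv μ H g θ t := by
  filter_upwards [LocallyIntegrable.ae_hasDerivAt_integral (h.W_loc hθ)] with t ht
  have h1 : (fun s => v s θ) = fun x => v 0 θ + ∫ t in (0:ℝ)..x, Wv μ H g θ t :=
    funext fun x => h.v_eq hθ x
  rw [h1]
  exact ((ht 0).const_add (v 0 θ)).deriv

/-- the weight `o` is admissible for one angle -/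
lemma o_ang (h : Half μ H f g v o T) (hθ : Fin μ H f g θ) :
    Integrable (fun x : (ℝ × M) × ℝ => H x.1.1 θ x.1.2 *
      (o x.2 θ * (g (x.2 + x.1.1) x.1.2 - g (x.2 - x.1.1) x.1.2))) ((PP μ).prod volume) := by
  obtain ⟨n, hn⟩ := exists_nat_ge T
  have h1 : Measurable fun t : ℝ => (t, θ) := by fun_prop
  refine h.ang_diff hθ (w := fun t => o t θ) (h.o_meas.comp h1) (fun t => h.o_nonneg t θ)
    (C := 1) zero_le_one (fun t => by rw [one_mul]; exact h.o_le t θ) (n := n) (fun t ht => ?_)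
  exact h.o_zero t θ (hn.trans_lt ht)

/-- one angle of the identity -/
lemma ident_ang (h : Half μ H f g v o T) (hθ : Fin μ H f g θ) :
    ∫ t, o t θ * deriv (fun s => v s θ) t
      = ∫ y, H y.1 θ y.2 * (∫ t, o t θ * (g (t + y.1) y.2 - g (t - y.1) y.2)) ∂(PP μ) := by
  have h1 := integral_integral_swap (f := fun (y : ℝ × M) (t : ℝ) => H y.1 θ y.2 *
    (o t θ * (g (t + y.1) y.2 - g (t - y.1) y.2))) (μ := PP μ) (ν := volume) (h.o_ang hθ)
  simp only [integral_const_mul] at h1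
  rw [h1]
  refine integral_congr_ae ?_
  filter_upwards [h.deriv_ae hθ] with t ht
  rw [ht]
  unfold Wv
  rw [← integral_const_mul]
  refine integral_congr_ae (Filter.Eventually.of_forall fun y => ?_)
  simp only
  ring

/-- the first half of the identity -/
theorem ident (h : Half μ H f g v o T) :
    ∫ θ, ∫ t, o t θ * deriv (fun s => v s θ) t ∂volume ∂μ
      = ∫ z, (∫ t, o t z.2.1 * (g (t + z.1) z.2.2 - g (t - z.1) z.2.2)) ∂(nuH μ H) := by
  rw [integral_nuH h.H_nonneg h.H_meas h.diff_integrable]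
  refine integral_congr_ae ?_
  filter_upwards [h.ae_fin] with θ hθ
  exact h.ident_ang hθ

/-- `∫⁻ |o v'|` over all angles and times is finite -/
lemma dv_lint (h : Half μ H f g v o T) :
    ∫⁻ θ, ∫⁻ t, ‖o t θ * deriv (fun s => v s θ) t‖ₑ ∂volume ∂μ < ∞ := by
  obtain ⟨n, hn⟩ := exists_nat_ge T
  have hfin := h.force_nu n
  rw [lintegral_nuH h.H_meas (h.force_meas _)] at hfin
  refine lt_of_le_of_lt ?_ hfin.lt_top
  refine lintegral_mono_ae ?_
  filter_upwards [h.ae_fin] with θ hθ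
  have h1 : ∫⁻ t, ‖o t θ * deriv (fun s => v s θ) t‖ₑ
      ≤ ∫⁻ t, ∫⁻ y, ‖H y.1 θ y.2 * (o t θ * (g (t + y.1) y.2 - g (t - y.1) y.2))‖ₑ
          ∂(PP μ) ∂volume := by
    refine lintegral_mono_ae ?_
    filter_upwards [h.deriv_ae hθ] with t ht
    rw [ht]
    unfold Wv
    rw [← integral_const_mul]
    refine (enorm_integral_le_lintegral_enorm _).trans (le_of_eq ?_)
    refine lintegral_congr fun y => ?_
    congr 1
    ring
  refine h1.trans ?_
  rw [lintegral_lintegral_swap]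
  · refine lintegral_mono fun y => ?_
    simp only
    rw [← lintegral_const_mul' _ _ ENNReal.ofReal_ne_top, ← lintegral_indicator measurableSet_Iic]
    refine lintegral_mono fun t => ?_
    by_cases ht : t ≤ n
    · rw [indicator_of_mem (show t ∈ Iic (n:ℝ) from ht), enorm_mul, enorm_mul,
        Real.enorm_eq_ofReal (h.H_nonneg _ _ _), Real.enorm_eq_ofReal (h.o_nonneg _ _)]
      refine mul_le_mul' le_rfl (mul_le_mul' (ENNReal.ofReal_le_ofReal (h.o_le _ _)) ?_)
      refine (enorm_sub_le).trans ?_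
      rw [Real.enorm_eq_ofReal (h.g_nonneg _ _), Real.enorm_eq_ofReal (h.g_nonneg _ _)]
    · rw [h.o_zero _ _ (hn.trans_lt (not_le.mp ht)), zero_mul, mul_zero, enorm_zero]
      exact zero_le
  · have h2 : Measurable fun z : ℝ × (ℝ × M) => (z.2.1, θ, z.2.2) := by fun_prop
    have h3 : Measurable fun z : ℝ × (ℝ × M) => (z.1, θ) := by fun_prop
    have h4 : Measurable fun z : ℝ × (ℝ × M) => (z.1 + z.2.1, z.2.2) := by fun_prop
    have h5 : Measurable fun z : ℝ × (ℝ × M) => (z.1 - z.2.1, z.2.2) := by fun_prop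
    exact (((h.H_meas.comp h2).mul ((h.o_meas.comp h3).mul
      ((h.g_meas.comp h4).sub (h.g_meas.comp h5)))).enorm).aemeasurable

/-- `o v'` is integrable over `μ × dt` -/
theorem dv_integrable (h : Half μ H f g v o T)
    (hv : Measurable (fun z : ℝ × M => v z.1 z.2)) :
    Integrable (fun z : M × ℝ => o z.2 z.1 * deriv (fun s => v s z.1) z.2) (μ.prod volume) := by
  have h1 : Measurable fun z : M × ℝ => (z.2, z.1) := by fun_prop
  have hm : Measurable (fun z : M × ℝ => o z.2 z.1 * deriv (fun s => v s z.1) z.2) :=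
    (h.o_meas.comp h1).mul (ML.measurable_deriv (v := fun (θ : M) s => v s θ) (hv.comp h1)
      (fun θ => (h.v_C1 θ).differentiable (by norm_num)))
  refine ⟨hm.aestronglyMeasurable, ?_⟩
  rw [hasFiniteIntegral_iff_enorm, lintegral_prod _ hm.enorm.aemeasurable]
  exact h.dv_lint

end Half

/-- the kernel measure is invariant under exchanging the angles -/
lemma nuH_swap {H : ℝ → M → M → ℝ} (hs : ∀ ρ θ θ', H ρ θ θ' = H ρ θ' θ)
    (hH : Measurable (fun z : ℝ × M × M => H z.1 z.2.1 z.2.2)) :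
    MeasurePreserving (fun z : ℝ × M × M => (z.1, z.2.2, z.2.1)) (nuH μ H) (nuH μ H) := by
  have hm : Measurable (fun z : ℝ × M × M => (z.1, z.2.2, z.2.1)) := by fun_prop
  refine ⟨hm, Measure.ext fun A hA => ?_⟩
  rw [Measure.map_apply hm hA]
  unfold nuH
  rw [withDensity_apply _ (hm hA), withDensity_apply _ hA,
    ← (swap_mp (μ := μ)).setLIntegral_comp_preimage hA hH.ennreal_ofReal]
  refine lintegral_congr fun z => ?_
  rw [hs]

/-- change of variables: the pairing as a sum of two force terms -/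
lemma dRho_split {f g o1 o2 : ℝ → ℝ} {ρ : ℝ}
    (i1 : Integrable (fun t => o1 t * g (t + ρ))) (i2 : Integrable (fun t => o1 t * g (t - ρ)))
    (i3 : Integrable (fun t => o2 t * f (t + ρ))) (i4 : Integrable (fun t => o2 t * f (t - ρ))) :
    dRho f g o1 o2 ρ = (∫ t, o1 t * (g (t + ρ) - g (t - ρ)))
      + ∫ t, o2 t * (f (t + ρ) - f (t - ρ)) := by
  have e3 : ∀ t, f t * o2 (t - ρ) = (fun t => o2 t * f (t + ρ)) (t - ρ) := by
    intro t
    simp only [sub_add_cancel]
    ring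
  have e4 : ∀ t, f t * o2 (t + ρ) = (fun t => o2 t * f (t - ρ)) (t + ρ) := by
    intro t
    simp only [add_sub_cancel_right]
    ring
  have j3 : Integrable (fun t => f t * o2 (t - ρ)) := by
    simp only [e3]
    exact i3.comp_sub_right ρ
  have j4 : Integrable (fun t => f t * o2 (t + ρ)) := by
    simp only [e4]
    exact i4.comp_add_right ρ
  have k3 : ∫ t, f t * o2 (t - ρ) = ∫ t, o2 t * f (t + ρ) := by
    simp only [e3]
    exact integral_sub_right_eq_self (fun t => o2 t * f (t + ρ)) ρ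
  have k4 : ∫ t, f t * o2 (t + ρ) = ∫ t, o2 t * f (t - ρ) := by
    simp only [e4]
    exact integral_add_right_eq_self (fun t => o2 t * f (t - ρ)) ρ
  have q1 : Integrable (fun t => o1 t * g (t + ρ) - f t * o2 (t + ρ)) := i1.sub j4
  have q2 : Integrable (fun t => o1 t * g (t - ρ) - f t * o2 (t - ρ)) := i2.sub j3
  unfold dRho
  rw [integral_sub q1 q2, integral_sub i1 j4, integral_sub i2 j3, k3, k4]
  simp only [mul_sub]
  rw [integral_sub i1 i2, integral_sub i3 i4]
  ring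

end half

/-! ### application to the cylinder -/

section cyl
variable {M : Type} [MeasurableSpace M] {μ : Measure M} [IsFiniteMeasure μ] (S : Cyl M μ)

lemma nu_eq : S.nu = nuH μ S.H := rfl

lemma halfF {lam a L : ℝ} {m : ℕ} (hW : WinOK S lam a m L) (η : ℝ) :
    Half μ S.H S.F S.G S.V (fun t θ => S.OmF lam a m L η t θ) (lam + 3 * a / 2) where
  H_nonneg := S.H_nonneg
  H_meas := S.H_meas
  f_meas := ML.meas_F S measurable_fst measurable_snd
  g_meas := ML.meas_G S measurable_fst measurable_snd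
  o_meas := ML.meas_OmF S lam a m L η measurable_fst measurable_snd
  f_pos := fun t θ => LR.sol_f_pos (hW.solF θ) t
  f_cont := fun θ => LR.sol_f_cont (hW.solF θ)
  g_nonneg := fun t θ => (LR.sol_f_pos (hW.solG θ) t).le
  g_cont := fun θ => LR.sol_f_cont (hW.solG θ)
  v_nonneg := fun t θ => (S.V_pos t θ).le
  v_C1 := S.V_C1
  rep := S.repV
  int := S.int1
  o_nonneg := fun t θ => omega_nonneg hW.ha
    (LR.lay_of_sol (hW.solF θ) hW.ha hW.ha1 hW.hm hW.hLm) (LR.shortI_subset a m η) t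
  o_le := fun t θ => omega_le hW.ha
    (LR.lay_of_sol (hW.solF θ) hW.ha hW.ha1 hW.hm hW.hLm) (LR.shortI_subset a m η) t
  o_zero := fun _ _ ht => omega_zero hW.ha hW.hm (LR.shortI_subset a m η) ht.le

lemma halfG {lam a L : ℝ} {m : ℕ} (hW : WinOK S lam a m L) (η : ℝ) :
    Half μ S.H S.G S.F S.U (fun t θ => S.OmG lam a m L η t θ) (lam + 3 * a / 2) where
  H_nonneg := S.H_nonneg
  H_meas := S.H_meas
  f_meas := ML.meas_G S measurable_fst measurable_snd
  g_meas := ML.meas_F S measurable_fst measurable_snd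
  o_meas := ML.meas_OmG S lam a m L η measurable_fst measurable_snd
  f_pos := fun t θ => LR.sol_f_pos (hW.solG θ) t
  f_cont := fun θ => LR.sol_f_cont (hW.solG θ)
  g_nonneg := fun t θ => (LR.sol_f_pos (hW.solF θ) t).le
  g_cont := fun θ => LR.sol_f_cont (hW.solF θ)
  v_nonneg := fun t θ => (S.U_pos t θ).le
  v_C1 := S.U_C1
  rep := S.repU
  int := S.int2
  o_nonneg := fun t θ => omega_nonneg hW.ha
    (LR.lay_of_sol (hW.solG θ) hW.ha hW.ha1 hW.hm hW.hLm) (LR.shortI_subset a m η) t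
  o_le := fun t θ => omega_le hW.ha
    (LR.lay_of_sol (hW.solG θ) hW.ha hW.ha1 hW.hm hW.hLm) (LR.shortI_subset a m η) t
  o_zero := fun _ _ ht => omega_zero hW.ha hW.hm (LR.shortI_subset a m η) ht.le

theorem ident_all {lam a L : ℝ} {m : ℕ} (hW : WinOK S lam a m L) (η : ℝ) :
    (∫ θ, ∫ t, S.OmF lam a m L η t θ * deriv (fun s => S.V s θ) t ∂volume ∂μ)
      + (∫ θ, ∫ t, S.OmG lam a m L η t θ * deriv (fun s => S.U s θ) t ∂volume ∂μ)
    = (∫ z, dRho (fun t => S.F t z.2.1) (fun t => S.G t z.2.2)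
          (fun t => S.OmF lam a m L η t z.2.1) (fun t => S.OmG lam a m L η t z.2.2) z.1 ∂S.nu)
    ∧ Integrable (fun z : ℝ × M × M => dRho (fun t => S.F t z.2.1) (fun t => S.G t z.2.2)
          (fun t => S.OmF lam a m L η t z.2.1) (fun t => S.OmG lam a m L η t z.2.2) z.1) S.nu := by
  have hF := halfF S hW η
  have hG := halfG S hW η
  have hsw : MeasurePreserving (fun z : ℝ × M × M => (z.1, z.2.2, z.2.1)) (nuH μ S.H)
    (nuH μ S.H) := nuH_swap S.H_symm S.H_meas
  rw [nu_eq]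
  -- the two integrable halves
  have J1 := hF.diff_integrable
  have J2' := hG.diff_integrable
  have J2 : Integrable (fun z : ℝ × M × M => ∫ t, S.OmG lam a m L η t z.2.2 *
      (S.F (t + z.1) z.2.1 - S.F (t - z.1) z.2.1)) (nuH μ S.H) :=
    (hsw.integrable_comp J2'.aestronglyMeasurable).2 J2'
  have e2 : ∫ z, (∫ t, S.OmG lam a m L η t z.2.1 *
        (S.F (t + z.1) z.2.2 - S.F (t - z.1) z.2.2)) ∂(nuH μ S.H)
      = ∫ z, (∫ t, S.OmG lam a m L η t z.2.2 *
        (S.F (t + z.1) z.2.1 - S.F (t - z.1) z.2.1)) ∂(nuH μ S.H) := by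
    have h1 := integral_map (μ := nuH μ S.H) (f := fun z : ℝ × M × M =>
      ∫ t, S.OmG lam a m L η t z.2.1 * (S.F (t + z.1) z.2.2 - S.F (t - z.1) z.2.2))
      hsw.measurable.aemeasurable (by rw [hsw.map_eq]; exact J2'.aestronglyMeasurable)
    rw [hsw.map_eq] at h1
    exact h1
  -- a.e. integrability in `t`
  have a1 := hF.plus_integrable.prod_right_ae
  have a2 := hF.minus_integrable.prod_right_ae
  have a3 := hsw.quasiMeasurePreserving.ae hG.plus_integrable.prod_right_ae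
  have a4 := hsw.quasiMeasurePreserving.ae hG.minus_integrable.prod_right_ae
  have key : (fun z : ℝ × M × M => (∫ t, S.OmF lam a m L η t z.2.1 *
        (S.G (t + z.1) z.2.2 - S.G (t - z.1) z.2.2))
        + ∫ t, S.OmG lam a m L η t z.2.2 * (S.F (t + z.1) z.2.1 - S.F (t - z.1) z.2.1))
      =ᵐ[nuH μ S.H] fun z : ℝ × M × M => dRho (fun t => S.F t z.2.1) (fun t => S.G t z.2.2)
          (fun t => S.OmF lam a m L η t z.2.1) (fun t => S.OmG lam a m L η t z.2.2) z.1 := by
    filter_upwards [a1, a2, a3, a4] with z h1 h2 h3 h4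
    have h1' : Integrable (fun t => S.OmF lam a m L η t z.2.1 * S.G (t + z.1) z.2.2) volume := h1
    have h2' : Integrable (fun t => S.OmF lam a m L η t z.2.1 * S.G (t - z.1) z.2.2) volume := h2
    have h3' : Integrable (fun t => S.OmG lam a m L η t z.2.2 * S.F (t + z.1) z.2.1) volume := h3
    have h4' : Integrable (fun t => S.OmG lam a m L η t z.2.2 * S.F (t - z.1) z.2.1) volume := h4
    exact (dRho_split (f := fun t => S.F t z.2.1) (g := fun t => S.G t z.2.2)
      (o1 := fun t => S.OmF lam a m L η t z.2.1) (o2 := fun t => S.OmG lam a m L η t z.2.2)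
      h1' h2' h3' h4').symm
  refine ⟨?_, (J1.add J2).congr key⟩
  rw [hF.ident, hG.ident, e2, ← integral_add J1 J2]
  exact integral_congr_ae key

/-- the densities times the derivatives are integrable over `μ × dt` -/
theorem int_OmF_dV {lam a L : ℝ} {m : ℕ} (hW : WinOK S lam a m L) (η : ℝ) :
    Integrable (fun z : M × ℝ => S.OmF lam a m L η z.2 z.1 * deriv (fun s => S.V s z.1) z.2)
      (μ.prod volume) :=
  (halfF S hW η).dv_integrable S.V_meas

theorem int_OmG_dU {lam a L : ℝ} {m : ℕ} (hW : WinOK S lam a m L) (η : ℝ) :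
    Integrable (fun z : M × ℝ => S.OmG lam a m L η z.2 z.1 * deriv (fun s => S.U s z.1) z.2)
      (μ.prod volume) :=
  (halfG S hW η).dv_integrable S.U_meas

end cyl

end Crest.Agent.R077.II

namespace Crest.Agent.R077

/-- the weak identity (*) -/
theorem Ident : Stmt_Ident := by
  intro M _ μ _ S lam a L m η hW _ _
  exact II.ident_all S hW η

end Crest.Agent.R077

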