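import Crest.Agent.R077.JInf3
import Crest.Agent.R077.MeasLay

/-! Row 77: `F V'`, `G U'` are integrable on `(-∞,T] × M`. -/

set_option autoImplicit false
set_option linter.unusedSectionVars false
open MeasureTheory Set Filter Topology
open scoped ENNReal

namespace Crest.Agent.R077.JB

/-- one dimensional comparison of the derivative with a density, local version -/
theorem abs_deriv_le_local {v v' n : ℝ → ℝ} (hd : ∀ t, HasDerivAt v (v' t) t)
    (hn : LocallyIntegrable n)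
    {R T : ℝ} (h : ∀ t1 ∈ Icc R T, ∀ t2 ∈ Icc R T, t1 ≤ t2 → |v t2 - v t1| ≤ ∫ s in t1..t2, n s) :
    ∀ᵐ t, t ∈ Ioo R T → |v' t| ≤ n t := by
  filter_upwards [_root_.LocallyIntegrable.ae_hasDerivAt_integral hn] with x hx hxR
  have hint : ∀ c d : ℝ, IntervalIntegrable n volume c d := fun c d =>
    intervalIntegrable_iff.2 ((hn.integrableOn_isCompact isCompact_uIcc).mono_set uIoc_subset_uIcc)
  have key : ∀ σ : ℝ, |σ| = 1 → σ * v' x ≤ n x := by
    intro σ hσ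
    have h1 : HasDerivAt (fun y => (∫ s in x..y, n s) - σ * v y) (n x - σ * v' x) x :=
      (hx x).sub ((hd x).const_mul σ)
    have h2 := (hasDerivAt_iff_tendsto_slope.1 h1).mono_left (nhdsGT_le_nhdsNE x)
    have h3 : ∀ᶠ y in 𝓝[>] x, 0 ≤ slope (fun y => (∫ s in x..y, n s) - σ * v y) x y := by
      filter_upwards [Ioo_mem_nhdsGT hxR.2] with y hy
      rw [slope_def_field]
      apply div_nonneg _ (sub_nonneg.2 hy.1.le)
      have h4 := h x ⟨hxR.1.le, hxR.2.le⟩ y ⟨hxR.1.le.trans hy.1.le, hy.2.le⟩ hy.1.le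
      have h5 : σ * (v y - v x) ≤ |v y - v x| := by
        calc σ * (v y - v x) ≤ |σ * (v y - v x)| := le_abs_self _
          _ = |v y - v x| := by rw [abs_mul, hσ, one_mul]
      have h6 : ∫ s in x..x, n s = 0 := intervalIntegral.integral_same
      rw [h6]
      nlinarith
    have := ge_of_tendsto h2 h3
    linarith
  have k1 := key 1 (by simp)
  have k2 := key (-1) (by simp)
  exact abs_le.2 ⟨by linarith, by linarith⟩

/-- one dimensional comparison in `ℝ≥0∞` -/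
theorem lintegral_deriv_le {v v' F : ℝ → ℝ} {N : ℝ → ℝ≥0∞} (hN : Measurable N)
    (hd : ∀ t, HasDerivAt v (v' t) t) (hv : ∀ t, 0 ≤ v t) (hF : Continuous F) (hF0 : ∀ t, 0 < F t)
    (h1 : ∀ t1 t2, t1 ≤ t2 → ENNReal.ofReal (v t2) ≤ ENNReal.ofReal (v t1) + ∫⁻ s in Ioo t1 t2, N s)
    (h2 : ∀ t1 t2, t1 ≤ t2 → ENNReal.ofReal (v t1) ≤ ENNReal.ofReal (v t2) + ∫⁻ s in Ioo t1 t2, N s)
    {T : ℝ} (hfin : ∫⁻ t in Iic T, ENNReal.ofReal (F t) * N t ≠ ∞) :
    ∫⁻ t in Iic T, ENNReal.ofReal (F t) * ENNReal.ofReal |v' t|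
      ≤ ∫⁻ t in Iic T, ENNReal.ofReal (F t) * N t := by
  have key : ∀ R : ℝ, R < T → ∀ᵐ t, t ∈ Ioo R T → ENNReal.ofReal |v' t| ≤ N t := by
    intro R hR
    -- N is integrable on [R,T]
    obtain ⟨t0, ht0, hmin⟩ := (isCompact_Icc (a := R) (b := T)).exists_isMinOn
      (nonempty_Icc.2 hR.le) hF.continuousOn
    have hc : 0 < F t0 := hF0 t0
    have hNfin : ∫⁻ t in Icc R T, N t ≠ ∞ := by
      have e1 : ENNReal.ofReal (F t0) * ∫⁻ t in Icc R T, N t ≤ ∫⁻ t in Iic T, ENNReal.ofReal (F t) * N t := by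
        rw [← lintegral_const_mul _ hN]
        calc ∫⁻ t in Icc R T, ENNReal.ofReal (F t0) * N t
            ≤ ∫⁻ t in Icc R T, ENNReal.ofReal (F t) * N t := by
              apply setLIntegral_mono' measurableSet_Icc
              intro t ht
              exact mul_le_mul_left (ENNReal.ofReal_le_ofReal (hmin ht)) _
          _ ≤ _ := lintegral_mono_set Icc_subset_Iic_self
      intro htop
      rw [htop, ENNReal.mul_top (by simpa using hc)] at e1
      exact hfin (top_le_iff.1 e1)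
    set n : ℝ → ℝ := indicator (Icc R T) (fun t => (N t).toReal) with hn
    have hnm : Measurable n := (hN.ennreal_toReal).indicator measurableSet_Icc
    have hnint : Integrable n := by
      rw [hn, integrable_indicator_iff measurableSet_Icc]
      exact integrable_toReal_of_lintegral_ne_top hN.aemeasurable hNfin
    have hcmp : ∀ t1 ∈ Icc R T, ∀ t2 ∈ Icc R T, t1 ≤ t2 →
        ∫⁻ s in Ioo t1 t2, N s = ENNReal.ofReal (∫ s in t1..t2, n s) := by
      intro t1 ht1 t2 ht2 h12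
      have hsub : Ioo t1 t2 ⊆ Icc R T := fun s hs => ⟨ht1.1.trans hs.1.le, hs.2.le.trans ht2.2⟩
      have hfin' : ∫⁻ s in Ioo t1 t2, N s ≠ ∞ := ne_top_of_le_ne_top hNfin (lintegral_mono_set hsub)
      rw [intervalIntegral.integral_of_le h12, integral_Ioc_eq_integral_Ioo]
      have e2 : ∫ s in Ioo t1 t2, n s = ∫ s in Ioo t1 t2, (N s).toReal := by
        apply setIntegral_congr_fun measurableSet_Ioo
        intro s hs
        rw [hn, indicator_of_mem (hsub hs)]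
      rw [e2, integral_toReal hN.aemeasurable (ae_lt_top hN hfin'), ENNReal.ofReal_toReal hfin']
    have hnn : ∀ s, 0 ≤ n s := by
      intro s
      rw [hn]
      exact indicator_nonneg (fun _ _ => ENNReal.toReal_nonneg) s
    have hloc := abs_deriv_le_local (v := v) (v' := v') (n := n) hd hnint.locallyIntegrable
      (R := R) (T := T) (by
        intro t1 ht1 t2 ht2 h12
        have a1 := h1 t1 t2 h12
        have a2 := h2 t1 t2 h12
        have hI : 0 ≤ ∫ s in t1..t2, n s := intervalIntegral.integral_nonneg h12 fun s _ => hnn s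
        rw [hcmp t1 ht1 t2 ht2 h12, ← ENNReal.ofReal_add (hv _) hI] at a1
        rw [hcmp t1 ht1 t2 ht2 h12, ← ENNReal.ofReal_add (hv _) hI] at a2
        rw [ENNReal.ofReal_le_ofReal_iff (add_nonneg (hv _) hI)] at a1 a2
        exact abs_le.2 ⟨by linarith, by linarith⟩)
    filter_upwards [hloc] with t ht htR
    have b1 := ht htR
    calc ENNReal.ofReal |v' t| ≤ ENNReal.ofReal (n t) := ENNReal.ofReal_le_ofReal b1
      _ = ENNReal.ofReal (N t).toReal := by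
          rw [hn, indicator_of_mem (show t ∈ Icc R T from ⟨htR.1.le, htR.2.le⟩)]
      _ ≤ N t := ENNReal.ofReal_toReal_le
  -- all t < T
  have hall : ∀ᵐ t, t < T → ENNReal.ofReal |v' t| ≤ N t := by
    have h3 : ∀ᵐ t, ∀ k : ℕ, t ∈ Ioo (T - 1 - k) T → ENNReal.ofReal |v' t| ≤ N t := by
      rw [ae_all_iff]
      intro k
      apply key
      have : (0 : ℝ) ≤ k := Nat.cast_nonneg k
      linarith
    filter_upwards [h3] with t ht htT
    obtain ⟨k, hk⟩ := exists_nat_gt (T - 1 - t)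
    exact ht k ⟨by linarith, htT⟩
  apply lintegral_mono_ae
  have hne : ∀ᵐ t : ℝ, t ≠ T := by simp [ae_iff, measure_singleton]
  filter_upwards [ae_restrict_mem measurableSet_Iic, ae_restrict_of_ae hall, ae_restrict_of_ae hne]
    with t ht h3 h4
  exact mul_le_mul_right (h3 (lt_of_le_of_ne ht h4)) _

section generic
variable {M : Type*} [MeasurableSpace M] {μ : Measure M} [SFinite μ]
  {h : ℝ → M → M → ℝ≥0∞} {g : ℝ → M → ℝ≥0∞}

/-- the density of the absolute force -/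
noncomputable def NN (μ : Measure M) (h : ℝ → M → M → ℝ≥0∞) (g : ℝ → M → ℝ≥0∞) (θ : M) (t : ℝ) : ℝ≥0∞ :=
  ∫⁻ θ', ∫⁻ ρ in Ioi (0:ℝ), h ρ θ θ' * (g (t + ρ) θ' + g (t - ρ) θ') ∂volume ∂μ

theorem meas_k (hh : Measurable (fun z : ℝ × M × M => h z.1 z.2.1 z.2.2))
    (hg : Measurable (fun z : ℝ × M => g z.1 z.2)) :
    Measurable (fun z : (M × ℝ × M) × ℝ => h z.2 z.1.1 z.1.2.2 *
      (g (z.1.2.1 + z.2) z.1.2.2 + g (z.1.2.1 - z.2) z.1.2.2)) := by
  apply Measurable.mul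
  · exact hh.comp (f := fun z : (M × ℝ × M) × ℝ => (z.2, z.1.1, z.1.2.2)) (by fun_prop)
  · apply Measurable.add
    · exact hg.comp (f := fun z : (M × ℝ × M) × ℝ => (z.1.2.1 + z.2, z.1.2.2)) (by fun_prop)
    · exact hg.comp (f := fun z : (M × ℝ × M) × ℝ => (z.1.2.1 - z.2, z.1.2.2)) (by fun_prop)

theorem meas_k2 (hh : Measurable (fun z : ℝ × M × M => h z.1 z.2.1 z.2.2))
    (hg : Measurable (fun z : ℝ × M => g z.1 z.2)) :
    Measurable (fun z : M × ℝ × M => ∫⁻ ρ in Ioi (0:ℝ), h ρ z.1 z.2.2 *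
      (g (z.2.1 + ρ) z.2.2 + g (z.2.1 - ρ) z.2.2)) := (meas_k hh hg).lintegral_prod_right'

theorem meas_NN (hh : Measurable (fun z : ℝ × M × M => h z.1 z.2.1 z.2.2))
    (hg : Measurable (fun z : ℝ × M => g z.1 z.2)) :
    Measurable (fun z : M × ℝ => NN μ h g z.1 z.2) := by
  have h1 : Measurable (fun w : (M × ℝ) × M => ∫⁻ ρ in Ioi (0:ℝ), h ρ w.1.1 w.2 *
      (g (w.1.2 + ρ) w.2 + g (w.1.2 - ρ) w.2)) :=
    (meas_k2 hh hg).comp (f := fun w : (M × ℝ) × M => (w.1.1, w.1.2, w.2)) (by fun_prop)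
  exact h1.lintegral_prod_right'

theorem lintegral_NN (hh : Measurable (fun z : ℝ × M × M => h z.1 z.2.1 z.2.2))
    (hg : Measurable (fun z : ℝ × M => g z.1 z.2)) {f : ℝ → ℝ≥0∞} (hf : Measurable f) (θ : M)
    (s : Set ℝ) :
    ∫⁻ t in s, f t * NN μ h g θ t
      = ∫⁻ θ', ∫⁻ ρ in Ioi (0:ℝ), h ρ θ θ' *
          ∫⁻ t in s, f t * (g (t + ρ) θ' + g (t - ρ) θ') ∂volume ∂volume ∂μ := by
  unfold NN
  have m2 : Measurable (fun z : ℝ × M => ∫⁻ ρ in Ioi (0:ℝ), h ρ θ z.2 *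
      (g (z.1 + ρ) z.2 + g (z.1 - ρ) z.2)) :=
    (meas_k2 hh hg).comp (f := fun z : ℝ × M => (θ, z.1, z.2)) (by fun_prop)
  have e1 : ∀ t, f t * (∫⁻ θ', ∫⁻ ρ in Ioi (0:ℝ), h ρ θ θ' * (g (t + ρ) θ' + g (t - ρ) θ') ∂volume ∂μ)
      = ∫⁻ θ', f t * ∫⁻ ρ in Ioi (0:ℝ), h ρ θ θ' * (g (t + ρ) θ' + g (t - ρ) θ') ∂volume ∂μ := by
    intro t
    rw [lintegral_const_mul]
    exact m2.comp (f := fun θ' : M => (t, θ')) (by fun_prop)
  rw [lintegral_congr e1, lintegral_lintegral_swap]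
  · apply lintegral_congr
    intro θ'
    have m3 : Measurable (fun z : ℝ × ℝ => h z.2 θ θ' * (g (z.1 + z.2) θ' + g (z.1 - z.2) θ')) :=
      (meas_k hh hg).comp (f := fun z : ℝ × ℝ => ((θ, z.1, θ'), z.2)) (by fun_prop)
    have e2 : ∀ t, f t * (∫⁻ ρ in Ioi (0:ℝ), h ρ θ θ' * (g (t + ρ) θ' + g (t - ρ) θ'))
        = ∫⁻ ρ in Ioi (0:ℝ), f t * (h ρ θ θ' * (g (t + ρ) θ' + g (t - ρ) θ')) := by
      intro t
      rw [lintegral_const_mul]
      exact m3.comp (f := fun ρ : ℝ => (t, ρ)) (by fun_prop)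
    rw [lintegral_congr e2, lintegral_lintegral_swap]
    · apply lintegral_congr
      intro ρ
      rw [← lintegral_const_mul]
      · apply lintegral_congr
        intro t
        ring
      · apply hf.mul
        apply Measurable.add
        · exact hg.comp (f := fun t : ℝ => (t + ρ, θ')) (by fun_prop)
        · exact hg.comp (f := fun t : ℝ => (t - ρ, θ')) (by fun_prop)
    · apply Measurable.aemeasurable
      exact (hf.comp measurable_fst).mul m3
  · apply Measurable.aemeasurable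
    exact (hf.comp measurable_fst).mul m2

theorem lint_shift {f : ℝ → ℝ≥0∞} (hf : Measurable f) (t1 t2 ρ : ℝ) :
    ∫⁻ s in Ico (t1 + ρ) (t2 + ρ), f s = ∫⁻ s in Ioo t1 t2, f (s + ρ) := by
  have h1 : ∫⁻ s in Ico (t1 + ρ) (t2 + ρ), f s = ∫⁻ s in Ioo (t1 + ρ) (t2 + ρ), f s :=
    setLIntegral_congr Ioo_ae_eq_Ico.symm
  rw [h1, ← lintegral_indicator measurableSet_Ioo, ← lintegral_indicator measurableSet_Ioo,
    ← lintegral_add_right_eq_self (μ := volume) _ ρ]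
  apply lintegral_congr
  intro s
  by_cases hs : s ∈ Ioo t1 t2
  · rw [indicator_of_mem hs, indicator_of_mem]
    exact ⟨by linarith [hs.1], by linarith [hs.2]⟩
  · rw [indicator_of_notMem hs, indicator_of_notMem]
    intro h
    exact hs ⟨by linarith [h.1], by linarith [h.2]⟩

theorem box_up {f : ℝ → ℝ≥0∞} (hf : Measurable f) {t1 t2 ρ : ℝ} (h12 : t1 ≤ t2) :
    ∫⁻ s in Ioo (t2 - ρ) (t2 + ρ), f s
      ≤ (∫⁻ s in Ioo (t1 - ρ) (t1 + ρ), f s) + ∫⁻ s in Ioo t1 t2, f (s + ρ) := by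
  rw [← lint_shift hf]
  calc ∫⁻ s in Ioo (t2 - ρ) (t2 + ρ), f s
      ≤ ∫⁻ s in Ioo (t1 - ρ) (t1 + ρ) ∪ Ico (t1 + ρ) (t2 + ρ), f s := by
        apply lintegral_mono_set
        intro s hs
        by_cases h : s < t1 + ρ
        · left; exact ⟨by linarith [hs.1], h⟩
        · right; exact ⟨not_lt.1 h, hs.2⟩
    _ ≤ _ := lintegral_union_le _ _ _

theorem box_down {f : ℝ → ℝ≥0∞} (hf : Measurable f) {t1 t2 ρ : ℝ} (h12 : t1 ≤ t2) :
    ∫⁻ s in Ioo (t1 - ρ) (t1 + ρ), f s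
      ≤ (∫⁻ s in Ioo (t2 - ρ) (t2 + ρ), f s) + ∫⁻ s in Ioo t1 t2, f (s - ρ) := by
  have hsh : ∫⁻ s in Ioo t1 t2, f (s - ρ) = ∫⁻ s in Ioc (t1 - ρ) (t2 - ρ), f s := by
    have := lint_shift hf t1 t2 (-ρ)
    simp only [← sub_eq_add_neg] at this
    rw [← this]
    exact setLIntegral_congr (Ioo_ae_eq_Ico.symm.trans Ioo_ae_eq_Ioc)
  rw [hsh]
  calc ∫⁻ s in Ioo (t1 - ρ) (t1 + ρ), f s
      ≤ ∫⁻ s in Ioo (t2 - ρ) (t2 + ρ) ∪ Ioc (t1 - ρ) (t2 - ρ), f s := by
        apply lintegral_mono_set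
        intro s hs
        by_cases h : s ≤ t2 - ρ
        · right; exact ⟨hs.1, h⟩
        · left; exact ⟨not_le.1 h, by linarith [hs.2]⟩
    _ ≤ _ := lintegral_union_le _ _ _

/-- the potential -/
noncomputable def PP (μ : Measure M) (h : ℝ → M → M → ℝ≥0∞) (g : ℝ → M → ℝ≥0∞) (θ : M) (t : ℝ) : ℝ≥0∞ :=
  ∫⁻ θ', ∫⁻ ρ in Ioi (0:ℝ), h ρ θ θ' * ∫⁻ s in Ioo (t - ρ) (t + ρ), g s θ' ∂volume ∂volume ∂μ

theorem PP_le (hh : Measurable (fun z : ℝ × M × M => h z.1 z.2.1 z.2.2))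
    (hg : Measurable (fun z : ℝ × M => g z.1 z.2)) (θ : M) {t1 t2 : ℝ} {u1 u2 : ℝ}
    (hb : ∀ f : ℝ → ℝ≥0∞, Measurable f → ∀ ρ : ℝ, ∫⁻ s in Ioo (u2 - ρ) (u2 + ρ), f s
      ≤ (∫⁻ s in Ioo (u1 - ρ) (u1 + ρ), f s) + ∫⁻ s in Ioo t1 t2, (f (s + ρ) + f (s - ρ))) :
    PP μ h g θ u2 ≤ PP μ h g θ u1 + ∫⁻ s in Ioo t1 t2, NN μ h g θ s := by
  have e := lintegral_NN (μ := μ) hh hg (f := fun _ => 1) measurable_const θ (Ioo t1 t2)
  simp only [one_mul] at e
  rw [e]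
  unfold PP
  have m1 : Measurable (fun w : M × ℝ => h w.2 θ w.1 * ∫⁻ s in Ioo (u1 - w.2) (u1 + w.2), g s w.1) :=
    (meas_hbox hh hg θ).comp (f := fun w : M × ℝ => ((u1, w.1), w.2)) (by fun_prop)
  have m2 : Measurable (fun θ' : M => ∫⁻ ρ in Ioi (0:ℝ), h ρ θ θ' *
      ∫⁻ s in Ioo (u1 - ρ) (u1 + ρ), g s θ') := m1.lintegral_prod_right'
  rw [← lintegral_add_left m2]
  apply lintegral_mono
  intro θ'
  beta_reduce
  have m3 : Measurable (fun ρ : ℝ => h ρ θ θ' * ∫⁻ s in Ioo (u1 - ρ) (u1 + ρ), g s θ') :=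
    m1.comp (f := fun ρ : ℝ => (θ', ρ)) (by fun_prop)
  rw [← lintegral_add_left m3]
  apply lintegral_mono
  intro ρ
  beta_reduce
  rw [← mul_add]
  exact mul_le_mul_right (hb (fun s => g s θ') (hg.comp (f := fun s : ℝ => (s, θ')) (by fun_prop)) ρ) _

end generic

section cyl
variable {M : Type} [MeasurableSpace M] {μ : Measure M} [SFinite μ]

theorem key_int {f g : ℝ → M → ℝ} {V : ℝ → M → ℝ} {H : ℝ → M → M → ℝ}
    (hf : Measurable (fun z : ℝ × M => f z.1 z.2)) (hg : Measurable (fun z : ℝ × M => g z.1 z.2))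
    (hH : Measurable (fun z : ℝ × M × M => H z.1 z.2.1 z.2.2))
    (hfc : ∀ θ, Continuous (fun t => f t θ)) (hf0 : ∀ t θ, 0 < f t θ)
    (hV0 : ∀ t θ, 0 < V t θ) (hV1 : ∀ θ, ContDiff ℝ 1 (fun t => V t θ))
    (rep : ∀ t θ, ENNReal.ofReal (V t θ) = PP μ (fun ρ θ θ' => ENNReal.ofReal (H ρ θ θ'))
      (fun t θ => ENNReal.ofReal (g t θ)) θ t)
    (T : ℝ)
    (hfin : ∫⁻ θ, ∫⁻ θ', ∫⁻ ρ in Ioi (0:ℝ), ENNReal.ofReal (H ρ θ θ') *
      ∫⁻ t in Iic T, ENNReal.ofReal (f t θ) *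
        (ENNReal.ofReal (g (t + ρ) θ') + ENNReal.ofReal (g (t - ρ) θ')) ∂volume ∂volume ∂μ ∂μ ≠ ∞)
    (hmd : Measurable (fun z : M × ℝ => deriv (fun s => V s z.1) z.2)) :
    Integrable (fun z : M × ℝ => f z.2 z.1 * deriv (fun s => V s z.1) z.2)
      (μ.prod (volume.restrict (Iic T))) := by
  have hH' : Measurable (fun z : ℝ × M × M => ENNReal.ofReal (H z.1 z.2.1 z.2.2)) := hH.ennreal_ofReal
  have hg' : Measurable (fun z : ℝ × M => ENNReal.ofReal (g z.1 z.2)) := hg.ennreal_ofReal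
  have hfm : Measurable (fun z : M × ℝ => f z.2 z.1) :=
    hf.comp (f := fun z : M × ℝ => (z.2, z.1)) (by fun_prop)
  set N := NN μ (fun ρ θ θ' => ENNReal.ofReal (H ρ θ θ')) (fun t θ => ENNReal.ofReal (g t θ)) with hN
  have hNm : Measurable (fun z : M × ℝ => N z.1 z.2) := meas_NN hH' hg'
  have hfin2 : ∫⁻ θ, ∫⁻ t in Iic T, ENNReal.ofReal (f t θ) * N θ t ∂volume ∂μ ≠ ∞ := by
    have e : ∀ θ, ∫⁻ t in Iic T, ENNReal.ofReal (f t θ) * N θ t
        = ∫⁻ θ', ∫⁻ ρ in Ioi (0:ℝ), ENNReal.ofReal (H ρ θ θ') *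
      ∫⁻ t in Iic T, ENNReal.ofReal (f t θ) *
        (ENNReal.ofReal (g (t + ρ) θ') + ENNReal.ofReal (g (t - ρ) θ')) ∂volume ∂volume ∂μ := fun θ =>
      lintegral_NN hH' hg' (hf.comp (f := fun t : ℝ => (t, θ)) (by fun_prop)).ennreal_ofReal θ (Iic T)
    rw [lintegral_congr e]
    exact hfin
  have hm2 : Measurable (fun θ => ∫⁻ t in Iic T, ENNReal.ofReal (f t θ) * N θ t) := by
    have : Measurable (fun z : M × ℝ => ENNReal.ofReal (f z.2 z.1) * N z.1 z.2) :=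
      hfm.ennreal_ofReal.mul hNm
    exact this.lintegral_prod_right'
  have hae := ae_lt_top hm2 hfin2
  have hprod : Measurable (fun z : M × ℝ => f z.2 z.1 * deriv (fun s => V s z.1) z.2) := hfm.mul hmd
  refine ⟨hprod.aestronglyMeasurable, ?_⟩
  rw [hasFiniteIntegral_iff_enorm, lintegral_prod _ hprod.enorm.aemeasurable]
  refine lt_of_le_of_lt ?_ (lt_top_iff_ne_top.2 hfin2)
  apply lintegral_mono_ae
  filter_upwards [hae] with θ hθ
  have hb := lintegral_deriv_le (v := fun t => V t θ) (v' := deriv (fun s => V s θ))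
    (F := fun t => f t θ) (N := N θ) (hNm.comp (f := fun t : ℝ => (θ, t)) (by fun_prop))
    (fun t => ((hV1 θ).differentiable (by simp)).differentiableAt.hasDerivAt)
    (fun t => (hV0 t θ).le) (hfc θ) (fun t => hf0 t θ)
    (by
      intro t1 t2 h12
      rw [rep, rep]
      apply PP_le hH' hg'
      intro k hk ρ
      refine (box_up hk h12).trans ?_
      gcongr
      exact le_self_add)
    (by
      intro t1 t2 h12
      rw [rep, rep]
      apply PP_le hH' hg'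
      intro k hk ρ
      refine (box_down hk h12).trans ?_
      gcongr
      exact le_add_self) hθ.ne
  refine le_trans (le_of_eq ?_) hb
  apply lintegral_congr
  intro t
  rw [enorm_mul, ← ofReal_norm, ← ofReal_norm, Real.norm_eq_abs,
    Real.norm_eq_abs, abs_of_pos (hf0 t θ)]

end cyl

theorem intFdV : Stmt_IntFdV := by
  intro M _ μ _ S T
  have m1 : Measurable (fun z : M × ℝ => deriv (fun s => S.V s z.1) z.2) := by
    exact ML.meas_dV S measurable_snd measurable_fst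
  have m2 : Measurable (fun z : M × ℝ => deriv (fun s => S.U s z.1) z.2) := by
    exact ML.meas_dU S measurable_snd measurable_fst
  constructor
  · exact key_int (F_meas S) (G_meas S) S.H_meas (F_cont S) (F_pos S) S.V_pos S.V_C1 S.repV T
      (S.int1 T) m1
  · exact key_int (G_meas S) (F_meas S) S.H_meas (G_cont S) (G_pos S) S.U_pos S.U_C1 S.repU T
      (S.int2 T) m2

end Crest.Agent.R077.JB
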