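import Crest.Agent.R077.MeasLay
import Crest.Agent.R077.DFinal

/-!
# Row 77: uniform bounds on the window, integrability (helper7)
-/

set_option autoImplicit false
open MeasureTheory Set Real
open scoped ENNReal Topology

namespace Crest.Agent.R077.ML

/-! ### grid facts -/

lemma msh_pos {a : ℝ} {m : ℕ} (ha : 0 < a) (hm : 1 ≤ m) : 0 < msh a m := StepR1.msh_pos ha hm

lemma nd_zero (lam a : ℝ) (m : ℕ) : nd lam a m 0 = lam - a / 2 := by
  unfold nd; simp

lemma nd_last {lam a : ℝ} {m : ℕ} (hm : 1 ≤ m) : nd lam a m m = lam + 3 * a / 2 := by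
  unfold nd msh
  have : (m:ℝ) ≠ 0 := by
    have : (0:ℝ) < m := by exact_mod_cast hm
    exact this.ne'
  field_simp
  ring

lemma nd_mem_window {lam a : ℝ} {m k : ℕ} (ha : 0 < a) (hm : 1 ≤ m) (hk : k ≤ m) :
    nd lam a m k ∈ Icc (lam - a / 2) (lam + 3 * a / 2) := by
  constructor
  · rw [← nd_zero lam a m]; exact StepR1.nd_le ha hm (Nat.zero_le _)
  · rw [← nd_last hm]; exact StepR1.nd_le ha hm hk

lemma nd_sub_pred {lam a : ℝ} {m k : ℕ} (hk : 1 ≤ k) :
    nd lam a m k - nd lam a m (k - 1) = msh a m := by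
  unfold nd
  rw [Nat.cast_sub hk]
  push_cast
  ring

lemma lft_mem {lam a : ℝ} {m : ℕ} (ha : 0 < a) (hm : 1 ≤ m) {i : ℕ × ℕ} (hi : i ∈ prs m) :
    lft lam a m i ∈ Icc (lam - a / 2) (lam + 3 * a / 2) := by
  rw [StepR1.mem_prs] at hi
  exact nd_mem_window ha hm (by omega)

lemma rgt_mem {lam a : ℝ} {m : ℕ} (ha : 0 < a) (hm : 1 ≤ m) {i : ℕ × ℕ} (hi : i ∈ prs m) :
    rgt lam a m i ∈ Icc (lam - a / 2) (lam + 3 * a / 2) := by
  rw [StepR1.mem_prs] at hi
  exact nd_mem_window ha hm hi.2.2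

lemma shortI_subset (a : ℝ) (m : ℕ) (η : ℝ) : shortI a m η ⊆ prs m := by
  classical
  unfold shortI
  exact Finset.filter_subset _ _

lemma longI_subset (a : ℝ) (m : ℕ) (η : ℝ) : longI a m η ⊆ prs m := by
  classical
  unfold longI
  exact Finset.sdiff_subset

/-- `longI` decreases with the scale -/
lemma longI_anti (a : ℝ) (m : ℕ) {η δ : ℝ} (h : η ≤ δ) : longI a m δ ⊆ longI a m η := by
  classical
  unfold longI
  refine Finset.sdiff_subset_sdiff (le_refl _) ?_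
  intro i hi
  unfold shortI at hi ⊢
  rw [Finset.mem_filter] at hi ⊢
  exact ⟨hi.1, hi.2.1, hi.2.2.1, hi.2.2.2.trans_le h⟩

/-! ### step functions -/

lemma stepF_nonneg (x : ℕ → ℝ) (I : Finset (ℕ × ℕ)) (lam a : ℝ) (m : ℕ) (t : ℝ) :
    0 ≤ stepF x I lam a m t := by
  unfold stepF
  exact Finset.sum_nonneg (fun i _ => mul_nonneg (rc_nonneg x i) (ind_nonneg lam a m i t))

lemma stepF_mono (x : ℕ → ℝ) {I J : Finset (ℕ × ℕ)} (h : I ⊆ J) (lam a : ℝ) (m : ℕ) (t : ℝ) :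
    stepF x I lam a m t ≤ stepF x J lam a m t := by
  unfold stepF
  exact Finset.sum_le_sum_of_subset_of_nonneg h
    (fun i _ _ => mul_nonneg (rc_nonneg x i) (ind_nonneg lam a m i t))

lemma stepF_prs_le {f : ℝ → ℝ} {x : ℕ → ℝ} {lam a : ℝ} {m : ℕ} (ha : 0 < a) (hm : 1 ≤ m)
    (hx : Lay f x lam a m) (t : ℝ) : stepF x (prs m) lam a m t ≤ f t := by
  rw [StepR1.stepF_eq]
  exact StepR1.st_prs_le ha hm hx t

lemma stepF_le {f : ℝ → ℝ} {x : ℕ → ℝ} {lam a : ℝ} {m : ℕ} (ha : 0 < a) (hm : 1 ≤ m)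
    (hx : Lay f x lam a m) {I : Finset (ℕ × ℕ)} (hI : I ⊆ prs m) (t : ℝ) :
    stepF x I lam a m t ≤ f t :=
  (stepF_mono x hI lam a m t).trans (stepF_prs_le ha hm hx t)

lemma stepF_short_add_long (x : ℕ → ℝ) (lam a : ℝ) (m : ℕ) (η t : ℝ) :
    stepF x (shortI a m η) lam a m t + stepF x (longI a m η) lam a m t
      = stepF x (prs m) lam a m t := by
  classical
  unfold stepF longI
  rw [add_comm]
  exact Finset.sum_sdiff (shortI_subset a m η)

lemma ind_eq_zero_left {lam a : ℝ} {m : ℕ} (ha : 0 < a) (hm : 1 ≤ m) {i : ℕ × ℕ} {t : ℝ}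
    (ht : t < lam - a / 2) : ind lam a m i t = 0 := by
  unfold ind
  rw [if_neg]
  rintro ⟨h1, _⟩
  have h2 : nd lam a m 0 ≤ lft lam a m i := by
    unfold lft; exact StepR1.nd_le ha hm (Nat.zero_le _)
  rw [nd_zero] at h2
  linarith

lemma ind_eq_zero_right {lam a : ℝ} {m : ℕ} (ha : 0 < a) (hm : 1 ≤ m) {i : ℕ × ℕ}
    (hi : i ∈ prs m) {t : ℝ} (ht : lam + 3 * a / 2 ≤ t) : ind lam a m i t = 0 := by
  unfold ind
  rw [if_neg]
  rintro ⟨_, h1⟩
  have h2 := (rgt_mem (lam := lam) ha hm hi).2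
  linarith

lemma stepF_eq_zero_left (x : ℕ → ℝ) (I : Finset (ℕ × ℕ)) {lam a : ℝ} {m : ℕ} (ha : 0 < a)
    (hm : 1 ≤ m) {t : ℝ} (ht : t < lam - a / 2) : stepF x I lam a m t = 0 := by
  unfold stepF
  exact Finset.sum_eq_zero (fun i _ => by rw [ind_eq_zero_left ha hm ht, mul_zero])

lemma stepF_eq_zero_right (x : ℕ → ℝ) {I : Finset (ℕ × ℕ)} {lam a : ℝ} {m : ℕ} (ha : 0 < a)
    (hm : 1 ≤ m) (hI : I ⊆ prs m) {t : ℝ} (ht : lam + 3 * a / 2 ≤ t) :
    stepF x I lam a m t = 0 := by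
  unfold stepF
  exact Finset.sum_eq_zero (fun i hi => by rw [ind_eq_zero_right ha hm (hI hi) ht, mul_zero])

lemma stepF_eq_zero_of_notMem (x : ℕ → ℝ) {I : Finset (ℕ × ℕ)} {lam a : ℝ} {m : ℕ} (ha : 0 < a)
    (hm : 1 ≤ m) (hI : I ⊆ prs m) {t : ℝ} (ht : t ∉ Icc (lam - a / 2) (lam + 3 * a / 2)) :
    stepF x I lam a m t = 0 := by
  rw [Set.mem_Icc, not_and_or, not_le, not_le] at ht
  rcases ht with ht | ht
  · exact stepF_eq_zero_left x I ha hm ht
  · exact stepF_eq_zero_right x ha hm hI ht.le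

/-! ### the momentum densities -/

lemma omega_split (f : ℝ → ℝ) (x : ℕ → ℝ) (I : Finset (ℕ × ℕ)) (lam a : ℝ) (m : ℕ) (t : ℝ) :
    omega f x I lam a m t = phi lam a t * (f t - stepF x I lam a m t)
      + ∑ i ∈ I, rc x i * (phi lam a (mid lam a m i) * ind lam a m i t) := by
  unfold omega stepF
  rw [mul_sub, Finset.mul_sum, sub_add_eq_add_sub, add_sub_assoc, ← Finset.sum_sub_distrib]
  congr 1
  exact Finset.sum_congr rfl (fun i _ => by ring)

lemma omega_nonneg {f : ℝ → ℝ} {x : ℕ → ℝ} {lam a : ℝ} {m : ℕ} (ha : 0 < a) (hm : 1 ≤ m)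
    (hx : Lay f x lam a m) {I : Finset (ℕ × ℕ)} (hI : I ⊆ prs m) (t : ℝ) :
    0 ≤ omega f x I lam a m t := by
  rw [omega_split]
  have h1 := stepF_le ha hm hx hI t
  refine add_nonneg (mul_nonneg (TP.phi_nonneg ha lam t) (by linarith)) ?_
  exact Finset.sum_nonneg (fun i _ => mul_nonneg (rc_nonneg x i)
    (mul_nonneg (TP.phi_nonneg ha lam _) (ind_nonneg lam a m i t)))

lemma omega_le {f : ℝ → ℝ} {x : ℕ → ℝ} {lam a : ℝ} {m : ℕ} (ha : 0 < a) (hm : 1 ≤ m)
    (hx : Lay f x lam a m) {I : Finset (ℕ × ℕ)} (hI : I ⊆ prs m) (t : ℝ) :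
    omega f x I lam a m t ≤ f t := by
  rw [omega_split]
  have h1 := stepF_le ha hm hx hI t
  have h2 : phi lam a t * (f t - stepF x I lam a m t) ≤ f t - stepF x I lam a m t := by
    have := TP.phi_le_one lam a t
    nlinarith
  have h3 : ∑ i ∈ I, rc x i * (phi lam a (mid lam a m i) * ind lam a m i t)
      ≤ stepF x I lam a m t := by
    unfold stepF
    refine Finset.sum_le_sum (fun i _ => mul_le_mul_of_nonneg_left ?_ (rc_nonneg x i))
    have h4 := TP.phi_le_one lam a (mid lam a m i)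
    have h5 := ind_nonneg lam a m i t
    nlinarith
  linarith

lemma abs_omega_le {f : ℝ → ℝ} {x : ℕ → ℝ} {lam a : ℝ} {m : ℕ} (ha : 0 < a) (hm : 1 ≤ m)
    (hx : Lay f x lam a m) {I : Finset (ℕ × ℕ)} (hI : I ⊆ prs m) (t : ℝ) :
    |omega f x I lam a m t| ≤ f t := by
  rw [abs_of_nonneg (omega_nonneg ha hm hx hI t)]
  exact omega_le ha hm hx hI t

/-- a short run meeting `t` has its centre within `η/2` of `t` -/
lemma abs_mid_sub_le {lam a : ℝ} {m : ℕ} {η : ℝ} {i : ℕ × ℕ} (hi : i ∈ shortI a m η) {t : ℝ}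
    (ht : ind lam a m i t ≠ 0) : |mid lam a m i - t| ≤ η / 2 := by
  have h1 := StepR1.short_len (lam := lam) hi
  unfold ind at ht
  split_ifs at ht with h2
  · unfold mid
    rw [abs_le]
    constructor <;> linarith [h2.1, h2.2]
  · exact absurd rfl ht

lemma omega_eq_left {f : ℝ → ℝ} {x : ℕ → ℝ} {lam a : ℝ} {m : ℕ} {η t : ℝ} (hη : 0 ≤ η)
    (ht : t ≤ lam - η / 2) : omega f x (shortI a m η) lam a m t = f t := by
  unfold omega
  rw [TP.phi_eq_one (by linarith), one_mul, Finset.sum_eq_zero, add_zero]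
  intro i hi
  by_cases h : ind lam a m i t = 0
  · rw [h, mul_zero, mul_zero]
  · have h1 := abs_mid_sub_le hi h
    rw [abs_le] at h1
    rw [TP.phi_eq_one (by linarith), sub_self, zero_mul, mul_zero]

lemma omega_eq_zero_right' {f : ℝ → ℝ} {x : ℕ → ℝ} {lam a : ℝ} (ha : 0 < a) {m : ℕ} {η t : ℝ}
    (hη : 0 ≤ η) (ht : lam + a + η / 2 ≤ t) : omega f x (shortI a m η) lam a m t = 0 := by
  unfold omega
  rw [TP.phi_eq_zero ha (by linarith), zero_mul, Finset.sum_eq_zero, add_zero]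
  intro i hi
  by_cases h : ind lam a m i t = 0
  · rw [h, mul_zero, mul_zero]
  · have h1 := abs_mid_sub_le hi h
    rw [abs_le] at h1
    rw [TP.phi_eq_zero ha (by linarith), sub_self, zero_mul, mul_zero]

/-- outside the window, whatever `η` is -/
lemma omega_eq_left_window {f : ℝ → ℝ} {x : ℕ → ℝ} {lam a : ℝ} {m : ℕ} (ha : 0 < a) (hm : 1 ≤ m)
    {I : Finset (ℕ × ℕ)} {t : ℝ} (ht : t < lam - a / 2) : omega f x I lam a m t = f t := by
  unfold omega
  rw [TP.phi_eq_one (by linarith), one_mul, Finset.sum_eq_zero, add_zero]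
  intro i _
  rw [ind_eq_zero_left ha hm ht, mul_zero, mul_zero]

lemma omega_eq_zero_right_window {f : ℝ → ℝ} {x : ℕ → ℝ} {lam a : ℝ} {m : ℕ} (ha : 0 < a)
    (hm : 1 ≤ m) {I : Finset (ℕ × ℕ)} (hI : I ⊆ prs m) {t : ℝ} (ht : lam + 3 * a / 2 ≤ t) :
    omega f x I lam a m t = 0 := by
  unfold omega
  rw [TP.phi_eq_zero ha (by linarith), zero_mul, Finset.sum_eq_zero, add_zero]
  intro i hi
  rw [ind_eq_zero_right ha hm (hI hi) ht, mul_zero, mul_zero]

/-! ### `Sol` gives `Lay` -/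

lemma sol_cont {b p : ℝ} {f v : ℝ → ℝ} {lam L : ℝ} (h : Sol b p f v lam L) : Continuous f := by
  have h1 : f = fun t => Real.exp (b * t) * v t ^ p := funext h.feq
  rw [h1]
  refine (Real.continuous_exp.comp (continuous_const.mul continuous_id)).mul ?_
  exact h.v_C1.continuous.rpow_const (fun t => Or.inl (h.v_pos t).ne')

lemma sol_pos {b p : ℝ} {f v : ℝ → ℝ} {lam L : ℝ} (h : Sol b p f v lam L) (t : ℝ) : 0 < f t := by
  rw [h.feq]
  exact mul_pos (Real.exp_pos _) (Real.rpow_pos_of_pos (h.v_pos t) _)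

lemma lay_of_sol {b p : ℝ} {f v : ℝ → ℝ} {lam a L : ℝ} {m : ℕ} (ha : 0 < a) (ha1 : a ≤ 1)
    (hm : 1 ≤ m) (hLm : 4 * L ^ 2 * msh a m ≤ 1) (h : Sol b p f v lam L) :
    Lay f (samp f lam a m L) lam a m where
  f_cont := sol_cont h
  f_nonneg t := (sol_pos h t).le
  x_nonneg k := by
    unfold samp
    split_ifs with hk
    · have h1 := nd_mem_window (lam := lam) ha hm hk.2
      have h2 := h.f_ge (nd lam a m k) ⟨by linarith [h1.1], by linarith [h1.2]⟩
      have hL := h.hL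
      have hm' := msh_pos ha hm
      have h3 : L * msh a m ≤ f (nd lam a m k) := by
        have h4 : L * (L * msh a m) ≤ L * f (nd lam a m k) := by nlinarith
        exact le_of_mul_le_mul_left h4 (by linarith)
      linarith
    · exact le_rfl
  x_zero := by unfold samp; simp
  x_out k hk := by
    unfold samp
    rw [if_neg (by omega)]
  x_le k h1 h2 t ht1 ht2 := by
    unfold samp
    rw [if_pos ⟨h1, h2⟩]
    have g1 := nd_mem_window (lam := lam) ha hm h2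
    have g2 := nd_mem_window (lam := lam) (k := k - 1) ha hm (by omega)
    have g3 := h.f_lip (nd lam a m k) ⟨by linarith [g1.1], by linarith [g1.2]⟩ t
      ⟨by linarith [g2.1], by linarith [g1.2]⟩
    have g4 := nd_sub_pred (lam := lam) (a := a) (m := m) h1
    have g5 : |nd lam a m k - t| ≤ msh a m := by
      rw [abs_le]
      constructor <;> linarith [msh_pos ha hm]
    have g6 : L * |nd lam a m k - t| ≤ L * msh a m :=
      mul_le_mul_of_nonneg_left g5 (by linarith [h.hL])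
    have g7 := (abs_le.1 g3).2
    linarith

section cyl
variable {M : Type} [MeasurableSpace M] {μ : Measure M} {S : Cyl M μ}
variable {lam a L : ℝ} {m : ℕ}

lemma layF (h : WinOK S lam a m L) (θ : M) : Lay (fun t => S.F t θ) (S.xF lam a m L θ) lam a m :=
  lay_of_sol h.ha h.ha1 h.hm h.hLm (h.solF θ)

lemma layG (h : WinOK S lam a m L) (θ : M) : Lay (fun t => S.G t θ) (S.xG lam a m L θ) lam a m :=
  lay_of_sol h.ha h.ha1 h.hm h.hLm (h.solG θ)

lemma F_pos (S : Cyl M μ) (t : ℝ) (θ : M) : 0 < S.F t θ :=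
  mul_pos (Real.exp_pos _) (Real.rpow_pos_of_pos (S.V_pos t θ) _)

lemma G_pos (S : Cyl M μ) (t : ℝ) (θ : M) : 0 < S.G t θ :=
  mul_pos (Real.exp_pos _) (Real.rpow_pos_of_pos (S.U_pos t θ) _)

lemma F_cont (S : Cyl M μ) (θ : M) : Continuous fun t => S.F t θ := by
  unfold Cyl.F
  exact (Real.continuous_exp.comp (continuous_const.mul continuous_id)).mul
    ((S.V_C1 θ).continuous.rpow_const (fun t => Or.inl (S.V_pos t θ).ne'))

lemma G_cont (S : Cyl M μ) (θ : M) : Continuous fun t => S.G t θ := by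
  unfold Cyl.G
  exact (Real.continuous_exp.comp (continuous_const.mul continuous_id)).mul
    ((S.U_C1 θ).continuous.rpow_const (fun t => Or.inl (S.U_pos t θ).ne'))

lemma F_le (h : WinOK S lam a m L) {t : ℝ} (ht : t ∈ Icc (lam - 2) (lam + 4)) (θ : M) :
    S.F t θ ≤ L := (h.solF θ).f_le t ht
lemma G_le (h : WinOK S lam a m L) {t : ℝ} (ht : t ∈ Icc (lam - 2) (lam + 4)) (θ : M) :
    S.G t θ ≤ L := (h.solG θ).f_le t ht
lemma V_le (h : WinOK S lam a m L) {t : ℝ} (ht : t ∈ Icc (lam - 2) (lam + 4)) (θ : M) :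
    S.V t θ ≤ L := (h.solF θ).v_le t ht
lemma U_le (h : WinOK S lam a m L) {t : ℝ} (ht : t ∈ Icc (lam - 2) (lam + 4)) (θ : M) :
    S.U t θ ≤ L := (h.solG θ).v_le t ht
lemma L_ge [Nonempty M] (h : WinOK S lam a m L) : 1 ≤ L := (h.solF (Classical.arbitrary M)).hL
lemma L_ge' (h : WinOK S lam a m L) (θ : M) : 1 ≤ L := (h.solF θ).hL

/-! long parts -/

lemma FLo_nonneg (S : Cyl M μ) (lam a : ℝ) (m : ℕ) (L η t : ℝ) (θ : M) :
    0 ≤ S.FLo lam a m L η t θ := stepF_nonneg _ _ _ _ _ _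
lemma GLo_nonneg (S : Cyl M μ) (lam a : ℝ) (m : ℕ) (L η t : ℝ) (θ : M) :
    0 ≤ S.GLo lam a m L η t θ := stepF_nonneg _ _ _ _ _ _

lemma FLo_le (h : WinOK S lam a m L) (η t : ℝ) (θ : M) : S.FLo lam a m L η t θ ≤ S.F t θ :=
  stepF_le h.ha h.hm (layF h θ) (longI_subset a m η) t
lemma GLo_le (h : WinOK S lam a m L) (η t : ℝ) (θ : M) : S.GLo lam a m L η t θ ≤ S.G t θ :=
  stepF_le h.ha h.hm (layG h θ) (longI_subset a m η) t

lemma FLo_anti (S : Cyl M μ) (lam a : ℝ) (m : ℕ) (L : ℝ) {η δ : ℝ} (h : η ≤ δ) (t : ℝ) (θ : M) :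
    S.FLo lam a m L δ t θ ≤ S.FLo lam a m L η t θ := stepF_mono _ (longI_anti a m h) _ _ _ _
lemma GLo_anti (S : Cyl M μ) (lam a : ℝ) (m : ℕ) (L : ℝ) {η δ : ℝ} (h : η ≤ δ) (t : ℝ) (θ : M) :
    S.GLo lam a m L δ t θ ≤ S.GLo lam a m L η t θ := stepF_mono _ (longI_anti a m h) _ _ _ _

lemma FLo_eq_zero (h : WinOK S lam a m L) (η : ℝ) {t : ℝ}
    (ht : t ∉ Icc (lam - a / 2) (lam + 3 * a / 2)) (θ : M) : S.FLo lam a m L η t θ = 0 :=
  stepF_eq_zero_of_notMem _ h.ha h.hm (longI_subset a m η) ht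
lemma GLo_eq_zero (h : WinOK S lam a m L) (η : ℝ) {t : ℝ}
    (ht : t ∉ Icc (lam - a / 2) (lam + 3 * a / 2)) (θ : M) : S.GLo lam a m L η t θ = 0 :=
  stepF_eq_zero_of_notMem _ h.ha h.hm (longI_subset a m η) ht

lemma window_sub (h : WinOK S lam a m L) :
    Icc (lam - a / 2) (lam + 3 * a / 2) ⊆ Icc (lam - 2) (lam + 4) := by
  intro t ht
  have := h.ha; have := h.ha1
  exact ⟨by linarith [ht.1], by linarith [ht.2]⟩

lemma FLo_le_L (h : WinOK S lam a m L) (η t : ℝ) (θ : M) : S.FLo lam a m L η t θ ≤ L := by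
  by_cases ht : t ∈ Icc (lam - a / 2) (lam + 3 * a / 2)
  · exact (FLo_le h η t θ).trans (F_le h (window_sub h ht) θ)
  · rw [FLo_eq_zero h η ht θ]; linarith [L_ge' h θ]
lemma GLo_le_L (h : WinOK S lam a m L) (η t : ℝ) (θ : M) : S.GLo lam a m L η t θ ≤ L := by
  by_cases ht : t ∈ Icc (lam - a / 2) (lam + 3 * a / 2)
  · exact (GLo_le h η t θ).trans (G_le h (window_sub h ht) θ)
  · rw [GLo_eq_zero h η ht θ]; linarith [L_ge' h θ]

/-! momentum densities -/

lemma OmF_nonneg (h : WinOK S lam a m L) (η t : ℝ) (θ : M) : 0 ≤ S.OmF lam a m L η t θ :=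
  omega_nonneg h.ha h.hm (layF h θ) (shortI_subset a m η) t
lemma OmG_nonneg (h : WinOK S lam a m L) (η t : ℝ) (θ : M) : 0 ≤ S.OmG lam a m L η t θ :=
  omega_nonneg h.ha h.hm (layG h θ) (shortI_subset a m η) t
lemma OmF_le (h : WinOK S lam a m L) (η t : ℝ) (θ : M) : S.OmF lam a m L η t θ ≤ S.F t θ :=
  omega_le h.ha h.hm (layF h θ) (shortI_subset a m η) t
lemma OmG_le (h : WinOK S lam a m L) (η t : ℝ) (θ : M) : S.OmG lam a m L η t θ ≤ S.G t θ :=
  omega_le h.ha h.hm (layG h θ) (shortI_subset a m η) t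
lemma abs_OmF_le (h : WinOK S lam a m L) (η t : ℝ) (θ : M) :
    |S.OmF lam a m L η t θ| ≤ S.F t θ := abs_omega_le h.ha h.hm (layF h θ) (shortI_subset a m η) t
lemma abs_OmG_le (h : WinOK S lam a m L) (η t : ℝ) (θ : M) :
    |S.OmG lam a m L η t θ| ≤ S.G t θ := abs_omega_le h.ha h.hm (layG h θ) (shortI_subset a m η) t

/-- `OmF = F` to the left of the window (any `η`) -/
lemma OmF_eq_F (h : WinOK S lam a m L) (η : ℝ) {t : ℝ} (ht : t < lam - a / 2) (θ : M) :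
    S.OmF lam a m L η t θ = S.F t θ := omega_eq_left_window h.ha h.hm ht
lemma OmG_eq_G (h : WinOK S lam a m L) (η : ℝ) {t : ℝ} (ht : t < lam - a / 2) (θ : M) :
    S.OmG lam a m L η t θ = S.G t θ := omega_eq_left_window h.ha h.hm ht
/-- `OmF = F` for `t ≤ lam - η/2` -/
lemma OmF_eq_F' (S : Cyl M μ) (lam a : ℝ) (m : ℕ) (L : ℝ) {η : ℝ} (hη : 0 ≤ η) {t : ℝ}
    (ht : t ≤ lam - η / 2) (θ : M) : S.OmF lam a m L η t θ = S.F t θ := omega_eq_left hη ht
lemma OmG_eq_G' (S : Cyl M μ) (lam a : ℝ) (m : ℕ) (L : ℝ) {η : ℝ} (hη : 0 ≤ η) {t : ℝ}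
    (ht : t ≤ lam - η / 2) (θ : M) : S.OmG lam a m L η t θ = S.G t θ := omega_eq_left hη ht
lemma OmF_eq_zero (h : WinOK S lam a m L) (η : ℝ) {t : ℝ} (ht : lam + 3 * a / 2 ≤ t) (θ : M) :
    S.OmF lam a m L η t θ = 0 :=
  omega_eq_zero_right_window h.ha h.hm (shortI_subset a m η) ht
lemma OmG_eq_zero (h : WinOK S lam a m L) (η : ℝ) {t : ℝ} (ht : lam + 3 * a / 2 ≤ t) (θ : M) :
    S.OmG lam a m L η t θ = 0 :=
  omega_eq_zero_right_window h.ha h.hm (shortI_subset a m η) ht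
lemma OmF_eq_zero' (S : Cyl M μ) (lam : ℝ) {a : ℝ} (ha : 0 < a) (m : ℕ) (L : ℝ) {η : ℝ}
    (hη : 0 ≤ η) {t : ℝ} (ht : lam + a + η / 2 ≤ t) (θ : M) : S.OmF lam a m L η t θ = 0 :=
  omega_eq_zero_right' ha hη ht
lemma OmG_eq_zero' (S : Cyl M μ) (lam : ℝ) {a : ℝ} (ha : 0 < a) (m : ℕ) (L : ℝ) {η : ℝ}
    (hη : 0 ≤ η) {t : ℝ} (ht : lam + a + η / 2 ≤ t) (θ : M) : S.OmG lam a m L η t θ = 0 :=
  omega_eq_zero_right' ha hη ht

/-! box averages -/

lemma box_nonneg {f : ℝ → ℝ} (hf : ∀ t, 0 ≤ f t) {ρ : ℝ} (hρ : 0 ≤ ρ) (t : ℝ) :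
    0 ≤ box f ρ t := by
  unfold box
  exact intervalIntegral.integral_nonneg (by linarith) (fun u _ => hf u)

/-- bound by `2 C ρ` if `|f| ≤ C` on the interval of integration -/
lemma abs_box_le {f : ℝ → ℝ} {ρ t C : ℝ} (hρ : 0 ≤ ρ)
    (hf : ∀ s ∈ Icc (t - ρ) (t + ρ), |f s| ≤ C) : |box f ρ t| ≤ 2 * C * ρ := by
  unfold box
  have h1 := intervalIntegral.norm_integral_le_of_norm_le_const (a := t - ρ) (b := t + ρ)
    (f := f) (C := C) (fun s hs => by
      rw [uIoc_of_le (by linarith)] at hs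
      exact hf s ⟨hs.1.le, hs.2⟩)
  rw [Real.norm_eq_abs] at h1
  have h2 : |t + ρ - (t - ρ)| = 2 * ρ := by
    rw [abs_of_nonneg (by linarith)]; ring
  rw [h2] at h1
  linarith

end cyl

/-! ### general integrability lemmas -/

section gen
variable {Ω : Type*} [MeasurableSpace Ω] {ν : Measure Ω}

lemma integrable_slice {g : ℝ → ℝ} (hg : Measurable g) {A B C : ℝ} (hC : ∀ t, |g t| ≤ C)
    (h0 : ∀ t, t ∉ Icc A B → g t = 0) : Integrable g volume := by
  have h1 : IntegrableOn g (Icc A B) volume := by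
    refine Measure.integrableOn_of_bounded (M := C) ?_ hg.aestronglyMeasurable ?_
    · simp
    · exact Filter.Eventually.of_forall (fun t => by rw [Real.norm_eq_abs]; exact hC t)
  exact (integrableOn_iff_integrable_of_support_subset (fun t ht => by
    by_contra hc
    exact ht (h0 t hc))).1 h1

lemma abs_integral_le {g : ℝ → ℝ} {A B C : ℝ} (hAB : A ≤ B) (hC : ∀ t, |g t| ≤ C)
    (h0 : ∀ t, t ∉ Icc A B → g t = 0) : |∫ t, g t| ≤ C * (B - A) := by
  have h1 : ∫ t, g t = ∫ t in Icc A B, g t := by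
    rw [setIntegral_eq_integral_of_forall_compl_eq_zero (fun t ht => h0 t ht)]
  rw [h1]
  have h2 := norm_setIntegral_le_of_norm_le_const (μ := volume) (s := Icc A B) (f := g) (C := C)
    (by simp) (fun t _ => by rw [Real.norm_eq_abs]; exact hC t)
  rw [Real.norm_eq_abs, measureReal_def, Real.volume_Icc, ENNReal.toReal_ofReal (by linarith)] at h2
  exact h2

/-- jointly measurable, bounded, supported in a compact `t`-window: integrable on the product -/
lemma integrable_prod [IsFiniteMeasure ν] {g : Ω → ℝ → ℝ}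
    (hg : Measurable fun z : Ω × ℝ => g z.1 z.2) {A B C : ℝ}
    (hC : ∀ ω t, |g ω t| ≤ C) (h0 : ∀ ω t, t ∉ Icc A B → g ω t = 0) :
    Integrable (fun z : Ω × ℝ => g z.1 z.2) (ν.prod volume) := by
  have h1 : IntegrableOn (fun z : Ω × ℝ => g z.1 z.2) (univ ×ˢ Icc A B) (ν.prod volume) := by
    refine Measure.integrableOn_of_bounded (M := C) ?_ hg.aestronglyMeasurable ?_
    · rw [Measure.prod_prod]
      exact ENNReal.mul_ne_top (measure_ne_top ν _) (by simp)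
    · exact Filter.Eventually.of_forall (fun z => by rw [Real.norm_eq_abs]; exact hC z.1 z.2)
  exact (integrableOn_iff_integrable_of_support_subset (fun z hz => by
    by_contra hc
    apply hz
    refine h0 z.1 z.2 (fun h => hc ⟨mem_univ _, h⟩))).1 h1

lemma integrable_inner [IsFiniteMeasure ν] {g : Ω → ℝ → ℝ}
    (hg : Measurable fun z : Ω × ℝ => g z.1 z.2) {A B C : ℝ}
    (hC : ∀ ω t, |g ω t| ≤ C) (h0 : ∀ ω t, t ∉ Icc A B → g ω t = 0) :
    Integrable (fun ω => ∫ t, g ω t) ν :=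
  (integrable_prod hg hC h0).integral_prod_left

/-- bounded measurable functions on a finite measure space -/
lemma integrable_bdd [IsFiniteMeasure ν] {g : Ω → ℝ} (hg : Measurable g) {C : ℝ}
    (hC : ∀ ω, |g ω| ≤ C) : Integrable g ν :=
  Integrable.of_bound hg.aestronglyMeasurable C
    (Filter.Eventually.of_forall (fun ω => by rw [Real.norm_eq_abs]; exact hC ω))

end gen

end Crest.Agent.R077.ML
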