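import Crest.Agent.R077.StepTV

/-!
Row 77, STEP TV: the frozen statements `Stmt_TV1` and `Stmt_E1` (helper280).
-/

set_option autoImplicit false

open MeasureTheory Set

namespace Crest.Agent.R077.TV

open Layers

theorem nd_eq (lam a : ℝ) (m k : ℕ) : nd lam a m k = nd' (lam - a / 2) (msh a m) k := rfl

theorem rc_eq {x : ℕ → ℝ} (hx : ∀ k, 0 ≤ x k) {i : ℕ × ℕ} (h1 : 1 ≤ i.1) (h2 : i.1 ≤ i.2) :
    rc x i = cc x i.1 i.2 := volume_isRunL hx h1 h2

theorem prs_eq (m : ℕ) : prs m = pairs m := rfl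

theorem longI_eq (a : ℝ) (m : ℕ) (η : ℝ) :
    longI a m η = (pairs m).filter (tvLong m (msh a m) η) := by
  classical
  ext i
  unfold longI shortI
  simp only [Finset.mem_sdiff, Finset.mem_filter, prs_eq]
  constructor
  · rintro ⟨h1, h2⟩
    refine ⟨h1, ?_⟩
    rw [mem_pairs] at h1
    by_contra hc
    unfold tvLong at hc
    push Not at hc
    apply h2
    refine ⟨mem_pairs.2 h1, by have := hc.1; omega, by have := hc.2.1; omega, hc.2.2⟩
  · rintro ⟨h1, h2⟩
    refine ⟨h1, fun hc => ?_⟩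
    rcases h2 with h2 | h2 | h2
    · have := hc.2.1; omega
    · have := hc.2.2.1; omega
    · exact absurd hc.2.2.2 (not_lt.2 h2)

theorem nd_mono {lam a : ℝ} {m : ℕ} (hh : 0 ≤ msh a m) {j k : ℕ} (hjk : j ≤ k) :
    nd lam a m j ≤ nd lam a m k := by
  unfold nd
  have : (j : ℝ) ≤ k := by exact_mod_cast hjk
  nlinarith

theorem nd_lt {lam a : ℝ} {m : ℕ} (hh : 0 ≤ msh a m) {j k : ℕ} (hjk : nd lam a m j < nd lam a m k) :
    j < k := by
  by_contra hc
  push Not at hc
  exact absurd (nd_mono (lam := lam) hh hc) (not_le.2 hjk)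

theorem stepF_cell {x : ℕ → ℝ} {lam a : ℝ} {m k : ℕ} (hx : ∀ k, 0 ≤ x k) (h1 : 1 ≤ k) (_h2 : k ≤ m)
    (hh : 0 ≤ msh a m) {t : ℝ} (ht : t ∈ Ico (nd lam a m (k - 1)) (nd lam a m k)) (η : ℝ) :
    stepF x (longI a m η) lam a m t = xL (tvLong m (msh a m) η) x m k := by
  unfold stepF xL
  rw [longI_eq]
  unfold pairsAt
  rw [Finset.filter_comm, Finset.sum_filter (fun p : ℕ × ℕ => p.1 ≤ k ∧ k ≤ p.2)]
  apply Finset.sum_congr rfl
  intro i hi
  have hi' := mem_pairs.1 (Finset.mem_filter.1 hi).1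
  rw [rc_eq hx hi'.1 hi'.2.1]
  unfold ind lft rgt
  have hiff : (nd lam a m (i.1 - 1) ≤ t ∧ t < nd lam a m i.2) ↔ (i.1 ≤ k ∧ k ≤ i.2) := by
    constructor
    · rintro ⟨a1, a2⟩
      have e1 : i.1 - 1 < k := nd_lt (lam := lam) hh (lt_of_le_of_lt a1 ht.2)
      have e2 : k - 1 < i.2 := nd_lt (lam := lam) hh (lt_of_le_of_lt ht.1 a2)
      omega
    · rintro ⟨a1, a2⟩
      exact ⟨(nd_mono hh (by omega)).trans ht.1, lt_of_lt_of_le ht.2 (nd_mono hh a2)⟩
  by_cases hc : i.1 ≤ k ∧ k ≤ i.2
  · rw [if_pos (hiff.2 hc), if_pos hc, mul_one]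
  · rw [if_neg (fun h => hc (hiff.1 h)), if_neg hc, mul_zero]

theorem stepF_out {x : ℕ → ℝ} {lam a : ℝ} {m : ℕ} (hh : 0 ≤ msh a m) {t : ℝ}
    (ht : t ∉ Ico (nd lam a m 0) (nd lam a m m)) (η : ℝ) :
    stepF x (longI a m η) lam a m t = 0 := by
  unfold stepF
  rw [longI_eq]
  apply Finset.sum_eq_zero
  intro i hi
  have hi' := mem_pairs.1 (Finset.mem_filter.1 hi).1
  unfold ind lft rgt
  rw [if_neg, mul_zero]
  rintro ⟨a1, a2⟩
  apply ht
  exact ⟨(nd_mono hh (Nat.zero_le _)).trans a1, lt_of_lt_of_le a2 (nd_mono hh hi'.2.2)⟩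

theorem tvP_eq {pe X : ℝ} (hpe : 0 < pe) (hX : 0 ≤ X) :
    tvP pe X = pe / (pe + 1) * X ^ ((pe + 1) / pe) := by
  unfold tvP
  rw [integral_Ico_eq_integral_Ioo, ← integral_Ioc_eq_integral_Ioo,
    ← intervalIntegral.integral_of_le hX, integral_rpow]
  · have h1 : 1 / pe + 1 = (pe + 1) / pe := by rw [add_div, div_self hpe.ne', add_comm]
    have h2 : (pe + 1) / pe ≠ 0 := by positivity
    rw [h1, Real.zero_rpow h2]
    field_simp
    ring
  · left
    have : 0 < 1 / pe := by positivity
    linarith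

theorem psi_eq {b pe t X : ℝ} (hpe : 0 < pe) (hX : 0 ≤ X) :
    psi b pe t X = tvP pe X * Real.exp (-(b / pe) * t) := by
  rw [tvP_eq hpe hX]
  unfold psi
  have : -(b * t) / pe = -(b / pe) * t := by ring
  rw [this]
  ring

theorem integral_psi_eq {x : ℕ → ℝ} {lam a b pe : ℝ} {m : ℕ} (hx : ∀ k, 0 ≤ x k) (hm : 1 ≤ m)
    (ha : 0 < a) (hpe : 0 < pe) {g : ℝ → ℝ} (hg : Continuous g) (η : ℝ) :
    ∫ t, g t * psi b pe t (stepF x (longI a m η) lam a m t) =
      tvE x m (lam - a / 2) (msh a m) g (b / pe) pe η := by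
  have hm0 : (0 : ℝ) < m := by exact_mod_cast hm
  have hh : 0 < msh a m := by unfold msh; positivity
  set G : ℝ → ℝ := fun t => g t * psi b pe t (stepF x (longI a m η) lam a m t) with hG
  have hG0 : ∀ t, t ∉ Ico (nd lam a m 0) (nd lam a m m) → G t = 0 := by
    intro t ht
    rw [hG]
    simp only
    rw [stepF_out hh.le ht]
    unfold psi
    rw [Real.zero_rpow (by positivity)]
    simp
  have h1 : ∫ t, G t = ∫ t in (nd lam a m 0)..(nd lam a m m), G t := by
    rw [intervalIntegral.integral_of_le (nd_mono hh.le (Nat.zero_le _)),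
      integral_Ioc_eq_integral_Ioo, ← integral_Ico_eq_integral_Ioo]
    exact (setIntegral_eq_integral_of_forall_compl_eq_zero hG0).symm
  -- on a cell
  have hcell : ∀ k, 1 ≤ k → k ≤ m → ∀ t ∈ Ioo (nd lam a m (k - 1)) (nd lam a m k),
      G t = tvP pe (xL (tvLong m (msh a m) η) x m k) * (g t * Real.exp (-(b / pe) * t)) := by
    intro k hk1 hk2 t ht
    rw [hG]
    simp only
    rw [stepF_cell hx hk1 hk2 hh.le ⟨ht.1.le, ht.2⟩, psi_eq hpe (xL_nonneg _ _ _ _)]
    ring
  have hc2 : Continuous fun t => g t * Real.exp (-(b / pe) * t) := by fun_prop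
  have hint : ∀ k, 1 ≤ k → k ≤ m → IntervalIntegrable G volume (nd lam a m (k - 1)) (nd lam a m k) := by
    intro k hk1 hk2
    have hle := nd_mono (lam := lam) hh.le (Nat.sub_le k 1)
    have h3 : IntervalIntegrable (fun t => tvP pe (xL (tvLong m (msh a m) η) x m k) *
        (g t * Real.exp (-(b / pe) * t))) volume (nd lam a m (k - 1)) (nd lam a m k) :=
      (hc2.intervalIntegrable _ _).const_mul _
    rw [intervalIntegrable_iff_integrableOn_Ioo_of_le hle] at h3 ⊢
    exact h3.congr_fun (fun t ht => (hcell k hk1 hk2 t ht).symm) measurableSet_Ioo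
  have h2 : ∀ n, n ≤ m → ∫ t in (nd lam a m 0)..(nd lam a m n), G t =
      ∑ k ∈ Finset.Icc 1 n, ∫ t in (nd lam a m (k - 1))..(nd lam a m k), G t := by
    intro n
    induction n with
    | zero => intro _; simp
    | succ n ih =>
      intro hn
      have e1 : Finset.Icc 1 (n + 1) = insert (n + 1) (Finset.Icc 1 n) := by
        ext j; simp only [Finset.mem_Icc, Finset.mem_insert]; omega
      have e2 : n + 1 ∉ Finset.Icc 1 n := by simp
      rw [e1, Finset.sum_insert e2, ← ih (by omega), Nat.add_sub_cancel]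
      have e3 : ∀ j, j ≤ m → IntervalIntegrable G volume (nd lam a m 0) (nd lam a m j) := by
        intro j
        induction j with
        | zero => intro _; exact IntervalIntegrable.refl
        | succ j ihj =>
          intro hj
          exact (ihj (by omega)).trans (by simpa using hint (j + 1) (by omega) hj)
      have e4 := intervalIntegral.integral_add_adjacent_intervals (μ := volume) (f := G)
        (e3 n (by omega)) (by simpa using hint (n + 1) (by omega) hn)
      linarith
  rw [h1, h2 m le_rfl]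
  unfold tvE
  apply Finset.sum_congr rfl
  intro k hk
  rw [Finset.mem_Icc] at hk
  have hle := nd_mono (lam := lam) hh.le (Nat.sub_le k 1)
  rw [← nd_eq, ← nd_eq, intervalIntegral.integral_of_le hle, intervalIntegral.integral_of_le hle,
    integral_Ioc_eq_integral_Ioo, integral_Ioc_eq_integral_Ioo, ← integral_const_mul]
  exact setIntegral_congr_fun measurableSet_Ioo (fun t ht => hcell k hk.1 hk.2 t ht)

/-! ### the tent -/

theorem tent_nonneg (lam a t : ℝ) : 0 ≤ tent lam a t := by
  unfold tent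
  have : 0 ≤ max 0 (min (t - lam) (lam + a - t)) := le_max_left _ _
  positivity

theorem tent_lip (lam a s t : ℝ) : |tent lam a s - tent lam a t| ≤ 4 / a ^ 2 * |s - t| := by
  unfold tent
  rw [← mul_sub, abs_mul, abs_of_nonneg (by positivity : (0 : ℝ) ≤ 4 / a ^ 2)]
  apply mul_le_mul_of_nonneg_left _ (by positivity)
  have h1 : |max 0 (min (s - lam) (lam + a - s)) - max 0 (min (t - lam) (lam + a - t))| ≤
      |min (s - lam) (lam + a - s) - min (t - lam) (lam + a - t)| := by
    have := abs_max_sub_max_le_max 0 (min (s - lam) (lam + a - s)) 0 (min (t - lam) (lam + a - t))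
    simpa using this
  have h2 : |min (s - lam) (lam + a - s) - min (t - lam) (lam + a - t)| ≤ |s - t| := by
    have := abs_min_sub_min_le_max (s - lam) (lam + a - s) (t - lam) (lam + a - t)
    refine this.trans (max_le ?_ ?_)
    · rw [show s - lam - (t - lam) = s - t by ring]
    · rw [show lam + a - s - (lam + a - t) = -(s - t) by ring, abs_neg]
  exact h1.trans h2

theorem tent_cont (lam a : ℝ) : Continuous (tent lam a) := by
  unfold tent
  fun_prop

theorem tent_zero {lam a t : ℝ} (ht : t ∉ Icc lam (lam + a)) : tent lam a t = 0 := by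
  unfold tent
  have : min (t - lam) (lam + a - t) ≤ 0 := by
    rw [mem_Icc, not_and_or] at ht
    rcases ht with h | h
    · exact (min_le_left _ _).trans (by linarith)
    · exact (min_le_right _ _).trans (by linarith)
  rw [max_eq_left this, mul_zero]

theorem tent_le {lam a : ℝ} (ha : 0 < a) (t : ℝ) : tent lam a t ≤ 2 / a := by
  unfold tent
  have h1 : max 0 (min (t - lam) (lam + a - t)) ≤ a / 2 := by
    apply max_le (by positivity)
    rcases le_total (t - lam) (a / 2) with h | h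
    · exact (min_le_left _ _).trans h
    · exact (min_le_right _ _).trans (by linarith)
  calc 4 / a ^ 2 * max 0 (min (t - lam) (lam + a - t)) ≤ 4 / a ^ 2 * (a / 2) :=
        mul_le_mul_of_nonneg_left h1 (by positivity)
    _ = 2 / a := by field_simp; ring

/-! ### consequences of `Sol` -/

section sol

variable {b p lam L : ℝ} {f v : ℝ → ℝ}

theorem Sol.f_pos' (S : Sol b p f v lam L) (t : ℝ) : 0 < f t := by
  rw [S.feq]
  have := Real.rpow_pos_of_pos (S.v_pos t) p
  positivity

theorem Sol.v_cont' (S : Sol b p f v lam L) : Continuous v := S.v_C1.continuous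

theorem Sol.f_cont' (S : Sol b p f v lam L) : Continuous f := by
  have h : f = fun t => Real.exp (b * t) * v t ^ p := funext S.feq
  rw [h]
  have hv := Sol.v_cont' S
  exact (by fun_prop : Continuous fun t => Real.exp (b * t)).mul
    (hv.rpow_const (fun t => Or.inl (S.v_pos t).ne'))

/-- `v = (e^{-bt} f)^{1/p}` -/
theorem Sol.v_eq' (S : Sol b p f v lam L) (t : ℝ) : v t = (Real.exp (-b * t) * f t) ^ (1 / p) := by
  have hp := S.hp
  rw [S.feq, ← mul_assoc, ← Real.exp_add, show -b * t + b * t = 0 by ring, Real.exp_zero, one_mul,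
    ← Real.rpow_mul (S.v_pos t).le, mul_one_div_cancel hp.ne', Real.rpow_one]

/-- `ψ(t,f) = (p/(p+1)) f v` -/
theorem Sol.psi_f (S : Sol b p f v lam L) (t : ℝ) : psi b p t (f t) = p / (p + 1) * (f t * v t) := by
  have hp := S.hp
  have hf := Sol.f_pos' S t
  have hv := Sol.v_eq' S t
  rw [Real.mul_rpow (Real.exp_nonneg _) hf.le, ← Real.exp_mul] at hv
  unfold psi
  have h1 : f t ^ ((p + 1) / p) = f t * f t ^ (1 / p) := by
    rw [show (p + 1) / p = 1 + 1 / p by rw [add_div, div_self hp.ne'], Real.rpow_add hf,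
      Real.rpow_one]
  have h2 : -(b * t) / p = -b * t * (1 / p) := by ring
  rw [h1, h2, hv]
  ring

theorem psi_mono' {b pe t X Y : ℝ} (hpe : 0 < pe) (hX : 0 ≤ X) (hXY : X ≤ Y) :
    psi b pe t X ≤ psi b pe t Y := by
  unfold psi
  have h := Real.rpow_le_rpow hX hXY (by positivity : 0 ≤ (pe + 1) / pe)
  have := Real.exp_nonneg (-(b * t) / pe)
  gcongr

theorem psi_nonneg' {b pe t X : ℝ} (hpe : 0 < pe) (hX : 0 ≤ X) : 0 ≤ psi b pe t X := by
  unfold psi
  have := Real.rpow_nonneg hX ((pe + 1) / pe)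
  positivity

theorem node_mem {a : ℝ} {m k : ℕ} (ha : 0 < a) (ha1 : a ≤ 1) (hm : 1 ≤ m) (hk : k ≤ m) :
    nd lam a m k ∈ Icc (lam - 2) (lam + 4) := by
  have hm0 : (0 : ℝ) < m := by exact_mod_cast hm
  have h1 : (k : ℝ) * msh a m ≤ 2 * a := by
    unfold msh
    have : (k : ℝ) ≤ m := by exact_mod_cast hk
    rw [mul_div_assoc', div_le_iff₀ hm0]
    nlinarith
  have h2 : 0 ≤ (k : ℝ) * msh a m := by unfold msh; positivity
  unfold nd
  constructor <;> linarith

theorem node_zero {a : ℝ} {m : ℕ} : nd lam a m 0 = lam - a / 2 := by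
  unfold nd; simp

theorem node_last {a : ℝ} {m : ℕ} (hm : 1 ≤ m) : nd lam a m m = lam + 3 * a / 2 := by
  have hm0 : (m : ℝ) ≠ 0 := by positivity
  unfold nd msh
  field_simp
  ring

/-- the samples form a `Seq` -/
theorem samp_seq (S : Sol b p f v lam L) {a : ℝ} {m : ℕ} (ha : 0 < a) (ha1 : a ≤ 1) (hm : 1 ≤ m)
    (hLm : 4 * L ^ 2 * msh a m ≤ 1) : Seq (samp f lam a m L) m where
  zero := by unfold samp; simp
  last := by unfold samp; simp
  nonneg := by
    intro k
    unfold samp
    split_ifs with h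
    · have h1 := S.f_ge _ (node_mem (lam := lam) ha ha1 hm h.2)
      have hL := S.hL
      have hm0 : (0 : ℝ) < m := by exact_mod_cast hm
      have hh : 0 < msh a m := by unfold msh; positivity
      have h2 : L * (L * msh a m) ≤ 1 := by nlinarith [mul_nonneg (sq_nonneg L) hh.le]
      have h3 : 0 ≤ L * (f (nd lam a m k) - L * msh a m) := by nlinarith
      exact nonneg_of_mul_nonneg_right h3 (by linarith)
    · exact le_refl _

theorem samp_le (S : Sol b p f v lam L) {a : ℝ} {m k : ℕ} (ha : 0 < a) (ha1 : a ≤ 1) (hm : 1 ≤ m)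
    (hk1 : 1 ≤ k) (hk2 : k ≤ m) {t : ℝ} (ht : t ∈ Icc (nd lam a m (k - 1)) (nd lam a m k)) :
    samp f lam a m L k ≤ f t := by
  have hm0 : (0 : ℝ) < m := by exact_mod_cast hm
  have hh : 0 < msh a m := by unfold msh; positivity
  have m1 := node_mem (lam := lam) ha ha1 hm hk2
  have m0 := node_mem (lam := lam) ha ha1 hm ((Nat.sub_le k 1).trans hk2)
  unfold samp
  rw [if_pos ⟨hk1, hk2⟩]
  have h1 := S.f_lip _ m1 t ⟨m0.1.trans ht.1, ht.2.trans m1.2⟩
  have h2 : |nd lam a m k - t| ≤ msh a m := by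
    rw [abs_of_nonneg (by linarith [ht.2])]
    have : nd lam a m k = nd lam a m (k - 1) + msh a m := by
      unfold nd
      push_cast [Nat.cast_sub hk1]
      ring
    linarith [ht.1]
  have h3 := (abs_le.mp h1).2
  have hL := S.hL
  nlinarith [mul_le_mul_of_nonneg_left h2 (by linarith : (0 : ℝ) ≤ L)]

end sol

/-! ### the frozen statements -/

section final

variable {b p lam L : ℝ} {f v : ℝ → ℝ}

theorem cell_xL_le (S : Sol b p f v lam L) {a : ℝ} {m k : ℕ} (ha : 0 < a) (ha1 : a ≤ 1) (hm : 1 ≤ m)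
    (hLm : 4 * L ^ 2 * msh a m ≤ 1) (hk1 : 1 ≤ k) (hk2 : k ≤ m) (η : ℝ) {t : ℝ}
    (ht : t ∈ Icc (nd lam a m (k - 1)) (nd lam a m k)) :
    xL (tvLong m (msh a m) η) (samp f lam a m L) m k ≤ f t :=
  (xL_le (samp_seq S ha ha1 hm hLm) hk1 hk2).trans (samp_le S ha ha1 hm hk1 hk2 ht)

theorem cell_cover {a : ℝ} {m : ℕ} (_hh : 0 < msh a m) {t : ℝ}
    (ht : t ∈ Ico (nd lam a m 0) (nd lam a m m)) :
    ∃ k, 1 ≤ k ∧ k ≤ m ∧ t ∈ Ico (nd lam a m (k - 1)) (nd lam a m k) := by
  classical
  have hex : ∃ k, t < nd lam a m k := ⟨m, ht.2⟩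
  refine ⟨Nat.find hex, ?_, Nat.find_le ht.2, ?_, Nat.find_spec hex⟩
  · by_contra hc
    have h0 : Nat.find hex = 0 := by omega
    have := Nat.find_spec hex
    rw [h0] at this
    exact absurd ht.1 (not_le.2 this)
  · have h1 : 1 ≤ Nat.find hex := by
      by_contra hc
      have h0 : Nat.find hex = 0 := by omega
      have := Nat.find_spec hex
      rw [h0] at this
      exact absurd ht.1 (not_le.2 this)
    exact not_lt.1 (Nat.find_min hex (by omega))

/-- `0 ≤ ψ(t, F^L) ≤ f v` -/
theorem psi_stepF_le (S : Sol b p f v lam L) {a : ℝ} {m : ℕ} (ha : 0 < a) (ha1 : a ≤ 1) (hm : 1 ≤ m)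
    (hLm : 4 * L ^ 2 * msh a m ≤ 1) (η t : ℝ) :
    0 ≤ psi b p t (stepF (samp f lam a m L) (longI a m η) lam a m t) ∧
    psi b p t (stepF (samp f lam a m L) (longI a m η) lam a m t) ≤ f t * v t := by
  have hp := S.hp
  have hm0 : (0 : ℝ) < m := by exact_mod_cast hm
  have hh : 0 < msh a m := by unfold msh; positivity
  have hsq := samp_seq S ha ha1 hm hLm
  have hfv : 0 ≤ f t * v t := mul_nonneg (Sol.f_pos' S t).le (S.v_pos t).le
  by_cases ht : t ∈ Ico (nd lam a m 0) (nd lam a m m)
  · obtain ⟨k, hk1, hk2, hk⟩ := cell_cover hh ht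
    rw [stepF_cell hsq.nonneg hk1 hk2 hh.le hk]
    have h0 := xL_nonneg (tvLong m (msh a m) η) (samp f lam a m L) m k
    refine ⟨psi_nonneg' hp h0, ?_⟩
    have h1 := cell_xL_le S ha ha1 hm hLm hk1 hk2 η ⟨hk.1, hk.2.le⟩
    refine (psi_mono' hp h0 h1).trans ?_
    rw [Sol.psi_f S]
    have h2 : p / (p + 1) ≤ 1 := by rw [div_le_one (by positivity)]; linarith
    nlinarith
  · rw [stepF_out hh.le ht]
    have : psi b p t 0 = 0 := by
      unfold psi
      rw [Real.zero_rpow (by positivity)]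
      simp
    rw [this]
    exact ⟨le_refl _, hfv⟩

/-- monotonicity in the scale -/
theorem psi_stepF_mono (S : Sol b p f v lam L) {a : ℝ} {m : ℕ} (ha : 0 < a) (ha1 : a ≤ 1)
    (hm : 1 ≤ m) (hLm : 4 * L ^ 2 * msh a m ≤ 1) {η δ : ℝ} (hηδ : η ≤ δ) (t : ℝ) :
    psi b p t (stepF (samp f lam a m L) (longI a m δ) lam a m t) ≤
    psi b p t (stepF (samp f lam a m L) (longI a m η) lam a m t) := by
  have hp := S.hp
  have hm0 : (0 : ℝ) < m := by exact_mod_cast hm
  have hh : 0 < msh a m := by unfold msh; positivity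
  have hsq := samp_seq S ha ha1 hm hLm
  by_cases ht : t ∈ Ico (nd lam a m 0) (nd lam a m m)
  · obtain ⟨k, hk1, hk2, hk⟩ := cell_cover hh ht
    rw [stepF_cell hsq.nonneg hk1 hk2 hh.le hk, stepF_cell hsq.nonneg hk1 hk2 hh.le hk]
    apply psi_mono' hp (xL_nonneg _ _ _ _)
    exact xL_mono (fun i _ hi => tvLong_mono hηδ i hi)
  · rw [stepF_out hh.le ht, stepF_out hh.le ht]

theorem psi_stepF_meas {x : ℕ → ℝ} {a : ℝ} {m : ℕ} (I : Finset (ℕ × ℕ)) :
    Measurable fun t => psi b p t (stepF x I lam a m t) := by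
  unfold psi stepF ind
  have h1 : Measurable fun t : ℝ => ∑ i ∈ I, rc x i *
      (if lft lam a m i ≤ t ∧ t < rgt lam a m i then (1 : ℝ) else 0) := by
    apply Finset.measurable_fun_sum
    intro i _
    apply Measurable.const_mul
    exact Measurable.ite measurableSet_Ico measurable_const measurable_const
  fun_prop

theorem int_tfv (S : Sol b p f v lam L) {a : ℝ} :
    Integrable fun t => tent lam a t * (f t * v t) := by
  have hf := Sol.f_cont' S
  have hv := Sol.v_cont' S
  have hc : Continuous fun t => tent lam a t * (f t * v t) := (tent_cont lam a).mul (hf.mul hv)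
  apply hc.integrable_of_hasCompactSupport
  apply HasCompactSupport.of_support_subset_isCompact (isCompact_Icc (a := lam) (b := lam + a))
  intro t ht
  by_contra hc
  apply ht
  simp only
  rw [tent_zero hc, zero_mul]

theorem int_tpsi (S : Sol b p f v lam L) {a : ℝ} {m : ℕ} (ha : 0 < a) (ha1 : a ≤ 1) (hm : 1 ≤ m)
    (hLm : 4 * L ^ 2 * msh a m ≤ 1) (η : ℝ) :
    Integrable fun t => tent lam a t *
      psi b p t (stepF (samp f lam a m L) (longI a m η) lam a m t) := by
  apply (int_tfv S (a := a)).mono'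
  · exact ((tent_cont lam a).measurable.mul (psi_stepF_meas _)).aestronglyMeasurable
  · apply Filter.Eventually.of_forall
    intro t
    have h1 := psi_stepF_le S ha ha1 hm hLm η t
    have h2 := tent_nonneg lam a t
    rw [Real.norm_eq_abs, abs_of_nonneg (mul_nonneg h2 h1.1)]
    exact mul_le_mul_of_nonneg_left h1.2 h2

end final

end Crest.Agent.R077.TV

namespace Crest.Agent.R077

open TV Layers

/-- monotonicity and bound of the opening energy for one angle -/
theorem E1 : Stmt_E1 := by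
  intro b p lam a L f v m η δ ha ha1 S hm hLm hη hηδ
  refine ⟨?_, ?_, ?_⟩
  · apply integral_nonneg
    intro t
    exact mul_nonneg (TV.tent_nonneg lam a t) (psi_stepF_le S ha ha1 hm hLm δ t).1
  · apply integral_mono (int_tpsi S ha ha1 hm hLm δ) (int_tpsi S ha ha1 hm hLm η)
    intro t
    exact mul_le_mul_of_nonneg_left (psi_stepF_mono S ha ha1 hm hLm hηδ t) (TV.tent_nonneg lam a t)
  · apply integral_mono (int_tpsi S ha ha1 hm hLm η) (int_tfv S)
    intro t
    exact mul_le_mul_of_nonneg_left (psi_stepF_le S ha ha1 hm hLm η t).2 (TV.tent_nonneg lam a t)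

theorem TV.one_add_rpow_le {u r : ℝ} (hu : 0 ≤ u) (hu1 : u ≤ 1) (hr : 0 < r) :
    (1 + u) ^ r ≤ 1 + r * Real.exp r * u := by
  have h1 : (1 + u) ^ r ≤ Real.exp (r * u) := by
    rw [mul_comm, Real.exp_mul]
    apply Real.rpow_le_rpow (by linarith) _ hr.le
    have := Real.add_one_le_exp u
    linarith
  have h2 : Real.exp (r * u) ≤ 1 + r * u * Real.exp (r * u) := by
    have h3 := Real.add_one_le_exp (-(r * u))
    have h4 : Real.exp (-(r * u)) * Real.exp (r * u) = 1 := by rw [← Real.exp_add]; simp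
    have h5 := Real.exp_pos (r * u)
    nlinarith
  have h3 : Real.exp (r * u) ≤ Real.exp r := Real.exp_le_exp.2 (by nlinarith)
  have h4 : 0 ≤ r * u := by positivity
  nlinarith

theorem TV.exp_bound {b p δ : ℝ} (hp : 0 < p) (hδ0 : 0 < δ) (hδ : 8 * δ ≤ 1)
    (hcb : cb b p * δ ≤ 1) : 2 * Real.exp (|b / p| * δ) ≤ 4 := by
  have habs : |b / p| = |b| / p := by rw [abs_div, abs_of_pos hp]
  rw [habs]
  set u := |b| / p with hu
  have hu0 : 0 ≤ u := by positivity
  have h1 : u * δ ≤ 1 / 2 := by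
    rcases le_total u 1 with h | h
    · nlinarith
    · unfold cb at hcb
      rw [← hu] at hcb
      have h2 := Real.add_one_le_exp u
      have h3 : 2 ≤ Real.exp u := by linarith
      have h4 : 0 ≤ u * δ := by positivity
      nlinarith [mul_le_mul_of_nonneg_left h3 h4]
  have h2 : Real.exp (u * δ) ≤ Real.exp (1 / 2) := Real.exp_le_exp.2 h1
  have h3 : Real.exp (1 / 2) ≤ 2 := by
    have h4 : Real.exp (1 / 2) * Real.exp (1 / 2) = Real.exp 1 := by rw [← Real.exp_add]; norm_num
    have h5 := Real.exp_one_lt_d9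
    have h6 := Real.exp_pos (1 / 2)
    nlinarith
  linarith

set_option maxHeartbeats 2000000 in
/-- STEP TV for one angle. -/
theorem TV1 : Stmt_TV1 := by
  intro b p lam a L ha ha1
  by_cases hp : 0 < p
  swap
  · refine ⟨0, le_refl _, ?_⟩
    intro f v m η δ S
    exact absurd S.hp hp
  set r : ℝ := 1 / p with hr
  have hr0 : 0 < r := by positivity
  refine ⟨4 * (r * Real.exp r * (4 * L ^ 2)) * (2 * L ^ 2 + 24 * (1 / a ^ 2) * (2 * L ^ 2)),
    by positivity, ?_⟩
  intro f v m η δ S hm hLm hη hηδ hδa hcb hmη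
  have hm0 : (0 : ℝ) < m := by exact_mod_cast hm
  have hh : 0 < msh a m := by unfold msh; positivity
  have hL := S.hL
  have hL0 : 0 < L := by linarith
  have hδ : 0 < δ := lt_of_lt_of_le hη hηδ
  have hsq := samp_seq S ha ha1 hm hLm
  have hmem : ∀ k, k ≤ m → nd lam a m k ∈ Icc (lam - 2) (lam + 4) := fun k hk =>
    node_mem ha ha1 hm hk
  -- apply the fiber theorem
  have key := stepTV (x := samp f lam a m L) (m := m) hsq hm (lam := lam) (a := a)
    (h := msh a m) (La := 4 / a ^ 2) (b := b) (pe := p) (eta := η) (de := δ) (L := L)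
    (Fmin := 1 / L) (w := tent lam a) (F := f) (V := v) ha
    (by unfold msh; field_simp) (by positivity) (TV.tent_nonneg lam a) (TV.tent_lip lam a) hp hη hηδ
    (by linarith) hL0.le (by positivity)
    (by
      rw [le_div_iff₀ hL0]
      calc 4 * (L * msh a m) * L = 4 * L ^ 2 * msh a m := by ring
        _ ≤ 1 := hLm)
    (by
      intro k hk1 hk2
      unfold samp
      rw [if_pos ⟨hk1, hk2⟩, TV.nd_eq])
    (by
      intro k hk
      have := S.f_ge _ (hmem k hk)
      rw [← TV.nd_eq, div_le_iff₀ hL0]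
      linarith)
    (by
      intro k hk1 hk2
      have h1 := S.f_lip _ (hmem k (by omega)) _ (hmem (k + 1) (by omega))
      have h2 : |nd lam a m k - nd lam a m (k + 1)| = msh a m := by
        unfold nd
        push_cast
        rw [show lam - a / 2 + k * msh a m - (lam - a / 2 + (k + 1) * msh a m) = -msh a m by ring,
          abs_neg, abs_of_pos hh]
      rw [h2] at h1
      have h3 := (abs_le.mp h1).2
      rw [← TV.nd_eq, ← TV.nd_eq]
      linarith)
    (by
      intro k _
      exact Sol.v_eq' S _)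
  -- translate
  have hTV : TVsum (samp f lam a m L) m (lam - a / 2) (msh a m) (tent lam a) v (4 / a ^ 2) lam a η
      = tvS v (samp f lam a m L) (longI a m η) lam a m η := by
    unfold TVsum tvS
    rw [longI_eq]
    apply Finset.sum_congr rfl
    intro i hi
    have hi' := mem_pairs.1 (Finset.mem_filter.1 hi).1
    rw [rc_eq hsq.nonneg hi'.1 hi'.2.1]
    unfold lft rgt wend tvω
    rw [← TV.nd_eq, ← TV.nd_eq]
    ring
  have hEd := integral_psi_eq (x := samp f lam a m L) (lam := lam) (b := b) hsq.nonneg hm ha hp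
    (TV.tent_cont lam a) δ
  have hEe := integral_psi_eq (x := samp f lam a m L) (lam := lam) (b := b) hsq.nonneg hm ha hp
    (TV.tent_cont lam a) η
  rw [hTV, ← hEd, ← hEe] at key
  obtain ⟨he0, he1, he2⟩ := E1 b p lam a L f v m η δ ha ha1 S hm hLm hη hηδ
  set Ed := ∫ t, tent lam a t * psi b p t (stepF (samp f lam a m L) (longI a m δ) lam a m t)
    with hEdd
  set Ee := ∫ t, tent lam a t * psi b p t (stepF (samp f lam a m L) (longI a m η) lam a m t)
    with hEed
  set W := ∫ t in Icc (lam - a / 2) (lam + 3 * a / 2), f t * v t with hW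
  have hf := Sol.f_cont' S
  have hv := Sol.v_cont' S
  -- the bound of `tvSS`
  have hS : tvSS (samp f lam a m L) m (lam - a / 2) (msh a m) (b / p) p ≤ W := by
    have hcell : ∀ k ∈ Finset.Icc 1 m, tvP p (samp f lam a m L k) *
        (∫ t in (nd' (lam - a / 2) (msh a m) (k - 1))..(nd' (lam - a / 2) (msh a m) k),
          Real.exp (-(b / p) * t)) ≤ ∫ t in (nd lam a m (k - 1))..(nd lam a m k), f t * v t := by
      intro k hk
      rw [Finset.mem_Icc] at hk
      rw [← TV.nd_eq, ← TV.nd_eq, ← intervalIntegral.integral_const_mul]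
      apply intervalIntegral.integral_mono_on (nd_mono hh.le (Nat.sub_le k 1))
      · apply Continuous.intervalIntegrable
        fun_prop
      · exact (hf.mul hv).intervalIntegrable _ _
      · intro t ht
        rw [← psi_eq hp (hsq.nonneg k)]
        refine (psi_mono' hp (hsq.nonneg k) (samp_le S ha ha1 hm hk.1 hk.2 ht)).trans ?_
        rw [Sol.psi_f S]
        have h2 : p / (p + 1) ≤ 1 := by rw [div_le_one (by positivity)]; linarith
        have hfv : 0 ≤ f t * v t := mul_nonneg (Sol.f_pos' S t).le (S.v_pos t).le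
        nlinarith
    unfold tvSS
    refine (Finset.sum_le_sum hcell).trans (le_of_eq ?_)
    have h1 := integral_run_eq (lam - a / 2) (msh a m) (hf.mul hv) (le_refl 1) hm
    simp only [Nat.sub_self] at h1
    rw [hW, integral_Icc_eq_integral_Ioc, ← intervalIntegral.integral_of_le (by linarith)]
    rw [← node_zero (lam := lam) (a := a) (m := m), ← node_last (lam := lam) (a := a) hm]
    exact h1.symm
  -- sizes
  have hW0 : 0 ≤ W := by
    apply setIntegral_nonneg measurableSet_Icc
    intro t _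
    exact mul_nonneg (Sol.f_pos' S t).le (S.v_pos t).le
  have hWle : W ≤ 2 * L ^ 2 := by
    have h1 : W ≤ ∫ _t in Icc (lam - a / 2) (lam + 3 * a / 2), L ^ 2 := by
      apply setIntegral_mono_on ((hf.mul hv).integrableOn_Icc)
        (continuous_const.integrableOn_Icc) measurableSet_Icc
      intro t ht
      have hw : t ∈ Icc (lam - 2) (lam + 4) := ⟨by linarith [ht.1], by linarith [ht.2]⟩
      have e1 := S.f_le t hw
      have e2 := S.v_le t hw
      have e3 := (Sol.f_pos' S t).le
      have e4 := (S.v_pos t).le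
      show f t * v t ≤ L ^ 2
      nlinarith
    rw [setIntegral_const, smul_eq_mul, Measure.real, Real.volume_Icc, ENNReal.toReal_ofReal
      (by linarith)] at h1
    have : 0 ≤ L ^ 2 := sq_nonneg L
    nlinarith
  have hEe1 : Ee ≤ 2 * L ^ 2 := by
    refine he2.trans ?_
    have h1 : ∫ t, tent lam a t * (f t * v t) = ∫ t in Icc lam (lam + a), tent lam a t * (f t * v t) := by
      refine (setIntegral_eq_integral_of_forall_compl_eq_zero ?_).symm
      intro t ht
      rw [TV.tent_zero ht, zero_mul]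
    rw [h1]
    have h2 : ∫ t in Icc lam (lam + a), tent lam a t * (f t * v t) ≤
        ∫ _t in Icc lam (lam + a), 2 / a * L ^ 2 := by
      apply setIntegral_mono_on (((TV.tent_cont lam a).mul (hf.mul hv)).integrableOn_Icc)
        (continuous_const.integrableOn_Icc) measurableSet_Icc
      intro t ht
      have hw : t ∈ Icc (lam - 2) (lam + 4) := ⟨by linarith [ht.1], by linarith [ht.2]⟩
      have e1 := S.f_le t hw
      have e2 := S.v_le t hw
      have e3 := (Sol.f_pos' S t).le
      have e4 := (S.v_pos t).le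
      have e5 := TV.tent_nonneg lam a t
      have e6 := TV.tent_le (lam := lam) ha t
      have e7 : f t * v t ≤ L ^ 2 := by nlinarith
      have e8 : 0 ≤ 2 / a := by positivity
      exact mul_le_mul e6 e7 (mul_nonneg e3 e4) e8
    refine h2.trans (le_of_eq ?_)
    rw [setIntegral_const, smul_eq_mul, Measure.real, Real.volume_Icc, ENNReal.toReal_ofReal
      (by linarith)]
    field_simp
    ring
  set S0 := tvSS (samp f lam a m L) m (lam - a / 2) (msh a m) (b / p) p with hS0d
  have hS0 : 0 ≤ S0 := by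
    rw [hS0d]
    unfold tvSS
    apply Finset.sum_nonneg
    intro k hk
    apply mul_nonneg
    · unfold tvP
      apply setIntegral_nonneg measurableSet_Ico
      intro σ hσ
      exact Real.rpow_nonneg hσ.1 _
    · apply intervalIntegral.integral_nonneg
      · rw [← TV.nd_eq, ← TV.nd_eq]
        exact nd_mono hh.le (Nat.sub_le k 1)
      · intro t _
        exact (Real.exp_pos _).le
  set A := η / δ * Ed + (Ee - Ed) + 3 * (4 / a ^ 2) * δ * S0 with hA
  have hηδ1 : η / δ ≤ 1 := by rw [div_le_one hδ]; exact hηδ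
  have hηδ0 : 0 ≤ η / δ := by positivity
  have hA0 : 0 ≤ A := by
    rw [hA]
    have h1 : 0 ≤ η / δ * Ed := mul_nonneg hηδ0 he0
    have h2 : 0 ≤ 3 * (4 / a ^ 2) * δ * S0 := by positivity
    linarith
  have hδ1 : 8 * δ ≤ 1 := by linarith
  have hAle : A ≤ 2 * L ^ 2 + 24 * (1 / a ^ 2) * (2 * L ^ 2) := by
    rw [hA]
    have h1 : η / δ * Ed ≤ Ed := by nlinarith
    have h2 : 3 * (4 / a ^ 2) * δ * S0 ≤ 24 * (1 / a ^ 2) * (2 * L ^ 2) := by
      have h3 : δ * S0 ≤ 1 * (2 * L ^ 2) :=
        mul_le_mul (by linarith) (hS.trans hWle) hS0 (by norm_num)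
      have h4 : 3 * (4 / a ^ 2) * δ * S0 = 12 * (1 / a ^ 2) * (δ * S0) := by ring
      rw [h4]
      have h5 : 0 ≤ 1 / a ^ 2 := by positivity
      have h6 : 12 * (1 / a ^ 2) * (δ * S0) ≤ 12 * (1 / a ^ 2) * (1 * (2 * L ^ 2)) :=
        mul_le_mul_of_nonneg_left h3 (by positivity)
      have h7 : 0 ≤ (1 / a ^ 2) * (2 * L ^ 2) := by positivity
      linarith
    linarith
  -- the factor
  set CV := (1 + 4 * (L * msh a m) / (1 / L)) ^ (1 / p) with hCV
  have hu : 4 * (L * msh a m) / (1 / L) = 4 * L ^ 2 * msh a m := by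
    field_simp
  have hCVle : CV ≤ 1 + r * Real.exp r * (4 * L ^ 2 * msh a m) := by
    rw [hCV, hu]
    exact TV.one_add_rpow_le (by positivity) hLm hr0
  have hCV0 : 0 ≤ CV := by
    rw [hCV, hu]
    apply Real.rpow_nonneg
    positivity
  have hexp := TV.exp_bound hp hδ hδ1 hcb
  have hfac : 2 * Real.exp (|b / p| * δ) * CV * A ≤
      4 * (1 + r * Real.exp r * (4 * L ^ 2 * msh a m)) * A := by
    apply mul_le_mul_of_nonneg_right _ hA0
    apply mul_le_mul hexp hCVle hCV0 (by norm_num)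
  have hK : 4 * (r * Real.exp r * (4 * L ^ 2 * msh a m)) * A ≤
      4 * (r * Real.exp r * (4 * L ^ 2)) * (2 * L ^ 2 + 24 * (1 / a ^ 2) * (2 * L ^ 2)) * msh a m := by
    have h1 : 0 ≤ 4 * (r * Real.exp r * (4 * L ^ 2 * msh a m)) := by positivity
    have h2 := mul_le_mul_of_nonneg_left hAle h1
    refine h2.trans (le_of_eq ?_)
    ring
  have hfin : 4 * A ≤ 4 * (η / δ) * Ed + 4 * (Ee - Ed) + 24 * (4 / a ^ 2) * δ * W := by
    rw [hA]
    have h1 : 3 * (4 / a ^ 2) * δ * S0 ≤ 3 * (4 / a ^ 2) * δ * W :=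
      mul_le_mul_of_nonneg_left hS (by positivity)
    have h2 : 0 ≤ (4 / a ^ 2) * δ * W := by positivity
    linarith
  calc η * tvS v (samp f lam a m L) (longI a m η) lam a m η
      ≤ 2 * Real.exp (|b / p| * δ) * CV * A := key
    _ ≤ 4 * (1 + r * Real.exp r * (4 * L ^ 2 * msh a m)) * A := hfac
    _ = 4 * A + 4 * (r * Real.exp r * (4 * L ^ 2 * msh a m)) * A := by ring
    _ ≤ _ := add_le_add hfin hK

end Crest.Agent.R077
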