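import Crest.Agent.R077.StepW1
import Crest.Agent.R077.StepTV1
import Crest.Agent.R077.IntE
import Crest.Agent.R077.MeasBd
import Crest.Agent.R077.IntFdV

/-!
Row 77, IntW (helper245): `Stmt_WF`.
-/

set_option autoImplicit false
open MeasureTheory Set Real Filter
open scoped ENNReal

namespace Crest.Agent.R077.IntW

lemma int_ind_mul {lam a : ℝ} {m : ℕ} {i : ℕ × ℕ} (h : lft lam a m i ≤ rgt lam a m i) {g : ℝ → ℝ}
    (hg : Continuous g) :
    Integrable (fun t => ind lam a m i t * g t) ∧
      ∫ t, ind lam a m i t * g t = ∫ t in (lft lam a m i)..(rgt lam a m i), g t := by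
  have e : (fun t => ind lam a m i t * g t) = (Ico (lft lam a m i) (rgt lam a m i)).indicator g := by
    funext t
    unfold ind
    by_cases ht : t ∈ Ico (lft lam a m i) (rgt lam a m i)
    · rw [indicator_of_mem ht, if_pos (show lft lam a m i ≤ t ∧ t < rgt lam a m i from ht), one_mul]
    · rw [indicator_of_notMem ht, if_neg (show ¬ (lft lam a m i ≤ t ∧ t < rgt lam a m i) from ht),
        zero_mul]
  constructor
  · rw [e, integrable_indicator_iff measurableSet_Ico]
    exact (hg.integrableOn_Icc).mono_set Ico_subset_Icc_self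
  · rw [e, integral_indicator measurableSet_Ico, integral_Ico_eq_integral_Ioo,
      ← integral_Ioc_eq_integral_Ioo, ← intervalIntegral.integral_of_le h]

/-- the work of the momentum density for one angle -/
lemma omega_work {f v' : ℝ → ℝ} (hv' : Continuous v') (x : ℕ → ℝ) {lam a : ℝ} {m : ℕ} (ha : 0 < a)
    (hm : 1 ≤ m) {I : Finset (ℕ × ℕ)} (hI : I ⊆ prs m)
    (hi : Integrable (fun t => phi lam a t * (f t * v' t))) :
    ∫ t, omega f x I lam a m t * v' t = (∫ t, phi lam a t * (f t * v' t)) +
      ∑ i ∈ I, rc x i * ∫ t in (lft lam a m i)..(rgt lam a m i),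
        (phi lam a (mid lam a m i) - phi lam a t) * v' t := by
  have hc : ∀ i : ℕ × ℕ, Continuous (fun t => (phi lam a (mid lam a m i) - phi lam a t) * v' t) := fun i =>
    (continuous_const.sub (TP.phi_continuous lam a)).mul hv'
  have hle : ∀ i ∈ I, lft lam a m i ≤ rgt lam a m i := by
    intro i hi
    have := hI hi
    rw [StepR1.mem_prs] at this
    exact StepR1.nd_le ha hm (by omega)
  have e : (fun t => omega f x I lam a m t * v' t) = fun t => phi lam a t * (f t * v' t) +
      ∑ i ∈ I, rc x i * (ind lam a m i t * ((phi lam a (mid lam a m i) - phi lam a t) * v' t)) := by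
    funext t
    unfold omega
    rw [add_mul, Finset.sum_mul]
    congr 1
    · ring
    · exact Finset.sum_congr rfl fun i _ => by ring
  have hs : ∀ i ∈ I, Integrable (fun t => rc x i *
      (ind lam a m i t * ((phi lam a (mid lam a m i) - phi lam a t) * v' t))) := fun i hi' =>
    (int_ind_mul (hle i hi') (hc i)).1.const_mul _
  rw [e, integral_add hi (integrable_finset_sum _ hs), integral_finset_sum _ hs]
  congr 1
  refine Finset.sum_congr rfl fun i hi' => ?_
  rw [integral_const_mul, (int_ind_mul (hle i hi') (hc i)).2]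

end Crest.Agent.R077.IntW

namespace Crest.Agent.R077

open IntW

theorem WF : Stmt_WF := by
  intro M _ μ _ S lam a L ha ha1
  obtain ⟨K, hK0, hK⟩ := W.W1 S.b₁ S.p lam a L ha ha1
  refine ⟨K * (μ univ).toReal, mul_nonneg hK0 ENNReal.toReal_nonneg, ?_⟩
  intro m η hW hη hηa
  have hFdV := (JB.intFdV M μ S (lam + 2 * a)).1
  have hFdV' := (JB.intFdV M μ S (lam + a)).1
  -- pointwise data
  have hVd : ∀ θ, Continuous (deriv (fun s => S.V s θ)) := fun θ =>
    (S.V_C1 θ).continuous_deriv (by norm_num)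
  -- opening energies
  have hE1 := fun θ => E1 S.b₁ S.p lam a L (fun t => S.F t θ) (fun t => S.V t θ) m η η ha ha1
    (hW.solF θ) hW.hm hW.hLm hη le_rfl
  have htm : Measurable (tent lam a) := TP.tent_measurable lam a
  have htT : ∀ t, lam + 2 * a < t → tent lam a t = 0 := fun t ht =>
    TP.tent_eq_zero_right (by linarith)
  have hIw := IntE.inner_int S (lam + 2 * a) htm (IntE.tent_nonneg lam a) (IntE.tent_le ha) htT
  have hpsi0 : ∀ θ, 0 ≤ ∫ t, tent lam a t * psi S.b₁ S.p t (S.FLo lam a m L η t θ) := fun θ => (hE1 θ).1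
  have hIpsi : Integrable (fun θ => ∫ t, tent lam a t * psi S.b₁ S.p t (S.FLo lam a m L η t θ)) μ := by
    refine Integrable.mono' hIw (IntE.psiFLo_sm S hW η).aestronglyMeasurable
      (Eventually.of_forall fun θ => ?_)
    rw [Real.norm_of_nonneg (hpsi0 θ)]
    exact (hE1 θ).2.2
  -- `∫ w F^L V`
  have hLoV0 : ∀ t θ, 0 ≤ tent lam a t * (S.FLo lam a m L η t θ * S.V t θ) := fun t θ =>
    mul_nonneg (IntE.tent_nonneg lam a t) (mul_nonneg (ML.FLo_nonneg S lam a m L η t θ) (S.V_pos t θ).le)
  have hLoVle : ∀ t θ, tent lam a t * (S.FLo lam a m L η t θ * S.V t θ) ≤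
      tent lam a t * (S.F t θ * S.V t θ) := fun t θ =>
    mul_le_mul_of_nonneg_left (mul_le_mul_of_nonneg_right (ML.FLo_le hW η t θ) (S.V_pos t θ).le)
      (IntE.tent_nonneg lam a t)
  have hLoVm : Measurable (fun z : M × ℝ => tent lam a z.2 * (S.FLo lam a m L η z.2 z.1 * S.V z.2 z.1)) :=
    (htm.comp measurable_snd).mul ((ML.meas_FLo S lam a m L η measurable_snd measurable_fst).mul
      (ML.meas_V S measurable_snd measurable_fst))
  have hwi : ∀ θ, Integrable (fun t => tent lam a t * (S.F t θ * S.V t θ)) := by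
    intro θ
    have hc : Continuous (fun t => tent lam a t * (S.F t θ * S.V t θ)) :=
      (TP.tent_continuous lam a).mul ((ML.F_cont S θ).mul (S.V_C1 θ).continuous)
    refine hc.integrable_of_hasCompactSupport ?_
    refine HasCompactSupport.intro (isCompact_Icc (a := lam) (b := lam + a)) fun t ht => ?_
    rw [TP.tent_eq_zero_of_notMem ht, zero_mul]
  have hILoV : Integrable (fun θ => ∫ t, tent lam a t * (S.FLo lam a m L η t θ * S.V t θ)) μ := by
    refine Integrable.mono' hIw (IntE.sm_inner
      (g := fun θ t => tent lam a t * (S.FLo lam a m L η t θ * S.V t θ)) hLoVm).aestronglyMeasurable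
      (Eventually.of_forall fun θ => ?_)
    rw [Real.norm_of_nonneg (integral_nonneg fun t => hLoV0 t θ)]
    exact integral_mono_of_nonneg (Eventually.of_forall fun t => hLoV0 t θ) (hwi θ)
      (Eventually.of_forall fun t => hLoVle t θ)
  -- the work of `φ F`
  have i1 := hFdV'.prod_right_ae
  have i2 := JB.integrable_inner (JB.phiFV_meas S lam a) (JB.phiFV_nonneg S ha lam) (JB.phiFV_fin S ha lam)
  have i3 := JB.integrable_inner (JB.tentFV_meas S lam a) (JB.tentFV_nonneg S ha lam) (JB.tentFV_fin S ha lam)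
  have key : ∀ᵐ θ ∂μ, Integrable (fun t => phi lam a t * (S.F t θ * deriv (fun s => S.V s θ) t)) ∧
      ∫ t, phi lam a t * (S.F t θ * deriv (fun s => S.V s θ) t)
      = (1 / (S.p + 1)) * (∫ t, tent lam a t * (S.F t θ * S.V t θ))
        - (S.b₁ / (S.p + 1)) * (∫ t, phi lam a t * (S.F t θ * S.V t θ)) := by
    filter_upwards [i1, i2.2, i3.2] with θ h1 h2 h3
    have h1' := JB.phi_int ha h1
    exact ⟨h1', phi_by_parts S.hp (b := S.b₁) (V := fun t => S.V t θ)
      (V' := deriv (fun s => S.V s θ)) (φ := phi lam a) (w := tent lam a)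
      (fun t => S.V_pos t θ)
      (fun t => ((S.V_C1 θ).differentiable (by simp)).differentiableAt.hasDerivAt)
      (TP.phi_hasDerivAt lam a) h2 h1' h3⟩
  -- integrability of the work of `OmF`
  have hOmi : Integrable (fun z : M × ℝ => S.OmF lam a m L η z.2 z.1 * deriv (fun s => S.V s z.1) z.2)
      (μ.prod volume) := by
    have hm : Measurable (fun z : M × ℝ => S.OmF lam a m L η z.2 z.1 * deriv (fun s => S.V s z.1) z.2) :=
      (ML.meas_OmF S lam a m L η measurable_snd measurable_fst).mul
        (ML.meas_dV S measurable_snd measurable_fst)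
    have hR : μ.prod (volume.restrict (Iic (lam + 2 * a))) =
        (μ.prod volume).restrict (univ ×ˢ Iic (lam + 2 * a)) := by
      rw [← Measure.prod_restrict, Measure.restrict_univ]
    have h1 : Integrable (fun z : M × ℝ => S.OmF lam a m L η z.2 z.1 * deriv (fun s => S.V s z.1) z.2)
        (μ.prod (volume.restrict (Iic (lam + 2 * a)))) := by
      refine Integrable.mono hFdV hm.aestronglyMeasurable (Eventually.of_forall fun z => ?_)
      rw [norm_mul, norm_mul]
      refine mul_le_mul_of_nonneg_right ?_ (norm_nonneg _)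
      rw [Real.norm_eq_abs, Real.norm_of_nonneg (ML.F_pos S z.2 z.1).le]
      exact ML.abs_OmF_le hW η z.2 z.1
    rw [hR] at h1
    have h2 : IntegrableOn (fun z : M × ℝ => S.OmF lam a m L η z.2 z.1 * deriv (fun s => S.V s z.1) z.2)
      (univ ×ˢ Iic (lam + 2 * a)) (μ.prod volume) := h1
    refine (integrableOn_iff_integrable_of_support_subset (fun z hz => ?_)).1 h2
    by_contra hc
    apply hz
    have h3 : lam + 3 * a / 2 ≤ z.2 := by
      by_contra h4
      push Not at h4
      exact hc ⟨mem_univ _, show z.2 ≤ lam + 2 * a by linarith⟩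
    show S.OmF lam a m L η z.2 z.1 * deriv (fun s => S.V s z.1) z.2 = 0
    rw [ML.OmF_eq_zero hW η h3, zero_mul]
  have hA := hOmi.integral_prod_left
  -- pointwise inequality
  set RHS : M → ℝ := fun θ => - (S.b₁ / (S.p + 1)) * (∫ t, phi lam a t * (S.F t θ * S.V t θ))
      + (∫ t, tent lam a t * (S.FLo lam a m L η t θ * S.V t θ))
      - (∫ t, tent lam a t * psi S.b₁ S.p t (S.FLo lam a m L η t θ))
      + cb S.b₁ S.p * η * (∫ t, tent lam a t * (S.F t θ * S.V t θ)) + K * msh a m with hRHS
  have hle : ∀ᵐ θ ∂μ, (∫ t, S.OmF lam a m L η t θ * deriv (fun s => S.V s θ) t) ≤ RHS θ := by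
    filter_upwards [key] with θ hθ
    have h1 := omega_work (f := fun t => S.F t θ) (hVd θ) (S.xF lam a m L θ) ha hW.hm
      (ML.shortI_subset a m η) hθ.1
    have h2 := hK (fun t => S.F t θ) (fun t => S.V t θ) m η (hW.solF θ) hW.hm hW.hLm hη hηa
    have h3 : (∫ t, S.OmF lam a m L η t θ * deriv (fun s => S.V s θ) t) =
      (∫ t, omega (fun t => S.F t θ) (S.xF lam a m L θ) (shortI a m η) lam a m t *
        deriv (fun s => S.V s θ) t) := rfl
    rw [h3, h1, hθ.2, hRHS]
    have h4 : (∑ i ∈ shortI a m η, rc (samp (fun t => S.F t θ) lam a m L) i *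
          ∫ t in (lft lam a m i)..(rgt lam a m i), (phi lam a (mid lam a m i) - phi lam a t) *
            deriv (fun t => S.V t θ) t)
        + (1 / (S.p + 1)) * ∫ t, tent lam a t * (S.F t θ * S.V t θ)
      ≤ (∫ t, tent lam a t * (S.FLo lam a m L η t θ * S.V t θ))
        - (∫ t, tent lam a t * psi S.b₁ S.p t (S.FLo lam a m L η t θ))
        + cb S.b₁ S.p * η * (∫ t, tent lam a t * (S.F t θ * S.V t θ)) + K * msh a m := h2
    have h5 : (∑ i ∈ shortI a m η, rc (samp (fun t => S.F t θ) lam a m L) i *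
          ∫ t in (lft lam a m i)..(rgt lam a m i), (phi lam a (mid lam a m i) - phi lam a t) *
            deriv (fun t => S.V t θ) t) = ∑ i ∈ shortI a m η, rc (S.xF lam a m L θ) i *
          ∫ t in (lft lam a m i)..(rgt lam a m i), (phi lam a (mid lam a m i) - phi lam a t) *
            deriv (fun s => S.V s θ) t := rfl
    rw [h5] at h4
    show _ ≤ - (S.b₁ / (S.p + 1)) * (∫ t, phi lam a t * (S.F t θ * S.V t θ))
      + (∫ t, tent lam a t * (S.FLo lam a m L η t θ * S.V t θ))
      - (∫ t, tent lam a t * psi S.b₁ S.p t (S.FLo lam a m L η t θ))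
      + cb S.b₁ S.p * η * (∫ t, tent lam a t * (S.F t θ * S.V t θ)) + K * msh a m
    linarith
  have j1 := i2.1.const_mul (- (S.b₁ / (S.p + 1)))
  have j2 := j1.add hILoV
  have j3 := j2.sub hIpsi
  have j4 := hIw.const_mul (cb S.b₁ S.p * η)
  have j5 := j3.add j4
  have j6 : Integrable RHS μ := j5.add (integrable_const (K * msh a m))
  have hfin := integral_mono_ae hA j6 hle
  have e2 : (∫ θ, RHS θ ∂μ) =
      - (S.b₁ / (S.p + 1)) * (∫ θ, ∫ t, phi lam a t * (S.F t θ * S.V t θ) ∂volume ∂μ)
      + (∫ θ, ∫ t, tent lam a t * (S.FLo lam a m L η t θ * S.V t θ) ∂volume ∂μ)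
      - S.EF lam a m L η
      + cb S.b₁ S.p * η * (∫ θ, ∫ t, tent lam a t * (S.F t θ * S.V t θ) ∂volume ∂μ)
      + (μ univ).toReal * (K * msh a m) := by
    have s1 := integral_add j5 (integrable_const (μ := μ) (K * msh a m))
    have s2 := integral_add j3 j4
    have s3 := integral_sub j2 hIpsi
    have s4 := integral_add j1 hILoV
    simp only [Pi.add_apply, Pi.sub_apply] at s1 s2 s3 s4
    rw [hRHS, s1, s2, s3, s4, integral_const_mul, integral_const_mul, integral_const, smul_eq_mul]
    rfl
  rw [e2] at hfin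
  have e3 : K * (μ univ).toReal * msh a m = (μ univ).toReal * (K * msh a m) := by ring
  rw [e3]
  exact hfin

end Crest.Agent.R077
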