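import Crest.Agent.R077.IntXEnd

/-!
# Row 77: STEP X integrated, `Stmt_XF` (helper392)
-/

set_option autoImplicit false
open MeasureTheory Set Real
open scoped ENNReal Topology

namespace Crest.Agent.R077.XEnd

section cyl
variable {M : Type} [MeasurableSpace M] {μ : Measure M}

/-- the integrand in `t` is jointly measurable -/
theorem meas_shr (S : Cyl M μ) (lam a L : ℝ) (m : ℕ) (η ζ : ℝ) :
    Measurable fun y : (ℝ × M × M) × ℝ =>
      tent lam a y.2 * S.FLo lam a m L η y.2 y.1.2.1 *
      box (stepShr (S.xG lam a m L y.1.2.2) (longI a m η) lam a m ζ) y.1.1 y.2 := by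
  have h1 : Measurable fun y : (ℝ × M × M) × ℝ => y.1.2.1 :=
      measurable_fst.comp (measurable_snd.comp measurable_fst)
  have h2 : Measurable fun y : ((ℝ × M × M) × ℝ) × ℝ => y.1.1.2.2 :=
      measurable_snd.comp (measurable_snd.comp (measurable_fst.comp measurable_fst))
  exact (((ML.measurable_tent lam a).comp measurable_snd).mul
      (ML.meas_FLo S lam a m L η measurable_snd h1)).mul
      (ML.measurable_box (f := fun (y : (ℝ × M × M) × ℝ) s =>
        stepShr (S.xG lam a m L y.1.2.2) (longI a m η) lam a m ζ s)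
        (ML.meas_stepShr_xG S lam a m L _ ζ measurable_snd h2)
        (measurable_fst.comp measurable_fst) measurable_snd)

/-- shrunk layers: the box at `t` is dominated by the box of `g` at every nearby point -/
theorem box_shr_le {g : ℝ → ℝ} {y : ℕ → ℝ} {lam a : ℝ} {m : ℕ} {η ζ ρ t s' : ℝ} (ha : 0 < a)
    (hm : 1 ≤ m) (hη : 0 < η) (hζ : 0 ≤ ζ) (hg : Lay g y lam a m) (hρ : 0 ≤ ρ)
    (hs : |s' - t| ≤ ζ) :
    box (stepShr y (longI a m η) lam a m ζ) ρ t ≤ box g ρ s' := by
  have h1 := StepX.X1 g y lam a m η ζ ha hm hη hζ hg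
  unfold box
  have e : ∫ r in (s' - ρ)..(s' + ρ), g r = ∫ r in (t - ρ)..(t + ρ), g (r + (s' - t)) := by
    rw [intervalIntegral.integral_comp_add_right]
    congr 1 <;> ring
  rw [e]
  apply intervalIntegral.integral_mono_on (by linarith)
    (stepShr_intervalIntegrable _ _ _ _ _ _ _ _)
  · exact (hg.f_cont.comp (by fun_prop)).intervalIntegrable _ _
  · intro r _
    exact h1 r (s' - t) hs

/-- the main part at fixed `t` -/
theorem main_t [IsFiniteMeasure μ] {S : Cyl M μ} {lam a L : ℝ} {m : ℕ} {η ζ δ c K : ℝ}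
    (hW : WinOK S lam a m L) (hη : 0 < η) (hζ : 0 ≤ ζ)
    (h3 : ∀ θ, ∀ t ∈ Icc lam (lam + a), ∃ s, |s - t| ≤ ζ ∧
      S.FLo lam a m L η t θ * S.V s θ
        ≤ c * psi S.b₁ S.p t (S.FLo lam a m L ζ t θ) + K)
    (t : ℝ) :
    ∫⁻ z, ENNReal.ofReal (tent lam a t * S.FLo lam a m L η t z.2.1 *
      box (stepShr (S.xG lam a m L z.2.2) (longI a m η) lam a m ζ) z.1 t) ∂(S.nuN δ)
    ≤ ∫⁻ θ, ENNReal.ofReal
        (tent lam a t * (c * psi S.b₁ S.p t (S.FLo lam a m L ζ t θ) + K)) ∂μ := by
  have hmz : Measurable fun z : ℝ × M × M => ENNReal.ofReal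
      (tent lam a t * S.FLo lam a m L η t z.2.1 *
      box (stepShr (S.xG lam a m L z.2.2) (longI a m η) lam a m ζ) z.1 t) :=
    ((meas_shr S lam a L m η ζ).comp (measurable_id.prodMk measurable_const)).ennreal_ofReal
  rw [ML.lint_nuN S hmz δ]
  apply lintegral_mono
  intro θ
  simp only
  by_cases ht : t ∈ Icc lam (lam + a)
  · obtain ⟨s, hs, hFV⟩ := h3 θ t ht
    have hw := TP.tent_nonneg lam a t
    have hF := RN.FLo_nonneg S lam a m L η t θ
    have hwF : 0 ≤ tent lam a t * S.FLo lam a m L η t θ := mul_nonneg hw hF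
    have hHK : Measurable fun y : M × ℝ => ENNReal.ofReal (S.H y.2 θ y.1) *
        ENNReal.ofReal (box (fun r => S.G r y.1) y.2 s) :=
      (ML.meas_H S measurable_snd measurable_const measurable_fst).ennreal_ofReal.mul
        (ML.meas_boxG S measurable_snd measurable_const measurable_fst).ennreal_ofReal
    have hin : Measurable fun θ' : M => ∫⁻ ρ in Ioi (0:ℝ), ENNReal.ofReal (S.H ρ θ θ')
        * ENNReal.ofReal (box (fun r => S.G r θ') ρ s) ∂volume :=
      hHK.lintegral_prod_right'
    calc ∫⁻ θ', ∫⁻ ρ in Ioo (0:ℝ) δ, ENNReal.ofReal (S.H ρ θ θ') * ENNReal.ofReal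
          (tent lam a t * S.FLo lam a m L η t θ *
          box (stepShr (S.xG lam a m L θ') (longI a m η) lam a m ζ) ρ t) ∂volume ∂μ
        ≤ ∫⁻ θ', ∫⁻ ρ in Ioi (0:ℝ), ENNReal.ofReal (tent lam a t * S.FLo lam a m L η t θ) *
          (ENNReal.ofReal (S.H ρ θ θ') * ENNReal.ofReal (box (fun r => S.G r θ') ρ s))
          ∂volume ∂μ := by
          apply lintegral_mono
          intro θ'
          simp only
          refine (setLIntegral_mono' measurableSet_Ioo (fun ρ hρ => ?_)).trans
            (lintegral_mono_set (fun ρ hρ => hρ.1))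
          have hb : box (stepShr (S.xG lam a m L θ') (longI a m η) lam a m ζ) ρ t
              ≤ box (fun r => S.G r θ') ρ s :=
            box_shr_le hW.ha hW.hm hη hζ (RN.lay_G hW θ') hρ.1.le hs
          rw [ENNReal.ofReal_mul hwF, ← mul_assoc, ← mul_assoc,
            mul_comm (ENNReal.ofReal (S.H ρ θ θ'))]
          exact mul_le_mul_right (ENNReal.ofReal_le_ofReal hb) _
      _ = ENNReal.ofReal (tent lam a t * S.FLo lam a m L η t θ) *
          ENNReal.ofReal (S.V s θ) := by
          rw [ML.repV_box S s θ, ← lintegral_const_mul _ hin]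
          refine lintegral_congr fun θ' => ?_
          rw [← lintegral_const_mul]
          exact hHK.comp (measurable_const.prodMk measurable_id)
      _ = ENNReal.ofReal (tent lam a t * (S.FLo lam a m L η t θ * S.V s θ)) := by
          rw [← ENNReal.ofReal_mul hwF, mul_assoc]
      _ ≤ _ := ENNReal.ofReal_le_ofReal (mul_le_mul_of_nonneg_left hFV hw)
  · rw [TP.tent_eq_zero_of_notMem ht]
    simp

/-- **STEP X, main part** -/
theorem XF_main [IsFiniteMeasure μ] {S : Cyl M μ} {lam a L : ℝ} {m : ℕ} {η ζ δ c K : ℝ}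
    (hW : WinOK S lam a m L) (hη : 0 < η) (hζ : 0 ≤ ζ) (hc : 0 ≤ c) (hK : 0 ≤ K)
    (h3 : ∀ θ, ∀ t ∈ Icc lam (lam + a), ∃ s, |s - t| ≤ ζ ∧
      S.FLo lam a m L η t θ * S.V s θ
        ≤ c * psi S.b₁ S.p t (S.FLo lam a m L ζ t θ) + K) :
    ∫ z, (∫ t, tent lam a t * S.FLo lam a m L η t z.2.1 *
      box (stepShr (S.xG lam a m L z.2.2) (longI a m η) lam a m ζ) z.1 t) ∂(S.nuN δ)
    ≤ c * S.EF lam a m L ζ + K * (μ univ).toReal := by
  have ha := hW.ha
  have ha1 := hW.ha1
  -- the density and its bounds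
  set P : ℝ → M → ℝ := fun t θ => psi S.b₁ S.p t (S.FLo lam a m L ζ t θ) with hP
  have hPm : Measurable fun z : ℝ × M => P z.1 z.2 :=
    ML.meas_psiF S lam a m L ζ measurable_fst measurable_snd
  have hPb : ∀ t θ, 0 ≤ P t θ ∧ P t θ ≤ S.F t θ * S.V t θ := fun t θ =>
    TV.psi_stepF_le (hW.solF θ) ha ha1 hW.hm hW.hLm ζ t
  have hw := TP.tent_nonneg lam a
  have hw2 := TP.tent_le (a := a) ha lam
  have hwm : Measurable (tent lam a) := TP.tent_measurable lam a
  have hPL : ∀ θ, ∀ t ∈ Icc lam (lam + a), P t θ ≤ L * L := by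
    intro θ t ht
    have ht' : t ∈ Icc (lam - 2) (lam + 4) := ⟨by linarith [ht.1], by linarith [ht.2]⟩
    have hL := (hW.solF θ).hL
    exact (hPb t θ).2.trans (mul_le_mul ((hW.solF θ).f_le t ht') ((hW.solF θ).v_le t ht')
      (S.V_pos t θ).le (by linarith))
  -- integrability of the pieces
  have gm : Measurable fun z : M × ℝ => tent lam a z.2 * P z.2 z.1 :=
    (hwm.comp measurable_snd).mul (hPm.comp (measurable_snd.prodMk measurable_fst))
  have gb : ∀ θ t, |tent lam a t * P t θ| ≤ 2 / a * (L * L) := by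
    intro θ t
    by_cases ht : t ∈ Icc lam (lam + a)
    · rw [abs_of_nonneg (mul_nonneg (hw t) (hPb t θ).1)]
      exact mul_le_mul (hw2 t) (hPL θ t ht) (hPb t θ).1 (by positivity)
    · rw [TP.tent_eq_zero_of_notMem ht, zero_mul, abs_zero]
      have := mul_self_nonneg L
      positivity
  have g0 : ∀ (θ : M) t, t ∉ Icc lam (lam + a) → tent lam a t * P t θ = 0 := by
    intro θ t ht
    rw [TP.tent_eq_zero_of_notMem ht, zero_mul]
  have iP : Integrable (fun θ => ∫ t, tent lam a t * P t θ) μ :=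
    ML.integrable_inner (g := fun θ t => tent lam a t * P t θ) gm gb g0
  have iPt : ∀ θ, Integrable (fun t => tent lam a t * P t θ) volume := fun θ =>
    ML.integrable_slice (g := fun t => tent lam a t * P t θ)
      (gm.comp (measurable_const.prodMk measurable_id)) (gb θ) (g0 θ)
  have iT := TP.tent_integrable lam a
  -- Bochner form of the right side
  have eR : ∫ θ, ∫ t, tent lam a t * (c * P t θ + K) ∂volume ∂μ
      = c * S.EF lam a m L ζ + K * (μ univ).toReal := by
    have e1 : ∀ θ, ∫ t, tent lam a t * (c * P t θ + K) = c * (∫ t, tent lam a t * P t θ) + K := by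
      intro θ
      have e2 : ∀ t, tent lam a t * (c * P t θ + K)
          = c * (tent lam a t * P t θ) + K * tent lam a t := fun t => by ring
      simp only [e2]
      rw [integral_add ((iPt θ).const_mul c) (iT.const_mul K), integral_const_mul,
        integral_const_mul, TP.integral_tent ha, mul_one]
    simp only [e1]
    rw [integral_add (iP.const_mul c) (integrable_const K), integral_const_mul, integral_const]
    unfold Cyl.EF
    rw [smul_eq_mul, mul_comm (μ.real univ), Measure.real]
  -- lintegral form of the right side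
  have nn : ∀ t θ, 0 ≤ tent lam a t * (c * P t θ + K) := fun t θ =>
    mul_nonneg (hw t) (add_nonneg (mul_nonneg hc (hPb t θ).1) hK)
  have hRm : Measurable fun z : ℝ × M => tent lam a z.1 * (c * P z.1 z.2 + K) :=
    (hwm.comp measurable_fst).mul ((hPm.const_mul c).add_const K)
  have hfin : ∫⁻ θ, ∫⁻ t, ENNReal.ofReal (tent lam a t * (c * P t θ + K)) ∂volume ∂μ ≠ ∞ := by
    have h1 : ∀ θ, ∫⁻ t, ENNReal.ofReal (tent lam a t * (c * P t θ + K)) ∂volume
        ≤ ENNReal.ofReal (2 / a * (c * (L * L) + K)) * volume (Icc lam (lam + a)) := by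
      intro θ
      rw [← setLIntegral_const, ← lintegral_indicator measurableSet_Icc]
      apply lintegral_mono
      intro t
      by_cases ht : t ∈ Icc lam (lam + a)
      · simp only [indicator_of_mem ht]
        apply ENNReal.ofReal_le_ofReal
        exact mul_le_mul (hw2 t) (by
          have := mul_le_mul_of_nonneg_left (hPL θ t ht) hc
          linarith) (add_nonneg (mul_nonneg hc (hPb t θ).1) hK) (by positivity)
      · simp only [TP.tent_eq_zero_of_notMem ht, zero_mul, ENNReal.ofReal_zero]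
        exact zero_le
    have h2 := lintegral_mono (μ := μ) h1
    refine ne_top_of_le_ne_top ?_ h2
    rw [lintegral_const]
    refine ENNReal.mul_ne_top (ENNReal.mul_ne_top ENNReal.ofReal_ne_top ?_) (measure_ne_top μ _)
    simp
  have eR2 := EnQ.iter_toReal (μ := μ) volume hRm nn hfin
  -- the left side
  have hIm : Measurable fun z : ℝ × M × M => ∫ t, tent lam a t * S.FLo lam a m L η t z.2.1 *
      box (stepShr (S.xG lam a m L z.2.2) (longI a m η) lam a m ζ) z.1 t :=
    ML.measurable_integral (f := fun (z : ℝ × M × M) t =>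
      tent lam a t * S.FLo lam a m L η t z.2.1 *
        box (stepShr (S.xG lam a m L z.2.2) (longI a m η) lam a m ζ) z.1 t)
      (meas_shr S lam a L m η ζ) volume
  have hnn : ∀ z : ℝ × M × M, 0 < z.1 → ∀ t, 0 ≤ tent lam a t * S.FLo lam a m L η t z.2.1 *
      box (stepShr (S.xG lam a m L z.2.2) (longI a m η) lam a m ζ) z.1 t := fun z hz t =>
    mul_nonneg (mul_nonneg (hw t) (RN.FLo_nonneg S lam a m L η t _))
      (RN.box_nonneg (fun s => stepShr_nonneg _ _ _ _ _ _ s) hz.le t)
  have hnz : ∀ᵐ z ∂(S.nuN δ), 0 ≤ ∫ t, tent lam a t * S.FLo lam a m L η t z.2.1 *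
      box (stepShr (S.xG lam a m L z.2.2) (longI a m η) lam a m ζ) z.1 t := by
    filter_upwards [RN.nuN_ae S δ] with z hz
    exact integral_nonneg fun t => hnn z hz.1 t
  have hle : ∫⁻ z, ENNReal.ofReal (∫ t, tent lam a t * S.FLo lam a m L η t z.2.1 *
      box (stepShr (S.xG lam a m L z.2.2) (longI a m η) lam a m ζ) z.1 t) ∂(S.nuN δ)
      ≤ ∫⁻ θ, ∫⁻ t, ENNReal.ofReal (tent lam a t * (c * P t θ + K)) ∂volume ∂μ := by
    calc _ ≤ ∫⁻ z, ∫⁻ t, ENNReal.ofReal (tent lam a t * S.FLo lam a m L η t z.2.1 *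
          box (stepShr (S.xG lam a m L z.2.2) (longI a m η) lam a m ζ) z.1 t) ∂volume
          ∂(S.nuN δ) := by
          apply lintegral_mono_ae
          filter_upwards [RN.nuN_ae S δ] with z hz
          rw [integral_eq_lintegral_of_nonneg_ae
            (Filter.Eventually.of_forall fun t => hnn z hz.1 t)
            ((meas_shr S lam a L m η ζ).comp
              (measurable_const.prodMk measurable_id)).aestronglyMeasurable]
          exact ENNReal.ofReal_toReal_le
      _ = ∫⁻ t, ∫⁻ z, ENNReal.ofReal (tent lam a t * S.FLo lam a m L η t z.2.1 *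
          box (stepShr (S.xG lam a m L z.2.2) (longI a m η) lam a m ζ) z.1 t)
          ∂(S.nuN δ) ∂volume :=
          lintegral_lintegral_swap (meas_shr S lam a L m η ζ).ennreal_ofReal.aemeasurable
      _ ≤ ∫⁻ t, ∫⁻ θ, ENNReal.ofReal (tent lam a t * (c * P t θ + K)) ∂μ ∂volume :=
          lintegral_mono fun t => main_t hW hη hζ h3 t
      _ = _ := lintegral_lintegral_swap hRm.ennreal_ofReal.aemeasurable
  rw [integral_eq_lintegral_of_nonneg_ae hnz hIm.aestronglyMeasurable, ← eR, eR2]
  exact ENNReal.toReal_mono hfin hle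

end cyl

end Crest.Agent.R077.XEnd

namespace Crest.Agent.R077

/-- **STEP X, `F` side** -/
theorem XF : Stmt_XF := by
  intro M _ μ _ S lam a L ha ha1
  obtain ⟨K, hK, h3⟩ := StepX.X3 S.b₁ S.p lam a L ha ha1
  refine ⟨K * (μ univ).toReal, mul_nonneg hK ENNReal.toReal_nonneg, ?_⟩
  intro m η ζ δ hW hδ h1 h2 h8 hmδ
  have hζ : 0 < ζ := by linarith
  have hη : 0 < η := by linarith
  have hδ1 : δ ≤ 1 := by linarith
  have hmζ : msh a m ≤ ζ := by linarith
  have hmsh : 0 ≤ msh a m := by unfold msh; positivity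
  have hcb : 0 ≤ cb S.b₁ S.p := by
    unfold cb
    have := S.hp
    positivity
  have hp := S.hp
  have hc : 0 ≤ (1 + cb S.b₁ S.p * ζ) * ((S.p + 1) / S.p) := by positivity
  have hmain := XEnd.XF_main (S := S) (δ := δ) hW hη hζ.le hc (mul_nonneg hK hmsh)
    (fun θ t ht => h3 (fun t => S.F t θ) (fun t => S.V t θ) m η ζ (hW.solF θ) hW.hm hW.hLm hζ
      (by linarith) h8 hmζ t ht)
  have hend := XEnd.XF_end hW hδ h1 h2 h8 hmζ
  have iS := XEnd.int_shr hW η hζ.le hδ1
  have iE := XEnd.int_end hW η hζ.le hδ1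
  constructor
  · unfold Cyl.X0
    apply integral_nonneg_of_ae
    filter_upwards [RN.nuN_ae S δ] with z hz
    exact integral_nonneg fun t => mul_nonneg
      (mul_nonneg (TP.tent_nonneg lam a t) (RN.FLo_nonneg S lam a m L η t _))
      (RN.box_nonneg (fun s => RN.GLo_nonneg S lam a m L η s _) hz.1.le t)
  · have e : S.X0 lam a m L η δ
        = (∫ z, (∫ t, tent lam a t * S.FLo lam a m L η t z.2.1 *
            box (stepShr (S.xG lam a m L z.2.2) (longI a m η) lam a m ζ) z.1 t) ∂(S.nuN δ))
          + ∫ z, (∫ t, tent lam a t * S.FLo lam a m L η t z.2.1 *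
            box (fun s => S.GLo lam a m L η s z.2.2
              - stepShr (S.xG lam a m L z.2.2) (longI a m η) lam a m ζ s) z.1 t)
            ∂(S.nuN δ) := by
      rw [← integral_add iS iE]
      unfold Cyl.X0
      exact integral_congr_ae (Filter.Eventually.of_forall fun z => XEnd.split_shr η ζ z)
    rw [e]
    have hr : K * msh a m * (μ univ).toReal = K * (μ univ).toReal * msh a m := by ring
    rw [hr] at hmain
    linarith

end Crest.Agent.R077
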