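import Crest.Agent.R077.IntXEnd

/-!
# Row 77: `Stmt_Xs` (helper245): the two near long-long energies are close
-/

set_option autoImplicit false
open MeasureTheory Set Real
open scoped ENNReal Topology

namespace Crest.Agent.R077.Xsy

open StepX in
/-- exchange of the weight -/
theorem swap_bound {w : ℝ → ℝ} {La : ℝ} (hW : Wt w La) {X Y : ℝ → ℝ} (iX : Integrable X)
    (iY : Integrable Y) (iwY : Integrable fun t => w t * Y t)
    (iXk : ∀ k : ℝ → ℝ, Continuous k → Integrable fun t => X t * k t)
    (X0 : ∀ t, 0 ≤ X t) (Y0 : ∀ t, 0 ≤ Y t) {ρ : ℝ} (hρ : 0 ≤ ρ) :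
    |(∫ t, w t * X t * StepX.box Y ρ t) - ∫ t, w t * Y t * StepX.box X ρ t|
      ≤ La * ρ * ∫ t, X t * StepX.box Y ρ t := by
  have cY := continuous_box iY ρ
  have cwY := continuous_box iwY ρ
  have hwc := hW.continuous
  have h1 : ∫ t, w t * Y t * StepX.box X ρ t = ∫ t, X t * StepX.box (fun s => w s * Y s) ρ t :=
    box_swap iwY iX hρ
  have i1 : Integrable fun t => w t * X t * StepX.box Y ρ t := by
    refine (iXk (fun t => w t * StepX.box Y ρ t) (hwc.mul cY)).congr
      (Filter.Eventually.of_forall fun t => ?_)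
    simp only; ring
  have i2 : Integrable fun t => X t * StepX.box (fun s => w s * Y s) ρ t := iXk _ cwY
  have i3 : Integrable fun t => X t * StepX.box Y ρ t := iXk _ cY
  rw [h1, ← integral_sub i1 i2]
  have hb : ∀ t, |w t * X t * StepX.box Y ρ t - X t * StepX.box (fun s => w s * Y s) ρ t|
      ≤ La * ρ * (X t * StepX.box Y ρ t) := by
    intro t
    have e : w t * X t * StepX.box Y ρ t - X t * StepX.box (fun s => w s * Y s) ρ t
        = X t * ∫ s in (t - ρ)..(t + ρ), (w t - w s) * Y s := by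
      have e1 : ∫ s in (t - ρ)..(t + ρ), (w t - w s) * Y s
          = w t * StepX.box Y ρ t - StepX.box (fun s => w s * Y s) ρ t := by
        unfold StepX.box
        rw [← intervalIntegral.integral_const_mul, ← intervalIntegral.integral_sub]
        · refine intervalIntegral.integral_congr fun s _ => ?_
          ring
        · exact iY.intervalIntegrable.const_mul _
        · exact iwY.intervalIntegrable
      rw [e1]; ring
    rw [e, abs_mul, abs_of_nonneg (X0 t)]
    have h2 : |∫ s in (t - ρ)..(t + ρ), (w t - w s) * Y s| ≤ La * ρ * StepX.box Y ρ t := by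
      have h3 : ‖∫ s in (t - ρ)..(t + ρ), (w t - w s) * Y s‖
          ≤ |∫ s in (t - ρ)..(t + ρ), La * ρ * Y s| := by
        refine intervalIntegral.norm_integral_le_abs_of_norm_le
          (g := fun s => La * ρ * Y s) ?_ (iY.intervalIntegrable.const_mul _)
        refine (ae_restrict_iff' measurableSet_uIoc).2 (Filter.Eventually.of_forall fun s hs => ?_)
        rw [uIoc_of_le (by linarith)] at hs
        rw [Real.norm_eq_abs, abs_mul, abs_of_nonneg (Y0 s)]
        refine mul_le_mul_of_nonneg_right ?_ (Y0 s)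
        refine (hW.lip t s).trans (mul_le_mul_of_nonneg_left ?_ hW.La0)
        rw [abs_le]
        constructor <;> linarith [hs.1, hs.2]
      rw [Real.norm_eq_abs] at h3
      refine h3.trans (le_of_eq ?_)
      rw [intervalIntegral.integral_const_mul]
      have : 0 ≤ StepX.box Y ρ t := StepX.box_nonneg Y0 hρ t
      unfold StepX.box at this ⊢
      rw [abs_of_nonneg (mul_nonneg (mul_nonneg hW.La0 hρ) this)]
    calc X t * |∫ s in (t - ρ)..(t + ρ), (w t - w s) * Y s|
        ≤ X t * (La * ρ * StepX.box Y ρ t) := mul_le_mul_of_nonneg_left h2 (X0 t)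
      _ = La * ρ * (X t * StepX.box Y ρ t) := by ring
  calc |∫ t, (w t * X t * StepX.box Y ρ t - X t * StepX.box (fun s => w s * Y s) ρ t)|
      ≤ ∫ t, |w t * X t * StepX.box Y ρ t - X t * StepX.box (fun s => w s * Y s) ρ t| :=
        abs_integral_le_integral_abs
    _ ≤ ∫ t, La * ρ * (X t * StepX.box Y ρ t) :=
        integral_mono (i1.sub i2).abs (i3.const_mul _) hb
    _ = La * ρ * ∫ t, X t * StepX.box Y ρ t := integral_const_mul _ _

open StepX in
/-- one pair of angles and one `ρ` -/
theorem Xs1 {f g : ℝ → ℝ} {x y : ℕ → ℝ} {lam a : ℝ} {m : ℕ} {η ρ : ℝ} (ha : 0 < a) (hm : 1 ≤ m)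
    (hρ : 0 < ρ) (hLf : Lay f x lam a m) (hLg : Lay g y lam a m) :
    |(∫ t, tent lam a t * R077.stepF x (longI a m η) lam a m t *
        R077.box (R077.stepF y (longI a m η) lam a m) ρ t)
      - ∫ t, tent lam a t * R077.stepF y (longI a m η) lam a m t *
        R077.box (R077.stepF x (longI a m η) lam a m) ρ t|
    ≤ 4 / a ^ 2 * ρ * ∫ t in Icc (lam - a / 2) (lam + 3 * a / 2), f t * R077.box g ρ t := by
  set T := longI a m η with hT
  have hTp : T ⊆ prs m := longI_subset a m η
  set fL := stepf T (rc x) (lft lam a m) (rgt lam a m) with hfL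
  set gL := stepf T (rc y) (lft lam a m) (rgt lam a m) with hgL
  have eF : R077.stepF x T lam a m = fL := stepF_eq x T lam a m
  have eG : R077.stepF y T lam a m = gL := stepF_eq y T lam a m
  rw [eF, eG]
  have hW := tent_wt (lam := lam) (a := a)
  have hwc := hW.continuous
  have iF : Integrable fL := stepf_integrable _ _ _ _
  have iG : Integrable gL := stepf_integrable _ _ _ _
  have iwG : Integrable (fun t => tent lam a t * gL t) := w_stepf_integrable hwc _ _ _ _
  have F0 : ∀ t, 0 ≤ fL t := stepf_nonneg (fun i _ => rc_nonneg x i)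
  have G0 : ∀ t, 0 ≤ gL t := stepf_nonneg (fun i _ => rc_nonneg y i)
  have Ff : ∀ t, fL t ≤ f t := fun t => by
    rw [← eF]; exact stepLe f x lam a m T ha hm hLf hTp t
  have Gg : ∀ t, gL t ≤ g t := fun t => by
    rw [← eG]; exact stepLe g y lam a m T ha hm hLg hTp t
  have iXk : ∀ k : ℝ → ℝ, Continuous k → Integrable fun t => fL t * k t := by
    intro k hk
    refine (w_stepf_integrable hk T (rc x) (lft lam a m) (rgt lam a m)).congr
      (Filter.Eventually.of_forall (fun t => ?_))
    simp only; ring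
  have h1 := swap_bound hW iF iG iwG iXk F0 G0 hρ.le
  refine h1.trans (mul_le_mul_of_nonneg_left ?_ (by positivity))
  -- compare the integrals
  have hbg : ∀ t, StepX.box gL ρ t ≤ R077.box g ρ t := by
    intro t
    exact intervalIntegral.integral_mono_on (by linarith) iG.intervalIntegrable
      (hLg.f_cont.intervalIntegrable _ _) (fun s _ => Gg s)
  have hbG0 : ∀ t, 0 ≤ StepX.box gL ρ t := StepX.box_nonneg G0 hρ.le
  have hcb : Continuous (R077.box g ρ) := XEnd.box_continuous hLg.f_cont ρ
  have hz : ∀ t, t ∉ Icc (lam - a / 2) (lam + 3 * a / 2) → fL t * StepX.box gL ρ t = 0 := by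
    intro t ht
    rw [← eF, stepF_zero_out ha hm hTp ht, zero_mul]
  rw [← setIntegral_eq_integral_of_forall_compl_eq_zero hz]
  refine setIntegral_mono_on (iXk _ (continuous_box iG ρ)).integrableOn
    ((hLf.f_cont.mul hcb).continuousOn.integrableOn_compact isCompact_Icc) measurableSet_Icc ?_
  intro t _
  exact mul_le_mul (Ff t) (hbg t) (hbG0 t) (hLf.f_nonneg t)

section cyl
variable {M : Type} [MeasurableSpace M] {μ : Measure M}

/-- the window integral `∫_W F(t,θ) box G(·,θ') ρ t dt` (mirror of `XEnd.window_near`) -/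
theorem window_near' [IsFiniteMeasure μ] {S : Cyl M μ} {lam a L : ℝ} {m : ℕ}
    (hW : WinOK S lam a m L) {δ : ℝ} (hδ1 : δ ≤ 1) :
    Integrable (fun z : ℝ × M × M => ∫ t in Icc (lam - a / 2) (lam + 3 * a / 2),
      S.F t z.2.1 * box (fun s => S.G s z.2.2) z.1 t) (S.nuN δ) ∧
    ∫ z, (∫ t in Icc (lam - a / 2) (lam + 3 * a / 2),
      S.F t z.2.1 * box (fun s => S.G s z.2.2) z.1 t) ∂(S.nuN δ) ≤ S.J1 (lam + 2 * a) := by
  have ha := hW.ha
  have ha1 := hW.ha1
  set W : Set ℝ := Icc (lam - a / 2) (lam + 3 * a / 2) with hWd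
  have hcont : ∀ z : ℝ × M × M, Continuous fun t =>
      S.F t z.2.1 * box (fun s => S.G s z.2.2) z.1 t := fun z =>
    (RN.F_cont (S := S) z.2.1).mul (XEnd.box_continuous (RN.G_cont (S := S) z.2.2) z.1)
  have hio : ∀ z : ℝ × M × M, IntegrableOn (fun t =>
      S.F t z.2.1 * box (fun s => S.G s z.2.2) z.1 t) W volume := fun z =>
    (hcont z).continuousOn.integrableOn_compact isCompact_Icc
  -- measurability
  have hm : Measurable fun z : ℝ × M × M => ∫ t in W,
      S.F t z.2.1 * box (fun s => S.G s z.2.2) z.1 t := by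
    refine ML.measurable_integral (f := fun (z : ℝ × M × M) t =>
      S.F t z.2.1 * box (fun s => S.G s z.2.2) z.1 t) ?_ (volume.restrict W)
    have h1 : Measurable fun y : (ℝ × M × M) × ℝ => y.1.2.1 :=
      measurable_fst.comp (measurable_snd.comp measurable_fst)
    have h2 : Measurable fun y : (ℝ × M × M) × ℝ => y.1.2.2 :=
      measurable_snd.comp (measurable_snd.comp measurable_fst)
    exact (ML.meas_F S measurable_snd h1).mul
      (ML.meas_boxG S (measurable_fst.comp measurable_fst) measurable_snd h2)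
  have hnn : ∀ z : ℝ × M × M, 0 < z.1 → ∀ t,
      0 ≤ S.F t z.2.1 * box (fun s => S.G s z.2.2) z.1 t := fun z hz t =>
    mul_nonneg (RN.F_pos S t _).le (RN.box_nonneg (fun s => (RN.G_pos S s _).le) hz.le t)
  have hsub : ∀ t ∈ W, t ∈ Icc (lam - 1) (lam + 3) := by
    intro t ht
    exact ⟨by linarith [ht.1], by linarith [ht.2]⟩
  have hint : Integrable (fun z : ℝ × M × M => ∫ t in W,
      S.F t z.2.1 * box (fun s => S.G s z.2.2) z.1 t) (S.nuN δ) := by
    refine RN.int_of_bound hW (C := L * (2 * L) * (volume W).toReal) hδ1 hm ?_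
    intro z hz hzδ
    have hL := (hW.solF z.2.1).hL
    have hb : ∀ t ∈ W, ‖S.F t z.2.1 * box (fun s => S.G s z.2.2) z.1 t‖
        ≤ L * (2 * z.1 * L) := by
      intro t ht
      have ht' := hsub t ht
      rw [Real.norm_eq_abs, abs_of_nonneg (hnn z hz t)]
      apply mul_le_mul
      · exact (hW.solF z.2.1).f_le t ⟨by linarith [ht'.1], by linarith [ht'.2]⟩
      · exact RN.box_le ((RN.G_cont (S := S) z.2.2).intervalIntegrable _ _) hz.le
          (by linarith) ht' (hW.solG z.2.2).f_le
      · exact RN.box_nonneg (fun s => (RN.G_pos S s _).le) hz.le t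
      · linarith
    have hfin : volume W < ∞ := by rw [hWd]; simp
    have h := norm_setIntegral_le_of_norm_le_const hfin hb
    rw [Real.norm_eq_abs] at h
    refine h.trans (le_of_eq ?_)
    rw [Measure.real]
    ring
  refine ⟨hint, ?_⟩
  -- comparison by lintegrals
  have e1 : ∀ᵐ z ∂(S.nuN δ), ENNReal.ofReal (∫ t in W,
      S.F t z.2.1 * box (fun s => S.G s z.2.2) z.1 t)
      = ∫⁻ t, W.indicator (fun t => ENNReal.ofReal (S.F t z.2.1)) t *
          ENNReal.ofReal (box (fun s => S.G s z.2.2) z.1 t) := by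
    filter_upwards [RN.nuN_ae S δ] with z hz
    rw [ofReal_integral_eq_lintegral_ofReal (hio z)
      (Filter.Eventually.of_forall fun t => hnn z hz.1 t),
      ← lintegral_indicator measurableSet_Icc]
    refine lintegral_congr fun t => ?_
    by_cases ht : t ∈ W
    · rw [indicator_of_mem ht, indicator_of_mem ht, ENNReal.ofReal_mul (RN.F_pos S t _).le]
    · rw [indicator_of_notMem ht, indicator_of_notMem ht, zero_mul]
  have hr : Measurable fun y : ℝ × M =>
      W.indicator (fun t => ENNReal.ofReal (S.F t y.2)) y.1 := by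
    have h1 : Measurable fun y : ℝ × M => ENNReal.ofReal (S.F y.1 y.2) :=
      (ML.meas_F S measurable_fst measurable_snd).ennreal_ofReal
    have h2 : (fun y : ℝ × M => W.indicator (fun t => ENNReal.ofReal (S.F t y.2)) y.1)
        = (Prod.fst ⁻¹' W).indicator fun y : ℝ × M => ENNReal.ofReal (S.F y.1 y.2) := by
      funext y
      by_cases hy : y.1 ∈ W
      · rw [indicator_of_mem hy, indicator_of_mem (show y ∈ Prod.fst ⁻¹' W from hy)]
      · rw [indicator_of_notMem hy, indicator_of_notMem (show y ∉ Prod.fst ⁻¹' W from hy)]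
    rw [h2]
    exact h1.indicator (measurable_fst measurableSet_Icc)
  have h3 : ∫⁻ z, ENNReal.ofReal (∫ t in W,
      S.F t z.2.1 * box (fun s => S.G s z.2.2) z.1 t) ∂(S.nuN δ) ≤ EnQ.J1E S (lam + 2 * a) := by
    rw [lintegral_congr_ae e1]
    refine (lintegral_mono' Measure.restrict_le_self le_rfl).trans ?_
    rw [ML.lint_box_G_t S (r := fun t θ => W.indicator (fun t => ENNReal.ofReal (S.F t θ)) t) hr]
    unfold EnQ.J1E
    apply lintegral_mono
    intro θ
    simp only
    rw [← lintegral_indicator measurableSet_Iic]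
    apply lintegral_mono
    intro t
    simp only
    by_cases ht : t ∈ W
    · rw [indicator_of_mem ht, indicator_of_mem (show t ∈ Iic (lam + 2 * a) from by
        have := ht.2; simp only [mem_Iic]; linarith), ENNReal.ofReal_mul (RN.F_pos S t _).le]
    · rw [indicator_of_notMem ht, zero_mul]
      exact zero_le
  have hnz : ∀ᵐ z ∂(S.nuN δ), 0 ≤ ∫ t in W,
      S.F t z.2.1 * box (fun s => S.G s z.2.2) z.1 t := by
    filter_upwards [RN.nuN_ae S δ] with z hz
    exact integral_nonneg fun t => hnn z hz.1 t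
  rw [integral_eq_lintegral_of_nonneg_ae hnz hm.aestronglyMeasurable, EnQ.J1_eq]
  exact ENNReal.toReal_mono (EnQ.J1E_ne_top S _) h3

end cyl

/-- **Stmt_Xs** -/
theorem Xs : Stmt_Xs := by
  intro M _ μ _ S lam a L m η δ hW hδ h2 h8
  have ha := hW.ha
  have ha1 := hW.ha1
  have hδ1 : δ ≤ 1 := by linarith
  have i3 := RN.int_Q3 hW η hδ1
  have i3' := RN.int_Q3' hW η hδ1
  obtain ⟨i6, t6⟩ := window_near' hW hδ1
  have hL0 : (0:ℝ) ≤ 4 / a ^ 2 := by positivity
  have key : ∀ᵐ z ∂(S.nuN δ), |(∫ t, tent lam a t * S.FLo lam a m L η t z.2.1 *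
      box (fun s => S.GLo lam a m L η s z.2.2) z.1 t)
      - ∫ t, tent lam a t * S.GLo lam a m L η t z.2.2 *
          box (fun s => S.FLo lam a m L η s z.2.1) z.1 t|
      ≤ 4 / a ^ 2 * δ * ∫ t in Icc (lam - a / 2) (lam + 3 * a / 2),
          S.F t z.2.1 * box (fun s => S.G s z.2.2) z.1 t := by
    filter_upwards [RN.nuN_ae S δ] with z hz
    have h := Xs1 (η := η) ha hW.hm hz.1 (RN.lay_F hW z.2.1) (RN.lay_G hW z.2.2)
    refine h.trans (mul_le_mul_of_nonneg_right (mul_le_mul_of_nonneg_left hz.2.le hL0) ?_)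
    refine integral_nonneg fun t => mul_nonneg (RN.F_pos S t _).le
      (RN.box_nonneg (fun s => (RN.G_pos S s _).le) hz.1.le t)
  unfold Cyl.X0 Cyl.X0'
  rw [← integral_sub i3 i3']
  refine abs_integral_le_integral_abs.trans ?_
  refine (integral_mono_ae (i3.sub i3').abs (i6.const_mul (4 / a ^ 2 * δ)) key).trans ?_
  rw [integral_const_mul]
  exact mul_le_mul_of_nonneg_left t6 (mul_nonneg hL0 hδ.le)

end Crest.Agent.R077.Xsy

namespace Crest.Agent.R077
/-- **Stmt_Xs** -/
theorem Xs : Stmt_Xs := Xsy.Xs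
end Crest.Agent.R077
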