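import Crest.Agent.R077.JInf2

/-! Row 77: `Stmt_J` from `Stmt_Ident`, `Stmt_Win` and integrability of `F V'`, `G U'`. -/

set_option autoImplicit false
set_option linter.unusedSectionVars false
open MeasureTheory Set Filter Topology
open scoped ENNReal

namespace Crest.Agent.R077.JB

variable {M : Type} [MeasurableSpace M] {μ : Measure M}

/-- integrability of `F V'` and `G U'` on `(-∞,T] × M` -/
def Stmt_IntFdV : Prop :=
  ∀ (M : Type) [MeasurableSpace M] (μ : Measure M) [IsFiniteMeasure μ] (S : Cyl M μ) (T : ℝ),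
    Integrable (fun z : M × ℝ => S.F z.2 z.1 * deriv (fun s => S.V s z.1) z.2)
      (μ.prod (volume.restrict (Iic T))) ∧
    Integrable (fun z : M × ℝ => S.G z.2 z.1 * deriv (fun s => S.U s z.1) z.2)
      (μ.prod (volume.restrict (Iic T)))

/-- `∫ φ f v'` is integrable on the line if `f v'` is on `(-∞, lam + a]` -/
theorem phi_int {a lam : ℝ} (ha : 0 < a) {k : ℝ → ℝ} (hk : Integrable k (volume.restrict (Iic (lam + a)))) :
    Integrable (fun t => phi lam a t * k t) := by
  have h1 : IntegrableOn (fun t => phi lam a t * k t) (Iic (lam + a)) := by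
    unfold IntegrableOn
    apply hk.bdd_mul (c := 1) (TP.phi_continuous lam a).aestronglyMeasurable
    exact ae_of_all _ fun t => by
      rw [Real.norm_eq_abs, abs_of_nonneg (TP.phi_nonneg ha lam t)]
      exact TP.phi_le_one lam a t
  have h2 : (fun t => phi lam a t * k t) = indicator (Iic (lam + a)) (fun t => phi lam a t * k t) := by
    funext t
    by_cases h : t ∈ Iic (lam + a)
    · rw [indicator_of_mem h]
    · rw [indicator_of_notMem h]
      have : lam + a < t := not_le.1 h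
      rw [TP.phi_eq_zero ha this.le, zero_mul]
  rw [h2]
  exact (integrable_indicator_iff measurableSet_Iic).2 h1

section cyl
variable [IsFiniteMeasure μ] (S : Cyl M μ)

theorem workF (hI : Stmt_IntFdV) {a : ℝ} (ha : 0 < a) (lam : ℝ) :
    ∫ θ, ∫ t, phi lam a t * (S.F t θ * deriv (fun s => S.V s θ) t) ∂volume ∂μ
      = (1 / (S.p + 1)) * W1 S lam a - (S.b₁ / (S.p + 1)) * P1 S lam a := by
  have i1 := (hI M μ S (lam + a)).1.prod_right_ae
  have i2 := integrable_inner (phiFV_meas S lam a) (phiFV_nonneg S ha lam) (phiFV_fin S ha lam)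
  have i3 := integrable_inner (tentFV_meas S lam a) (tentFV_nonneg S ha lam) (tentFV_fin S ha lam)
  have key : ∀ᵐ θ ∂μ, ∫ t, phi lam a t * (S.F t θ * deriv (fun s => S.V s θ) t)
      = (1 / (S.p + 1)) * (∫ t, tent lam a t * (S.F t θ * S.V t θ))
        - (S.b₁ / (S.p + 1)) * (∫ t, phi lam a t * (S.F t θ * S.V t θ)) := by
    filter_upwards [i1, i2.2, i3.2] with θ h1 h2 h3
    exact phi_by_parts S.hp (b := S.b₁) (V := fun t => S.V t θ)
      (V' := deriv (fun s => S.V s θ)) (φ := phi lam a) (w := tent lam a)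
      (fun t => S.V_pos t θ)
      (fun t => ((S.V_C1 θ).differentiable (by simp)).differentiableAt.hasDerivAt)
      (TP.phi_hasDerivAt lam a) h2 (phi_int ha h1) h3
  rw [integral_congr_ae key, integral_sub (i3.1.const_mul _) (i2.1.const_mul _),
    integral_const_mul, integral_const_mul]
  rfl

theorem workG (hI : Stmt_IntFdV) {a : ℝ} (ha : 0 < a) (lam : ℝ) :
    ∫ θ, ∫ t, phi lam a t * (S.G t θ * deriv (fun s => S.U s θ) t) ∂volume ∂μ
      = (1 / (S.q + 1)) * W2 S lam a - (S.b₂ / (S.q + 1)) * P2 S lam a := by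
  have i1 := (hI M μ S (lam + a)).2.prod_right_ae
  have i2 := integrable_inner (phiGU_meas S lam a) (phiGU_nonneg S ha lam) (phiGU_fin S ha lam)
  have i3 := integrable_inner (tentGU_meas S lam a) (tentGU_nonneg S ha lam) (tentGU_fin S ha lam)
  have key : ∀ᵐ θ ∂μ, ∫ t, phi lam a t * (S.G t θ * deriv (fun s => S.U s θ) t)
      = (1 / (S.q + 1)) * (∫ t, tent lam a t * (S.G t θ * S.U t θ))
        - (S.b₂ / (S.q + 1)) * (∫ t, phi lam a t * (S.G t θ * S.U t θ)) := by
    filter_upwards [i1, i2.2, i3.2] with θ h1 h2 h3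
    exact phi_by_parts S.hq (b := S.b₂) (V := fun t => S.U t θ)
      (V' := deriv (fun s => S.U s θ)) (φ := phi lam a) (w := tent lam a)
      (fun t => S.U_pos t θ)
      (fun t => ((S.U_C1 θ).differentiable (by simp)).differentiableAt.hasDerivAt)
      (TP.phi_hasDerivAt lam a) h2 (phi_int ha h1) h3
  rw [integral_congr_ae key, integral_sub (i3.1.const_mul _) (i2.1.const_mul _),
    integral_const_mul, integral_const_mul]
  rfl

theorem shortI_empty {a : ℝ} {m : ℕ} {η : ℝ} (hm : 0 < msh a m) (h : η ≤ msh a m) :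
    shortI a m η = ∅ := by
  unfold shortI
  rw [Finset.filter_eq_empty_iff]
  intro i hi hcon
  unfold prs at hi
  rw [Finset.mem_filter] at hi
  have h1 : (i.1 : ℝ) ≤ i.2 := by exact_mod_cast hi.2
  have h2 := hcon.2.2
  nlinarith

theorem dRho_phi_nonneg {f g : ℝ → ℝ} (hf : ∀ t, 0 ≤ f t) (hg : ∀ t, 0 ≤ g t) (lam a : ℝ) {ρ : ℝ}
    (hρ : 0 ≤ ρ) : 0 ≤ dRho f g (fun t => phi lam a t * f t) (fun t => phi lam a t * g t) ρ := by
  unfold dRho
  apply integral_nonneg
  intro t
  have h1 : phi lam a (t + ρ) ≤ phi lam a t := TP.phi_antitone lam a (by linarith)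
  have h2 : phi lam a t ≤ phi lam a (t - ρ) := TP.phi_antitone lam a (by linarith)
  have e : (phi lam a t * f t * g (t + ρ) - f t * (phi lam a (t + ρ) * g (t + ρ)))
      - (phi lam a t * f t * g (t - ρ) - f t * (phi lam a (t - ρ) * g (t - ρ)))
      = f t * g (t + ρ) * (phi lam a t - phi lam a (t + ρ))
        + f t * g (t - ρ) * (phi lam a (t - ρ) - phi lam a t) := by ring
  show (0 : ℝ) ≤ (phi lam a t * f t * g (t + ρ) - f t * (phi lam a (t + ρ) * g (t + ρ)))
      - (phi lam a t * f t * g (t - ρ) - f t * (phi lam a (t - ρ) * g (t - ρ)))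
  rw [e]
  have a1 := mul_nonneg (mul_nonneg (hf t) (hg (t + ρ))) (sub_nonneg.2 h1)
  have a2 := mul_nonneg (mul_nonneg (hf t) (hg (t - ρ))) (sub_nonneg.2 h2)
  linarith

theorem nu_ae_pos : ∀ᵐ z ∂S.nu, 0 < z.1 := by
  unfold Cyl.nu
  apply (withDensity_absolutelyContinuous _ _).ae_le
  have h : ∀ᵐ x ∂(volume.restrict (Ioi (0:ℝ))), 0 < x := ae_restrict_mem measurableSet_Ioi
  exact Measure.quasiMeasurePreserving_fst.ae h

theorem pohozaev (hId : Stmt_Ident) (hW : Stmt_Win) (hI : Stmt_IntFdV) (lam : ℝ) :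
    (S.b₁ / (S.p + 1)) * P1 S lam 1 + (S.b₂ / (S.q + 1)) * P2 S lam 1
      ≤ (1 / (S.p + 1)) * W1 S lam 1 + (1 / (S.q + 1)) * W2 S lam 1 := by
  obtain ⟨L, m₀, h⟩ := hW M μ S lam 1 one_pos le_rfl
  set m := max m₀ 1 with hmdef
  have hWin := h m (le_max_left _ _)
  have hm1 : (1 : ℝ) ≤ m := by exact_mod_cast (le_max_right m₀ 1)
  have hmsh : 0 < msh 1 m := by unfold msh; positivity
  set η : ℝ := min (msh 1 m) (1 / 8) with hη
  have hη0 : 0 < η := lt_min hmsh (by norm_num)
  have hη8 : 8 * η ≤ 1 := by have := min_le_right (msh 1 m) (1 / 8); rw [← hη] at this; linarith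
  have hemp := shortI_empty (η := η) hmsh (min_le_left _ _)
  have id := (hId M μ S lam 1 L m η hWin hη0 hη8).1
  have eF : ∀ t θ, S.OmF lam 1 m L η t θ = phi lam 1 t * S.F t θ := by
    intro t θ
    unfold Cyl.OmF omega
    rw [hemp]; simp
  have eG : ∀ t θ, S.OmG lam 1 m L η t θ = phi lam 1 t * S.G t θ := by
    intro t θ
    unfold Cyl.OmG omega
    rw [hemp]; simp
  simp_rw [eF, eG] at id
  have hR : 0 ≤ ∫ z, dRho (fun t => S.F t z.2.1) (fun t => S.G t z.2.2)
      (fun t => phi lam 1 t * S.F t z.2.1) (fun t => phi lam 1 t * S.G t z.2.2) z.1 ∂S.nu := by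
    apply integral_nonneg_of_ae
    filter_upwards [nu_ae_pos S] with z hz
    exact dRho_phi_nonneg (fun t => (F_pos S t z.2.1).le) (fun t => (G_pos S t z.2.2).le) lam 1 hz.le
  rw [← id] at hR
  have e1 := workF S hI one_pos lam
  have e2 := workG S hI one_pos lam
  simp_rw [mul_assoc] at hR
  rw [e1, e2] at hR
  linarith

end cyl

theorem J_of (hId : Stmt_Ident) (hW : Stmt_Win) (hI : Stmt_IntFdV) : Stmt_J := by
  intro M _ μ _ S hμ
  have : NeZero μ := ⟨hμ⟩
  refine ⟨fun T δ h0 h1 => ⟨J2_le S T h0 h1, J1_le S T h0 h1⟩, J1_mono S, J2_mono S, J1_nonneg S,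
    J2_nonneg S, ?_, Bfar_bound S⟩
  have hp := S.hp
  have hq := S.hq
  have ht : Tendsto S.J1 atTop atTop := by
    apply tendsto_atTop_of_pohozaev (J1 := S.J1) (J2 := S.J2) (P1 := fun l => P1 S l 1)
      (P2 := fun l => P2 S l 1) (A1 := S.b₁ / (S.p + 1)) (A2 := S.b₂ / (S.q + 1)) (C := 2) (a := 1)
      S.hD (J1_mono S) (J2_mono S) ⟨0, J1_pos S 0⟩ (fun S1 S2 h1 h2 => lim_eq S h1 h2)
      ⟨S.Bfar 1, fun T => J2_le S T one_pos le_rfl⟩
      (fun l => P1_bounds S one_pos l) (fun l => P2_bounds S one_pos l)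
    intro l
    have h1 := pohozaev S hId hW hI l
    have h2 := W1_bound S one_pos l
    have h3 := W2_bound S one_pos l
    have a1 : 1 / (S.p + 1) ≤ 1 := by rw [div_le_one (by linarith)]; linarith
    have a2 : 1 / (S.q + 1) ≤ 1 := by rw [div_le_one (by linarith)]; linarith
    have b1 : (1 / (S.p + 1)) * W1 S l 1 ≤ W1 S l 1 := by nlinarith [h2.1]
    have b2 : (1 / (S.q + 1)) * W2 S l 1 ≤ W2 S l 1 := by nlinarith [h3.1]
    have := h2.2
    have := h3.2
    linarith
  intro C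
  exact (ht.eventually (eventually_ge_atTop C)).exists

end Crest.Agent.R077.JB
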