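import Crest.Agent.R077.MeasLay
import Crest.Agent.R077.StepTV1
import Crest.Agent.R077.DFinal

/-!
# Row 77: near part of STEP R (helper392)
-/

set_option autoImplicit false
open MeasureTheory Set Real
open scoped ENNReal Topology

namespace Crest.Agent.R077.RN

/-- admissible layer data from a one dimensional solution -/
theorem lay_of_sol {b p lam L a : ℝ} {f v : ℝ → ℝ} {m : ℕ} (S : Sol b p f v lam L) (ha : 0 < a)
    (ha1 : a ≤ 1) (hm : 1 ≤ m) (hLm : 4 * L ^ 2 * msh a m ≤ 1) :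
    Lay f (samp f lam a m L) lam a m where
  f_cont := TV.Sol.f_cont' S
  f_nonneg := fun t => (TV.Sol.f_pos' S t).le
  x_nonneg := (TV.samp_seq S ha ha1 hm hLm).nonneg
  x_zero := by unfold samp; simp
  x_out := by
    intro k hk
    unfold samp
    rw [if_neg (by omega)]
  x_le := fun k h1 h2 t ht1 ht2 => TV.samp_le S ha ha1 hm h1 h2 ⟨ht1, ht2⟩

section cyl
variable {M : Type} [MeasurableSpace M] {μ : Measure M}

theorem lay_F {S : Cyl M μ} {lam a L : ℝ} {m : ℕ} (hW : WinOK S lam a m L) (θ : M) :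
    Lay (fun t => S.F t θ) (S.xF lam a m L θ) lam a m :=
  lay_of_sol (hW.solF θ) hW.ha hW.ha1 hW.hm hW.hLm

theorem lay_G {S : Cyl M μ} {lam a L : ℝ} {m : ℕ} (hW : WinOK S lam a m L) (θ : M) :
    Lay (fun t => S.G t θ) (S.xG lam a m L θ) lam a m :=
  lay_of_sol (hW.solG θ) hW.ha hW.ha1 hW.hm hW.hLm

theorem F_cont {S : Cyl M μ} (θ : M) : Continuous fun t => S.F t θ := by
  unfold Cyl.F
  have hv := (S.V_C1 θ).continuous
  exact (by fun_prop : Continuous fun t => Real.exp (S.b₁ * t)).mul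
    (hv.rpow_const (fun t => Or.inl (S.V_pos t θ).ne'))

theorem G_cont {S : Cyl M μ} (θ : M) : Continuous fun t => S.G t θ := by
  unfold Cyl.G
  have hv := (S.U_C1 θ).continuous
  exact (by fun_prop : Continuous fun t => Real.exp (S.b₂ * t)).mul
    (hv.rpow_const (fun t => Or.inl (S.U_pos t θ).ne'))

theorem F_pos (S : Cyl M μ) (t : ℝ) (θ : M) : 0 < S.F t θ := by
  unfold Cyl.F
  have := Real.rpow_pos_of_pos (S.V_pos t θ) S.p
  positivity

theorem G_pos (S : Cyl M μ) (t : ℝ) (θ : M) : 0 < S.G t θ := by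
  unfold Cyl.G
  have := Real.rpow_pos_of_pos (S.U_pos t θ) S.q
  positivity

/-! ### the kernel measure -/

theorem nu_ae [SFinite μ] (S : Cyl M μ) : ∀ᵐ z ∂S.nu, 0 < z.1 := by
  unfold Cyl.nu
  apply (withDensity_absolutelyContinuous _ _).ae_le
  show ∀ᵐ z ∂((volume.restrict (Ioi (0:ℝ))).prod (μ.prod μ)), 0 < z.1
  rw [ae_iff]
  have e : {z : ℝ × M × M | ¬ 0 < z.1} = (Iic (0:ℝ)) ×ˢ (univ : Set (M × M)) := by
    ext z; simp
  rw [e, Measure.prod_prod]
  rw [Measure.restrict_apply measurableSet_Iic]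
  have : Iic (0:ℝ) ∩ Ioi 0 = ∅ := by
    ext x; simp
  rw [this, measure_empty, zero_mul]

theorem meas_near (δ : ℝ) : MeasurableSet {z : ℝ × M × M | z.1 < δ} :=
  measurableSet_lt measurable_fst measurable_const

theorem nuN_ae [SFinite μ] (S : Cyl M μ) (δ : ℝ) : ∀ᵐ z ∂S.nuN δ, 0 < z.1 ∧ z.1 < δ := by
  unfold Cyl.nuN
  have h1 : ∀ᵐ z ∂(S.nu.restrict {z | z.1 < δ}), 0 < z.1 := ae_restrict_of_ae (nu_ae S)
  have h2 : ∀ᵐ z ∂(S.nu.restrict {z | z.1 < δ}), z ∈ {z : ℝ × M × M | z.1 < δ} :=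
    ae_restrict_mem (meas_near δ)
  filter_upwards [h1, h2] with z hz1 hz2
  exact ⟨hz1, hz2⟩

/-- iterated form of the integral with respect to `nu` -/
theorem lint_nu [SFinite μ] (S : Cyl M μ) {f : ℝ × M × M → ℝ≥0∞} (hf : Measurable f) :
    ∫⁻ z, f z ∂S.nu = ∫⁻ θ, ∫⁻ θ', ∫⁻ ρ in Ioi (0:ℝ),
      ENNReal.ofReal (S.H ρ θ θ') * f (ρ, θ, θ') ∂volume ∂μ ∂μ := by
  have hH : Measurable fun z : ℝ × M × M => ENNReal.ofReal (S.H z.1 z.2.1 z.2.2) :=
    S.H_meas.ennreal_ofReal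
  unfold Cyl.nu
  rw [lintegral_withDensity_eq_lintegral_mul _ hH hf]
  have hm : Measurable ((fun z : ℝ × M × M => ENNReal.ofReal (S.H z.1 z.2.1 z.2.2)) * f) :=
    hH.mul hf
  rw [lintegral_prod_symm' _ hm]
  rw [lintegral_prod _ (Measurable.aemeasurable ?_)]
  · rfl
  · exact hm.lintegral_prod_left'

/-- swapping the angles -/
theorem lint_nu' [SFinite μ] (S : Cyl M μ) {f : ℝ × M × M → ℝ≥0∞} (hf : Measurable f) :
    ∫⁻ z, f z ∂S.nu = ∫⁻ θ', ∫⁻ θ, ∫⁻ ρ in Ioi (0:ℝ),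
      ENNReal.ofReal (S.H ρ θ' θ) * f (ρ, θ, θ') ∂volume ∂μ ∂μ := by
  rw [lint_nu S hf, lintegral_lintegral_swap]
  · refine lintegral_congr fun θ' => lintegral_congr fun θ => ?_
    refine setLIntegral_congr_fun measurableSet_Ioi fun ρ _ => ?_
    rw [S.H_symm]
  · apply Measurable.aemeasurable
    have hH : Measurable fun z : ℝ × M × M => ENNReal.ofReal (S.H z.1 z.2.1 z.2.2) :=
      S.H_meas.ennreal_ofReal
    have hm : Measurable (fun z : ℝ × M × M => ENNReal.ofReal (S.H z.1 z.2.1 z.2.2) * f z) :=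
      hH.mul hf
    exact hm.lintegral_prod_left'

theorem box_ofReal {g : ℝ → ℝ} (hg : Continuous g) (hg0 : ∀ t, 0 ≤ g t) {ρ : ℝ} (hρ : 0 ≤ ρ)
    (t : ℝ) :
    ENNReal.ofReal (box g ρ t) = ∫⁻ s in Ioo (t - ρ) (t + ρ), ENNReal.ofReal (g s) := by
  unfold box
  rw [intervalIntegral.integral_of_le (by linarith), integral_Ioc_eq_integral_Ioo,
    ofReal_integral_eq_lintegral_ofReal]
  · exact (hg.integrableOn_Icc (a := t - ρ) (b := t + ρ)).mono_set Ioo_subset_Icc_self
  · exact Filter.Eventually.of_forall fun s => hg0 s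

/-- `∫ r(θ) box G(·,θ') ρ t dν = ∫ r V(t,·)` -/
theorem lint_box_G [SFinite μ] (S : Cyl M μ) {r : M → ℝ≥0∞} (hr : Measurable r) (t : ℝ) :
    ∫⁻ z, r z.2.1 * ENNReal.ofReal (box (fun s => S.G s z.2.2) z.1 t) ∂S.nu
      = ∫⁻ θ, r θ * ENNReal.ofReal (S.V t θ) ∂μ := by
  have hb : Measurable fun z : ℝ × M × M =>
      ENNReal.ofReal (box (fun s => S.G s z.2.2) z.1 t) :=
    (ML.meas_boxG S measurable_fst measurable_const
      (measurable_snd.comp measurable_snd)).ennreal_ofReal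
  have hm : Measurable fun z : ℝ × M × M =>
      r z.2.1 * ENNReal.ofReal (box (fun s => S.G s z.2.2) z.1 t) :=
    (hr.comp (measurable_fst.comp measurable_snd)).mul hb
  rw [lint_nu S hm]
  refine lintegral_congr fun θ => ?_
  simp only
  rw [S.repV t θ]
  have hHb : Measurable fun y : M × ℝ => ENNReal.ofReal (S.H y.2 θ y.1)
      * ENNReal.ofReal (box (fun s => S.G s y.1) y.2 t) := by
    have h1 : Measurable fun y : M × ℝ => ENNReal.ofReal (S.H y.2 θ y.1) :=
      (ML.meas_H S measurable_snd measurable_const measurable_fst).ennreal_ofReal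
    have h2 : Measurable fun y : M × ℝ =>
        ENNReal.ofReal (box (fun s => S.G s y.1) y.2 t) :=
      (ML.meas_boxG S measurable_snd measurable_const measurable_fst).ennreal_ofReal
    exact h1.mul h2
  have hin : Measurable fun θ' : M => ∫⁻ ρ in Ioi (0:ℝ), ENNReal.ofReal (S.H ρ θ θ')
      * ENNReal.ofReal (box (fun s => S.G s θ') ρ t) ∂volume :=
    hHb.lintegral_prod_right'
  have e1 : ∀ θ' : M, ∫⁻ ρ in Ioi (0:ℝ), ENNReal.ofReal (S.H ρ θ θ')
      * (r θ * ENNReal.ofReal (box (fun s => S.G s θ') ρ t)) ∂volume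
      = r θ * ∫⁻ ρ in Ioi (0:ℝ), ENNReal.ofReal (S.H ρ θ θ')
      * ENNReal.ofReal (box (fun s => S.G s θ') ρ t) ∂volume := by
    intro θ'
    rw [← lintegral_const_mul]
    · refine lintegral_congr fun ρ => ?_
      ring
    · exact hHb.comp (measurable_const.prodMk measurable_id)
  simp only [e1]
  rw [lintegral_const_mul _ hin]
  congr 1
  refine lintegral_congr fun θ' => ?_
  refine setLIntegral_congr_fun measurableSet_Ioi fun ρ hρ => ?_
  rw [box_ofReal (G_cont θ') (fun t => (G_pos S t θ').le) (le_of_lt hρ)]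
  rfl

/-- `∫ r(θ') box F(·,θ) ρ t dν = ∫ r U(t,·)` -/
theorem lint_box_F [SFinite μ] (S : Cyl M μ) {r : M → ℝ≥0∞} (hr : Measurable r) (t : ℝ) :
    ∫⁻ z, r z.2.2 * ENNReal.ofReal (box (fun s => S.F s z.2.1) z.1 t) ∂S.nu
      = ∫⁻ θ, r θ * ENNReal.ofReal (S.U t θ) ∂μ := by
  have hb : Measurable fun z : ℝ × M × M =>
      ENNReal.ofReal (box (fun s => S.F s z.2.1) z.1 t) :=
    (ML.meas_boxF S measurable_fst measurable_const
      (measurable_fst.comp measurable_snd)).ennreal_ofReal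
  have hm : Measurable fun z : ℝ × M × M =>
      r z.2.2 * ENNReal.ofReal (box (fun s => S.F s z.2.1) z.1 t) :=
    (hr.comp (measurable_snd.comp measurable_snd)).mul hb
  rw [lint_nu' S hm]
  refine lintegral_congr fun θ => ?_
  simp only
  rw [S.repU t θ]
  have hHb : Measurable fun y : M × ℝ => ENNReal.ofReal (S.H y.2 θ y.1)
      * ENNReal.ofReal (box (fun s => S.F s y.1) y.2 t) := by
    have h1 : Measurable fun y : M × ℝ => ENNReal.ofReal (S.H y.2 θ y.1) :=
      (ML.meas_H S measurable_snd measurable_const measurable_fst).ennreal_ofReal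
    have h2 : Measurable fun y : M × ℝ =>
        ENNReal.ofReal (box (fun s => S.F s y.1) y.2 t) :=
      (ML.meas_boxF S measurable_snd measurable_const measurable_fst).ennreal_ofReal
    exact h1.mul h2
  have hin : Measurable fun θ' : M => ∫⁻ ρ in Ioi (0:ℝ), ENNReal.ofReal (S.H ρ θ θ')
      * ENNReal.ofReal (box (fun s => S.F s θ') ρ t) ∂volume :=
    hHb.lintegral_prod_right'
  have e1 : ∀ θ' : M, ∫⁻ ρ in Ioi (0:ℝ), ENNReal.ofReal (S.H ρ θ θ')
      * (r θ * ENNReal.ofReal (box (fun s => S.F s θ') ρ t)) ∂volume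
      = r θ * ∫⁻ ρ in Ioi (0:ℝ), ENNReal.ofReal (S.H ρ θ θ')
      * ENNReal.ofReal (box (fun s => S.F s θ') ρ t) ∂volume := by
    intro θ'
    rw [← lintegral_const_mul]
    · refine lintegral_congr fun ρ => ?_
      ring
    · exact hHb.comp (measurable_const.prodMk measurable_id)
  simp only [e1]
  rw [lintegral_const_mul _ hin]
  congr 1
  refine lintegral_congr fun θ' => ?_
  refine setLIntegral_congr_fun measurableSet_Ioi fun ρ hρ => ?_
  rw [box_ofReal (F_cont θ') (fun t => (F_pos S t θ').le) (le_of_lt hρ)]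
  rfl

/-! ### end terms -/

theorem wend_nonneg (lam a : ℝ) {η : ℝ} (hη : 0 ≤ η) (y : ℝ) : 0 ≤ wend lam a η y := by
  unfold wend
  split_ifs
  · have h1 := TP.tent_nonneg lam a y
    have : 0 ≤ 2 * (4 / a ^ 2) * η := by positivity
    linarith
  · exact le_rfl

theorem tvS_nonneg {v : ℝ → ℝ} (hv : ∀ t, 0 ≤ v t) (x : ℕ → ℝ) (I : Finset (ℕ × ℕ))
    (lam a : ℝ) (m : ℕ) {η : ℝ} (hη : 0 ≤ η) : 0 ≤ tvS v x I lam a m η := by
  unfold tvS
  exact Finset.sum_nonneg fun i _ => mul_nonneg (StepR1.rc_nonneg x i)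
    (add_nonneg (mul_nonneg (wend_nonneg _ _ hη _) (hv _))
      (mul_nonneg (wend_nonneg _ _ hη _) (hv _)))

theorem tvS_ofReal {v : ℝ → ℝ} (hv : ∀ t, 0 ≤ v t) (x : ℕ → ℝ) (I : Finset (ℕ × ℕ))
    (lam a : ℝ) (m : ℕ) {η : ℝ} (hη : 0 ≤ η) :
    ENNReal.ofReal (tvS v x I lam a m η) = ∑ i ∈ I,
      (ENNReal.ofReal (rc x i * wend lam a η (lft lam a m i)) * ENNReal.ofReal (v (lft lam a m i))
      + ENNReal.ofReal (rc x i * wend lam a η (rgt lam a m i)) *
        ENNReal.ofReal (v (rgt lam a m i))) := by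
  unfold tvS
  rw [ENNReal.ofReal_sum_of_nonneg fun i _ => mul_nonneg (StepR1.rc_nonneg x i)
    (add_nonneg (mul_nonneg (wend_nonneg _ _ hη _) (hv _))
      (mul_nonneg (wend_nonneg _ _ hη _) (hv _)))]
  apply Finset.sum_congr rfl
  intro i _
  have h1 : 0 ≤ rc x i * wend lam a η (lft lam a m i) :=
    mul_nonneg (StepR1.rc_nonneg x i) (wend_nonneg _ _ hη _)
  have h2 : 0 ≤ rc x i * wend lam a η (rgt lam a m i) :=
    mul_nonneg (StepR1.rc_nonneg x i) (wend_nonneg _ _ hη _)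
  rw [mul_add, ← mul_assoc, ← mul_assoc, ENNReal.ofReal_add (mul_nonneg h1 (hv _))
    (mul_nonneg h2 (hv _)), ENNReal.ofReal_mul h1, ENNReal.ofReal_mul h2]

theorem box_nonneg {g : ℝ → ℝ} (hg : ∀ t, 0 ≤ g t) {ρ : ℝ} (hρ : 0 ≤ ρ) (t : ℝ) :
    0 ≤ box g ρ t :=
  intervalIntegral.integral_nonneg (by linarith) fun s _ => hg s

/-- end terms, `F` side -/
theorem lint_tvF [SFinite μ] (S : Cyl M μ) (lam a L : ℝ) (m : ℕ) (I : Finset (ℕ × ℕ)) {η : ℝ}
    (hη : 0 ≤ η) :
    ∫⁻ z, ENNReal.ofReal (tvS (box (fun s => S.G s z.2.2) z.1) (S.xF lam a m L z.2.1) I lam a m η)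
      ∂S.nu
      = ∫⁻ θ, ENNReal.ofReal (tvS (fun t => S.V t θ) (S.xF lam a m L θ) I lam a m η) ∂μ := by
  have e1 : ∫⁻ z, ENNReal.ofReal
      (tvS (box (fun s => S.G s z.2.2) z.1) (S.xF lam a m L z.2.1) I lam a m η) ∂S.nu
      = ∫⁻ z, ∑ i ∈ I,
      (ENNReal.ofReal (rc (S.xF lam a m L z.2.1) i * wend lam a η (lft lam a m i)) *
          ENNReal.ofReal (box (fun s => S.G s z.2.2) z.1 (lft lam a m i))
      + ENNReal.ofReal (rc (S.xF lam a m L z.2.1) i * wend lam a η (rgt lam a m i)) *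
        ENNReal.ofReal (box (fun s => S.G s z.2.2) z.1 (rgt lam a m i))) ∂S.nu := by
    apply lintegral_congr_ae
    filter_upwards [nu_ae S] with z hz
    exact tvS_ofReal (fun t => box_nonneg (fun s => (G_pos S s _).le) hz.le t) _ I lam a m hη
  have e2 : ∫⁻ θ, ENNReal.ofReal (tvS (fun t => S.V t θ) (S.xF lam a m L θ) I lam a m η) ∂μ
      = ∫⁻ θ, ∑ i ∈ I,
      (ENNReal.ofReal (rc (S.xF lam a m L θ) i * wend lam a η (lft lam a m i)) *
          ENNReal.ofReal (S.V (lft lam a m i) θ)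
      + ENNReal.ofReal (rc (S.xF lam a m L θ) i * wend lam a η (rgt lam a m i)) *
        ENNReal.ofReal (S.V (rgt lam a m i) θ)) ∂μ :=
    lintegral_congr fun θ => tvS_ofReal (fun t => (S.V_pos t θ).le) _ I lam a m hη
  rw [e1, e2]
  have mr : ∀ (i : ℕ × ℕ) (y : ℝ), Measurable fun θ : M =>
      ENNReal.ofReal (rc (S.xF lam a m L θ) i * wend lam a η y) := fun i y =>
    ((ML.meas_rcF S lam a m L i measurable_id).mul measurable_const).ennreal_ofReal
  have mb : ∀ y : ℝ, Measurable fun z : ℝ × M × M =>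
      ENNReal.ofReal (box (fun s => S.G s z.2.2) z.1 y) := fun y =>
    (ML.meas_boxG S measurable_fst measurable_const
      (measurable_snd.comp measurable_snd)).ennreal_ofReal
  have mV : ∀ y : ℝ, Measurable fun θ : M => ENNReal.ofReal (S.V y θ) := fun y =>
    (ML.meas_V S measurable_const measurable_id).ennreal_ofReal
  have m21 : Measurable fun z : ℝ × M × M => z.2.1 := measurable_fst.comp measurable_snd
  have p1 : ∀ (i : ℕ × ℕ) (y : ℝ), Measurable fun z : ℝ × M × M =>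
      ENNReal.ofReal (rc (S.xF lam a m L z.2.1) i * wend lam a η y) *
        ENNReal.ofReal (box (fun s => S.G s z.2.2) z.1 y) := fun i y =>
    ((mr i y).comp m21).mul (mb y)
  have p2 : ∀ (i : ℕ × ℕ) (y : ℝ), Measurable fun θ : M =>
      ENNReal.ofReal (rc (S.xF lam a m L θ) i * wend lam a η y) * ENNReal.ofReal (S.V y θ) :=
    fun i y => (mr i y).mul (mV y)
  rw [lintegral_finsetSum, lintegral_finsetSum]
  · apply Finset.sum_congr rfl
    intro i _
    rw [lintegral_add_left (p1 i _), lintegral_add_left (p2 i _),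
      lint_box_G S (mr i _), lint_box_G S (mr i _)]
  · intro i _
    exact ((mr i _).mul (mV _)).add ((mr i _).mul (mV _))
  · intro i _
    exact (((mr i _).comp m21).mul (mb _)).add (((mr i _).comp m21).mul (mb _))

/-- end terms, `G` side -/
theorem lint_tvG [SFinite μ] (S : Cyl M μ) (lam a L : ℝ) (m : ℕ) (I : Finset (ℕ × ℕ)) {η : ℝ}
    (hη : 0 ≤ η) :
    ∫⁻ z, ENNReal.ofReal (tvS (box (fun s => S.F s z.2.1) z.1) (S.xG lam a m L z.2.2) I lam a m η)
      ∂S.nu
      = ∫⁻ θ, ENNReal.ofReal (tvS (fun t => S.U t θ) (S.xG lam a m L θ) I lam a m η) ∂μ := by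
  have e1 : ∫⁻ z, ENNReal.ofReal
      (tvS (box (fun s => S.F s z.2.1) z.1) (S.xG lam a m L z.2.2) I lam a m η) ∂S.nu
      = ∫⁻ z, ∑ i ∈ I,
      (ENNReal.ofReal (rc (S.xG lam a m L z.2.2) i * wend lam a η (lft lam a m i)) *
          ENNReal.ofReal (box (fun s => S.F s z.2.1) z.1 (lft lam a m i))
      + ENNReal.ofReal (rc (S.xG lam a m L z.2.2) i * wend lam a η (rgt lam a m i)) *
        ENNReal.ofReal (box (fun s => S.F s z.2.1) z.1 (rgt lam a m i))) ∂S.nu := by
    apply lintegral_congr_ae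
    filter_upwards [nu_ae S] with z hz
    exact tvS_ofReal (fun t => box_nonneg (fun s => (F_pos S s _).le) hz.le t) _ I lam a m hη
  have e2 : ∫⁻ θ, ENNReal.ofReal (tvS (fun t => S.U t θ) (S.xG lam a m L θ) I lam a m η) ∂μ
      = ∫⁻ θ, ∑ i ∈ I,
      (ENNReal.ofReal (rc (S.xG lam a m L θ) i * wend lam a η (lft lam a m i)) *
          ENNReal.ofReal (S.U (lft lam a m i) θ)
      + ENNReal.ofReal (rc (S.xG lam a m L θ) i * wend lam a η (rgt lam a m i)) *
        ENNReal.ofReal (S.U (rgt lam a m i) θ)) ∂μ :=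
    lintegral_congr fun θ => tvS_ofReal (fun t => (S.U_pos t θ).le) _ I lam a m hη
  rw [e1, e2]
  have mr : ∀ (i : ℕ × ℕ) (y : ℝ), Measurable fun θ : M =>
      ENNReal.ofReal (rc (S.xG lam a m L θ) i * wend lam a η y) := fun i y =>
    ((ML.meas_rcG S lam a m L i measurable_id).mul measurable_const).ennreal_ofReal
  have mb : ∀ y : ℝ, Measurable fun z : ℝ × M × M =>
      ENNReal.ofReal (box (fun s => S.F s z.2.1) z.1 y) := fun y =>
    (ML.meas_boxF S measurable_fst measurable_const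
      (measurable_fst.comp measurable_snd)).ennreal_ofReal
  have mV : ∀ y : ℝ, Measurable fun θ : M => ENNReal.ofReal (S.U y θ) := fun y =>
    (ML.meas_U S measurable_const measurable_id).ennreal_ofReal
  have m22 : Measurable fun z : ℝ × M × M => z.2.2 := measurable_snd.comp measurable_snd
  have p1 : ∀ (i : ℕ × ℕ) (y : ℝ), Measurable fun z : ℝ × M × M =>
      ENNReal.ofReal (rc (S.xG lam a m L z.2.2) i * wend lam a η y) *
        ENNReal.ofReal (box (fun s => S.F s z.2.1) z.1 y) := fun i y =>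
    ((mr i y).comp m22).mul (mb y)
  have p2 : ∀ (i : ℕ × ℕ) (y : ℝ), Measurable fun θ : M =>
      ENNReal.ofReal (rc (S.xG lam a m L θ) i * wend lam a η y) * ENNReal.ofReal (S.U y θ) :=
    fun i y => (mr i y).mul (mV y)
  rw [lintegral_finsetSum, lintegral_finsetSum]
  · apply Finset.sum_congr rfl
    intro i _
    rw [lintegral_add_left (p1 i _), lintegral_add_left (p2 i _),
      lint_box_F S (mr i _), lint_box_F S (mr i _)]
  · intro i _
    exact ((mr i _).mul (mV _)).add ((mr i _).mul (mV _))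
  · intro i _
    exact (((mr i _).comp m22).mul (mb _)).add (((mr i _).comp m22).mul (mb _))

/-- uniform bound of the layer thickness -/
theorem rc_le {f : ℝ → ℝ} {x : ℕ → ℝ} {lam a L : ℝ} {m : ℕ} (hx : Lay f x lam a m)
    (ha : 0 < a) (ha1 : a ≤ 1) (hm : 1 ≤ m) (hf : ∀ t ∈ Icc (lam - 2) (lam + 4), f t ≤ L)
    {i : ℕ × ℕ} (hi : i ∈ prs m) : rc x i ≤ L := by
  have h1 := StepR1.rc_le_cc x hi
  rw [StepR1.mem_prs] at hi
  have h2 : Layers.top x i.1 i.2 ≤ x i.1 := Layers.top_le le_rfl hi.2.1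
  have h3 : 0 ≤ Layers.base x i.1 i.2 := (hx.x_nonneg _).trans (le_max_left _ _)
  have h4 : Layers.cc x i.1 i.2 ≤ x i.1 := by
    unfold Layers.cc
    exact max_le (by linarith) (hx.x_nonneg _)
  have h5 : x i.1 ≤ f (nd lam a m i.1) :=
    hx.x_le i.1 hi.1 (hi.2.1.trans hi.2.2) _ (StepR1.nd_le ha hm (Nat.sub_le _ _)) le_rfl
  have h6 := hf _ (TV.node_mem ha ha1 hm (hi.2.1.trans hi.2.2))
  linarith

theorem longI_sub (a : ℝ) (m : ℕ) (η : ℝ) {i : ℕ × ℕ} (hi : i ∈ longI a m η) : i ∈ prs m := by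
  classical
  unfold longI at hi
  exact (Finset.mem_sdiff.mp hi).1

/-- uniform bound of `tvS` -/
theorem tvS_le {f v : ℝ → ℝ} {x : ℕ → ℝ} {lam a L K : ℝ} {m : ℕ} (hx : Lay f x lam a m)
    (ha : 0 < a) (ha1 : a ≤ 1) (hm : 1 ≤ m) (hf : ∀ t ∈ Icc (lam - 2) (lam + 4), f t ≤ L)
    (hv0 : ∀ t, 0 ≤ v t) (hv : ∀ t ∈ Icc (lam - 2) (lam + 4), v t ≤ K) {η : ℝ} (hη : 0 ≤ η)
    (hL : 0 ≤ L) :
    tvS v x (longI a m η) lam a m η ≤ (∑ i ∈ longI a m η,
      L * (wend lam a η (lft lam a m i) + wend lam a η (rgt lam a m i))) * K := by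
  unfold tvS
  rw [Finset.sum_mul]
  apply Finset.sum_le_sum
  intro i hi
  have hi' := longI_sub a m η hi
  have h1 := rc_le hx ha ha1 hm hf hi'
  have hp := StepR1.mem_prs.mp hi'
  have hl : v (lft lam a m i) ≤ K := hv _ (TV.node_mem ha ha1 hm (by omega))
  have hr : v (rgt lam a m i) ≤ K := hv _ (TV.node_mem ha ha1 hm (by omega))
  have w1 := wend_nonneg lam a hη (lft lam a m i)
  have w2 := wend_nonneg lam a hη (rgt lam a m i)
  calc rc x i * (wend lam a η (lft lam a m i) * v (lft lam a m i)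
        + wend lam a η (rgt lam a m i) * v (rgt lam a m i))
      ≤ L * (wend lam a η (lft lam a m i) * K + wend lam a η (rgt lam a m i) * K) := by
        apply mul_le_mul h1
        · exact add_le_add (mul_le_mul_of_nonneg_left hl w1) (mul_le_mul_of_nonneg_left hr w2)
        · exact add_nonneg (mul_nonneg w1 (hv0 _)) (mul_nonneg w2 (hv0 _))
        · exact hL
    _ = L * (wend lam a η (lft lam a m i) + wend lam a η (rgt lam a m i)) * K := by ring

/-! ### integrability on the near part -/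

theorem box_ge {g : ℝ → ℝ} (hg : Continuous g) {K lam ρ : ℝ} (hρ : 0 ≤ ρ) (hρ1 : ρ ≤ 1)
    (hK : ∀ t ∈ Icc (lam - 2) (lam + 4), K ≤ g t) : 2 * ρ * K ≤ box g ρ lam := by
  unfold box
  have h1 : ∫ s in (lam - ρ)..(lam + ρ), K ≤ ∫ s in (lam - ρ)..(lam + ρ), g s :=
    intervalIntegral.integral_mono_on (by linarith) (by simp) (hg.intervalIntegrable _ _)
      fun s hs => hK s ⟨by linarith [hs.1], by linarith [hs.2]⟩
  rw [intervalIntegral.integral_const, smul_eq_mul] at h1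
  linarith

theorem box_le {g : ℝ → ℝ} {K lam ρ t : ℝ} (hg : IntervalIntegrable g volume (t - ρ) (t + ρ))
    (hρ : 0 ≤ ρ) (hρ1 : ρ ≤ 1)
    (ht : t ∈ Icc (lam - 1) (lam + 3))
    (hK : ∀ t ∈ Icc (lam - 2) (lam + 4), g t ≤ K) : box g ρ t ≤ 2 * ρ * K := by
  unfold box
  have h1 : ∫ s in (t - ρ)..(t + ρ), g s ≤ ∫ s in (t - ρ)..(t + ρ), K :=
    intervalIntegral.integral_mono_on (by linarith) hg (by simp)
      fun s hs => hK s ⟨by linarith [hs.1, ht.1], by linarith [hs.2, ht.2]⟩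
  rw [intervalIntegral.integral_const, smul_eq_mul] at h1
  linarith

theorem lint_rho [IsFiniteMeasure μ] {S : Cyl M μ} {lam a L : ℝ} {m : ℕ}
    (hW : WinOK S lam a m L) {δ : ℝ} (hδ1 : δ ≤ 1) :
    ∫⁻ z, ENNReal.ofReal z.1 ∂(S.nuN δ) < ∞ := by
  rcases isEmpty_or_nonempty M with hM | ⟨⟨θ₀⟩⟩
  · have : S.nuN δ = 0 := by
      have : IsEmpty (ℝ × M × M) := ⟨fun z => hM.elim z.2.1⟩
      exact Measure.eq_zero_of_isEmpty _
    rw [this]
    simp
  have hL : 1 ≤ L := (hW.solG θ₀).hL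
  have hL0 : 0 < L := by linarith
  have h1 : ∫⁻ z, ENNReal.ofReal z.1 ∂(S.nuN δ)
      ≤ ∫⁻ z, ENNReal.ofReal (L / 2) *
        ENNReal.ofReal (box (fun s => S.G s z.2.2) z.1 lam) ∂(S.nuN δ) := by
    apply lintegral_mono_ae
    filter_upwards [nuN_ae S δ] with z hz
    rw [← ENNReal.ofReal_mul (by positivity)]
    apply ENNReal.ofReal_le_ofReal
    have hge : ∀ t ∈ Icc (lam - 2) (lam + 4), 1 / L ≤ S.G t z.2.2 := by
      intro t ht
      rw [div_le_iff₀ hL0]
      linarith [(hW.solG z.2.2).f_ge t ht]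
    have := box_ge (G_cont (S := S) z.2.2) hz.1.le (by linarith [hz.2]) hge
    calc z.1 = L / 2 * (2 * z.1 * (1 / L)) := by field_simp
      _ ≤ L / 2 * box (fun s => S.G s z.2.2) z.1 lam :=
          mul_le_mul_of_nonneg_left this (by positivity)
  have h2 : ∫⁻ z, ENNReal.ofReal (L / 2) *
        ENNReal.ofReal (box (fun s => S.G s z.2.2) z.1 lam) ∂(S.nuN δ)
      ≤ ∫⁻ z, ENNReal.ofReal (L / 2) *
        ENNReal.ofReal (box (fun s => S.G s z.2.2) z.1 lam) ∂S.nu :=
    lintegral_mono' Measure.restrict_le_self le_rfl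
  have h3 := lint_box_G S (r := fun _ => ENNReal.ofReal (L / 2)) measurable_const lam
  have h4 : ∫⁻ θ, ENNReal.ofReal (L / 2) * ENNReal.ofReal (S.V lam θ) ∂μ
      ≤ ∫⁻ _θ, ENNReal.ofReal (L / 2) * ENNReal.ofReal L ∂μ := by
    apply lintegral_mono
    intro θ
    apply mul_le_mul_right
    exact ENNReal.ofReal_le_ofReal ((hW.solF θ).v_le lam ⟨by linarith, by linarith⟩)
  refine (h1.trans (h2.trans (h3.le.trans h4))).trans_lt ?_
  rw [lintegral_const]
  exact ENNReal.mul_lt_top (ENNReal.mul_lt_top ENNReal.ofReal_lt_top ENNReal.ofReal_lt_top)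
    (measure_lt_top μ _)

theorem int_rho [IsFiniteMeasure μ] {S : Cyl M μ} {lam a L : ℝ} {m : ℕ}
    (hW : WinOK S lam a m L) {δ : ℝ} (hδ1 : δ ≤ 1) :
    Integrable (fun z : ℝ × M × M => z.1) (S.nuN δ) := by
  refine ⟨measurable_fst.aestronglyMeasurable, ?_⟩
  rw [hasFiniteIntegral_iff_ofReal]
  · exact lint_rho hW hδ1
  · filter_upwards [nuN_ae S δ] with z hz
    exact hz.1.le

/-- bounded by a multiple of `ρ` ⟹ integrable on the near part -/
theorem int_of_bound [IsFiniteMeasure μ] {S : Cyl M μ} {lam a L : ℝ} {m : ℕ}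
    (hW : WinOK S lam a m L) {δ C : ℝ} (hδ1 : δ ≤ 1) {Q : ℝ × M × M → ℝ} (hQ : Measurable Q)
    (hb : ∀ z : ℝ × M × M, 0 < z.1 → z.1 < δ → |Q z| ≤ C * z.1) :
    Integrable Q (S.nuN δ) := by
  refine ((int_rho hW hδ1).const_mul C).mono' hQ.aestronglyMeasurable ?_
  filter_upwards [nuN_ae S δ] with z hz
  exact hb z hz.1 hz.2

/-- bound of the `t`-integrals -/
theorem tent_int_le {h b : ℝ → ℝ} {lam a K B : ℝ} (ha : 0 < a) (hK : 0 ≤ K)
    (hh0 : ∀ t, 0 ≤ h t) (hb0 : ∀ t, 0 ≤ b t)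
    (hh : ∀ t ∈ Icc lam (lam + a), h t ≤ K) (hb : ∀ t ∈ Icc lam (lam + a), b t ≤ B) :
    0 ≤ (∫ t, tent lam a t * h t * b t) ∧ ∫ t, tent lam a t * h t * b t ≤ K * B := by
  constructor
  · exact integral_nonneg fun t => mul_nonneg (mul_nonneg (TP.tent_nonneg _ _ _) (hh0 t)) (hb0 t)
  · have h1 : ∫ t, tent lam a t * h t * b t ≤ ∫ t, tent lam a t * (K * B) := by
      apply integral_mono_of_nonneg
      · exact Filter.Eventually.of_forall fun t =>
          mul_nonneg (mul_nonneg (TP.tent_nonneg _ _ _) (hh0 t)) (hb0 t)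
      · exact (TP.tent_integrable lam a).mul_const _
      · refine Filter.Eventually.of_forall fun t => ?_
        simp only
        by_cases ht : t ∈ Icc lam (lam + a)
        · rw [mul_assoc]
          apply mul_le_mul_of_nonneg_left _ (TP.tent_nonneg _ _ _)
          exact mul_le_mul (hh t ht) (hb t ht) (hb0 t) hK
        · rw [TP.tent_eq_zero_of_notMem ht]
          simp
    rw [integral_mul_const, TP.integral_tent ha, one_mul] at h1
    exact h1

theorem stepF_nonneg (x : ℕ → ℝ) (I : Finset (ℕ × ℕ)) (lam a : ℝ) (m : ℕ) (t : ℝ) :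
    0 ≤ stepF x I lam a m t := by
  rw [StepR1.stepF_eq]
  exact StepR1.st_nonneg (fun i _ => StepR1.rc_nonneg x i) t

theorem stepF_long_le {f : ℝ → ℝ} {x : ℕ → ℝ} {lam a : ℝ} {m : ℕ} (ha : 0 < a) (hm : 1 ≤ m)
    (hx : Lay f x lam a m) (η t : ℝ) : stepF x (longI a m η) lam a m t ≤ f t := by
  have h1 := StepR1.st_prs_le ha hm hx t
  rw [← StepR1.st_add_of_sdiff a η] at h1
  have h2 : 0 ≤ StepR1.st (shortI a m η) (rc x) (lft lam a m) (rgt lam a m) t :=
    StepR1.st_nonneg (fun i _ => StepR1.rc_nonneg x i) t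
  rw [StepR1.stepF_eq]
  linarith

theorem FLo_nonneg (S : Cyl M μ) (lam a : ℝ) (m : ℕ) (L η t : ℝ) (θ : M) :
    0 ≤ S.FLo lam a m L η t θ := stepF_nonneg _ _ _ _ _ _
theorem GLo_nonneg (S : Cyl M μ) (lam a : ℝ) (m : ℕ) (L η t : ℝ) (θ : M) :
    0 ≤ S.GLo lam a m L η t θ := stepF_nonneg _ _ _ _ _ _
theorem FLo_le {S : Cyl M μ} {lam a L : ℝ} {m : ℕ} (hW : WinOK S lam a m L) (η t : ℝ) (θ : M) :
    S.FLo lam a m L η t θ ≤ S.F t θ := stepF_long_le hW.ha hW.hm (lay_F hW θ) η t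
theorem GLo_le {S : Cyl M μ} {lam a L : ℝ} {m : ℕ} (hW : WinOK S lam a m L) (η t : ℝ) (θ : M) :
    S.GLo lam a m L η t θ ≤ S.G t θ := stepF_long_le hW.ha hW.hm (lay_G hW θ) η t

theorem stepF_intervalIntegrable (x : ℕ → ℝ) (I : Finset (ℕ × ℕ)) (lam a : ℝ) (m : ℕ)
    (u v : ℝ) : IntervalIntegrable (stepF x I lam a m) volume u v := by
  rw [StepR1.stepF_eq]
  exact StepR1.ii_of_loc (StepR1.loc_st _ _ _ _) u v

/-- `Q1` -/
theorem int_Q1 [IsFiniteMeasure μ] {S : Cyl M μ} {lam a L : ℝ} {m : ℕ}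
    (hW : WinOK S lam a m L) (η : ℝ) {δ : ℝ} (hδ1 : δ ≤ 1) :
    Integrable (fun z : ℝ × M × M => ∫ t, tent lam a t * S.FLo lam a m L η t z.2.1 *
      box (fun s => S.G s z.2.2) z.1 t) (S.nuN δ) := by
  have ha := hW.ha
  have ha1 := hW.ha1
  refine int_of_bound hW (C := L * (2 * L)) hδ1 ?_ ?_
  · refine ML.measurable_integral (f := fun (z : ℝ × M × M) t =>
      tent lam a t * S.FLo lam a m L η t z.2.1 * box (fun s => S.G s z.2.2) z.1 t) ?_ volume
    have h1 : Measurable fun y : (ℝ × M × M) × ℝ => y.1.2.1 :=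
      measurable_fst.comp (measurable_snd.comp measurable_fst)
    have h2 : Measurable fun y : (ℝ × M × M) × ℝ => y.1.2.2 :=
      measurable_snd.comp (measurable_snd.comp measurable_fst)
    exact (((ML.measurable_tent lam a).comp measurable_snd).mul
      (ML.meas_FLo S lam a m L η measurable_snd h1)).mul
      (ML.meas_boxG S (measurable_fst.comp measurable_fst) measurable_snd h2)
  · intro z hz0 hzδ
    have hL : 1 ≤ L := (hW.solG z.2.1).hL
    have h := tent_int_le (lam := lam) (a := a) (K := L) (B := 2 * z.1 * L)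
      (h := fun t => S.FLo lam a m L η t z.2.1) (b := box (fun s => S.G s z.2.2) z.1) ha
      (by linarith) (fun t => FLo_nonneg S lam a m L η t z.2.1)
      (fun t => box_nonneg (fun s => (G_pos S s _).le) hz0.le t)
      (fun t ht => (FLo_le hW η t z.2.1).trans
        ((hW.solF z.2.1).f_le t ⟨by linarith [ht.1], by linarith [ht.2]⟩))
      (fun t ht => box_le ((G_cont (S := S) z.2.2).intervalIntegrable _ _) hz0.le
        (by linarith) ⟨by linarith [ht.1], by linarith [ht.2]⟩ (hW.solG z.2.2).f_le)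
    rw [abs_of_nonneg h.1]
    calc _ ≤ L * (2 * z.1 * L) := h.2
      _ = L * (2 * L) * z.1 := by ring

/-- `Q2` -/
theorem int_Q2 [IsFiniteMeasure μ] {S : Cyl M μ} {lam a L : ℝ} {m : ℕ}
    (hW : WinOK S lam a m L) (η : ℝ) {δ : ℝ} (hδ1 : δ ≤ 1) :
    Integrable (fun z : ℝ × M × M => ∫ t, tent lam a t * S.GLo lam a m L η t z.2.2 *
      box (fun s => S.F s z.2.1) z.1 t) (S.nuN δ) := by
  have ha := hW.ha
  have ha1 := hW.ha1
  refine int_of_bound hW (C := L * (2 * L)) hδ1 ?_ ?_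
  · refine ML.measurable_integral (f := fun (z : ℝ × M × M) t =>
      tent lam a t * S.GLo lam a m L η t z.2.2 * box (fun s => S.F s z.2.1) z.1 t) ?_ volume
    have h1 : Measurable fun y : (ℝ × M × M) × ℝ => y.1.2.1 :=
      measurable_fst.comp (measurable_snd.comp measurable_fst)
    have h2 : Measurable fun y : (ℝ × M × M) × ℝ => y.1.2.2 :=
      measurable_snd.comp (measurable_snd.comp measurable_fst)
    exact (((ML.measurable_tent lam a).comp measurable_snd).mul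
      (ML.meas_GLo S lam a m L η measurable_snd h2)).mul
      (ML.meas_boxF S (measurable_fst.comp measurable_fst) measurable_snd h1)
  · intro z hz0 hzδ
    have hL : 1 ≤ L := (hW.solG z.2.1).hL
    have h := tent_int_le (lam := lam) (a := a) (K := L) (B := 2 * z.1 * L)
      (h := fun t => S.GLo lam a m L η t z.2.2) (b := box (fun s => S.F s z.2.1) z.1) ha
      (by linarith) (fun t => GLo_nonneg S lam a m L η t z.2.2)
      (fun t => box_nonneg (fun s => (F_pos S s _).le) hz0.le t)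
      (fun t ht => (GLo_le hW η t z.2.2).trans
        ((hW.solG z.2.2).f_le t ⟨by linarith [ht.1], by linarith [ht.2]⟩))
      (fun t ht => box_le ((F_cont (S := S) z.2.1).intervalIntegrable _ _) hz0.le
        (by linarith) ⟨by linarith [ht.1], by linarith [ht.2]⟩ (hW.solF z.2.1).f_le)
    rw [abs_of_nonneg h.1]
    calc _ ≤ L * (2 * z.1 * L) := h.2
      _ = L * (2 * L) * z.1 := by ring

/-- integrand of `X0` -/
theorem int_Q3 [IsFiniteMeasure μ] {S : Cyl M μ} {lam a L : ℝ} {m : ℕ}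
    (hW : WinOK S lam a m L) (η : ℝ) {δ : ℝ} (hδ1 : δ ≤ 1) :
    Integrable (fun z : ℝ × M × M => ∫ t, tent lam a t * S.FLo lam a m L η t z.2.1 *
      box (fun s => S.GLo lam a m L η s z.2.2) z.1 t) (S.nuN δ) := by
  have ha := hW.ha
  have ha1 := hW.ha1
  refine int_of_bound hW (C := L * (2 * L)) hδ1 (ML.meas_X0 S lam a m L η) ?_
  intro z hz0 hzδ
  have hL : 1 ≤ L := (hW.solG z.2.1).hL
  have h := tent_int_le (lam := lam) (a := a) (K := L) (B := 2 * z.1 * L)
    (h := fun t => S.FLo lam a m L η t z.2.1)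
    (b := box (fun s => S.GLo lam a m L η s z.2.2) z.1) ha
    (by linarith) (fun t => FLo_nonneg S lam a m L η t z.2.1)
    (fun t => box_nonneg (fun s => GLo_nonneg S lam a m L η s _) hz0.le t)
    (fun t ht => (FLo_le hW η t z.2.1).trans
      ((hW.solF z.2.1).f_le t ⟨by linarith [ht.1], by linarith [ht.2]⟩))
    (fun t ht => box_le (stepF_intervalIntegrable _ _ _ _ _ _ _) hz0.le
      (by linarith) ⟨by linarith [ht.1], by linarith [ht.2]⟩
      (fun s hs => (GLo_le hW η s z.2.2).trans ((hW.solG z.2.2).f_le s hs)))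
  rw [abs_of_nonneg h.1]
  calc _ ≤ L * (2 * z.1 * L) := h.2
    _ = L * (2 * L) * z.1 := by ring

/-- integrand of `X0'` -/
theorem int_Q3' [IsFiniteMeasure μ] {S : Cyl M μ} {lam a L : ℝ} {m : ℕ}
    (hW : WinOK S lam a m L) (η : ℝ) {δ : ℝ} (hδ1 : δ ≤ 1) :
    Integrable (fun z : ℝ × M × M => ∫ t, tent lam a t * S.GLo lam a m L η t z.2.2 *
      box (fun s => S.FLo lam a m L η s z.2.1) z.1 t) (S.nuN δ) := by
  have ha := hW.ha
  have ha1 := hW.ha1
  refine int_of_bound hW (C := L * (2 * L)) hδ1 (ML.meas_X0' S lam a m L η) ?_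
  intro z hz0 hzδ
  have hL : 1 ≤ L := (hW.solG z.2.1).hL
  have h := tent_int_le (lam := lam) (a := a) (K := L) (B := 2 * z.1 * L)
    (h := fun t => S.GLo lam a m L η t z.2.2)
    (b := box (fun s => S.FLo lam a m L η s z.2.1) z.1) ha
    (by linarith) (fun t => GLo_nonneg S lam a m L η t z.2.2)
    (fun t => box_nonneg (fun s => FLo_nonneg S lam a m L η s _) hz0.le t)
    (fun t ht => (GLo_le hW η t z.2.2).trans
      ((hW.solG z.2.2).f_le t ⟨by linarith [ht.1], by linarith [ht.2]⟩))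
    (fun t ht => box_le (stepF_intervalIntegrable _ _ _ _ _ _ _) hz0.le
      (by linarith) ⟨by linarith [ht.1], by linarith [ht.2]⟩
      (fun s hs => (FLo_le hW η s z.2.1).trans ((hW.solF z.2.1).f_le s hs)))
  rw [abs_of_nonneg h.1]
  calc _ ≤ L * (2 * z.1 * L) := h.2
    _ = L * (2 * L) * z.1 := by ring

/-- the end terms of the `F` side are dominated by `TVF` -/
theorem tvF_near [IsFiniteMeasure μ] {S : Cyl M μ} {lam a L : ℝ} {m : ℕ}
    (hW : WinOK S lam a m L) {η : ℝ} (hη : 0 ≤ η) (δ : ℝ) :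
    Integrable (fun z : ℝ × M × M => tvS (box (fun s => S.G s z.2.2) z.1)
      (S.xF lam a m L z.2.1) (longI a m η) lam a m η) (S.nuN δ) ∧
    ∫ z, tvS (box (fun s => S.G s z.2.2) z.1) (S.xF lam a m L z.2.1) (longI a m η) lam a m η
      ∂(S.nuN δ) ≤ S.TVF lam a m L η := by
  have hK := lint_tvF S lam a L m (longI a m η) hη
  have hv0 : ∀ θ t, 0 ≤ S.V t θ := fun θ t => (S.V_pos t θ).le
  have hnn : ∀ θ, 0 ≤ tvS (fun t => S.V t θ) (S.xF lam a m L θ) (longI a m η) lam a m η :=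
    fun θ => tvS_nonneg (hv0 θ) _ _ lam a m hη
  have hfin : ∫⁻ θ, ENNReal.ofReal
      (tvS (fun t => S.V t θ) (S.xF lam a m L θ) (longI a m η) lam a m η) ∂μ < ∞ := by
    have h1 : ∫⁻ θ, ENNReal.ofReal
        (tvS (fun t => S.V t θ) (S.xF lam a m L θ) (longI a m η) lam a m η) ∂μ
        ≤ ∫⁻ _θ, ENNReal.ofReal ((∑ i ∈ longI a m η,
          L * (wend lam a η (lft lam a m i) + wend lam a η (rgt lam a m i))) * L) ∂μ := by
      apply lintegral_mono
      intro θ
      apply ENNReal.ofReal_le_ofReal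
      exact tvS_le (lay_F hW θ) hW.ha hW.ha1 hW.hm (hW.solF θ).f_le (hv0 θ) (hW.solF θ).v_le hη
        (by linarith [(hW.solF θ).hL])
    refine h1.trans_lt ?_
    rw [lintegral_const]
    exact ENNReal.mul_lt_top ENNReal.ofReal_lt_top (measure_lt_top μ _)
  have hmz : Measurable fun z : ℝ × M × M => tvS (box (fun s => S.G s z.2.2) z.1)
      (S.xF lam a m L z.2.1) (longI a m η) lam a m η :=
    ML.meas_tvF_boxG S lam a m L _ η measurable_fst (measurable_fst.comp measurable_snd)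
      (measurable_snd.comp measurable_snd)
  have hnz : ∀ᵐ z ∂S.nu, 0 ≤ tvS (box (fun s => S.G s z.2.2) z.1)
      (S.xF lam a m L z.2.1) (longI a m η) lam a m η := by
    filter_upwards [nu_ae S] with z hz
    exact tvS_nonneg (fun t => box_nonneg (fun s => (G_pos S s _).le) hz.le t) _ _ lam a m hη
  have hint : Integrable (fun z : ℝ × M × M => tvS (box (fun s => S.G s z.2.2) z.1)
      (S.xF lam a m L z.2.1) (longI a m η) lam a m η) S.nu := by
    refine ⟨hmz.aestronglyMeasurable, ?_⟩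
    rw [hasFiniteIntegral_iff_ofReal hnz, hK]
    exact hfin
  refine ⟨hint.mono_measure Measure.restrict_le_self, ?_⟩
  have h2 : ∫ z, tvS (box (fun s => S.G s z.2.2) z.1) (S.xF lam a m L z.2.1)
      (longI a m η) lam a m η ∂(S.nuN δ)
      ≤ ∫ z, tvS (box (fun s => S.G s z.2.2) z.1) (S.xF lam a m L z.2.1)
      (longI a m η) lam a m η ∂S.nu :=
    integral_mono_measure Measure.restrict_le_self hnz hint
  refine h2.trans (le_of_eq ?_)
  unfold Cyl.TVF
  rw [integral_eq_lintegral_of_nonneg_ae hnz hmz.aestronglyMeasurable,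
    integral_eq_lintegral_of_nonneg_ae (Filter.Eventually.of_forall hnn)
      (ML.meas_tvF S lam a m L _ η measurable_id).aestronglyMeasurable, hK]

/-- the end terms of the `G` side are dominated by `TVG` -/
theorem tvG_near [IsFiniteMeasure μ] {S : Cyl M μ} {lam a L : ℝ} {m : ℕ}
    (hW : WinOK S lam a m L) {η : ℝ} (hη : 0 ≤ η) (δ : ℝ) :
    Integrable (fun z : ℝ × M × M => tvS (box (fun s => S.F s z.2.1) z.1)
      (S.xG lam a m L z.2.2) (longI a m η) lam a m η) (S.nuN δ) ∧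
    ∫ z, tvS (box (fun s => S.F s z.2.1) z.1) (S.xG lam a m L z.2.2) (longI a m η) lam a m η
      ∂(S.nuN δ) ≤ S.TVG lam a m L η := by
  have hK := lint_tvG S lam a L m (longI a m η) hη
  have hv0 : ∀ θ t, 0 ≤ S.U t θ := fun θ t => (S.U_pos t θ).le
  have hnn : ∀ θ, 0 ≤ tvS (fun t => S.U t θ) (S.xG lam a m L θ) (longI a m η) lam a m η :=
    fun θ => tvS_nonneg (hv0 θ) _ _ lam a m hη
  have hfin : ∫⁻ θ, ENNReal.ofReal
      (tvS (fun t => S.U t θ) (S.xG lam a m L θ) (longI a m η) lam a m η) ∂μ < ∞ := by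
    have h1 : ∫⁻ θ, ENNReal.ofReal
        (tvS (fun t => S.U t θ) (S.xG lam a m L θ) (longI a m η) lam a m η) ∂μ
        ≤ ∫⁻ _θ, ENNReal.ofReal ((∑ i ∈ longI a m η,
          L * (wend lam a η (lft lam a m i) + wend lam a η (rgt lam a m i))) * L) ∂μ := by
      apply lintegral_mono
      intro θ
      apply ENNReal.ofReal_le_ofReal
      exact tvS_le (lay_G hW θ) hW.ha hW.ha1 hW.hm (hW.solG θ).f_le (hv0 θ) (hW.solG θ).v_le hη
        (by linarith [(hW.solG θ).hL])
    refine h1.trans_lt ?_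
    rw [lintegral_const]
    exact ENNReal.mul_lt_top ENNReal.ofReal_lt_top (measure_lt_top μ _)
  have hmz : Measurable fun z : ℝ × M × M => tvS (box (fun s => S.F s z.2.1) z.1)
      (S.xG lam a m L z.2.2) (longI a m η) lam a m η :=
    ML.meas_tvG_boxF S lam a m L _ η measurable_fst (measurable_fst.comp measurable_snd)
      (measurable_snd.comp measurable_snd)
  have hnz : ∀ᵐ z ∂S.nu, 0 ≤ tvS (box (fun s => S.F s z.2.1) z.1)
      (S.xG lam a m L z.2.2) (longI a m η) lam a m η := by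
    filter_upwards [nu_ae S] with z hz
    exact tvS_nonneg (fun t => box_nonneg (fun s => (F_pos S s _).le) hz.le t) _ _ lam a m hη
  have hint : Integrable (fun z : ℝ × M × M => tvS (box (fun s => S.F s z.2.1) z.1)
      (S.xG lam a m L z.2.2) (longI a m η) lam a m η) S.nu := by
    refine ⟨hmz.aestronglyMeasurable, ?_⟩
    rw [hasFiniteIntegral_iff_ofReal hnz, hK]
    exact hfin
  refine ⟨hint.mono_measure Measure.restrict_le_self, ?_⟩
  have h2 : ∫ z, tvS (box (fun s => S.F s z.2.1) z.1) (S.xG lam a m L z.2.2)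
      (longI a m η) lam a m η ∂(S.nuN δ)
      ≤ ∫ z, tvS (box (fun s => S.F s z.2.1) z.1) (S.xG lam a m L z.2.2)
      (longI a m η) lam a m η ∂S.nu :=
    integral_mono_measure Measure.restrict_le_self hnz hint
  refine h2.trans (le_of_eq ?_)
  unfold Cyl.TVG
  rw [integral_eq_lintegral_of_nonneg_ae hnz hmz.aestronglyMeasurable,
    integral_eq_lintegral_of_nonneg_ae (Filter.Eventually.of_forall hnn)
      (ML.meas_tvG S lam a m L _ η measurable_id).aestronglyMeasurable, hK]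

/-- **near part of STEP R** -/
theorem R_near [IsFiniteMeasure μ] (S : Cyl M μ) (lam a L : ℝ) (m : ℕ) (η δ : ℝ)
    (hW : WinOK S lam a m L) (hδ : 0 < δ) (h2 : 2 * δ ≤ η) (h8 : 8 * η ≤ a)
    (hI : Integrable (fun z : ℝ × M × M => dRho (fun t => S.F t z.2.1) (fun t => S.G t z.2.2)
      (fun t => S.OmF lam a m L η t z.2.1) (fun t => S.OmG lam a m L η t z.2.2) z.1) (S.nuN δ)) :
    (∫ z, (∫ t, tent lam a t * S.FLo lam a m L η t z.2.1 *
        box (fun s => S.G s z.2.2) z.1 t) ∂(S.nuN δ))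
      + (∫ z, (∫ t, tent lam a t * S.GLo lam a m L η t z.2.2 *
        box (fun s => S.F s z.2.1) z.1 t) ∂(S.nuN δ))
      - S.X0 lam a m L η δ - 2 * η * S.TVF lam a m L η - η * S.TVG lam a m L η
    ≤ ∫ z, dRho (fun t => S.F t z.2.1) (fun t => S.G t z.2.2)
      (fun t => S.OmF lam a m L η t z.2.1) (fun t => S.OmG lam a m L η t z.2.2) z.1
      ∂(S.nuN δ) := by
  have hη : 0 < η := by linarith
  have ha1 := hW.ha1
  have hδ1 : δ ≤ 1 := by linarith
  have i1 := int_Q1 hW η hδ1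
  have i2 := int_Q2 hW η hδ1
  have i3 := int_Q3 hW η hδ1
  obtain ⟨i4, t4⟩ := tvF_near hW hη.le δ
  obtain ⟨i5, t5⟩ := tvG_near hW hη.le δ
  have key : ∀ᵐ z ∂(S.nuN δ),
      (∫ t, tent lam a t * S.FLo lam a m L η t z.2.1 * box (fun s => S.G s z.2.2) z.1 t)
      + (∫ t, tent lam a t * S.GLo lam a m L η t z.2.2 * box (fun s => S.F s z.2.1) z.1 t)
      - (∫ t, tent lam a t * S.FLo lam a m L η t z.2.1 *
          box (fun s => S.GLo lam a m L η s z.2.2) z.1 t)
      - 2 * η * tvS (box (fun s => S.G s z.2.2) z.1)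
          (S.xF lam a m L z.2.1) (longI a m η) lam a m η
      - η * tvS (box (fun s => S.F s z.2.1) z.1)
          (S.xG lam a m L z.2.2) (longI a m η) lam a m η
      ≤ dRho (fun t => S.F t z.2.1) (fun t => S.G t z.2.2)
        (fun t => S.OmF lam a m L η t z.2.1) (fun t => S.OmG lam a m L η t z.2.2) z.1 := by
    filter_upwards [nuN_ae S δ] with z hz
    exact Dkey (fun t => S.F t z.2.1) (fun t => S.G t z.2.2) (S.xF lam a m L z.2.1)
      (S.xG lam a m L z.2.2) lam a m η z.1 hW.ha hW.ha1 hW.hm hη h8 hz.1 (by linarith [hz.2])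
      (lay_F hW z.2.1) (lay_G hW z.2.2)
  have j12 := i1.add i2
  have j123 := j12.sub i3
  have j4 := i4.const_mul (2 * η)
  have j1234 := j123.sub j4
  have j5 := i5.const_mul η
  have hmono := integral_mono_ae (j1234.sub j5) hI key
  have e1 := integral_sub j1234 j5
  have e2 := integral_sub j123 j4
  have e3 := integral_sub j12 i3
  have e4 := integral_add i1 i2
  rw [integral_const_mul] at e1 e2
  have t4' := mul_le_mul_of_nonneg_left t4 (by linarith : 0 ≤ 2 * η)
  have t5' := mul_le_mul_of_nonneg_left t5 hη.le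
  unfold Cyl.X0
  simp only [Pi.add_apply, Pi.sub_apply] at hmono e1 e2 e3 e4
  linarith

end cyl

end Crest.Agent.R077.RN
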