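import Crest.Agent.R077.MeasNu
import Crest.Agent.R077.RNear
import Crest.Agent.R077.DFinal

/-!
# Row 77: `Stmt_R` (helper7).  Near part: helper392's `RN.R_near`; here the far part.
-/

set_option autoImplicit false
set_option linter.unusedSectionVars false
open MeasureTheory Set Real
open scoped ENNReal Topology

namespace Crest.Agent.R077.SR

variable {M : Type} [MeasurableSpace M] {μ : Measure M} [IsFiniteMeasure μ]

/-- the far energy as an extended number -/
noncomputable def BE (S : Cyl M μ) (δ : ℝ) : ℝ≥0∞ :=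
  ∫⁻ θ, ∫⁻ θ', ∫⁻ ρ in Ioi δ, ENNReal.ofReal (S.H ρ θ θ') *
      ∫⁻ t, ENNReal.ofReal (S.F t θ) *
        ∫⁻ s in Ioo (t - ρ) (t + ρ), ENNReal.ofReal (S.G s θ')
          ∂volume ∂volume ∂volume ∂μ ∂μ

lemma Bfar_eq (S : Cyl M μ) (δ : ℝ) : S.Bfar δ = (BE S δ).toReal := rfl

lemma BE_ne_top (S : Cyl M μ) {δ : ℝ} (h0 : 0 < δ) (h1 : δ ≤ 1) : BE S δ ≠ ∞ := by
  obtain ⟨C, κ, _, _, h⟩ := S.far
  exact ne_top_of_le_ne_top ENNReal.ofReal_ne_top (h δ ⟨h0, h1⟩)

/-- integrals of nonnegative jointly measurable bounded functions with compact `t`-support -/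
lemma ofReal_iter {Ω : Type} [MeasurableSpace Ω] {ν : Measure Ω} [IsFiniteMeasure ν]
    {g : Ω → ℝ → ℝ} (hg : Measurable fun z : Ω × ℝ => g z.1 z.2) {A B C : ℝ}
    (hpos : ∀ ω t, 0 ≤ g ω t)
    (hC : ∀ ω t, |g ω t| ≤ C) (h0 : ∀ ω t, t ∉ Icc A B → g ω t = 0) :
    ENNReal.ofReal (∫ ω, ∫ t, g ω t ∂volume ∂ν)
      = ∫⁻ ω, ∫⁻ t, ENNReal.ofReal (g ω t) ∂volume ∂ν := by
  rw [ofReal_integral_eq_lintegral_ofReal (ML.integrable_inner hg hC h0)
    (Filter.Eventually.of_forall (fun ω => integral_nonneg (fun t => hpos ω t)))]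
  refine lintegral_congr (fun ω => ?_)
  exact ofReal_integral_eq_lintegral_ofReal
    (ML.integrable_slice (hg.comp measurable_prodMk_left) (hC ω) (h0 ω))
    (Filter.Eventually.of_forall (fun t => hpos ω t))

/-- slices of the near integrands -/
lemma ofReal_tent {f g : ℝ → ℝ} (hf : Measurable f) (hg : Measurable g) {lam a A B : ℝ}
    (ha : 0 < a) (hf0 : ∀ t, 0 ≤ f t) (hg0 : ∀ t, 0 ≤ g t) (hA : 0 ≤ A) (hB : 0 ≤ B)
    (hfA : ∀ t ∈ Icc lam (lam + a), |f t| ≤ A) (hgB : ∀ t ∈ Icc lam (lam + a), |g t| ≤ B) :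
    ENNReal.ofReal (∫ t, tent lam a t * f t * g t)
      = ∫⁻ t, ENNReal.ofReal (tent lam a t * f t) * ENNReal.ofReal (g t) := by
  have hC : ∀ t, |tent lam a t * f t * g t| ≤ 2 / a * A * B := by
    intro t
    by_cases ht : t ∈ Icc lam (lam + a)
    · rw [abs_mul, abs_mul]
      have := ML.abs_tent_le (lam := lam) ha t
      gcongr
      · exact hfA t ht
      · exact hgB t ht
    · rw [TP.tent_eq_zero_of_notMem ht, zero_mul, zero_mul, abs_zero]
      positivity
  have hi : Integrable (fun t => tent lam a t * f t * g t) volume :=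
    ML.integrable_slice (((TP.tent_measurable lam a).mul hf).mul hg) hC
      (A := lam) (B := lam + a)
      (fun t ht => by rw [TP.tent_eq_zero_of_notMem ht, zero_mul, zero_mul])
  rw [ofReal_integral_eq_lintegral_ofReal hi (Filter.Eventually.of_forall (fun t =>
    mul_nonneg (mul_nonneg (TP.tent_nonneg lam a t) (hf0 t)) (hg0 t)))]
  refine lintegral_congr (fun t => ?_)
  exact ENNReal.ofReal_mul (mul_nonneg (TP.tent_nonneg lam a t) (hf0 t))

/-- far part of the kernel measure, `F` weight -/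
lemma far_le (S : Cyl M μ) {δ c : ℝ} (hδ : 0 < δ) {r : ℝ → M → ℝ≥0∞}
    (hr : Measurable fun z : ℝ × M => r z.1 z.2)
    (hrF : ∀ t θ, r t θ ≤ ENNReal.ofReal c * ENNReal.ofReal (S.F t θ)) :
    ∫⁻ z in {z : ℝ × M × M | z.1 < δ}ᶜ,
      ∫⁻ t, r t z.2.1 * ENNReal.ofReal (box (fun s => S.G s z.2.2) z.1 t) ∂volume ∂S.nu
      ≤ ENNReal.ofReal c * BE S δ := by
  have h1 : Measurable fun z : ℝ × M × M =>
      ∫⁻ t, r t z.2.1 * ENNReal.ofReal (box (fun s => S.G s z.2.2) z.1 t) := by
    refine Measurable.lintegral_prod_right' (f := fun y : (ℝ × M × M) × ℝ =>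
      r y.2 y.1.2.1 * ENNReal.ofReal (box (fun s => S.G s y.1.2.2) y.1.1 y.2)) ?_
    refine Measurable.mul ?_ ?_
    · exact hr.comp (measurable_snd.prodMk (measurable_fst.comp
        (measurable_snd.comp measurable_fst)))
    · exact (ML.meas_boxG S (measurable_fst.comp measurable_fst) measurable_snd
        (measurable_snd.comp (measurable_snd.comp measurable_fst))).ennreal_ofReal
  rw [ML.lint_far S h1 hδ]
  have hc' : ENNReal.ofReal c ≠ ∞ := ENNReal.ofReal_ne_top
  unfold BE
  rw [← lintegral_const_mul' _ _ hc']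
  refine lintegral_mono (fun θ => ?_)
  rw [← lintegral_const_mul' _ _ hc']
  refine lintegral_mono (fun θ' => ?_)
  rw [← lintegral_const_mul' _ _ hc', setLIntegral_congr Ioi_ae_eq_Ici.symm]
  refine setLIntegral_mono' measurableSet_Ioi (fun ρ hρ => ?_)
  have hρ0 : 0 ≤ ρ := (hδ.trans hρ).le
  rw [← mul_assoc, mul_comm (ENNReal.ofReal c), mul_assoc]
  refine mul_le_mul_right ?_ _
  rw [← lintegral_const_mul' _ _ hc']
  refine lintegral_mono (fun t => ?_)
  simp only
  rw [ML.ofReal_box (ML.G_cont S θ') (fun s => (ML.G_pos S s θ').le) hρ0, ← mul_assoc]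
  exact mul_le_mul_left (hrF t θ) _

/-- far part of the kernel measure, `G` weight -/
lemma far_le' (S : Cyl M μ) {δ c : ℝ} (hδ : 0 < δ) {r : ℝ → M → ℝ≥0∞}
    (hr : Measurable fun z : ℝ × M => r z.1 z.2)
    (hrG : ∀ t θ, r t θ ≤ ENNReal.ofReal c * ENNReal.ofReal (S.G t θ)) :
    ∫⁻ z in {z : ℝ × M × M | z.1 < δ}ᶜ,
      ∫⁻ t, r t z.2.2 * ENNReal.ofReal (box (fun s => S.F s z.2.1) z.1 t) ∂volume ∂S.nu
      ≤ ENNReal.ofReal c * BE S δ := by
  have h1 : Measurable fun z : ℝ × M × M =>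
      ∫⁻ t, r t z.2.2 * ENNReal.ofReal (box (fun s => S.F s z.2.1) z.1 t) := by
    refine Measurable.lintegral_prod_right' (f := fun y : (ℝ × M × M) × ℝ =>
      r y.2 y.1.2.2 * ENNReal.ofReal (box (fun s => S.F s y.1.2.1) y.1.1 y.2)) ?_
    refine Measurable.mul ?_ ?_
    · exact hr.comp (measurable_snd.prodMk (measurable_snd.comp
        (measurable_snd.comp measurable_fst)))
    · exact (ML.meas_boxF S (measurable_fst.comp measurable_fst) measurable_snd
        (measurable_fst.comp (measurable_snd.comp measurable_fst))).ennreal_ofReal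
  rw [ML.lint_far S h1 hδ]
  have hc' : ENNReal.ofReal c ≠ ∞ := ENNReal.ofReal_ne_top
  unfold BE
  rw [← lintegral_const_mul' _ _ hc']
  refine lintegral_mono (fun θ => ?_)
  rw [← lintegral_const_mul' _ _ hc']
  refine lintegral_mono (fun θ' => ?_)
  rw [← lintegral_const_mul' _ _ hc', setLIntegral_congr Ioi_ae_eq_Ici.symm]
  refine setLIntegral_mono' measurableSet_Ioi (fun ρ hρ => ?_)
  have hρ0 : 0 ≤ ρ := (hδ.trans hρ).le
  rw [← mul_assoc, mul_comm (ENNReal.ofReal c), mul_assoc]
  refine mul_le_mul_right ?_ _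
  have h2 : ∫⁻ t, ENNReal.ofReal (S.F t θ) *
        ∫⁻ s in Ioo (t - ρ) (t + ρ), ENNReal.ofReal (S.G s θ')
      = ∫⁻ t, ENNReal.ofReal (S.G t θ') *
        ∫⁻ s in Ioo (t - ρ) (t + ρ), ENNReal.ofReal (S.F s θ) := by
    have e1 : ∀ (f g : ℝ → ℝ≥0∞), Measurable g → ∀ t,
        f t * ∫⁻ s in Ioo (t - ρ) (t + ρ), g s
          = ∫⁻ s, (if |t - s| < ρ then f t * g s else 0) := by
      intro f g hg t
      rw [← lintegral_indicator measurableSet_Ioo,
        ← lintegral_const_mul _ (hg.indicator measurableSet_Ioo)]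
      refine lintegral_congr (fun s => ?_)
      by_cases h : |t - s| < ρ
      · have h' := abs_lt.1 h
        rw [if_pos h, Set.indicator_of_mem
          (show s ∈ Ioo (t - ρ) (t + ρ) from ⟨by linarith [h'.2], by linarith [h'.1]⟩)]
      · rw [if_neg h, Set.indicator_of_notMem, mul_zero]
        rintro ⟨h3, h4⟩
        exact h (abs_lt.2 ⟨by linarith, by linarith⟩)
    have mF : Measurable fun t => ENNReal.ofReal (S.F t θ) :=
      (ML.meas_F S measurable_id measurable_const).ennreal_ofReal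
    have mG : Measurable fun t => ENNReal.ofReal (S.G t θ') :=
      (ML.meas_G S measurable_id measurable_const).ennreal_ofReal
    rw [lintegral_congr (fun t => e1 (fun t => ENNReal.ofReal (S.F t θ))
      (fun s => ENNReal.ofReal (S.G s θ')) mG t),
      lintegral_congr (fun t => e1 (fun t => ENNReal.ofReal (S.G t θ'))
      (fun s => ENNReal.ofReal (S.F s θ)) mF t)]
    rw [lintegral_lintegral_swap]
    · refine lintegral_congr (fun s => lintegral_congr (fun t => ?_))
      rw [abs_sub_comm]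
      split_ifs
      · ring
      · rfl
    · refine Measurable.aemeasurable ?_
      have : Measurable fun z : ℝ × ℝ => if |z.1 - z.2| < ρ then
          ENNReal.ofReal (S.F z.1 θ) * ENNReal.ofReal (S.G z.2 θ') else 0 :=
        Measurable.ite (measurableSet_lt (measurable_fst.sub measurable_snd).abs
          measurable_const) ((mF.comp measurable_fst).mul (mG.comp measurable_snd))
          measurable_const
      exact this
  rw [h2, ← lintegral_const_mul' _ _ hc']
  refine lintegral_mono (fun t => ?_)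
  simp only
  rw [ML.ofReal_box (ML.F_cont S θ) (fun s => (ML.F_pos S s θ).le) hρ0, ← mul_assoc]
  exact mul_le_mul_left (hrG t θ') _

/-- `F` side: `∫∫ w FLo V ≤ ∫ Q1 dν_δ + (2/a) Bfar δ` -/
lemma split_F {S : Cyl M μ} {lam a L : ℝ} {m : ℕ} (h : WinOK S lam a m L) (η : ℝ) {δ : ℝ}
    (hδ : 0 < δ) (hδ1 : δ ≤ 1) :
    (∫ θ, ∫ t, tent lam a t * (S.FLo lam a m L η t θ * S.V t θ) ∂volume ∂μ)
      ≤ (∫ z, (∫ t, tent lam a t * S.FLo lam a m L η t z.2.1 *
        box (fun s => S.G s z.2.2) z.1 t) ∂(S.nuN δ)) + (2 / a) * S.Bfar δ := by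
  have ha := h.ha
  have ha1 := h.ha1
  set r : ℝ → M → ℝ≥0∞ := fun t θ => ENNReal.ofReal (tent lam a t * S.FLo lam a m L η t θ)
    with hr
  have hrm : Measurable fun z : ℝ × M => r z.1 z.2 :=
    (((TP.tent_measurable lam a).comp measurable_fst).mul
      (ML.meas_FLo S lam a m L η measurable_fst measurable_snd)).ennreal_ofReal
  -- the left side
  have e1 : ENNReal.ofReal
      (∫ θ, ∫ t, tent lam a t * (S.FLo lam a m L η t θ * S.V t θ) ∂volume ∂μ)
      = ∫⁻ θ, ∫⁻ t, r t θ * ENNReal.ofReal (S.V t θ) ∂volume ∂μ := by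
    rw [ofReal_iter (A := lam) (B := lam + a) (C := 2 / a * (L * L))]
    · refine lintegral_congr (fun θ => lintegral_congr (fun t => ?_))
      rw [← mul_assoc]
      exact ENNReal.ofReal_mul (mul_nonneg (TP.tent_nonneg lam a t) (ML.FLo_nonneg S _ _ _ _ _ _ _))
    · exact ((TP.tent_measurable lam a).comp measurable_snd).mul
        ((ML.meas_FLo S lam a m L η measurable_snd measurable_fst).mul
          (ML.meas_V S measurable_snd measurable_fst))
    · intro θ t
      exact mul_nonneg (TP.tent_nonneg lam a t) (mul_nonneg (ML.FLo_nonneg S _ _ _ _ _ _ _)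
        (S.V_pos t θ).le)
    · intro θ t
      have hL := ML.L_ge' h θ
      by_cases ht : t ∈ Icc lam (lam + a)
      · rw [abs_mul, abs_mul]
        have h1 := ML.abs_tent_le (lam := lam) ha t
        have h2 := ML.abs_FLo_le h η t θ
        have h3 : |S.V t θ| ≤ L := by
          rw [abs_of_pos (S.V_pos t θ)]
          exact ML.V_le h ⟨by linarith [ht.1], by linarith [ht.2]⟩ θ
        have : 0 ≤ 2 / a := by positivity
        gcongr
      · rw [TP.tent_eq_zero_of_notMem ht, zero_mul, abs_zero]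
        positivity
    · intro θ t ht
      rw [TP.tent_eq_zero_of_notMem ht, zero_mul]
  -- the near part
  have hmQ : Measurable fun z : ℝ × M × M =>
      ∫⁻ t, r t z.2.1 * ENNReal.ofReal (box (fun s => S.G s z.2.2) z.1 t) := by
    refine Measurable.lintegral_prod_right' (f := fun y : (ℝ × M × M) × ℝ =>
      r y.2 y.1.2.1 * ENNReal.ofReal (box (fun s => S.G s y.1.2.2) y.1.1 y.2)) ?_
    have g1 : Measurable fun y : (ℝ × M × M) × ℝ => r y.2 y.1.2.1 :=
      hrm.comp (measurable_snd.prodMk (measurable_fst.comp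
        (measurable_snd.comp measurable_fst)))
    exact g1.mul (ML.meas_boxG S (measurable_fst.comp measurable_fst) measurable_snd
        (measurable_snd.comp (measurable_snd.comp measurable_fst))).ennreal_ofReal
  have e2 : ∫⁻ z in {z : ℝ × M × M | z.1 < δ},
      ∫⁻ t, r t z.2.1 * ENNReal.ofReal (box (fun s => S.G s z.2.2) z.1 t) ∂volume ∂S.nu
      = ENNReal.ofReal (∫ z, (∫ t, tent lam a t * S.FLo lam a m L η t z.2.1 *
        box (fun s => S.G s z.2.2) z.1 t) ∂(S.nuN δ)) := by
    rw [ofReal_integral_eq_lintegral_ofReal (ML.integrable_Q1 h η hδ1)]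
    · refine lintegral_congr_ae ?_
      filter_upwards [ML.ae_nuN S δ] with z hz
      have hL := ML.L_ge' h z.2.1
      rw [hr]
      simp only
      symm
      refine ofReal_tent (A := L) (B := 2 * L * z.1)
        (ML.meas_FLo S lam a m L η measurable_id' measurable_const)
        (ML.meas_boxG S measurable_const measurable_id' measurable_const) ha
        (fun t => ML.FLo_nonneg S _ _ _ _ _ _ _)
        (fun t => ML.box_nonneg (fun s => (ML.G_pos S s _).le) hz.1.le t)
        (by linarith) (by have := hz.1; positivity) (fun t _ => ML.abs_FLo_le h η t _)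
        (fun t ht => ML.abs_boxG_le h hz.1.le (by linarith [hz.2])
          ⟨by linarith [ht.1], by linarith [ht.2]⟩ _)
    · filter_upwards [ML.ae_nuN S δ] with z hz
      refine integral_nonneg (fun t => mul_nonneg (mul_nonneg (TP.tent_nonneg lam a t)
        (ML.FLo_nonneg S _ _ _ _ _ _ _))
        (ML.box_nonneg (fun s => (ML.G_pos S s _).le) hz.1.le t))
  -- the far part
  have e3 := far_le S (c := 2 / a) hδ hrm (fun t θ => by
    rw [hr, ← ENNReal.ofReal_mul (by positivity)]
    refine ENNReal.ofReal_le_ofReal ?_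
    exact mul_le_mul (TP.tent_le ha lam t) (ML.FLo_le h η t θ) (ML.FLo_nonneg S _ _ _ _ _ _ _)
      (by positivity))
  have e4 : ∫⁻ θ, ∫⁻ t, r t θ * ENNReal.ofReal (S.V t θ) ∂volume ∂μ
      ≤ ENNReal.ofReal (∫ z, (∫ t, tent lam a t * S.FLo lam a m L η t z.2.1 *
        box (fun s => S.G s z.2.2) z.1 t) ∂(S.nuN δ)) + ENNReal.ofReal (2 / a) * BE S δ := by
    rw [← ML.lint_box_G_t S hrm, ← lintegral_add_compl _ (ML.measurableSet_near δ), e2]
    gcongr
  have hQ0 : 0 ≤ ∫ z, (∫ t, tent lam a t * S.FLo lam a m L η t z.2.1 *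
        box (fun s => S.G s z.2.2) z.1 t) ∂(S.nuN δ) := by
    refine integral_nonneg_of_ae ?_
    filter_upwards [ML.ae_nuN S δ] with z hz
    exact integral_nonneg (fun t => mul_nonneg (mul_nonneg (TP.tent_nonneg lam a t)
        (ML.FLo_nonneg S _ _ _ _ _ _ _))
        (ML.box_nonneg (fun s => (ML.G_pos S s _).le) hz.1.le t))
  rw [← e1] at e4
  have hBE : BE S δ = ENNReal.ofReal (S.Bfar δ) := by
    rw [Bfar_eq, ENNReal.ofReal_toReal (BE_ne_top S hδ hδ1)]
  have hB0 : 0 ≤ S.Bfar δ := by rw [Bfar_eq]; exact ENNReal.toReal_nonneg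
  rw [hBE, ← ENNReal.ofReal_mul (by positivity), ← ENNReal.ofReal_add hQ0 (by positivity)] at e4
  exact (ENNReal.ofReal_le_ofReal_iff (by positivity)).1 e4

/-- `G` side -/
lemma split_G {S : Cyl M μ} {lam a L : ℝ} {m : ℕ} (h : WinOK S lam a m L) (η : ℝ) {δ : ℝ}
    (hδ : 0 < δ) (hδ1 : δ ≤ 1) :
    (∫ θ, ∫ t, tent lam a t * (S.GLo lam a m L η t θ * S.U t θ) ∂volume ∂μ)
      ≤ (∫ z, (∫ t, tent lam a t * S.GLo lam a m L η t z.2.2 *
        box (fun s => S.F s z.2.1) z.1 t) ∂(S.nuN δ)) + (2 / a) * S.Bfar δ := by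
  have ha := h.ha
  have ha1 := h.ha1
  set r : ℝ → M → ℝ≥0∞ := fun t θ => ENNReal.ofReal (tent lam a t * S.GLo lam a m L η t θ)
    with hr
  have hrm : Measurable fun z : ℝ × M => r z.1 z.2 :=
    (((TP.tent_measurable lam a).comp measurable_fst).mul
      (ML.meas_GLo S lam a m L η measurable_fst measurable_snd)).ennreal_ofReal
  have e1 : ENNReal.ofReal
      (∫ θ, ∫ t, tent lam a t * (S.GLo lam a m L η t θ * S.U t θ) ∂volume ∂μ)
      = ∫⁻ θ, ∫⁻ t, r t θ * ENNReal.ofReal (S.U t θ) ∂volume ∂μ := by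
    rw [ofReal_iter (A := lam) (B := lam + a) (C := 2 / a * (L * L))]
    · refine lintegral_congr (fun θ => lintegral_congr (fun t => ?_))
      rw [← mul_assoc]
      exact ENNReal.ofReal_mul (mul_nonneg (TP.tent_nonneg lam a t) (ML.GLo_nonneg S _ _ _ _ _ _ _))
    · exact ((TP.tent_measurable lam a).comp measurable_snd).mul
        ((ML.meas_GLo S lam a m L η measurable_snd measurable_fst).mul
          (ML.meas_U S measurable_snd measurable_fst))
    · intro θ t
      exact mul_nonneg (TP.tent_nonneg lam a t) (mul_nonneg (ML.GLo_nonneg S _ _ _ _ _ _ _)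
        (S.U_pos t θ).le)
    · intro θ t
      have hL := ML.L_ge' h θ
      by_cases ht : t ∈ Icc lam (lam + a)
      · rw [abs_mul, abs_mul]
        have h1 := ML.abs_tent_le (lam := lam) ha t
        have h2 := ML.abs_GLo_le h η t θ
        have h3 : |S.U t θ| ≤ L := by
          rw [abs_of_pos (S.U_pos t θ)]
          exact ML.U_le h ⟨by linarith [ht.1], by linarith [ht.2]⟩ θ
        have : 0 ≤ 2 / a := by positivity
        gcongr
      · rw [TP.tent_eq_zero_of_notMem ht, zero_mul, abs_zero]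
        positivity
    · intro θ t ht
      rw [TP.tent_eq_zero_of_notMem ht, zero_mul]
  have hmQ : Measurable fun z : ℝ × M × M =>
      ∫⁻ t, r t z.2.2 * ENNReal.ofReal (box (fun s => S.F s z.2.1) z.1 t) := by
    refine Measurable.lintegral_prod_right' (f := fun y : (ℝ × M × M) × ℝ =>
      r y.2 y.1.2.2 * ENNReal.ofReal (box (fun s => S.F s y.1.2.1) y.1.1 y.2)) ?_
    have g1 : Measurable fun y : (ℝ × M × M) × ℝ => r y.2 y.1.2.2 :=
      hrm.comp (measurable_snd.prodMk (measurable_snd.comp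
        (measurable_snd.comp measurable_fst)))
    exact g1.mul (ML.meas_boxF S (measurable_fst.comp measurable_fst) measurable_snd
        (measurable_fst.comp (measurable_snd.comp measurable_fst))).ennreal_ofReal
  have e2 : ∫⁻ z in {z : ℝ × M × M | z.1 < δ},
      ∫⁻ t, r t z.2.2 * ENNReal.ofReal (box (fun s => S.F s z.2.1) z.1 t) ∂volume ∂S.nu
      = ENNReal.ofReal (∫ z, (∫ t, tent lam a t * S.GLo lam a m L η t z.2.2 *
        box (fun s => S.F s z.2.1) z.1 t) ∂(S.nuN δ)) := by
    rw [ofReal_integral_eq_lintegral_ofReal (ML.integrable_Q2 h η hδ1)]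
    · refine lintegral_congr_ae ?_
      filter_upwards [ML.ae_nuN S δ] with z hz
      have hL := ML.L_ge' h z.2.1
      rw [hr]
      simp only
      symm
      refine ofReal_tent (A := L) (B := 2 * L * z.1)
        (ML.meas_GLo S lam a m L η measurable_id' measurable_const)
        (ML.meas_boxF S measurable_const measurable_id' measurable_const) ha
        (fun t => ML.GLo_nonneg S _ _ _ _ _ _ _)
        (fun t => ML.box_nonneg (fun s => (ML.F_pos S s _).le) hz.1.le t)
        (by linarith) (by have := hz.1; positivity) (fun t _ => ML.abs_GLo_le h η t _)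
        (fun t ht => ML.abs_boxF_le h hz.1.le (by linarith [hz.2])
          ⟨by linarith [ht.1], by linarith [ht.2]⟩ _)
    · filter_upwards [ML.ae_nuN S δ] with z hz
      refine integral_nonneg (fun t => mul_nonneg (mul_nonneg (TP.tent_nonneg lam a t)
        (ML.GLo_nonneg S _ _ _ _ _ _ _))
        (ML.box_nonneg (fun s => (ML.F_pos S s _).le) hz.1.le t))
  have e3 := far_le' S (c := 2 / a) hδ hrm (fun t θ => by
    rw [hr, ← ENNReal.ofReal_mul (by positivity)]
    refine ENNReal.ofReal_le_ofReal ?_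
    exact mul_le_mul (TP.tent_le ha lam t) (ML.GLo_le h η t θ) (ML.GLo_nonneg S _ _ _ _ _ _ _)
      (by positivity))
  have e4 : ∫⁻ θ, ∫⁻ t, r t θ * ENNReal.ofReal (S.U t θ) ∂volume ∂μ
      ≤ ENNReal.ofReal (∫ z, (∫ t, tent lam a t * S.GLo lam a m L η t z.2.2 *
        box (fun s => S.F s z.2.1) z.1 t) ∂(S.nuN δ)) + ENNReal.ofReal (2 / a) * BE S δ := by
    rw [← ML.lint_box_F_t S hrm, ← lintegral_add_compl _ (ML.measurableSet_near δ), e2]
    gcongr
  have hQ0 : 0 ≤ ∫ z, (∫ t, tent lam a t * S.GLo lam a m L η t z.2.2 *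
        box (fun s => S.F s z.2.1) z.1 t) ∂(S.nuN δ) := by
    refine integral_nonneg_of_ae ?_
    filter_upwards [ML.ae_nuN S δ] with z hz
    exact integral_nonneg (fun t => mul_nonneg (mul_nonneg (TP.tent_nonneg lam a t)
        (ML.GLo_nonneg S _ _ _ _ _ _ _))
        (ML.box_nonneg (fun s => (ML.F_pos S s _).le) hz.1.le t))
  rw [← e1] at e4
  have hBE : BE S δ = ENNReal.ofReal (S.Bfar δ) := by
    rw [Bfar_eq, ENNReal.ofReal_toReal (BE_ne_top S hδ hδ1)]
  have hB0 : 0 ≤ S.Bfar δ := by rw [Bfar_eq]; exact ENNReal.toReal_nonneg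
  rw [hBE, ← ENNReal.ofReal_mul (by positivity), ← ENNReal.ofReal_add hQ0 (by positivity)] at e4
  exact (ENNReal.ofReal_le_ofReal_iff (by positivity)).1 e4

/-- `Stmt_R` from the weak identity (only its integrability half is used) -/
theorem R_of (hId : Stmt_Ident) : Stmt_R := by
  intro M _ μ _ S lam a L m η δ h hδ h2 h8
  have ha := h.ha
  have ha1 := h.ha1
  have hη : 0 < η := by linarith
  have hI := (hId M μ S lam a L m η h hη h8).2
  have hIn : Integrable (fun z : ℝ × M × M => dRho (fun t => S.F t z.2.1) (fun t => S.G t z.2.2)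
      (fun t => S.OmF lam a m L η t z.2.1) (fun t => S.OmG lam a m L η t z.2.2) z.1) (S.nuN δ) :=
    hI.restrict
  have hnear := RN.R_near S lam a L m η δ h hδ h2 h8 hIn
  have hpos : 0 ≤ᵐ[S.nu] fun z : ℝ × M × M => dRho (fun t => S.F t z.2.1)
      (fun t => S.G t z.2.2) (fun t => S.OmF lam a m L η t z.2.1)
      (fun t => S.OmG lam a m L η t z.2.2) z.1 := by
    filter_upwards [ML.ae_nu S] with z hz
    exact Dpos (fun t => S.F t z.2.1) (fun t => S.G t z.2.2) (S.xF lam a m L z.2.1)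
      (S.xG lam a m L z.2.2) lam a m η z.1 ha ha1 h.hm hη h8 hz (ML.layF h _) (ML.layG h _)
  have hle := setIntegral_le_integral (s := {z : ℝ × M × M | z.1 < δ}) hI hpos
  have hF := split_F h η hδ (by linarith)
  have hG := split_G h η hδ (by linarith)
  have hle' : (∫ z, dRho (fun t => S.F t z.2.1) (fun t => S.G t z.2.2)
      (fun t => S.OmF lam a m L η t z.2.1) (fun t => S.OmG lam a m L η t z.2.2) z.1
      ∂(S.nuN δ)) ≤ ∫ z, dRho (fun t => S.F t z.2.1) (fun t => S.G t z.2.2)
      (fun t => S.OmF lam a m L η t z.2.1) (fun t => S.OmG lam a m L η t z.2.2) z.1 ∂S.nu := hle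
  have h4 : (4 / a) * S.Bfar δ = (2 / a) * S.Bfar δ + (2 / a) * S.Bfar δ := by ring
  linarith

end Crest.Agent.R077.SR
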