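import Crest.Agent.R077.MeasBd

/-!
# Row 77: the kernel measures `nu`, `nuN δ` (helper7)
-/

set_option autoImplicit false
set_option linter.unusedSectionVars false
open MeasureTheory Set Real
open scoped ENNReal Topology

namespace Crest.Agent.R077.ML

section nu
variable {M : Type} [MeasurableSpace M] {μ : Measure M} [IsFiniteMeasure μ] (S : Cyl M μ)

lemma meas_Hz : Measurable fun z : ℝ × M × M => ENNReal.ofReal (S.H z.1 z.2.1 z.2.2) :=
  S.H_meas.ennreal_ofReal

instance : SFinite S.nu := by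
  unfold Cyl.nu
  infer_instance

instance (δ : ℝ) : SFinite (S.nuN δ) := by
  unfold Cyl.nuN
  infer_instance

/-- `∫ f dν = ∫θ ∫θ' ∫_{ρ>0} H f` -/
lemma lint_nu {f : ℝ × M × M → ℝ≥0∞} (hf : Measurable f) :
    ∫⁻ z, f z ∂S.nu = ∫⁻ θ, ∫⁻ θ', ∫⁻ ρ in Ioi (0:ℝ),
      ENNReal.ofReal (S.H ρ θ θ') * f (ρ, θ, θ') ∂volume ∂μ ∂μ := by
  unfold Cyl.nu
  rw [lintegral_withDensity_eq_lintegral_mul _ (meas_Hz S) hf]
  have h1 : Measurable ((fun z : ℝ × M × M => ENNReal.ofReal (S.H z.1 z.2.1 z.2.2)) * f) :=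
    (meas_Hz S).mul hf
  rw [lintegral_prod_symm _ h1.aemeasurable]
  rw [lintegral_prod _ (Measurable.lintegral_prod_left' h1).aemeasurable]
  rfl

/-- `∫ f dν = ∫_{ρ>0} ∫θ ∫θ' H f` -/
lemma lint_nu' {f : ℝ × M × M → ℝ≥0∞} (hf : Measurable f) :
    ∫⁻ z, f z ∂S.nu = ∫⁻ ρ in Ioi (0:ℝ), ∫⁻ θ, ∫⁻ θ',
      ENNReal.ofReal (S.H ρ θ θ') * f (ρ, θ, θ') ∂μ ∂μ ∂volume := by
  unfold Cyl.nu
  rw [lintegral_withDensity_eq_lintegral_mul _ (meas_Hz S) hf]
  have h1 : Measurable ((fun z : ℝ × M × M => ENNReal.ofReal (S.H z.1 z.2.1 z.2.2)) * f) :=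
    (meas_Hz S).mul hf
  rw [lintegral_prod _ h1.aemeasurable]
  refine lintegral_congr (fun ρ => ?_)
  have h2 : Measurable fun y : M × M =>
      ((fun z : ℝ × M × M => ENNReal.ofReal (S.H z.1 z.2.1 z.2.2)) * f) (ρ, y) :=
    h1.comp measurable_prodMk_left
  rw [lintegral_prod _ h2.aemeasurable]
  rfl

lemma measurableSet_near (δ : ℝ) : MeasurableSet {z : ℝ × M × M | z.1 < δ} :=
  measurableSet_lt measurable_fst measurable_const

/-- `∫ f dν_δ = ∫θ ∫θ' ∫_{0<ρ<δ} H f` -/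
lemma lint_nuN {f : ℝ × M × M → ℝ≥0∞} (hf : Measurable f) (δ : ℝ) :
    ∫⁻ z, f z ∂(S.nuN δ) = ∫⁻ θ, ∫⁻ θ', ∫⁻ ρ in Ioo (0:ℝ) δ,
      ENNReal.ofReal (S.H ρ θ θ') * f (ρ, θ, θ') ∂volume ∂μ ∂μ := by
  unfold Cyl.nuN
  rw [← lintegral_indicator (measurableSet_near δ), lint_nu S (hf.indicator (measurableSet_near δ))]
  refine lintegral_congr (fun θ => lintegral_congr (fun θ' => ?_))
  rw [← lintegral_indicator measurableSet_Ioi, ← lintegral_indicator measurableSet_Ioo]
  refine lintegral_congr (fun ρ => ?_)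
  by_cases h0 : ρ ∈ Ioi (0:ℝ)
  · by_cases h1 : ρ < δ
    · rw [Set.indicator_of_mem h0, Set.indicator_of_mem (show ρ ∈ Ioo 0 δ from ⟨h0, h1⟩),
        Set.indicator_of_mem (show (ρ, θ, θ') ∈ {z : ℝ × M × M | z.1 < δ} from h1)]
    · rw [Set.indicator_of_mem h0,
        Set.indicator_of_notMem (show ρ ∉ Ioo 0 δ from fun h => h1 h.2),
        Set.indicator_of_notMem (show (ρ, θ, θ') ∉ {z : ℝ × M × M | z.1 < δ} from h1), mul_zero]
  · rw [Set.indicator_of_notMem h0,
      Set.indicator_of_notMem (show ρ ∉ Ioo 0 δ from fun h => h0 h.1)]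

/-- the complementary (far) part, `δ ≤ ρ` -/
lemma lint_far {f : ℝ × M × M → ℝ≥0∞} (hf : Measurable f) {δ : ℝ} (hδ : 0 < δ) :
    ∫⁻ z in {z : ℝ × M × M | z.1 < δ}ᶜ, f z ∂S.nu = ∫⁻ θ, ∫⁻ θ', ∫⁻ ρ in Ici δ,
      ENNReal.ofReal (S.H ρ θ θ') * f (ρ, θ, θ') ∂volume ∂μ ∂μ := by
  rw [← lintegral_indicator (measurableSet_near δ).compl,
    lint_nu S (hf.indicator (measurableSet_near δ).compl)]
  refine lintegral_congr (fun θ => lintegral_congr (fun θ' => ?_))
  rw [← lintegral_indicator measurableSet_Ioi, ← lintegral_indicator measurableSet_Ici]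
  refine lintegral_congr (fun ρ => ?_)
  by_cases h1 : δ ≤ ρ
  · have h0 : ρ ∈ Ioi (0:ℝ) := lt_of_lt_of_le hδ h1
    rw [Set.indicator_of_mem h0, Set.indicator_of_mem (show ρ ∈ Ici δ from h1),
      Set.indicator_of_mem
        (show (ρ, θ, θ') ∈ {z : ℝ × M × M | z.1 < δ}ᶜ from not_lt.2 h1)]
  · rw [Set.indicator_of_notMem (show ρ ∉ Ici δ from h1)]
    by_cases h0 : ρ ∈ Ioi (0:ℝ)
    · rw [Set.indicator_of_mem h0, Set.indicator_of_notMem
        (show (ρ, θ, θ') ∉ {z : ℝ × M × M | z.1 < δ}ᶜ from fun h => h (not_le.1 h1)), mul_zero]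
    · rw [Set.indicator_of_notMem h0]

/-- `0 < ρ` almost everywhere -/
lemma ae_nu : ∀ᵐ z ∂S.nu, 0 < z.1 := by
  have hm : MeasurableSet {z : ℝ × M × M | ¬ 0 < z.1} :=
    (measurableSet_lt measurable_const measurable_fst).compl
  rw [ae_iff, ← lintegral_indicator_one hm, lint_nu S (measurable_one.indicator hm)]
  refine (lintegral_congr (fun θ => ?_)).trans lintegral_zero
  refine (lintegral_congr (fun θ' => ?_)).trans lintegral_zero
  refine (setLIntegral_congr_fun measurableSet_Ioi (fun ρ hρ => ?_)).trans lintegral_zero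
  have hρ' : (0:ℝ) < ρ := hρ
  simp [hρ']

lemma ae_nuN (δ : ℝ) : ∀ᵐ z ∂(S.nuN δ), 0 < z.1 ∧ z.1 < δ := by
  unfold Cyl.nuN
  have h1 : ∀ᵐ z ∂(S.nu.restrict {z : ℝ × M × M | z.1 < δ}), z.1 < δ :=
    ae_restrict_mem (measurableSet_near δ)
  have h2 : ∀ᵐ z ∂(S.nu.restrict {z : ℝ × M × M | z.1 < δ}), 0 < z.1 :=
    ae_restrict_of_ae (ae_nu S)
  filter_upwards [h1, h2] with z a b
  exact ⟨b, a⟩

/-- exchanging the two angles preserves `nu` -/
lemma lint_swap {f : ℝ × M × M → ℝ≥0∞} (hf : Measurable f) :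
    ∫⁻ z, f (z.1, z.2.2, z.2.1) ∂S.nu = ∫⁻ z, f z ∂S.nu := by
  have hs : Measurable fun z : ℝ × M × M => ((z.1, z.2.2, z.2.1) : ℝ × M × M) :=
    measurable_fst.prodMk ((measurable_snd.comp measurable_snd).prodMk
      (measurable_fst.comp measurable_snd))
  have hfs : Measurable fun z : ℝ × M × M => f (z.1, z.2.2, z.2.1) := hf.comp hs
  rw [lint_nu' S hfs, lint_nu' S hf]
  refine lintegral_congr (fun ρ => ?_)
  have h1 : Measurable (Function.uncurry fun (θ θ' : M) =>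
      ENNReal.ofReal (S.H ρ θ θ') * f (ρ, θ', θ)) := by
    refine Measurable.mul ?_ ?_
    · exact (meas_Hz S).comp (measurable_const.prodMk (measurable_fst.prodMk measurable_snd))
    · exact hf.comp (measurable_const.prodMk (measurable_snd.prodMk measurable_fst))
  rw [lintegral_lintegral_swap h1.aemeasurable]
  refine lintegral_congr (fun θ => lintegral_congr (fun θ' => ?_))
  rw [S.H_symm]

lemma measurePreserving_swap :
    MeasurePreserving (fun z : ℝ × M × M => ((z.1, z.2.2, z.2.1) : ℝ × M × M)) S.nu S.nu := by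
  have hs : Measurable fun z : ℝ × M × M => ((z.1, z.2.2, z.2.1) : ℝ × M × M) :=
    measurable_fst.prodMk ((measurable_snd.comp measurable_snd).prodMk
      (measurable_fst.comp measurable_snd))
  refine ⟨hs, ?_⟩
  ext A hA
  rw [Measure.map_apply hs hA, ← lintegral_indicator_one hA, ← lintegral_indicator_one (hs hA),
    ← lint_swap S (measurable_one.indicator hA)]
  rfl

/-! ### the representation formulas in terms of `nu` -/

lemma ofReal_box {g : ℝ → ℝ} (hg : Continuous g) (h0 : ∀ t, 0 ≤ g t) {ρ : ℝ} (hρ : 0 ≤ ρ)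
    (t : ℝ) : ENNReal.ofReal (box g ρ t) = ∫⁻ s in Ioo (t - ρ) (t + ρ), ENNReal.ofReal (g s) := by
  unfold box
  rw [intervalIntegral.integral_of_le (by linarith), integral_Ioc_eq_integral_Ioo,
    ofReal_integral_eq_lintegral_ofReal ?_ (Filter.Eventually.of_forall (fun s => h0 s))]
  exact (hg.integrableOn_Icc (a := t - ρ) (b := t + ρ)).mono_set Ioo_subset_Icc_self

/-- general step functions and bounded functions: same formula under integrability -/
lemma ofReal_box' {g : ℝ → ℝ} (hg : LocallyIntegrable g volume) (h0 : ∀ t, 0 ≤ g t) {ρ : ℝ}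
    (hρ : 0 ≤ ρ) (t : ℝ) :
    ENNReal.ofReal (box g ρ t) = ∫⁻ s in Ioo (t - ρ) (t + ρ), ENNReal.ofReal (g s) := by
  unfold box
  rw [intervalIntegral.integral_of_le (by linarith), integral_Ioc_eq_integral_Ioo,
    ofReal_integral_eq_lintegral_ofReal ?_ (Filter.Eventually.of_forall (fun s => h0 s))]
  exact (hg.integrableOn_isCompact (isCompact_Icc (a := t - ρ) (b := t + ρ))).mono_set
    Ioo_subset_Icc_self

lemma repV_box (t : ℝ) (θ : M) : ENNReal.ofReal (S.V t θ) = ∫⁻ θ', ∫⁻ ρ in Ioi (0:ℝ),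
    ENNReal.ofReal (S.H ρ θ θ') * ENNReal.ofReal (box (fun s => S.G s θ') ρ t) ∂volume ∂μ := by
  rw [S.repV t θ]
  refine lintegral_congr (fun θ' => setLIntegral_congr_fun measurableSet_Ioi (fun ρ hρ => ?_))
  rw [ofReal_box (G_cont S θ') (fun s => (G_pos S s θ').le) (le_of_lt hρ)]
  rfl

lemma repU_box (t : ℝ) (θ : M) : ENNReal.ofReal (S.U t θ) = ∫⁻ θ', ∫⁻ ρ in Ioi (0:ℝ),
    ENNReal.ofReal (S.H ρ θ θ') * ENNReal.ofReal (box (fun s => S.F s θ') ρ t) ∂volume ∂μ := by
  rw [S.repU t θ]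
  refine lintegral_congr (fun θ' => setLIntegral_congr_fun measurableSet_Ioi (fun ρ hρ => ?_))
  rw [ofReal_box (F_cont S θ') (fun s => (F_pos S s θ').le) (le_of_lt hρ)]
  rfl

/-- `∫ r(θ) K(ρ,θ') dν = ∫ r(θ) ∫θ' ∫ρ H K` -/
lemma lint_factor {r : M → ℝ≥0∞} (hr : Measurable r) {K : ℝ → M → ℝ≥0∞}
    (hK : Measurable fun z : ℝ × M => K z.1 z.2) :
    ∫⁻ z, r z.2.1 * K z.1 z.2.2 ∂S.nu = ∫⁻ θ, r θ * ∫⁻ θ', ∫⁻ ρ in Ioi (0:ℝ),
      ENNReal.ofReal (S.H ρ θ θ') * K ρ θ' ∂volume ∂μ ∂μ := by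
  have h0 : Measurable fun z : ℝ × M × M => r z.2.1 * K z.1 z.2.2 :=
    (hr.comp (measurable_fst.comp measurable_snd)).mul
      (hK.comp (measurable_fst.prodMk (measurable_snd.comp measurable_snd)))
  rw [lint_nu S h0]
  refine lintegral_congr (fun θ => ?_)
  have hHK : Measurable fun z : ℝ × M => ENNReal.ofReal (S.H z.1 θ z.2) * K z.1 z.2 := by
    refine Measurable.mul ?_ hK
    exact (meas_H S measurable_fst measurable_const measurable_snd).ennreal_ofReal
  have h1 : Measurable fun θ' : M => ∫⁻ ρ in Ioi (0:ℝ), ENNReal.ofReal (S.H ρ θ θ') * K ρ θ' :=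
    Measurable.lintegral_prod_left' hHK
  rw [← lintegral_const_mul _ h1]
  refine lintegral_congr (fun θ' => ?_)
  have h2 : Measurable fun ρ : ℝ => ENNReal.ofReal (S.H ρ θ θ') * K ρ θ' :=
    hHK.comp (measurable_id.prodMk measurable_const)
  rw [← lintegral_const_mul _ h2]
  exact lintegral_congr (fun ρ => by ring)

/-- `∫ r(θ) box G(·,θ')(t) dν = ∫ r(θ) V(t,θ) dθ` -/
lemma lint_box_G {r : M → ℝ≥0∞} (hr : Measurable r) (t : ℝ) :
    ∫⁻ z, r z.2.1 * ENNReal.ofReal (box (fun s => S.G s z.2.2) z.1 t) ∂S.nu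
      = ∫⁻ θ, r θ * ENNReal.ofReal (S.V t θ) ∂μ := by
  have h := lint_factor S hr (K := fun ρ θ' => ENNReal.ofReal (box (fun s => S.G s θ') ρ t))
    (meas_boxG S measurable_fst measurable_const measurable_snd).ennreal_ofReal
  rw [h]
  refine lintegral_congr (fun θ => ?_)
  rw [repV_box S t θ]

/-- `∫ r(θ') box F(·,θ)(t) dν = ∫ r(θ') U(t,θ') dθ'` -/
lemma lint_box_F {r : M → ℝ≥0∞} (hr : Measurable r) (t : ℝ) :
    ∫⁻ z, r z.2.2 * ENNReal.ofReal (box (fun s => S.F s z.2.1) z.1 t) ∂S.nu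
      = ∫⁻ θ, r θ * ENNReal.ofReal (S.U t θ) ∂μ := by
  have h1 : Measurable fun z : ℝ × M × M =>
      r z.2.1 * ENNReal.ofReal (box (fun s => S.F s z.2.2) z.1 t) :=
    (hr.comp (measurable_fst.comp measurable_snd)).mul
      (meas_boxF S measurable_fst measurable_const
        (measurable_snd.comp measurable_snd)).ennreal_ofReal
  have h2 := lint_swap S h1
  have h := lint_factor S hr (K := fun ρ θ' => ENNReal.ofReal (box (fun s => S.F s θ') ρ t))
    (meas_boxF S measurable_fst measurable_const measurable_snd).ennreal_ofReal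
  refine h2.trans (h.trans ?_)
  refine lintegral_congr (fun θ => ?_)
  rw [repU_box S t θ]

/-- with the `t`-integral inside -/
lemma lint_box_G_t {r : ℝ → M → ℝ≥0∞} (hr : Measurable fun z : ℝ × M => r z.1 z.2) :
    ∫⁻ z, ∫⁻ t, r t z.2.1 * ENNReal.ofReal (box (fun s => S.G s z.2.2) z.1 t) ∂volume ∂S.nu
      = ∫⁻ θ, ∫⁻ t, r t θ * ENNReal.ofReal (S.V t θ) ∂volume ∂μ := by
  have h1 : Measurable (Function.uncurry fun (z : ℝ × M × M) (t : ℝ) =>
      r t z.2.1 * ENNReal.ofReal (box (fun s => S.G s z.2.2) z.1 t)) := by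
    refine Measurable.mul ?_ ?_
    · exact hr.comp (measurable_snd.prodMk (measurable_fst.comp
        (measurable_snd.comp measurable_fst)))
    · exact (meas_boxG S (measurable_fst.comp measurable_fst) measurable_snd
        (measurable_snd.comp (measurable_snd.comp measurable_fst))).ennreal_ofReal
  rw [lintegral_lintegral_swap h1.aemeasurable]
  have h2 : Measurable (Function.uncurry fun (θ : M) (t : ℝ) =>
      r t θ * ENNReal.ofReal (S.V t θ)) :=
    (hr.comp (measurable_snd.prodMk measurable_fst)).mul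
      (meas_V S measurable_snd measurable_fst).ennreal_ofReal
  rw [lintegral_lintegral_swap h2.aemeasurable]
  refine lintegral_congr (fun t => ?_)
  exact lint_box_G S (r := r t) (hr.comp (measurable_const.prodMk measurable_id)) t

lemma lint_box_F_t {r : ℝ → M → ℝ≥0∞} (hr : Measurable fun z : ℝ × M => r z.1 z.2) :
    ∫⁻ z, ∫⁻ t, r t z.2.2 * ENNReal.ofReal (box (fun s => S.F s z.2.1) z.1 t) ∂volume ∂S.nu
      = ∫⁻ θ, ∫⁻ t, r t θ * ENNReal.ofReal (S.U t θ) ∂volume ∂μ := by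
  have h1 : Measurable (Function.uncurry fun (z : ℝ × M × M) (t : ℝ) =>
      r t z.2.2 * ENNReal.ofReal (box (fun s => S.F s z.2.1) z.1 t)) := by
    refine Measurable.mul ?_ ?_
    · exact hr.comp (measurable_snd.prodMk (measurable_snd.comp
        (measurable_snd.comp measurable_fst)))
    · exact (meas_boxF S (measurable_fst.comp measurable_fst) measurable_snd
        (measurable_fst.comp (measurable_snd.comp measurable_fst))).ennreal_ofReal
  rw [lintegral_lintegral_swap h1.aemeasurable]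
  have h2 : Measurable (Function.uncurry fun (θ : M) (t : ℝ) =>
      r t θ * ENNReal.ofReal (S.U t θ)) :=
    (hr.comp (measurable_snd.prodMk measurable_fst)).mul
      (meas_U S measurable_snd measurable_fst).ennreal_ofReal
  rw [lintegral_lintegral_swap h2.aemeasurable]
  refine lintegral_congr (fun t => ?_)
  exact lint_box_F S (r := r t) (hr.comp (measurable_const.prodMk measurable_id)) t

/-! ### finiteness of `∫ ρ dν` near `0` -/

/-- uniform lower bound for `G` on compact time intervals -/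
lemma exists_G_ge (T : ℝ) : ∃ c : ℝ, 0 < c ∧ ∀ θ, ∀ t ∈ Icc (-T) T, c ≤ S.G t θ := by
  obtain ⟨L, hL, h⟩ := S.bdd T
  have hL0 : 0 < L := by linarith
  refine ⟨Real.exp (-(|S.b₂| * |T|)) * (1 / L) ^ S.q, by positivity, fun θ t ht => ?_⟩
  unfold Cyl.G
  have h1 := (h θ t ht).2.2.1
  have h2 : 1 / L ≤ S.U t θ := by
    rw [div_le_iff₀ hL0]; linarith
  have h3 : -(|S.b₂| * |T|) ≤ S.b₂ * t := by
    have h4 : |S.b₂ * t| ≤ |S.b₂| * |T| := by
      rw [abs_mul]
      refine mul_le_mul_of_nonneg_left ?_ (abs_nonneg _)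
      rw [abs_le]
      exact ⟨by linarith [ht.1, le_abs_self T], ht.2.trans (le_abs_self T)⟩
    linarith [(abs_le.1 h4).1]
  exact mul_le_mul (Real.exp_le_exp.2 h3)
    (Real.rpow_le_rpow (by positivity) h2 S.hq.le) (by positivity) (Real.exp_pos _).le

/-- `∫ ρ dν_δ < ∞` -/
lemma int_rho_nuN (δ : ℝ) : ∫⁻ z, ENNReal.ofReal z.1 ∂(S.nuN δ) < ∞ := by
  obtain ⟨c, hc, hcG⟩ := exists_G_ge S |δ|
  obtain ⟨L, hL, hbd⟩ := S.bdd 0
  have hmz : Measurable fun z : ℝ × M × M => ENNReal.ofReal (z.1) :=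
    measurable_fst.ennreal_ofReal
  have hb : Measurable fun z : ℝ × M × M =>
      ENNReal.ofReal (box (fun s => S.G s z.2.2) z.1 0) :=
    (meas_boxG S measurable_fst measurable_const
      (measurable_snd.comp measurable_snd)).ennreal_ofReal
  have h1 : ∫⁻ z, ENNReal.ofReal z.1 ∂(S.nuN δ)
      ≤ ∫⁻ z, ENNReal.ofReal (1 / (2 * c)) *
        ENNReal.ofReal (box (fun s => S.G s z.2.2) z.1 0) ∂(S.nuN δ) := by
    refine lintegral_mono_ae ?_
    filter_upwards [ae_nuN S δ] with z hz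
    rw [← ENNReal.ofReal_mul (by positivity)]
    refine ENNReal.ofReal_le_ofReal ?_
    have h2 : 2 * c * z.1 ≤ box (fun s => S.G s z.2.2) z.1 0 := by
      unfold box
      have h3 : ∫ s in (0 - z.1)..(0 + z.1), c ≤ ∫ s in (0 - z.1)..(0 + z.1), S.G s z.2.2 := by
        refine intervalIntegral.integral_mono_on (by linarith [hz.1]) (by simp)
          ((G_cont S z.2.2).intervalIntegrable _ _) (fun s hs => hcG _ s ?_)
        have := le_abs_self δ
        exact ⟨by linarith [hs.1, hz.2], by linarith [hs.2, hz.2]⟩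
      rw [intervalIntegral.integral_const, smul_eq_mul] at h3
      linarith
    calc z.1 = 1 / (2 * c) * (2 * c * z.1) := by field_simp
      _ ≤ 1 / (2 * c) * box (fun s => S.G s z.2.2) z.1 0 :=
        mul_le_mul_of_nonneg_left h2 (by positivity)
  refine lt_of_le_of_lt h1 ?_
  rw [lintegral_const_mul _ hb]
  refine ENNReal.mul_lt_top ENNReal.ofReal_lt_top ?_
  have h4 : ∫⁻ z, ENNReal.ofReal (box (fun s => S.G s z.2.2) z.1 0) ∂(S.nuN δ)
      ≤ ∫⁻ z, ENNReal.ofReal (box (fun s => S.G s z.2.2) z.1 0) ∂S.nu :=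
    lintegral_mono' Measure.restrict_le_self le_rfl
  refine lt_of_le_of_lt h4 ?_
  have h5 := lint_box_G S (r := fun _ => 1) measurable_const 0
  simp only [one_mul] at h5
  rw [h5]
  calc ∫⁻ θ, ENNReal.ofReal (S.V 0 θ) ∂μ ≤ ∫⁻ _, ENNReal.ofReal L ∂μ :=
        lintegral_mono (fun θ => ENNReal.ofReal_le_ofReal (hbd θ 0 (by simp)).2.1)
    _ < ∞ := by
      rw [lintegral_const]
      exact ENNReal.mul_lt_top ENNReal.ofReal_lt_top (measure_lt_top μ _)

lemma integrable_rho_nuN (δ : ℝ) : Integrable (fun z : ℝ × M × M => z.1) (S.nuN δ) := by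
  refine ⟨measurable_fst.aestronglyMeasurable, ?_⟩
  rw [hasFiniteIntegral_iff_norm]
  refine lt_of_le_of_lt (lintegral_mono_ae ?_) (int_rho_nuN S δ)
  filter_upwards [ae_nuN S δ] with z hz
  rw [Real.norm_eq_abs, abs_of_pos hz.1]

/-- measurable functions bounded by `C ρ` near `ρ = 0` are integrable for `ν_δ` -/
lemma integrable_nuN {δ : ℝ} {f : ℝ × M × M → ℝ} (hf : Measurable f) {C : ℝ}
    (h : ∀ z : ℝ × M × M, 0 < z.1 → z.1 < δ → |f z| ≤ C * z.1) : Integrable f (S.nuN δ) := by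
  refine ((integrable_rho_nuN S δ).const_mul C).mono' hf.aestronglyMeasurable ?_
  filter_upwards [ae_nuN S δ] with z hz
  rw [Real.norm_eq_abs]
  exact h z hz.1 hz.2

end nu

/-! ### concrete integrabilities -/

section conc
variable {M : Type} [MeasurableSpace M] {μ : Measure M} {S : Cyl M μ}
variable {lam a L : ℝ} {m : ℕ}

lemma abs_G_le (h : WinOK S lam a m L) {t : ℝ} (ht : t ∈ Icc (lam - 2) (lam + 4)) (θ : M) :
    |S.G t θ| ≤ L := by rw [abs_of_pos (G_pos S t θ)]; exact G_le h ht θ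
lemma abs_F_le (h : WinOK S lam a m L) {t : ℝ} (ht : t ∈ Icc (lam - 2) (lam + 4)) (θ : M) :
    |S.F t θ| ≤ L := by rw [abs_of_pos (F_pos S t θ)]; exact F_le h ht θ
lemma abs_GLo_le (h : WinOK S lam a m L) (η t : ℝ) (θ : M) : |S.GLo lam a m L η t θ| ≤ L := by
  rw [abs_of_nonneg (GLo_nonneg S lam a m L η t θ)]; exact GLo_le_L h η t θ
lemma abs_FLo_le (h : WinOK S lam a m L) (η t : ℝ) (θ : M) : |S.FLo lam a m L η t θ| ≤ L := by
  rw [abs_of_nonneg (FLo_nonneg S lam a m L η t θ)]; exact FLo_le_L h η t θ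

lemma abs_boxGLo_le (h : WinOK S lam a m L) (η : ℝ) {ρ : ℝ} (hρ : 0 ≤ ρ) (t : ℝ) (θ : M) :
    |box (fun s => S.GLo lam a m L η s θ) ρ t| ≤ 2 * L * ρ :=
  abs_box_le hρ (fun s _ => abs_GLo_le h η s θ)
lemma abs_boxFLo_le (h : WinOK S lam a m L) (η : ℝ) {ρ : ℝ} (hρ : 0 ≤ ρ) (t : ℝ) (θ : M) :
    |box (fun s => S.FLo lam a m L η s θ) ρ t| ≤ 2 * L * ρ :=
  abs_box_le hρ (fun s _ => abs_FLo_le h η s θ)

/-- for `t` in `[lam-1, lam+3]` and `ρ ≤ 1` -/
lemma abs_boxG_le (h : WinOK S lam a m L) {ρ : ℝ} (hρ : 0 ≤ ρ) (hρ1 : ρ ≤ 1) {t : ℝ}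
    (ht : t ∈ Icc (lam - 1) (lam + 3)) (θ : M) : |box (fun s => S.G s θ) ρ t| ≤ 2 * L * ρ :=
  abs_box_le hρ (fun s hs => abs_G_le h
    ⟨by linarith [hs.1, ht.1], by linarith [hs.2, ht.2]⟩ θ)
lemma abs_boxF_le (h : WinOK S lam a m L) {ρ : ℝ} (hρ : 0 ≤ ρ) (hρ1 : ρ ≤ 1) {t : ℝ}
    (ht : t ∈ Icc (lam - 1) (lam + 3)) (θ : M) : |box (fun s => S.F s θ) ρ t| ≤ 2 * L * ρ :=
  abs_box_le hρ (fun s hs => abs_F_le h
    ⟨by linarith [hs.1, ht.1], by linarith [hs.2, ht.2]⟩ θ)

lemma abs_tent_le (ha : 0 < a) (t : ℝ) : |tent lam a t| ≤ 2 / a := by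
  rw [abs_of_nonneg (TP.tent_nonneg lam a t)]; exact TP.tent_le ha lam t

/-- generic bound for `∫ t, tent * f * g` with `|f| ≤ A`, `|g| ≤ B` on the support of the tent -/
lemma abs_int_tent_le (ha : 0 < a) {f g : ℝ → ℝ} {A B : ℝ} (hA : 0 ≤ A) (hB : 0 ≤ B)
    (hf : ∀ t ∈ Icc lam (lam + a), |f t| ≤ A) (hg : ∀ t ∈ Icc lam (lam + a), |g t| ≤ B) :
    |∫ t, tent lam a t * f t * g t| ≤ 2 * A * B := by
  have h1 : ∀ t, |tent lam a t * f t * g t| ≤ 2 / a * A * B := by
    intro t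
    by_cases ht : t ∈ Icc lam (lam + a)
    · rw [abs_mul, abs_mul]
      have := abs_tent_le (lam := lam) ha t
      gcongr
      · exact hf t ht
      · exact hg t ht
    · rw [TP.tent_eq_zero_of_notMem ht, zero_mul, zero_mul, abs_zero]
      positivity
  have h2 := abs_integral_le (A := lam) (B := lam + a) (by linarith) h1
    (fun t ht => by rw [TP.tent_eq_zero_of_notMem ht, zero_mul, zero_mul])
  refine h2.trans (le_of_eq ?_)
  field_simp
  ring

variable [IsFiniteMeasure μ]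

lemma integrable_X0 (h : WinOK S lam a m L) (η δ : ℝ) : Integrable (fun z : ℝ × M × M =>
    ∫ t, tent lam a t * S.FLo lam a m L η t z.2.1 *
      box (fun s => S.GLo lam a m L η s z.2.2) z.1 t) (S.nuN δ) := by
  refine integrable_nuN S (meas_X0 S lam a m L η) (C := 2 * L * (2 * L)) ?_
  intro z hz _
  have hL := L_ge' h z.2.1
  have := abs_int_tent_le (lam := lam) h.ha (f := fun t => S.FLo lam a m L η t z.2.1)
    (g := fun t => box (fun s => S.GLo lam a m L η s z.2.2) z.1 t) (A := L) (B := 2 * L * z.1)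
    (by linarith) (by positivity) (fun t _ => abs_FLo_le h η t _)
    (fun t _ => abs_boxGLo_le h η hz.le t _)
  linarith

lemma integrable_X0' (h : WinOK S lam a m L) (η δ : ℝ) : Integrable (fun z : ℝ × M × M =>
    ∫ t, tent lam a t * S.GLo lam a m L η t z.2.2 *
      box (fun s => S.FLo lam a m L η s z.2.1) z.1 t) (S.nuN δ) := by
  refine integrable_nuN S (meas_X0' S lam a m L η) (C := 2 * L * (2 * L)) ?_
  intro z hz _
  have hL := L_ge' h z.2.1
  have := abs_int_tent_le (lam := lam) h.ha (f := fun t => S.GLo lam a m L η t z.2.2)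
    (g := fun t => box (fun s => S.FLo lam a m L η s z.2.1) z.1 t) (A := L) (B := 2 * L * z.1)
    (by linarith) (by positivity) (fun t _ => abs_GLo_le h η t _)
    (fun t _ => abs_boxFLo_le h η hz.le t _)
  linarith

/-- the integrand `∫ w FLo(t,θ) (box G(·,θ'))(t)` -/
lemma meas_Q1 (S : Cyl M μ) (lam a : ℝ) (m : ℕ) (L η : ℝ) : Measurable fun z : ℝ × M × M =>
    ∫ t, tent lam a t * S.FLo lam a m L η t z.2.1 * box (fun s => S.G s z.2.2) z.1 t := by
  have h1 : Measurable fun y : (ℝ × M × M) × ℝ => y.1.2.1 :=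
    measurable_fst.comp (measurable_snd.comp measurable_fst)
  have h2 : Measurable fun y : (ℝ × M × M) × ℝ => y.1.2.2 :=
    measurable_snd.comp (measurable_snd.comp measurable_fst)
  exact measurable_integral (f := fun (z : ℝ × M × M) t =>
    tent lam a t * S.FLo lam a m L η t z.2.1 * box (fun s => S.G s z.2.2) z.1 t)
    ((((measurable_tent lam a).comp measurable_snd).mul
      (meas_FLo S lam a m L η measurable_snd h1)).mul
      (meas_boxG S (measurable_fst.comp measurable_fst) measurable_snd h2)) volume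

lemma meas_Q2 (S : Cyl M μ) (lam a : ℝ) (m : ℕ) (L η : ℝ) : Measurable fun z : ℝ × M × M =>
    ∫ t, tent lam a t * S.GLo lam a m L η t z.2.2 * box (fun s => S.F s z.2.1) z.1 t := by
  have h1 : Measurable fun y : (ℝ × M × M) × ℝ => y.1.2.1 :=
    measurable_fst.comp (measurable_snd.comp measurable_fst)
  have h2 : Measurable fun y : (ℝ × M × M) × ℝ => y.1.2.2 :=
    measurable_snd.comp (measurable_snd.comp measurable_fst)
  exact measurable_integral (f := fun (z : ℝ × M × M) t =>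
    tent lam a t * S.GLo lam a m L η t z.2.2 * box (fun s => S.F s z.2.1) z.1 t)
    ((((measurable_tent lam a).comp measurable_snd).mul
      (meas_GLo S lam a m L η measurable_snd h2)).mul
      (meas_boxF S (measurable_fst.comp measurable_fst) measurable_snd h1)) volume

lemma integrable_Q1 (h : WinOK S lam a m L) (η : ℝ) {δ : ℝ} (hδ : δ ≤ 1) :
    Integrable (fun z : ℝ × M × M =>
      ∫ t, tent lam a t * S.FLo lam a m L η t z.2.1 * box (fun s => S.G s z.2.2) z.1 t)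
      (S.nuN δ) := by
  refine integrable_nuN S (meas_Q1 S lam a m L η) (C := 2 * L * (2 * L)) ?_
  intro z hz hzδ
  have hL := L_ge' h z.2.1
  have ha1 := h.ha1
  have := abs_int_tent_le (lam := lam) h.ha (f := fun t => S.FLo lam a m L η t z.2.1)
    (g := fun t => box (fun s => S.G s z.2.2) z.1 t) (A := L) (B := 2 * L * z.1)
    (by linarith) (by positivity) (fun t _ => abs_FLo_le h η t _)
    (fun t ht => abs_boxG_le h hz.le (by linarith)
      ⟨by linarith [ht.1], by linarith [ht.2]⟩ _)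
  linarith

lemma integrable_Q2 (h : WinOK S lam a m L) (η : ℝ) {δ : ℝ} (hδ : δ ≤ 1) :
    Integrable (fun z : ℝ × M × M =>
      ∫ t, tent lam a t * S.GLo lam a m L η t z.2.2 * box (fun s => S.F s z.2.1) z.1 t)
      (S.nuN δ) := by
  refine integrable_nuN S (meas_Q2 S lam a m L η) (C := 2 * L * (2 * L)) ?_
  intro z hz hzδ
  have hL := L_ge' h z.2.1
  have ha1 := h.ha1
  have := abs_int_tent_le (lam := lam) h.ha (f := fun t => S.GLo lam a m L η t z.2.2)
    (g := fun t => box (fun s => S.F s z.2.1) z.1 t) (A := L) (B := 2 * L * z.1)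
    (by linarith) (by positivity) (fun t _ => abs_GLo_le h η t _)
    (fun t ht => abs_boxF_le h hz.le (by linarith)
      ⟨by linarith [ht.1], by linarith [ht.2]⟩ _)
  linarith

/-! end terms -/

lemma rc_le {f : ℝ → ℝ} {x : ℕ → ℝ} (hx : Lay f x lam a m) {i : ℕ × ℕ} (hi : i ∈ prs m) {k : ℕ}
    (h1 : i.1 ≤ k) (h2 : k ≤ i.2) : rc x i ≤ x k := by
  rw [StepR1.mem_prs] at hi
  rw [rc_eq_cc hx.x_nonneg hi.1 hi.2.1]
  exact Layers.cc_le hx.x_nonneg h1 h2

lemma rcF_le (h : WinOK S lam a m L) {i : ℕ × ℕ} (hi : i ∈ prs m) (θ : M) :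
    rc (S.xF lam a m L θ) i ≤ L := by
  have h1 := StepR1.mem_prs.1 hi
  refine (rc_le (layF h θ) hi le_rfl h1.2.1).trans ?_
  have h2 := (layF h θ).x_le i.1 h1.1 (by omega) _ (StepR1.nd_le h.ha h.hm (by omega)) le_rfl
  exact h2.trans (F_le h (window_sub h (nd_mem_window h.ha h.hm (by omega))) θ)

lemma rcG_le (h : WinOK S lam a m L) {i : ℕ × ℕ} (hi : i ∈ prs m) (θ : M) :
    rc (S.xG lam a m L θ) i ≤ L := by
  have h1 := StepR1.mem_prs.1 hi
  refine (rc_le (layG h θ) hi le_rfl h1.2.1).trans ?_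
  have h2 := (layG h θ).x_le i.1 h1.1 (by omega) _ (StepR1.nd_le h.ha h.hm (by omega)) le_rfl
  exact h2.trans (G_le h (window_sub h (nd_mem_window h.ha h.hm (by omega))) θ)

lemma wend_nonneg (ha : 0 < a) {η : ℝ} (hη : 0 ≤ η) (y : ℝ) : 0 ≤ wend lam a η y := by
  unfold wend
  split_ifs
  · have := TP.tent_nonneg lam a y
    positivity
  · exact le_rfl

lemma abs_wend_le (ha : 0 < a) (η y : ℝ) :
    |wend lam a η y| ≤ 2 / a + 2 * (4 / a ^ 2) * |η| := by
  unfold wend
  split_ifs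
  · refine (abs_add_le _ _).trans (add_le_add (abs_tent_le ha y) ?_)
    rw [abs_mul, abs_of_nonneg (show (0:ℝ) ≤ 2 * (4 / a ^ 2) by positivity)]
  · rw [abs_zero]; positivity

/-- generic bound of the end sums -/
lemma abs_tvS_le (ha : 0 < a) (hm : 1 ≤ m) {v : ℝ → ℝ} {x : ℕ → ℝ} {I : Finset (ℕ × ℕ)} (hI : I ⊆ prs m)
    {η A B : ℝ} (hA : ∀ i ∈ prs m, rc x i ≤ A)
    (hB : ∀ y ∈ Icc (lam - a / 2) (lam + 3 * a / 2), |v y| ≤ B) :
    |tvS v x I lam a m η| ≤ ((prs m).card * (A * (2 * (2 / a + 2 * (4 / a ^ 2) * |η|)))) * B := by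
  classical
  set W := 2 / a + 2 * (4 / a ^ 2) * |η| with hW
  have hW0 : 0 ≤ W := by positivity
  unfold tvS
  refine (Finset.abs_sum_le_sum_abs _ _).trans ?_
  have h1 : ∀ i ∈ prs m, |rc x i * (wend lam a η (lft lam a m i) * v (lft lam a m i)
      + wend lam a η (rgt lam a m i) * v (rgt lam a m i))| ≤ A * (2 * W) * B := by
    intro i hi
    rw [abs_mul, abs_of_nonneg (rc_nonneg x i)]
    have hA0 : 0 ≤ A := (rc_nonneg x i).trans (hA i hi)
    have h2 : |wend lam a η (lft lam a m i) * v (lft lam a m i)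
      + wend lam a η (rgt lam a m i) * v (rgt lam a m i)| ≤ W * B + W * B := by
      refine (abs_add_le _ _).trans (add_le_add ?_ ?_)
      · rw [abs_mul]
        exact mul_le_mul (abs_wend_le ha η _) (hB _ (lft_mem ha hm hi)) (abs_nonneg _) hW0
      · rw [abs_mul]
        exact mul_le_mul (abs_wend_le ha η _) (hB _ (rgt_mem ha hm hi)) (abs_nonneg _) hW0
    calc rc x i * _ ≤ A * (W * B + W * B) :=
          mul_le_mul (hA i hi) h2 (abs_nonneg _) hA0
      _ = A * (2 * W) * B := by ring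
  calc ∑ i ∈ I, |rc x i * (wend lam a η (lft lam a m i) * v (lft lam a m i)
      + wend lam a η (rgt lam a m i) * v (rgt lam a m i))|
      ≤ ∑ i ∈ prs m, |rc x i * (wend lam a η (lft lam a m i) * v (lft lam a m i)
      + wend lam a η (rgt lam a m i) * v (rgt lam a m i))| :=
        Finset.sum_le_sum_of_subset_of_nonneg hI (fun _ _ _ => abs_nonneg _)
    _ ≤ ∑ _i ∈ prs m, A * (2 * W) * B := Finset.sum_le_sum h1
    _ = _ := by rw [Finset.sum_const, nsmul_eq_mul]; ring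

/-- `TVF` integrand -/
lemma integrable_tvF (h : WinOK S lam a m L) {I : Finset (ℕ × ℕ)} (hI : I ⊆ prs m) (η : ℝ) :
    Integrable (fun θ => tvS (fun t => S.V t θ) (S.xF lam a m L θ) I lam a m η) μ := by
  refine integrable_bdd (meas_tvF S lam a m L I η measurable_id) (C :=
    ((prs m).card * (L * (2 * (2 / a + 2 * (4 / a ^ 2) * |η|)))) * L) ?_
  intro θ
  have hL := L_ge' h θ
  refine abs_tvS_le h.ha h.hm hI (fun i hi => rcF_le h hi θ) (fun y hy => ?_)
  rw [abs_of_pos (S.V_pos y θ)]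
  exact V_le h (window_sub h hy) θ

lemma integrable_tvG (h : WinOK S lam a m L) {I : Finset (ℕ × ℕ)} (hI : I ⊆ prs m) (η : ℝ) :
    Integrable (fun θ => tvS (fun t => S.U t θ) (S.xG lam a m L θ) I lam a m η) μ := by
  refine integrable_bdd (meas_tvG S lam a m L I η measurable_id) (C :=
    ((prs m).card * (L * (2 * (2 / a + 2 * (4 / a ^ 2) * |η|)))) * L) ?_
  intro θ
  have hL := L_ge' h θ
  refine abs_tvS_le h.ha h.hm hI (fun i hi => rcG_le h hi θ) (fun y hy => ?_)
  rw [abs_of_pos (S.U_pos y θ)]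
  exact U_le h (window_sub h hy) θ

lemma window_sub' (h : WinOK S lam a m L) :
    Icc (lam - a / 2) (lam + 3 * a / 2) ⊆ Icc (lam - 1) (lam + 3) := by
  intro t ht
  have := h.ha; have := h.ha1
  exact ⟨by linarith [ht.1], by linarith [ht.2]⟩

/-- end terms of box averages against the near kernel measure -/
lemma integrable_tvF_boxG (h : WinOK S lam a m L) {I : Finset (ℕ × ℕ)} (hI : I ⊆ prs m) (η : ℝ)
    {δ : ℝ} (hδ : δ ≤ 1) : Integrable (fun z : ℝ × M × M =>
      tvS (box (fun t => S.G t z.2.2) z.1) (S.xF lam a m L z.2.1) I lam a m η) (S.nuN δ) := by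
  refine integrable_nuN S (meas_tvF_boxG S lam a m L I η measurable_fst
    (measurable_fst.comp measurable_snd) (measurable_snd.comp measurable_snd))
    (C := ((prs m).card * (L * (2 * (2 / a + 2 * (4 / a ^ 2) * |η|)))) * (2 * L)) ?_
  intro z hz hzδ
  have hL := L_ge' h z.2.1
  have h1 := abs_tvS_le (lam := lam) (η := η) h.ha h.hm hI (v := box (fun t => S.G t z.2.2) z.1)
    (x := S.xF lam a m L z.2.1) (A := L) (B := 2 * L * z.1)
    (fun i hi => rcF_le h hi z.2.1)
    (fun y hy => abs_boxG_le h hz.le (by linarith) (window_sub' h hy) _)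
  refine h1.trans (le_of_eq (by ring))

lemma integrable_tvG_boxF (h : WinOK S lam a m L) {I : Finset (ℕ × ℕ)} (hI : I ⊆ prs m) (η : ℝ)
    {δ : ℝ} (hδ : δ ≤ 1) : Integrable (fun z : ℝ × M × M =>
      tvS (box (fun t => S.F t z.2.1) z.1) (S.xG lam a m L z.2.2) I lam a m η) (S.nuN δ) := by
  refine integrable_nuN S (meas_tvG_boxF S lam a m L I η measurable_fst
    (measurable_fst.comp measurable_snd) (measurable_snd.comp measurable_snd))
    (C := ((prs m).card * (L * (2 * (2 / a + 2 * (4 / a ^ 2) * |η|)))) * (2 * L)) ?_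
  intro z hz hzδ
  have hL := L_ge' h z.2.1
  have h1 := abs_tvS_le (lam := lam) (η := η) h.ha h.hm hI (v := box (fun t => S.F t z.2.1) z.1)
    (x := S.xG lam a m L z.2.2) (A := L) (B := 2 * L * z.1)
    (fun i hi => rcG_le h hi z.2.2)
    (fun y hy => abs_boxF_le h hz.le (by linarith) (window_sub' h hy) _)
  refine h1.trans (le_of_eq (by ring))

end conc

end Crest.Agent.R077.ML
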