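import Crest.Agent.R077.AA
import Crest.Agent.R077.MeasNu
import Crest.Agent.R077.Core

/-!
Row 77, `Stmt_Swap` and `Stmt_SwapX` (helper851).
-/

set_option autoImplicit false
open MeasureTheory Set Real
open scoped ENNReal

namespace Crest.Agent.R077

namespace SwapP

variable {M : Type} [MeasurableSpace M] {μ : Measure M}

/-- two dimensional exchange -/
lemma two_swap {f g : ℝ → ℝ≥0∞} (hf : Measurable f) (hg : Measurable g) (ρ : ℝ) :
    ∫⁻ t, f t * ∫⁻ s in Ioo (t - ρ) (t + ρ), g s = ∫⁻ t, g t * ∫⁻ s in Ioo (t - ρ) (t + ρ), f s := by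
  have hq : Measurable (fun z : ℝ × ℝ => EnQ.q ρ z.1 z.2) :=
    EnQ.q_meas.comp (show Measurable fun z : ℝ × ℝ => (ρ, z.1, z.2) by fun_prop)
  have e : ∀ {f g : ℝ → ℝ≥0∞}, Measurable f → Measurable g →
      ∫⁻ t, f t * ∫⁻ s in Ioo (t - ρ) (t + ρ), g s = ∫⁻ t, ∫⁻ s, f t * (EnQ.q ρ t s * g s) := by
    intro f g hf hg
    refine lintegral_congr fun t => ?_
    rw [EnQ.set_lint, ← lintegral_const_mul]
    exact (hq.comp (show Measurable fun s : ℝ => (t, s) by fun_prop)).mul hg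
  rw [e hf hg, e hg hf, lintegral_lintegral_swap]
  · refine lintegral_congr fun s => lintegral_congr fun t => ?_
    rw [EnQ.q_symm ρ t s]
    ring
  · refine Measurable.aemeasurable ?_
    exact (hf.comp measurable_fst).mul (hq.mul (hg.comp measurable_snd))

/-- joint measurability of the inner energy -/
lemma inner_meas {H : ℝ → M → M → ℝ} (Hm : Measurable (fun z : ℝ × M × M => H z.1 z.2.1 z.2.2))
    {f g : ℝ → M → ℝ} (hf : Measurable (fun z : ℝ × M => f z.1 z.2))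
    (hg : Measurable (fun z : ℝ × M => g z.1 z.2)) :
    Measurable (fun z : (M × M) × ℝ => ENNReal.ofReal (H z.2 z.1.1 z.1.2) *
      ∫⁻ t, ENNReal.ofReal (f t z.1.1) * ∫⁻ s in Ioo (t - z.2) (t + z.2),
        ENNReal.ofReal (g s z.1.2)) := by
  refine Measurable.mul ?_ ?_
  · exact (Hm.comp (show Measurable fun z : (M × M) × ℝ => (z.2, z.1.1, z.1.2)
      by fun_prop)).ennreal_ofReal
  · have h1 : Measurable (fun z : (((M × M) × ℝ) × ℝ) =>
        ENNReal.ofReal (f z.2 z.1.1.1) * ∫⁻ s in Ioo (z.2 - z.1.2) (z.2 + z.1.2),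
        ENNReal.ofReal (g s z.1.1.2)) := by
      refine Measurable.mul ?_ ?_
      · exact (hf.comp (show Measurable fun z : (((M × M) × ℝ) × ℝ) => (z.2, z.1.1.1)
          by fun_prop)).ennreal_ofReal
      · simp only [EnQ.set_lint]
        have h2 : Measurable (fun z : (((M × M) × ℝ) × ℝ) × ℝ =>
            EnQ.q z.1.1.2 z.1.2 z.2 * ENNReal.ofReal (g z.2 z.1.1.1.2)) := by
          refine Measurable.mul ?_ ?_
          · exact EnQ.q_meas.comp (show Measurable fun z : (((M × M) × ℝ) × ℝ) × ℝ =>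
              (z.1.1.2, z.1.2, z.2) by fun_prop)
          · exact (hg.comp (show Measurable fun z : (((M × M) × ℝ) × ℝ) × ℝ =>
              (z.2, z.1.1.1.2) by fun_prop)).ennreal_ofReal
        exact h2.lintegral_prod_right'
    exact h1.lintegral_prod_right'

lemma far_swap [SFinite μ] {H : ℝ → M → M → ℝ}
    (Hm : Measurable (fun z : ℝ × M × M => H z.1 z.2.1 z.2.2))
    (Hs : ∀ ρ θ θ', H ρ θ θ' = H ρ θ' θ)
    {f g : ℝ → M → ℝ} (hf : Measurable (fun z : ℝ × M => f z.1 z.2))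
    (hg : Measurable (fun z : ℝ × M => g z.1 z.2)) (δ : ℝ) :
    ∫⁻ θ, ∫⁻ θ', ∫⁻ ρ in Ioi δ, ENNReal.ofReal (H ρ θ θ') *
      ∫⁻ t, ENNReal.ofReal (f t θ) * ∫⁻ s in Ioo (t - ρ) (t + ρ), ENNReal.ofReal (g s θ')
        ∂volume ∂volume ∂volume ∂μ ∂μ
    = ∫⁻ θ, ∫⁻ θ', ∫⁻ ρ in Ioi δ, ENNReal.ofReal (H ρ θ θ') *
      ∫⁻ t, ENNReal.ofReal (g t θ) * ∫⁻ s in Ioo (t - ρ) (t + ρ), ENNReal.ofReal (f s θ')
        ∂volume ∂volume ∂volume ∂μ ∂μ := by
  rw [lintegral_lintegral_swap]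
  · refine lintegral_congr fun θ => lintegral_congr fun θ' => lintegral_congr fun ρ => ?_
    rw [Hs ρ θ' θ]
    congr 1
    refine two_swap (f := fun t => ENNReal.ofReal (f t θ')) (g := fun t => ENNReal.ofReal (g t θ))
      ?_ ?_ ρ
    · exact (hf.comp (show Measurable fun t : ℝ => (t, θ') by fun_prop)).ennreal_ofReal
    · exact (hg.comp (show Measurable fun t : ℝ => (t, θ) by fun_prop)).ennreal_ofReal
  · refine Measurable.aemeasurable ?_
    exact (inner_meas Hm hf hg).lintegral_prod_right'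

/-- the swapped cylinder -/
noncomputable def swp [SFinite μ] (S : Cyl M μ) : Cyl M μ where
  p := S.q
  q := S.p
  b₁ := S.b₂
  b₂ := S.b₁
  hp := S.hq
  hq := S.hp
  hpq := by have := S.hpq; rwa [mul_comm] at this
  hD := by have := S.hD; rwa [add_comm] at this
  U := S.V
  V := S.U
  H := S.H
  U_pos := S.V_pos
  V_pos := S.U_pos
  U_meas := S.V_meas
  V_meas := S.U_meas
  U_C1 := S.V_C1
  V_C1 := S.U_C1
  bdd := by
    intro T
    obtain ⟨L, hL, h⟩ := S.bdd T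
    refine ⟨L, hL, fun θ t ht => ?_⟩
    obtain ⟨h1, h2, h3, h4, h5, h6⟩ := h θ t ht
    exact ⟨h2, h1, h4, h3, h6, h5⟩
  H_nonneg := S.H_nonneg
  H_symm := S.H_symm
  H_meas := S.H_meas
  repU := S.repV
  repV := S.repU
  int1 := S.int2
  int2 := S.int1
  far := by
    obtain ⟨C, κ, h0, h1, h⟩ := S.far
    refine ⟨C, κ, h0, h1, fun δ hδ => ?_⟩
    have := far_swap (μ := μ) S.H_meas S.H_symm (f := S.F) (g := S.G) (EnQ.F_meas S) (EnQ.G_meas S) δ
    have h2 := h δ hδ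
    simp only [Cyl.F, Cyl.G] at this
    rw [this] at h2
    exact h2
  fin1 := S.fin2
  fin2 := S.fin1

end SwapP

open SwapP in
/-- the swapped cylinder exists -/
theorem Swap : Stmt_Swap := by
  intro M _ μ _ S
  exact ⟨swp S, ⟨rfl, rfl, rfl, rfl, rfl, rfl, rfl⟩⟩

namespace SwapP

variable {M : Type} [MeasurableSpace M] {μ : Measure M}

lemma nu_eq {S S' : Cyl M μ} (h : IsSwap S S') : S'.nu = S.nu := by
  simp only [Cyl.nu, h.H_eq]

lemma nuN_eq {S S' : Cyl M μ} (h : IsSwap S S') (δ : ℝ) : S'.nuN δ = S.nuN δ := by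
  simp only [Cyl.nuN, nu_eq h]

/-- exchange of the angles -/
def sw : (ℝ × M × M) ≃ᵐ (ℝ × M × M) :=
  MeasurableEquiv.prodCongr (MeasurableEquiv.refl ℝ) MeasurableEquiv.prodComm

lemma sw_apply (z : ℝ × M × M) : sw z = (z.1, z.2.2, z.2.1) := rfl

lemma mp_nuN [IsFiniteMeasure μ] (S : Cyl M μ) (δ : ℝ) :
    MeasurePreserving (sw : (ℝ × M × M) ≃ᵐ (ℝ × M × M)) (S.nuN δ) (S.nuN δ) := by
  have h := ML.measurePreserving_swap S
  have h2 := h.restrict_preimage (ML.measurableSet_near (M := M) δ)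
  exact h2

lemma int_sw [IsFiniteMeasure μ] (S : Cyl M μ) (δ : ℝ) (f : ℝ × M × M → ℝ) :
    ∫ z, f (z.1, z.2.2, z.2.1) ∂(S.nuN δ) = ∫ z, f z ∂(S.nuN δ) :=
  (mp_nuN S δ).integral_comp' f

lemma swap_GLo {S S' : Cyl M μ} (h : IsSwap S S') (lam a : ℝ) (m : ℕ) (L η t : ℝ) (θ : M) :
    S'.GLo lam a m L η t θ = S.FLo lam a m L η t θ := by
  simp only [Cyl.FLo, Cyl.GLo, CoreP.swap_xG h]

lemma X0_eq [IsFiniteMeasure μ] {S S' : Cyl M μ} (h : IsSwap S S') (lam a : ℝ) (m : ℕ)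
    (L η δ : ℝ) : S'.X0 lam a m L η δ = S.X0' lam a m L η δ := by
  simp only [Cyl.X0, Cyl.X0', CoreP.swap_FLo h, swap_GLo h, nuN_eq h]
  rw [← int_sw S δ]

lemma X0'_eq [IsFiniteMeasure μ] {S S' : Cyl M μ} (h : IsSwap S S') (lam a : ℝ) (m : ℕ)
    (L η δ : ℝ) : S'.X0' lam a m L η δ = S.X0 lam a m L η δ := by
  simp only [Cyl.X0, Cyl.X0', CoreP.swap_FLo h, swap_GLo h, nuN_eq h]
  rw [← int_sw S δ]

end SwapP

open SwapP in
/-- the functionals under the swap -/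
theorem SwapX : Stmt_SwapX := by
  intro M _ μ _ S S' h
  have hF := CoreP.swap_F h
  have hG := CoreP.swap_G h
  refine ⟨fun lam a m L η δ => ⟨X0_eq h _ _ _ _ _ _, X0'_eq h _ _ _ _ _ _⟩, fun δ => ?_,
    fun lam a m L η => ⟨?_, ?_, ?_, ?_⟩, fun T => ⟨?_, ?_⟩, ?_⟩
  · simp only [Cyl.Bfar, hF, hG, h.H_eq]
    rw [far_swap (μ := μ) S.H_meas S.H_symm (f := S.G) (g := S.F) (EnQ.G_meas S) (EnQ.F_meas S) δ]
  · simp only [Cyl.EF, Cyl.EG, CoreP.swap_FLo h, h.b1_eq, h.p_eq]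
  · simp only [Cyl.EF, Cyl.EG, swap_GLo h, h.b2_eq, h.q_eq]
  · simp only [Cyl.TVF, Cyl.TVG, CoreP.swap_xF h, h.V_eq]
  · simp only [Cyl.TVF, Cyl.TVG, CoreP.swap_xG h, h.U_eq]
  · simp only [Cyl.J1, Cyl.J2, hF, h.V_eq]
  · simp only [Cyl.J1, Cyl.J2, hG, h.U_eq]
  · simp only [Cyl.D, h.b1_eq, h.b2_eq, h.p_eq, h.q_eq]
    ring

end Crest.Agent.R077
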