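import Crest.Agent.R077.IntTV
import Crest.Agent.R077.StepTV1

/-! Row 77: `TVF : Stmt_TVF` and `EF : Stmt_EF`. -/

namespace Crest.Agent.R077

theorem TVF : Stmt_TVF := TVF_of TV1 E1

theorem EF : Stmt_EF := EF_of E1

end Crest.Agent.R077
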