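import Crest.Agent.R077.Iface

/-!
Row 77: `Stmt_Win` (existence of the uniform constant `L` of the window). helper368.
-/

set_option autoImplicit false
open MeasureTheory Set Real

namespace Crest.Agent.R077

namespace WinH

/-- the bound `K = e^{|b|T} L₀^p` -/
noncomputable def KK (b p T L0 : ℝ) : ℝ := Real.exp (|b| * T) * L0 ^ p

lemma KK_pos {b p T L0 : ℝ} (hL0 : 1 ≤ L0) : 0 < KK b p T L0 :=
  mul_pos (Real.exp_pos _) (Real.rpow_pos_of_pos (by linarith) _)

lemma sol_of {b p : ℝ} (hp : 0 < p) {v : ℝ → ℝ} (hv : ∀ t, 0 < v t) (hc : ContDiff ℝ 1 v)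
    {lam T L0 L : ℝ} (hT : Icc (lam - 2) (lam + 4) ⊆ Icc (-T) T) (hL0 : 1 ≤ L0)
    (hb : ∀ t ∈ Icc (-T) T, v t ≤ L0 ∧ 1 ≤ L0 * v t ∧ |deriv v t| ≤ L0)
    (hL1 : L0 ≤ L) (hL2 : KK b p T L0 ≤ L)
    (hL3 : KK b p T L0 * (|b| + p * L0 ^ 2) ≤ L) :
    Sol b p (fun t => Real.exp (b * t) * v t ^ p) v lam L := by
  have hbt : ∀ t ∈ Icc (-T) T, |b * t| ≤ |b| * T := by
    intro t ht
    rw [abs_mul]
    apply mul_le_mul_of_nonneg_left _ (abs_nonneg _)
    exact abs_le.mpr ht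
  have hup : ∀ t ∈ Icc (-T) T, Real.exp (b * t) * v t ^ p ≤ KK b p T L0 := by
    intro t ht
    unfold KK
    apply mul_le_mul _ _ (Real.rpow_nonneg (hv t).le _) (Real.exp_pos _).le
    · exact Real.exp_le_exp.mpr (le_trans (le_abs_self _) (hbt t ht))
    · exact Real.rpow_le_rpow (hv t).le (hb t ht).1 hp.le
  have hfpos : ∀ t, 0 < Real.exp (b * t) * v t ^ p := fun t =>
    mul_pos (Real.exp_pos _) (Real.rpow_pos_of_pos (hv t) _)
  have hlow : ∀ t ∈ Icc (-T) T, 1 ≤ KK b p T L0 * (Real.exp (b * t) * v t ^ p) := by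
    intro t ht
    unfold KK
    have h1 : 1 ≤ Real.exp (|b| * T) * Real.exp (b * t) := by
      rw [← Real.exp_add]
      apply Real.one_le_exp
      have := (abs_le.mp (hbt t ht)).1
      linarith
    have h2 : 1 ≤ L0 ^ p * v t ^ p := by
      rw [← Real.mul_rpow (by linarith) (hv t).le]
      exact Real.one_le_rpow (hb t ht).2.1 hp.le
    calc (1:ℝ) = 1 * 1 := by ring
      _ ≤ (Real.exp (|b| * T) * Real.exp (b * t)) * (L0 ^ p * v t ^ p) :=
          mul_le_mul h1 h2 (by norm_num) (by positivity)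
      _ = _ := by ring
  have hdv : ∀ t, HasDerivAt v (deriv v t) t := fun t =>
    (hc.differentiable (by norm_num) t).hasDerivAt
  have hdf : ∀ t, HasDerivAt (fun t => Real.exp (b * t) * v t ^ p)
      (Real.exp (b * t) * v t ^ p * (b + p * (deriv v t / v t))) t := by
    intro t
    have h1 : HasDerivAt (fun t => Real.exp (b * t)) (Real.exp (b * t) * b) t := by
      have := ((hasDerivAt_id t).const_mul b).exp
      simpa using this
    have h2 : HasDerivAt (fun t => v t ^ p) (deriv v t * p * v t ^ (p - 1)) t :=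
      (hdv t).rpow_const (Or.inl (hv t).ne')
    refine (h1.mul h2).congr_deriv ?_
    have h3 : v t ^ (p - 1) = v t ^ p / v t := by
      rw [Real.rpow_sub_one (hv t).ne']
    rw [h3]
    field_simp
  have hdbound : ∀ t ∈ Icc (-T) T,
      |Real.exp (b * t) * v t ^ p * (b + p * (deriv v t / v t))| ≤ L := by
    intro t ht
    refine le_trans ?_ hL3
    rw [abs_mul, abs_of_pos (hfpos t)]
    apply mul_le_mul (hup t ht) _ (abs_nonneg _) (KK_pos hL0).le
    refine le_trans (abs_add_le _ _) ?_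
    have h1 : |p * (deriv v t / v t)| ≤ p * L0 ^ 2 := by
      rw [abs_mul, abs_of_pos hp, abs_div, abs_of_pos (hv t)]
      apply mul_le_mul_of_nonneg_left _ hp.le
      rw [div_le_iff₀ (hv t)]
      have h2 := (hb t ht).2.2
      have h3 := (hb t ht).2.1
      nlinarith [mul_le_mul_of_nonneg_left h3 (by linarith : 0 ≤ L0)]
    linarith
  have hlip : ∀ (g g' : ℝ → ℝ), (∀ t, HasDerivAt g (g' t) t) → (∀ t ∈ Icc (-T) T, |g' t| ≤ L) →
      ∀ t ∈ Icc (lam - 2) (lam + 4), ∀ s ∈ Icc (lam - 2) (lam + 4), |g t - g s| ≤ L * |t - s| := by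
    intro g g' hg hg' t ht s hs
    have := (convex_Icc (-T) T).norm_image_sub_le_of_norm_hasDerivWithin_le
      (f := g) (f' := g') (C := L) (fun x _ => (hg x).hasDerivWithinAt)
      (fun x hx => hg' x hx) (hT hs) (hT ht)
    simpa [Real.norm_eq_abs] using this
  refine ⟨hp, le_trans hL0 hL1, fun t => rfl, hv, hc, ?_, ?_, ?_, ?_, ?_, ?_⟩
  · intro t ht
    exact le_trans (hup t (hT ht)) hL2
  · intro t ht
    refine le_trans (hlow t (hT ht)) ?_
    exact mul_le_mul_of_nonneg_right hL2 (hfpos t).le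
  · intro t ht
    exact le_trans (hb t (hT ht)).1 hL1
  · intro t ht
    exact le_trans (hb t (hT ht)).2.1 (mul_le_mul_of_nonneg_right hL1 (hv t).le)
  · exact hlip _ _ hdf hdbound
  · exact hlip _ _ hdv (fun t ht => le_trans (hb t ht).2.2 hL1)

end WinH

theorem Win : Stmt_Win := by
  intro M _ μ _ S lam a ha ha1
  set T : ℝ := |lam| + 4 with hT
  obtain ⟨L0, hL0, hb⟩ := S.bdd T
  have hsub : Icc (lam - 2) (lam + 4) ⊆ Icc (-T) T := by
    intro t ht
    have h1 := neg_abs_le lam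
    have h2 := le_abs_self lam
    exact ⟨by linarith [ht.1], by linarith [ht.2]⟩
  set K1 := WinH.KK S.b₁ S.p T L0 with hK1
  set K2 := WinH.KK S.b₂ S.q T L0 with hK2
  have hK1p : 0 < K1 := WinH.KK_pos hL0
  have hK2p : 0 < K2 := WinH.KK_pos hL0
  set A1 := K1 * (|S.b₁| + S.p * L0 ^ 2) with hA1
  set A2 := K2 * (|S.b₂| + S.q * L0 ^ 2) with hA2
  have hA1p : 0 ≤ A1 := by
    have := S.hp
    positivity
  have hA2p : 0 ≤ A2 := by
    have := S.hq
    positivity
  set L : ℝ := L0 + K1 + K2 + A1 + A2 with hL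
  have hLpos : 0 < L := by linarith
  refine ⟨L, ⌈8 * L ^ 2 * a⌉₊ + 1, fun m hm => ?_⟩
  have hm1 : 1 ≤ m := le_trans (by omega) hm
  have hmpos : (0:ℝ) < m := by exact_mod_cast hm1
  refine ⟨ha, ha1, hm1, ?_, ?_, ?_⟩
  · unfold msh
    have h1 : 8 * L ^ 2 * a ≤ m := by
      have h2 : (⌈8 * L ^ 2 * a⌉₊ : ℝ) ≤ m := by
        have : ⌈8 * L ^ 2 * a⌉₊ ≤ m := by omega
        exact_mod_cast this
      exact le_trans (Nat.le_ceil _) h2
    rw [show 4 * L ^ 2 * (2 * a / m) = (8 * L ^ 2 * a) / m by ring, div_le_one hmpos]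
    exact h1
  · intro θ
    exact WinH.sol_of S.hp (S.V_pos · θ) (S.V_C1 θ) hsub hL0
      (fun t ht => ⟨(hb θ t ht).2.1, (hb θ t ht).2.2.2.1, (hb θ t ht).2.2.2.2.2⟩)
      (by linarith) (by linarith) (by linarith)
  · intro θ
    exact WinH.sol_of S.hq (S.U_pos · θ) (S.U_C1 θ) hsub hL0
      (fun t ht => ⟨(hb θ t ht).1, (hb θ t ht).2.2.1, (hb θ t ht).2.2.2.2.1⟩)
      (by linarith) (by linarith) (by linarith)

end Crest.Agent.R077
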