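import Crest.Agent.R077.Core
import Crest.Agent.R077.IdentInt
import Crest.Agent.R077.IntW
import Crest.Agent.R077.StepR
import Crest.Agent.R077.AA
import Crest.Agent.R077.JInf3
import Crest.Agent.R077.IntFdV
import Crest.Agent.R077.TVEF
import Crest.Agent.R077.WinOK
import Crest.Agent.R077.Swap
import Crest.Agent.R077.IntXs
import Crest.Agent.R077.IntX

/-! Row 77: the core theorem (all statements proved). -/

set_option autoImplicit false

namespace Crest.Agent.R077.Full

theorem core : Stmt_Core :=
  core_of Win Swap SwapX Ident WF (SR.R_of Ident) AA (JB.J_of Ident Win JB.intFdV) TVF EF XF Xs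

end Crest.Agent.R077.Full
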