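import Crest.Agent.R077.IntE
import Crest.Agent.R077.MeasLay

/-!
Row 77, IntTV (helper245): `Stmt_TV1 → Stmt_E1 → Stmt_TVF`.
-/

set_option autoImplicit false
open MeasureTheory Set Real
open scoped ENNReal

namespace Crest.Agent.R077.IntTV

lemma wend_nonneg {lam a η : ℝ} (hη : 0 ≤ η) (y : ℝ) : 0 ≤ wend lam a η y := by
  unfold wend
  split_ifs
  · have := IntE.tent_nonneg lam a y
    positivity
  · exact le_rfl

lemma tvS_nonneg {v : ℝ → ℝ} (hv : ∀ t, 0 ≤ v t) (x : ℕ → ℝ) (I : Finset (ℕ × ℕ)) (lam a : ℝ) (m : ℕ)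
    {η : ℝ} (hη : 0 ≤ η) : 0 ≤ tvS v x I lam a m η := by
  unfold tvS
  refine Finset.sum_nonneg fun i _ => mul_nonneg ENNReal.toReal_nonneg ?_
  exact add_nonneg (mul_nonneg (wend_nonneg hη _) (hv _)) (mul_nonneg (wend_nonneg hη _) (hv _))

end Crest.Agent.R077.IntTV

namespace Crest.Agent.R077

open IntE IntTV

theorem TVF_of (hT : Stmt_TV1) (hE : Stmt_E1) : Stmt_TVF := by
  intro M _ μ _ S lam a L ha ha1
  obtain ⟨K, hK0, hK⟩ := hT S.b₁ S.p lam a L ha ha1
  refine ⟨K * (μ univ).toReal, mul_nonneg hK0 ENNReal.toReal_nonneg, ?_⟩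
  intro m η δ hW hη hηδ hδa hcb hmη
  have hδ : 0 < δ := lt_of_lt_of_le hη hηδ
  have h1 := fun θ => hK (fun t => S.F t θ) (fun t => S.V t θ) m η δ (hW.solF θ) hW.hm hW.hLm hη hηδ
    hδa hcb hmη
  have hE1 := fun θ => hE S.b₁ S.p lam a L (fun t => S.F t θ) (fun t => S.V t θ) m η δ ha ha1
    (hW.solF θ) hW.hm hW.hLm hη hηδ
  have htm : Measurable (tent lam a) := (tent_continuous lam a).measurable
  have htT : ∀ t, lam + 2 * a < t → tent lam a t = 0 := fun t ht => tent_zero_right (by linarith)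
  have hIw := inner_int S (lam + 2 * a) htm (tent_nonneg lam a) (tent_le ha) htT
  have hint : ∀ η', (∀ θ, 0 ≤ (∫ t, tent lam a t * psi S.b₁ S.p t (S.FLo lam a m L η' t θ)) ∧
      (∫ t, tent lam a t * psi S.b₁ S.p t (S.FLo lam a m L η' t θ))
        ≤ ∫ t, tent lam a t * (S.F t θ * S.V t θ)) →
      Integrable (fun θ => ∫ t, tent lam a t * psi S.b₁ S.p t (S.FLo lam a m L η' t θ)) μ := by
    intro η' h
    refine Integrable.mono' hIw (psiFLo_sm S hW η').aestronglyMeasurable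
      (Filter.Eventually.of_forall fun θ => ?_)
    rw [Real.norm_of_nonneg (h θ).1]
    exact (h θ).2
  have hη0 : ∀ θ, 0 ≤ (∫ t, tent lam a t * psi S.b₁ S.p t (S.FLo lam a m L η t θ)) :=
    fun θ => (hE1 θ).1.trans (hE1 θ).2.1
  have hIη := hint η fun θ => ⟨hη0 θ, (hE1 θ).2.2⟩
  have hIδ := hint δ fun θ => ⟨(hE1 θ).1, (hE1 θ).2.1.trans (hE1 θ).2.2⟩
  -- window energy
  set W := Icc (lam - a / 2) (lam + 3 * a / 2) with hWdef
  have hwm : Measurable (fun t : ℝ => W.indicator (fun _ => (1:ℝ)) t) :=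
    measurable_const.indicator measurableSet_Icc
  have hw0 : ∀ t : ℝ, 0 ≤ W.indicator (fun _ => (1:ℝ)) t := fun t =>
    indicator_nonneg (fun _ _ => zero_le_one) t
  have hw1 : ∀ t : ℝ, W.indicator (fun _ => (1:ℝ)) t ≤ 1 := fun t =>
    indicator_le' (fun _ _ => le_rfl) (fun _ _ => zero_le_one) t
  have hwT : ∀ t : ℝ, lam + 2 * a < t → W.indicator (fun _ => (1:ℝ)) t = 0 := by
    intro t ht
    refine indicator_of_notMem (fun h => ?_) _
    have := h.2
    linarith
  have hWeq : ∀ θ, (∫ t in W, S.F t θ * S.V t θ) = ∫ t, W.indicator (fun _ => (1:ℝ)) t * (S.F t θ * S.V t θ) := by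
    intro θ
    rw [← integral_indicator measurableSet_Icc]
    refine integral_congr_ae (Filter.Eventually.of_forall fun t => ?_)
    show W.indicator (fun t => S.F t θ * S.V t θ) t = W.indicator (fun _ => (1:ℝ)) t * (S.F t θ * S.V t θ)
    by_cases h : t ∈ W
    · rw [indicator_of_mem h, indicator_of_mem h, one_mul]
    · rw [indicator_of_notMem h, indicator_of_notMem h, zero_mul]
  have hIW : Integrable (fun θ => ∫ t in W, S.F t θ * S.V t θ) μ := by
    refine (inner_int S (lam + 2 * a) hwm hw0 hw1 hwT).congr (Filter.Eventually.of_forall fun θ => ?_)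
    exact (hWeq θ).symm
  have hWJ : (∫ θ, ∫ t in W, S.F t θ * S.V t θ ∂volume ∂μ) ≤ S.J1 (lam + 2 * a) := by
    have e1 : (∫ θ, ∫ t in W, S.F t θ * S.V t θ ∂volume ∂μ)
        = ∫ θ, ∫ t, W.indicator (fun _ => (1:ℝ)) t * (S.F t θ * S.V t θ) ∂volume ∂μ :=
      integral_congr_ae (Filter.Eventually.of_forall fun θ => hWeq θ)
    rw [e1, iter_eq S (lam + 2 * a) hwm hw0 hw1 hwT]
    have hJ : S.J1 (lam + 2 * a)
        = ∫ z : M × ℝ, (S.F z.2 z.1 * S.V z.2 z.1) ∂(μ.prod (volume.restrict (Iic (lam + 2 * a)))) := by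
      rw [integral_prod _ (FV_int S _)]
      rfl
    rw [hJ]
    refine integral_mono (wFV_int S _ hwm hw0 hw1) (FV_int S _) fun z => ?_
    have := mul_le_mul_of_nonneg_right (hw1 z.2) (FV_nonneg S z.2 z.1)
    simpa using this
  -- the end terms
  have htv0 : ∀ θ, 0 ≤ tvS (fun t => S.V t θ) (S.xF lam a m L θ) (longI a m η) lam a m η := fun θ =>
    tvS_nonneg (fun t => (S.V_pos t θ).le) _ _ _ _ _ hη.le
  have htvm : Measurable (fun θ => tvS (fun t => S.V t θ) (S.xF lam a m L θ) (longI a m η) lam a m η) :=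
    ML.meas_tvF S lam a m L (longI a m η) η measurable_id
  set R : M → ℝ := fun θ =>
    4 * (η / δ) * (∫ t, tent lam a t * psi S.b₁ S.p t (S.FLo lam a m L δ t θ))
        + 4 * ((∫ t, tent lam a t * psi S.b₁ S.p t (S.FLo lam a m L η t θ))
              - ∫ t, tent lam a t * psi S.b₁ S.p t (S.FLo lam a m L δ t θ))
        + 24 * (4 / a ^ 2) * δ * (∫ t in W, S.F t θ * S.V t θ)
        + K * msh a m with hR
  have hRi : Integrable R μ :=
    (((hIδ.const_mul _).add ((hIη.sub hIδ).const_mul _)).add (hIW.const_mul _)).add (integrable_const _)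
  have hle : ∀ θ, η * tvS (fun t => S.V t θ) (S.xF lam a m L θ) (longI a m η) lam a m η ≤ R θ := h1
  have htvi : Integrable
      (fun θ => η * tvS (fun t => S.V t θ) (S.xF lam a m L θ) (longI a m η) lam a m η) μ := by
    refine Integrable.mono' hRi (htvm.const_mul η).aestronglyMeasurable
      (Filter.Eventually.of_forall fun θ => ?_)
    rw [Real.norm_of_nonneg (mul_nonneg hη.le (htv0 θ))]
    exact hle θ
  refine ⟨integral_nonneg htv0, ?_⟩
  have e1 : η * S.TVF lam a m L η =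
      ∫ θ, η * tvS (fun t => S.V t θ) (S.xF lam a m L θ) (longI a m η) lam a m η ∂μ := by
    unfold Cyl.TVF
    rw [integral_const_mul]
  rw [e1]
  refine (integral_mono htvi hRi hle).trans ?_
  have e2 : (∫ θ, R θ ∂μ) = 4 * (η / δ) * S.EF lam a m L δ + 4 * (S.EF lam a m L η - S.EF lam a m L δ)
      + 24 * (4 / a ^ 2) * δ * (∫ θ, ∫ t in W, S.F t θ * S.V t θ ∂volume ∂μ)
      + (μ univ).toReal * (K * msh a m) := by
    rw [hR]
    have i1 := hIδ.const_mul (4 * (η / δ))
    have i2 := (hIη.sub hIδ).const_mul 4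
    have i3 := hIW.const_mul (24 * (4 / a ^ 2) * δ)
    have i12 := i1.add i2
    have i123 := i12.add i3
    have s1 := integral_add i123 (integrable_const (μ := μ) (K * msh a m))
    have s2 := integral_add i12 i3
    have s3 := integral_add i1 i2
    have s4 := integral_sub hIη hIδ
    simp only [Pi.add_apply, Pi.sub_apply] at s1 s2 s3 s4
    rw [s1, s2, s3, integral_const_mul, integral_const_mul, integral_const_mul, s4, integral_const,
      smul_eq_mul]
    rfl
  rw [e2]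
  have h3 : 24 * (4 / a ^ 2) * δ * (∫ θ, ∫ t in W, S.F t θ * S.V t θ ∂volume ∂μ) ≤
      24 * (4 / a ^ 2) * δ * S.J1 (lam + 2 * a) := mul_le_mul_of_nonneg_left hWJ (by positivity)
  linarith

end Crest.Agent.R077
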