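import Crest.Agent.R077.Defs

/-!
# Row 77: STEP W and STEP TV, one layer at a time (one variable)
-/

set_option autoImplicit false

open Set MeasureTheory Filter Topology

noncomputable section

namespace Crest.Agent.R077

/-- `e_σ(t) = (e^{-bt} σ)^{1/p}` -/
def esg (b p σ t : ℝ) : ℝ := (Real.exp (-(b * t)) * σ) ^ (1 / p)

theorem esg_eq {b p σ t : ℝ} (hσ : 0 ≤ σ) : esg b p σ t = Real.exp (-(b * t) / p) * σ ^ (1 / p) := by
  unfold esg
  rw [Real.mul_rpow (Real.exp_pos _).le hσ, ← Real.exp_mul]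
  congr 2
  ring

theorem psi_zero {b p t : ℝ} (hp : 0 < p) : psi b p t 0 = 0 := by
  unfold psi
  rw [Real.zero_rpow (by positivity), mul_zero]

theorem psi_nonneg {b p t x : ℝ} (hp : 0 < p) (hx : 0 ≤ x) : 0 ≤ psi b p t x := by
  unfold psi
  have := Real.rpow_nonneg hx ((p + 1) / p)
  positivity

theorem psi_mono {b p t x y : ℝ} (hp : 0 < p) (hx : 0 ≤ x) (hxy : x ≤ y) : psi b p t x ≤ psi b p t y := by
  unfold psi
  have := Real.rpow_le_rpow hx hxy (by positivity : 0 ≤ (p + 1) / p)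
  gcongr

/-- mean value bounds: `(y-x) e_x ≤ ψ(y) - ψ(x) ≤ (y-x) e_y`. -/
theorem psi_sub_le {b p t x y : ℝ} (hp : 0 < p) (hx : 0 ≤ x) (hxy : x ≤ y) :
    psi b p t y - psi b p t x ≤ (y - x) * esg b p y t := by
  have hy : 0 ≤ y := hx.trans hxy
  rw [esg_eq hy]
  unfold psi
  have hE := Real.exp_pos (-(b * t) / p)
  set q := (p + 1) / p with hq
  have hq1 : 1 < q := by rw [hq, lt_div_iff₀ hp]; linarith
  have hq0 : 1 / p = q - 1 := by rw [hq]; field_simp; ring
  rw [hq0]
  have hpq : p / (p + 1) = 1 / q := by rw [hq]; field_simp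
  rw [hpq]
  -- convexity: y^q - x^q ≤ q (y-x) y^(q-1)
  have key : y ^ q - x ^ q ≤ q * (y - x) * y ^ (q - 1) := by
    rcases hy.eq_or_lt with h0 | h0
    · have : x = 0 := le_antisymm (h0 ▸ hxy) hx
      rw [← h0, this]; simp
    · have hb := one_add_mul_self_le_rpow_one_add (s := x / y - 1) (by
        have : 0 ≤ x / y := by positivity
        linarith) hq1.le
      have h2 : (1 + (x / y - 1)) ^ q = x ^ q / y ^ q := by
        rw [show (1 + (x / y - 1)) = x / y by ring, Real.div_rpow hx hy]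
      rw [h2] at hb
      have hyq : 0 < y ^ q := Real.rpow_pos_of_pos h0 q
      rw [le_div_iff₀ hyq] at hb
      have h3 : y ^ q = y * y ^ (q - 1) := by
        rw [mul_comm, ← Real.rpow_add_one h0.ne']; congr 1; ring
      have h4 : (1 + q * (x / y - 1)) * y ^ q = y ^ q - q * (y - x) * y ^ (q - 1) := by
        rw [h3]; field_simp; ring
      linarith
  have hq' : 0 < q := by linarith
  calc 1 / q * Real.exp (-(b * t) / p) * y ^ q - 1 / q * Real.exp (-(b * t) / p) * x ^ q
      = 1 / q * Real.exp (-(b * t) / p) * (y ^ q - x ^ q) := by ring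
    _ ≤ 1 / q * Real.exp (-(b * t) / p) * (q * (y - x) * y ^ (q - 1)) := by gcongr
    _ = (y - x) * (Real.exp (-(b * t) / p) * y ^ (q - 1)) := by field_simp

theorem le_psi_sub {b p t x y : ℝ} (hp : 0 < p) (hx : 0 ≤ x) (hxy : x ≤ y) :
    (y - x) * esg b p x t ≤ psi b p t y - psi b p t x := by
  have hy : 0 ≤ y := hx.trans hxy
  rw [esg_eq hx]
  unfold psi
  have hE := Real.exp_pos (-(b * t) / p)
  set q := (p + 1) / p with hq
  have hq1 : 1 < q := by rw [hq, lt_div_iff₀ hp]; linarith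
  have hq0 : 1 / p = q - 1 := by rw [hq]; field_simp; ring
  rw [hq0]
  have hpq : p / (p + 1) = 1 / q := by rw [hq]; field_simp
  rw [hpq]
  have key : q * (y - x) * x ^ (q - 1) ≤ y ^ q - x ^ q := by
    rcases hx.eq_or_lt with h0 | h0
    · rw [← h0, Real.zero_rpow (by linarith), Real.zero_rpow (by linarith)]
      have := Real.rpow_nonneg hy q
      simpa using this
    · have hb := one_add_mul_self_le_rpow_one_add (s := y / x - 1) (by
        have : 0 ≤ y / x := by positivity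
        linarith) hq1.le
      have h2 : (1 + (y / x - 1)) ^ q = y ^ q / x ^ q := by
        rw [show (1 + (y / x - 1)) = y / x by ring, Real.div_rpow hy hx]
      rw [h2] at hb
      have hxq : 0 < x ^ q := Real.rpow_pos_of_pos h0 q
      rw [le_div_iff₀ hxq] at hb
      have h3 : x ^ q = x * x ^ (q - 1) := by
        rw [mul_comm, ← Real.rpow_add_one h0.ne']; congr 1; ring
      have h4 : (1 + q * (y / x - 1)) * x ^ q = x ^ q + q * (y - x) * x ^ (q - 1) := by
        rw [h3]; field_simp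
      linarith
  have hq' : 0 < q := by linarith
  calc (y - x) * (Real.exp (-(b * t) / p) * x ^ (q - 1))
      = 1 / q * Real.exp (-(b * t) / p) * (q * (y - x) * x ^ (q - 1)) := by field_simp
    _ ≤ 1 / q * Real.exp (-(b * t) / p) * (y ^ q - x ^ q) := by gcongr
    _ = 1 / q * Real.exp (-(b * t) / p) * y ^ q - 1 / q * Real.exp (-(b * t) / p) * x ^ q := by ring

/-- comparison of `P(t) = ψ(t,y) - ψ(t,x)` at nearby times -/
theorem psiP_compare {b p x y η : ℝ} (hp : 0 < p) (hx : 0 ≤ x) (hxy : x ≤ y) {s t : ℝ}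
    (hst : |s - t| ≤ η) :
    |(psi b p s y - psi b p s x) - (psi b p t y - psi b p t x)| ≤
      (Real.exp (|b| * η / p) - 1) * (psi b p t y - psi b p t x) := by
  unfold psi
  set C := p / (p + 1) * (y ^ ((p + 1) / p) - x ^ ((p + 1) / p)) with hC
  have hC0 : 0 ≤ C := by
    have := Real.rpow_le_rpow hx hxy (by positivity : 0 ≤ (p + 1) / p)
    have h2 : 0 ≤ y ^ ((p + 1) / p) - x ^ ((p + 1) / p) := by linarith
    positivity
  have e1 : p / (p + 1) * Real.exp (-(b * s) / p) * y ^ ((p + 1) / p) -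
      p / (p + 1) * Real.exp (-(b * s) / p) * x ^ ((p + 1) / p) = Real.exp (-(b * s) / p) * C := by
    rw [hC]; ring
  have e2 : p / (p + 1) * Real.exp (-(b * t) / p) * y ^ ((p + 1) / p) -
      p / (p + 1) * Real.exp (-(b * t) / p) * x ^ ((p + 1) / p) = Real.exp (-(b * t) / p) * C := by
    rw [hC]; ring
  rw [e1, e2]
  have e3 : Real.exp (-(b * s) / p) = Real.exp (-(b * (s - t)) / p) * Real.exp (-(b * t) / p) := by
    rw [← Real.exp_add]; congr 1; ring
  have e4 : Real.exp (-(b * s) / p) * C - Real.exp (-(b * t) / p) * C =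
      (Real.exp (-(b * (s - t)) / p) - 1) * (Real.exp (-(b * t) / p) * C) := by
    rw [e3]; ring
  rw [e4, abs_mul, abs_of_nonneg (by positivity : 0 ≤ Real.exp (-(b * t) / p) * C)]
  refine mul_le_mul_of_nonneg_right ?_ (by positivity)
  set r := -(b * (s - t)) / p with hr
  have hrabs : |r| ≤ |b| * η / p := by
    rw [hr, abs_div, abs_neg, abs_mul, abs_of_pos hp]
    gcongr
  have h5 : |Real.exp r - 1| ≤ Real.exp |r| - 1 := by
    rcases le_total 0 r with h | h
    · rw [abs_of_nonneg h, abs_of_nonneg]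
      have := Real.add_one_le_exp r
      linarith
    · rw [abs_of_nonpos h, abs_of_nonpos]
      · have h6 : Real.exp r * Real.exp (-r) = 1 := by rw [← Real.exp_add]; simp
        have h7 := Real.exp_pos r
        have h8 := Real.exp_pos (-r)
        nlinarith [sq_nonneg (Real.exp r - 1), sq_nonneg (Real.exp (-r) - 1)]
      · have := Real.exp_le_one_iff.2 h
        linarith
  refine h5.trans ?_
  have := Real.exp_le_exp.2 hrabs
  linarith

/-- **STEP W for one short layer** `I = [y1,y2)`, levels `[lo,hi)`, rigid velocity `φ(m)`. -/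
theorem stepW_layer {b p η e lo hi y1 y2 m : ℝ} {V V' w φ : ℝ → ℝ} (hp : 0 < p)
    (hlo : 0 ≤ lo) (hlh : lo ≤ hi) (hm1 : y1 ≤ m) (hm2 : m ≤ y2) (hη : y2 - y1 ≤ η)
    (hw : Continuous w) (hw0 : ∀ t, 0 ≤ w t) (hφ : ∀ t, HasDerivAt φ (-w t) t)
    (hV : ∀ t ∈ Icc y1 y2, HasDerivAt V (V' t) t) (hV'c : ContinuousOn V' (Icc y1 y2))
    (hV1 : |(hi - lo) * V y1 - (psi b p y1 hi - psi b p y1 lo)| ≤ e * (hi - lo))
    (hV2 : |(hi - lo) * V y2 - (psi b p y2 hi - psi b p y2 lo)| ≤ e * (hi - lo)) :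
    |(hi - lo) * (∫ t in y1..y2, (φ m - φ t) * V' t) + (hi - lo) * (∫ t in y1..y2, w t * V t)
      - ∫ t in y1..y2, w t * (psi b p t hi - psi b p t lo)| ≤
      (Real.exp (|b| * η / p) - 1) * (∫ t in y1..y2, w t * (psi b p t hi - psi b p t lo))
        + e * ((hi - lo) * ∫ t in y1..y2, w t) := by
  have h12 : y1 ≤ y2 := hm1.trans hm2
  have hφc : Continuous φ := continuous_iff_continuousAt.2 fun t => (hφ t).continuousAt
  have hVc : ContinuousOn V (Icc y1 y2) := fun t ht => (hV t ht).continuousAt.continuousWithinAt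
  have huIcc : uIcc y1 y2 = Icc y1 y2 := uIcc_of_le h12
  set P : ℝ → ℝ := fun t => psi b p t hi - psi b p t lo with hP
  have hPc : Continuous P := by
    rw [hP]; unfold psi; fun_prop
  have hP0 : ∀ t, 0 ≤ P t := fun t => sub_nonneg.2 (psi_mono hp hlo hlh)
  -- integration by parts
  have hibp : ∫ t in y1..y2, (φ m - φ t) * V' t =
      (φ m - φ y2) * V y2 - (φ m - φ y1) * V y1 - ∫ t in y1..y2, w t * V t := by
    refine intervalIntegral.integral_mul_deriv_eq_deriv_mul (u := fun t => φ m - φ t) (v := V)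
      (u' := w) (v' := V') ?_ ?_ ?_ ?_
    · intro t _
      have := (hφ t).const_sub (φ m)
      simpa using this
    · intro t ht; exact hV t (huIcc ▸ ht)
    · exact hw.intervalIntegrable _ _
    · exact (huIcc ▸ hV'c : ContinuousOn V' (uIcc y1 y2)).intervalIntegrable
  have hint : ∀ x y : ℝ, ∫ t in x..y, w t = φ x - φ y := by
    intro x y
    have h1 : ∀ t ∈ uIcc x y, HasDerivAt (fun t => -φ t) (w t) t := fun t _ =>
      ((hφ t).neg.congr_deriv (neg_neg _))
    rw [intervalIntegral.integral_eq_sub_of_hasDerivAt h1 (hw.intervalIntegrable _ _)]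
    ring
  have hA : 0 ≤ φ m - φ y2 := by
    rw [← hint]; exact intervalIntegral.integral_nonneg hm2 fun t _ => hw0 t
  have hB : 0 ≤ φ y1 - φ m := by
    rw [← hint]; exact intervalIntegral.integral_nonneg hm1 fun t _ => hw0 t
  have hwP : ∀ x y : ℝ, IntervalIntegrable (fun t => w t * P t) volume x y := fun x y =>
    (hw.mul hPc).intervalIntegrable _ _
  have hwC : ∀ x y c : ℝ, IntervalIntegrable (fun t => w t * c) volume x y := fun x y c =>
    (hw.mul continuous_const).intervalIntegrable _ _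
  -- split
  have hsplit : ∫ t in y1..y2, w t * P t = (∫ t in y1..m, w t * P t) + ∫ t in m..y2, w t * P t :=
    (intervalIntegral.integral_add_adjacent_intervals (hwP _ _) (hwP _ _)).symm
  set κ := Real.exp (|b| * η / p) - 1 with hκ
  have hκ0 : 0 ≤ κ := by
    have h0 : 0 ≤ |b| * η / p := by
      have : 0 ≤ η := by linarith
      positivity
    have := Real.add_one_le_exp (|b| * η / p)
    rw [hκ]; linarith
  have hr : |(φ m - φ y2) * P y2 - ∫ t in m..y2, w t * P t| ≤ κ * ∫ t in m..y2, w t * P t := by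
    have e1 : (φ m - φ y2) * P y2 - ∫ t in m..y2, w t * P t = ∫ t in m..y2, w t * (P y2 - P t) := by
      rw [← hint, ← intervalIntegral.integral_mul_const,
        ← intervalIntegral.integral_sub (hwC _ _ _) (hwP _ _)]
      congr 1; funext t; ring
    rw [e1, ← intervalIntegral.integral_const_mul, ← Real.norm_eq_abs]
    refine intervalIntegral.norm_integral_le_of_norm_le hm2 (Eventually.of_forall fun t ht => ?_)
      ((continuous_const.mul (hw.mul hPc)).intervalIntegrable _ _)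
    rw [Real.norm_eq_abs, abs_mul, abs_of_nonneg (hw0 t)]
    have h1 := psiP_compare (b := b) hp hlo hlh (s := y2) (t := t) (η := η)
      (by rw [abs_of_nonneg (by linarith [ht.2])]; linarith [ht.1])
    calc w t * |P y2 - P t| ≤ w t * (κ * P t) := mul_le_mul_of_nonneg_left h1 (hw0 t)
      _ = κ * (w t * P t) := by ring
  have hl : |(φ y1 - φ m) * P y1 - ∫ t in y1..m, w t * P t| ≤ κ * ∫ t in y1..m, w t * P t := by
    have e1 : (φ y1 - φ m) * P y1 - ∫ t in y1..m, w t * P t = ∫ t in y1..m, w t * (P y1 - P t) := by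
      rw [← hint, ← intervalIntegral.integral_mul_const,
        ← intervalIntegral.integral_sub (hwC _ _ _) (hwP _ _)]
      congr 1; funext t; ring
    rw [e1, ← intervalIntegral.integral_const_mul, ← Real.norm_eq_abs]
    refine intervalIntegral.norm_integral_le_of_norm_le hm1 (Eventually.of_forall fun t ht => ?_)
      ((continuous_const.mul (hw.mul hPc)).intervalIntegrable _ _)
    rw [Real.norm_eq_abs, abs_mul, abs_of_nonneg (hw0 t)]
    have h1 := psiP_compare (b := b) hp hlo hlh (s := y1) (t := t) (η := η)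
      (by rw [abs_of_nonpos (by linarith [ht.1])]; linarith [ht.2])
    calc w t * |P y1 - P t| ≤ w t * (κ * P t) := mul_le_mul_of_nonneg_left h1 (hw0 t)
      _ = κ * (w t * P t) := by ring
  rw [hibp, hint, hsplit]
  have h3 : (hi - lo) * ((φ m - φ y2) * V y2 - (φ m - φ y1) * V y1 - ∫ t in y1..y2, w t * V t) +
      (hi - lo) * (∫ t in y1..y2, w t * V t) -
      ((∫ t in y1..m, w t * P t) + ∫ t in m..y2, w t * P t) =
      (φ m - φ y2) * ((hi - lo) * V y2 - P y2) + (φ y1 - φ m) * ((hi - lo) * V y1 - P y1) +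
      ((φ m - φ y2) * P y2 - ∫ t in m..y2, w t * P t) +
      ((φ y1 - φ m) * P y1 - ∫ t in y1..m, w t * P t) := by ring
  rw [h3]
  have q1 : |(φ m - φ y2) * ((hi - lo) * V y2 - P y2)| ≤ (φ m - φ y2) * (e * (hi - lo)) := by
    rw [abs_mul, abs_of_nonneg hA]; exact mul_le_mul_of_nonneg_left hV2 hA
  have q2 : |(φ y1 - φ m) * ((hi - lo) * V y1 - P y1)| ≤ (φ y1 - φ m) * (e * (hi - lo)) := by
    rw [abs_mul, abs_of_nonneg hB]; exact mul_le_mul_of_nonneg_left hV1 hB
  refine (abs_add_le _ _).trans ?_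
  have q3 := (abs_add_le ((φ m - φ y2) * ((hi - lo) * V y2 - P y2) + (φ y1 - φ m) * ((hi - lo) * V y1 - P y1))
    ((φ m - φ y2) * P y2 - ∫ t in m..y2, w t * P t))
  have q4 := abs_add_le ((φ m - φ y2) * ((hi - lo) * V y2 - P y2)) ((φ y1 - φ m) * ((hi - lo) * V y1 - P y1))
  have : κ * ((∫ t in y1..m, w t * P t) + ∫ t in m..y2, w t * P t) + e * ((hi - lo) * (φ y1 - φ y2)) =
      (κ * ∫ t in y1..m, w t * P t) + (κ * ∫ t in m..y2, w t * P t) +
      (φ m - φ y2) * (e * (hi - lo)) + (φ y1 - φ m) * (e * (hi - lo)) := by ring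
  rw [this]
  linarith

/-- Lipschitz bound for powers away from zero -/
theorem rpow_lip {r f0 f1 x y : ℝ} (h0 : 0 < f0) (hx : x ∈ Icc f0 f1) (hy : y ∈ Icc f0 f1) :
    |x ^ r - y ^ r| ≤ |r| * max (f0 ^ (r - 1)) (f1 ^ (r - 1)) * |x - y| := by
  have hd : ∀ z ∈ Icc f0 f1, HasDerivWithinAt (fun z : ℝ => z ^ r) (r * z ^ (r - 1)) (Icc f0 f1) z := by
    intro z hz
    have hz0 : z ≠ 0 := (lt_of_lt_of_le h0 hz.1).ne'
    exact (Real.hasDerivAt_rpow_const (Or.inl hz0)).hasDerivWithinAt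
  have hb : ∀ z ∈ Icc f0 f1, ‖r * z ^ (r - 1)‖ ≤ |r| * max (f0 ^ (r - 1)) (f1 ^ (r - 1)) := by
    intro z hz
    have hz0 : 0 < z := lt_of_lt_of_le h0 hz.1
    rw [norm_mul, Real.norm_eq_abs, Real.norm_of_nonneg (Real.rpow_nonneg hz0.le _)]
    refine mul_le_mul_of_nonneg_left ?_ (abs_nonneg _)
    rcases le_total 0 (r - 1) with h | h
    · exact (Real.rpow_le_rpow hz0.le hz.2 h).trans (le_max_right _ _)
    · exact (Real.rpow_le_rpow_of_nonpos h0 hz.1 h).trans (le_max_left _ _)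
  have := (convex_Icc f0 f1).norm_image_sub_le_of_norm_hasDerivWithin_le hd hb hy hx
  simpa [Real.norm_eq_abs] using this

/-- the end condition of `stepW_layer` from `|F(y) - σ| ≤ κ` on the levels of the layer -/
theorem end_cond {b p f0 f1 lo hi y Fy Vy κ : ℝ} (hp : 0 < p) (h0 : 0 < f0) (hlo : lo ∈ Icc f0 f1)
    (hhi : hi ∈ Icc f0 f1) (hlh : lo ≤ hi) (hF : Fy ∈ Icc f0 f1) (hV : 0 ≤ Vy)
    (hFV : Fy = Real.exp (b * y) * Vy ^ p) (k1 : |Fy - lo| ≤ κ) (k2 : |Fy - hi| ≤ κ) :
    |(hi - lo) * Vy - (psi b p y hi - psi b p y lo)| ≤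
      (Real.exp (-(b * y) / p) * ((1 / p) * max (f0 ^ (1 / p - 1)) (f1 ^ (1 / p - 1)) * κ)) * (hi - lo) := by
  have hlo0 : 0 ≤ lo := h0.le.trans hlo.1
  have hVe : Vy = esg b p Fy y := by
    unfold esg
    rw [hFV, ← mul_assoc, ← Real.exp_add]
    rw [show -(b * y) + b * y = 0 by ring, Real.exp_zero, one_mul, ← Real.rpow_mul hV,
      mul_one_div_cancel hp.ne', Real.rpow_one]
  have hE := Real.exp_pos (-(b * y) / p)
  set C := Real.exp (-(b * y) / p) * ((1 / p) * max (f0 ^ (1 / p - 1)) (f1 ^ (1 / p - 1)) * κ) with hC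
  have hM : 0 ≤ max (f0 ^ (1 / p - 1)) (f1 ^ (1 / p - 1)) := le_max_of_le_left (Real.rpow_nonneg h0.le _)
  have hdiff : ∀ σ ∈ Icc f0 f1, |Fy - σ| ≤ κ → |esg b p Fy y - esg b p σ y| ≤ C := by
    intro σ hσ hk
    rw [esg_eq (h0.le.trans hF.1), esg_eq (h0.le.trans hσ.1), ← mul_sub, abs_mul, abs_of_pos hE, hC]
    refine mul_le_mul_of_nonneg_left ?_ hE.le
    refine (rpow_lip (r := 1 / p) h0 hF hσ).trans ?_
    rw [abs_of_pos (by positivity : 0 < 1 / p)]
    gcongr
  have d1 := hdiff lo hlo k1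
  have d2 := hdiff hi hhi k2
  have u := psi_sub_le (b := b) (t := y) hp hlo0 hlh
  have l := le_psi_sub (b := b) (t := y) hp hlo0 hlh
  have hd0 : 0 ≤ hi - lo := by linarith
  rw [hVe]
  rw [abs_le] at d1 d2 ⊢
  constructor
  · nlinarith
  · nlinarith

/-- the calculus identity for the pointwise velocity `φ`. -/
theorem stepW_phi {b p T0 T1 : ℝ} {F V V' w φ : ℝ → ℝ} (hp : 0 < p) (h01 : T0 ≤ T1)
    (hw : Continuous w) (hφ : ∀ t, HasDerivAt φ (-w t) t) (hφ1 : φ T1 = 0)
    (hV0 : ∀ t ∈ Icc T0 T1, 0 < V t)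
    (hF : ∀ t ∈ Icc T0 T1, F t = Real.exp (b * t) * V t ^ p)
    (hV : ∀ t ∈ Icc T0 T1, HasDerivAt V (V' t) t) (hV'c : ContinuousOn V' (Icc T0 T1)) :
    ∫ t in T0..T1, φ t * F t * V' t =
      -(φ T0 * F T0 * V T0) / (p + 1) + (1 / (p + 1)) * (∫ t in T0..T1, w t * F t * V t)
        - (b / (p + 1)) * ∫ t in T0..T1, φ t * F t * V t := by
  have huIcc : uIcc T0 T1 = Icc T0 T1 := uIcc_of_le h01
  have hφc : Continuous φ := continuous_iff_continuousAt.2 fun t => (hφ t).continuousAt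
  have hVc : ContinuousOn V (Icc T0 T1) := fun t ht => (hV t ht).continuousAt.continuousWithinAt
  have hFc : ContinuousOn F (Icc T0 T1) := by
    refine ContinuousOn.congr (f := fun t => Real.exp (b * t) * V t ^ p) ?_ hF
    refine ContinuousOn.mul (by fun_prop) (hVc.rpow_const fun t ht => Or.inl (hV0 t ht).ne')
  -- derivative of `φ e^{bt} V^{p+1}/(p+1)`
  have hd : ∀ t ∈ uIcc T0 T1, HasDerivAt (fun t => φ t * (Real.exp (b * t) * V t ^ (p + 1)) / (p + 1))
      (φ t * F t * V' t - (1 / (p + 1)) * (w t * F t * V t) + (b / (p + 1)) * (φ t * F t * V t)) t := by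
    intro t ht
    rw [huIcc] at ht
    have hVt := hV0 t ht
    have h1 : HasDerivAt (fun t => Real.exp (b * t)) (Real.exp (b * t) * b) t := by
      have := ((hasDerivAt_id t).const_mul b).exp
      simpa using this
    have h2 : HasDerivAt (fun t => V t ^ (p + 1)) (V' t * (p + 1) * V t ^ (p + 1 - 1)) t :=
      (hV t ht).rpow_const (Or.inl hVt.ne')
    have h3 := ((hφ t).mul (h1.mul h2)).div_const (p + 1)
    refine h3.congr_deriv ?_
    simp only [Pi.mul_apply]
    rw [hF t ht, show p + 1 - 1 = p by ring, Real.rpow_add_one hVt.ne']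
    have : p + 1 ≠ 0 := by positivity
    field_simp
    ring
  have hc1 : ContinuousOn (fun t => φ t * F t * V' t) (uIcc T0 T1) := by
    rw [huIcc]; exact (hφc.continuousOn.mul hFc).mul hV'c
  have hc2 : ContinuousOn (fun t => w t * F t * V t) (uIcc T0 T1) := by
    rw [huIcc]; exact (hw.continuousOn.mul hFc).mul hVc
  have hc3 : ContinuousOn (fun t => φ t * F t * V t) (uIcc T0 T1) := by
    rw [huIcc]; exact (hφc.continuousOn.mul hFc).mul hVc
  have hi1 := hc1.intervalIntegrable (μ := volume)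
  have hi2 := (hc2.intervalIntegrable (μ := volume)).const_mul (1 / (p + 1))
  have hi3 := (hc3.intervalIntegrable (μ := volume)).const_mul (b / (p + 1))
  have hFTC := intervalIntegral.integral_eq_sub_of_hasDerivAt hd ((hi1.sub hi2).add hi3)
  rw [intervalIntegral.integral_add (hi1.sub hi2) hi3, intervalIntegral.integral_sub hi1 hi2,
    intervalIntegral.integral_const_mul, intervalIntegral.integral_const_mul, hφ1, zero_mul,
    zero_div, zero_sub] at hFTC
  have e0 : φ T0 * (Real.exp (b * T0) * V T0 ^ (p + 1)) / (p + 1) = (φ T0 * F T0 * V T0) / (p + 1) := by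
    have h0 : T0 ∈ Icc T0 T1 := left_mem_Icc.2 h01
    rw [hF T0 h0, Real.rpow_add_one (hV0 T0 h0).ne']
    ring
  rw [e0] at hFTC
  have : -(φ T0 * F T0 * V T0) / (p + 1) = -((φ T0 * F T0 * V T0) / (p + 1)) := by ring
  rw [this]
  linarith

/-- `ψ(t,F) = (p/(p+1)) F V` for `F = e^{bt} V^p`. -/
theorem psi_F {b p t Ft Vt : ℝ} (hp : 0 < p) (hV : 0 ≤ Vt) (hF : Ft = Real.exp (b * t) * Vt ^ p) :
    psi b p t Ft = p / (p + 1) * (Ft * Vt) := by
  unfold psi
  have hF0 : 0 ≤ Ft := by rw [hF]; have := Real.rpow_nonneg hV p; positivity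
  have h1 : Ft ^ ((p + 1) / p) = Ft * Ft ^ (1 / p) := by
    rw [show (p + 1) / p = 1 + 1 / p by field_simp,
      Real.rpow_add' hF0 (by positivity), Real.rpow_one]
  have h2 : Ft ^ (1 / p) = Real.exp (b * t / p) * Vt := by
    rw [hF, Real.mul_rpow (Real.exp_pos _).le (Real.rpow_nonneg hV _), ← Real.exp_mul,
      ← Real.rpow_mul hV, mul_one_div_cancel hp.ne', Real.rpow_one]
    congr 2
    ring
  rw [h1, h2]
  have h3 : Real.exp (-(b * t) / p) * Real.exp (b * t / p) = 1 := by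
    rw [← Real.exp_add, show -(b * t) / p + b * t / p = 0 by ring, Real.exp_zero]
  calc p / (p + 1) * Real.exp (-(b * t) / p) * (Ft * (Real.exp (b * t / p) * Vt))
      = p / (p + 1) * (Ft * Vt) * (Real.exp (-(b * t) / p) * Real.exp (b * t / p)) := by ring
    _ = _ := by rw [h3, mul_one]

end Crest.Agent.R077
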