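import Crest.Agent.R077.StepXI
import Crest.Agent.R077.StepW
import Crest.Agent.R077.LayersMeas

/-!
# Row 77: layer adapter used by STEP X and `Stmt_X3` (helper615)
-/

set_option autoImplicit false

namespace Crest.Agent.R077.StepX

open MeasureTheory Set

/-! ## real part of X3 -/

/-- the constant of X3 -/
noncomputable def K3 (b p lam a L : ℝ) : ℝ :=
  Real.exp (|b| / p) * ((p + 1) / p) * (L * (Real.exp (|b| * (|lam| + a) / p) * L ^ (1 / p)))

lemma exp_le_cb {b p ze : ℝ} (hp : 0 < p) (hze : 0 ≤ ze) (hze1 : ze ≤ 1) :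
    Real.exp (|b| * ze / p) ≤ 1 + cb b p * ze := by
  unfold cb
  set c := |b| / p with hc
  have hc0 : 0 ≤ c := by positivity
  have e : |b| * ze / p = c * ze := by rw [hc]; ring
  rw [e]
  have hcz : 0 ≤ c * ze := by positivity
  -- exp u ≤ 1 + u exp u
  have h1 : Real.exp (c * ze) ≤ 1 + c * ze * Real.exp (c * ze) := by
    have h2 := Real.add_one_le_exp (-(c * ze))
    have h3 := Real.exp_pos (c * ze)
    have h4 := mul_le_mul_of_nonneg_right h2 h3.le
    rw [← Real.exp_add, neg_add_cancel, Real.exp_zero] at h4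
    nlinarith
  have h5 : Real.exp (c * ze) ≤ Real.exp c := Real.exp_le_exp.2 (by nlinarith)
  have h6 := mul_le_mul_of_nonneg_left h5 hcz
  nlinarith

lemma x3_real {b p lam a L t s ze h y z fs vs : ℝ} (hp : 0 < p) (hL : 1 ≤ L) (ha : 0 < a)
    (ht : t ∈ Icc lam (lam + a)) (hze : 0 ≤ ze) (hze1 : ze ≤ 1) (hst : |s - t| ≤ ze) (hh : 0 ≤ h)
    (hv : 0 < vs) (hf : fs = Real.exp (b * s) * vs ^ p) (hfy : fs ≤ y + L * h)
    (hyL : y + L * h ≤ L) (hz0 : 0 ≤ z) (hzy : z ≤ y) :
    z * vs ≤ (1 + cb b p * ze) * ((p + 1) / p) * R077.psi b p t y + K3 b p lam a L * h := by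
  have hL0 : 0 < L := by linarith
  have hLh : 0 ≤ L * h := by positivity
  have hy0 : 0 ≤ y := hz0.trans hzy
  set y' := y + L * h with hy'
  have hy'0 : 0 ≤ y' := by positivity
  have hfs0 : 0 ≤ fs := by rw [hf]; positivity
  -- v s = esg fs s
  have h1 : vs = esg b p fs s := by
    unfold esg
    rw [hf, ← mul_assoc, ← Real.exp_add, neg_add_cancel, Real.exp_zero, one_mul,
      ← Real.rpow_mul hv.le, mul_one_div_cancel hp.ne', Real.rpow_one]
  have h2 : vs ≤ Real.exp (-(b * s) / p) * y' ^ (1 / p) := by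
    rw [h1, esg_eq hfs0]
    exact mul_le_mul_of_nonneg_left (Real.rpow_le_rpow hfs0 hfy (by positivity))
      (Real.exp_pos _).le
  have h3 : Real.exp (-(b * s) / p) ≤ Real.exp (|b| * ze / p) * Real.exp (-(b * t) / p) := by
    rw [← Real.exp_add]
    refine Real.exp_le_exp.2 ?_
    rw [← add_div]
    refine div_le_div_of_nonneg_right ?_ hp.le
    have : |b * (s - t)| ≤ |b| * ze := by
      rw [abs_mul]; exact mul_le_mul_of_nonneg_left hst (abs_nonneg b)
    have := neg_abs_le (b * (s - t))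
    linarith
  have hyp : 0 ≤ y' ^ (1 / p) := Real.rpow_nonneg hy'0 _
  have h4 : z * vs ≤ Real.exp (|b| * ze / p) * (((p + 1) / p) * R077.psi b p t y') := by
    have h5 : vs ≤ (Real.exp (|b| * ze / p) * Real.exp (-(b * t) / p)) * y' ^ (1 / p) :=
      h2.trans (mul_le_mul_of_nonneg_right h3 hyp)
    have h6 : z * vs ≤ y' * ((Real.exp (|b| * ze / p) * Real.exp (-(b * t) / p)) * y' ^ (1 / p)) :=
      mul_le_mul (hzy.trans (by linarith)) h5 hv.le hy'0
    refine h6.trans (le_of_eq ?_)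
    unfold R077.psi
    have e2 : y' ^ ((p + 1) / p) = y' * y' ^ (1 / p) := by
      rcases eq_or_lt_of_le hy'0 with h | h
      · rw [← h, Real.zero_rpow (by positivity), zero_mul]
      · rw [show (p + 1) / p = 1 + 1 / p by field_simp, Real.rpow_add h, Real.rpow_one]
    rw [e2]
    field_simp
  have h7 : R077.psi b p t y' ≤ R077.psi b p t y + L * h * esg b p y' t := by
    have := psi_sub_le (b := b) (t := t) hp hy0 (by linarith : y ≤ y')
    have e : y' - y = L * h := by rw [hy']; ring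
    rw [e] at this
    linarith
  have h8 : esg b p y' t ≤ Real.exp (|b| * (|lam| + a) / p) * L ^ (1 / p) := by
    rw [esg_eq hy'0]
    refine mul_le_mul (Real.exp_le_exp.2 ?_) (Real.rpow_le_rpow hy'0 hyL (by positivity)) hyp
      (Real.exp_pos _).le
    refine div_le_div_of_nonneg_right ?_ hp.le
    have h9 : |b * t| ≤ |b| * (|lam| + a) := by
      rw [abs_mul]
      refine mul_le_mul_of_nonneg_left ?_ (abs_nonneg b)
      rw [abs_le]
      have := neg_abs_le lam
      have := le_abs_self lam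
      exact ⟨by linarith [ht.1], by linarith [ht.2]⟩
    have := neg_abs_le (b * t)
    linarith
  have hexp1 := exp_le_cb (b := b) hp hze hze1
  have hexp2 : Real.exp (|b| * ze / p) ≤ Real.exp (|b| / p) := by
    refine Real.exp_le_exp.2 (div_le_div_of_nonneg_right ?_ hp.le)
    have := abs_nonneg b
    nlinarith
  have hpp : 0 ≤ (p + 1) / p := by positivity
  have hpsi0 : 0 ≤ R077.psi b p t y := psi_nonneg hp hy0
  calc z * vs ≤ Real.exp (|b| * ze / p) * (((p + 1) / p) * R077.psi b p t y') := h4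
    _ ≤ Real.exp (|b| * ze / p) * (((p + 1) / p) * (R077.psi b p t y + L * h * esg b p y' t)) := by
        gcongr
    _ = Real.exp (|b| * ze / p) * (((p + 1) / p) * R077.psi b p t y)
        + Real.exp (|b| * ze / p) * (((p + 1) / p) * (L * h * esg b p y' t)) := by ring
    _ ≤ (1 + cb b p * ze) * (((p + 1) / p) * R077.psi b p t y)
        + Real.exp (|b| / p) * (((p + 1) / p) * (L * h *
          (Real.exp (|b| * (|lam| + a) / p) * L ^ (1 / p)))) := by
        have hes : 0 ≤ esg b p y' t := by rw [esg_eq hy'0]; positivity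
        refine add_le_add (mul_le_mul_of_nonneg_right hexp1 (by positivity)) ?_
        refine mul_le_mul hexp2 ?_ (by positivity) (Real.exp_pos _).le
        refine mul_le_mul_of_nonneg_left ?_ hpp
        exact mul_le_mul_of_nonneg_left h8 hLh
    _ = _ := by unfold K3; ring

/-! ## layer adapter -/

lemma rc_eq_cc {x : ℕ → ℝ} (hx : ∀ k, 0 ≤ x k) {i : ℕ × ℕ} (h1 : 1 ≤ i.1) (h2 : i.1 ≤ i.2) :
    rc x i = Layers.cc x i.1 i.2 := Layers.volume_isRunL hx h1 h2

/-- indicator on the cell `k` -/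
lemma ind_cell {lam a : ℝ} (ha : 0 < a) {m k : ℕ} {i : ℕ × ℕ} (hi : i ∈ prs m) {t : ℝ}
    (h1 : nd lam a m (k - 1) ≤ t) (h2 : t < nd lam a m k) :
    ind lam a m i t = if i.1 ≤ k ∧ k ≤ i.2 then 1 else 0 := by
  rw [mem_prs] at hi
  unfold ind lft rgt
  by_cases hk : i.1 ≤ k ∧ k ≤ i.2
  · rw [if_pos hk, if_pos]
    exact ⟨(nd_mono ha m (by omega)).trans h1, h2.trans_le (nd_mono ha m hk.2)⟩
  · rw [if_neg hk, if_neg]
    rintro ⟨h3, h4⟩
    apply hk
    constructor
    · by_contra hc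
      push Not at hc
      have := nd_mono (lam := lam) ha m (show k ≤ i.1 - 1 by omega)
      linarith
    · by_contra hc
      push Not at hc
      have := nd_mono (lam := lam) ha m (show i.2 ≤ k - 1 by omega)
      linarith

lemma stepF_cell {x : ℕ → ℝ} (hx : ∀ k, 0 ≤ x k) {lam a : ℝ} (ha : 0 < a) {m k : ℕ}
    {S : Finset (ℕ × ℕ)} (hS : S ⊆ prs m) {t : ℝ}
    (h1 : nd lam a m (k - 1) ≤ t) (h2 : t < nd lam a m k) :
    R077.stepF x S lam a m t
      = ∑ i ∈ S.filter (fun i => i.1 ≤ k ∧ k ≤ i.2), Layers.cc x i.1 i.2 := by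
  unfold R077.stepF
  rw [Finset.sum_filter]
  refine Finset.sum_congr rfl (fun i hi => ?_)
  have hp := mem_prs.1 (hS hi)
  rw [ind_cell ha (hS hi) h1 h2, rc_eq_cc hx hp.1 hp.2.1]
  split_ifs <;> simp

/-- the class of long pairs -/
def Lg (a : ℝ) (m : ℕ) (eta : ℝ) (i : ℕ × ℕ) : Prop :=
  ¬ (2 ≤ i.1 ∧ i.2 + 1 ≤ m ∧ ((i.2 : ℝ) - i.1 + 1) * msh a m < eta)

lemma longI_eq_filter (a : ℝ) (m : ℕ) (eta : ℝ) [DecidablePred (Lg a m eta)] :
    longI a m eta = (prs m).filter (Lg a m eta) := by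
  classical
  ext i
  unfold longI shortI
  simp only [Finset.mem_sdiff, Finset.mem_filter, Lg]
  tauto

lemma Lg_upClosed {a : ℝ} (ha : 0 < a) (m : ℕ) (eta : ℝ) :
    Layers.UpClosed (Lg a m eta) m := by
  intro p _ q _ h1 h2 hp hq
  apply hp
  refine ⟨by omega, by omega, lt_of_le_of_lt ?_ hq.2.2⟩
  refine mul_le_mul_of_nonneg_right ?_ (msh_nonneg ha m)
  have h3 : (q.1 : ℝ) ≤ p.1 := by exact_mod_cast h1
  have h4 : (p.2 : ℝ) ≤ q.2 := by exact_mod_cast h2
  linarith

lemma stepF_long_cell {x : ℕ → ℝ} (hx : ∀ k, 0 ≤ x k) {lam a eta : ℝ} (ha : 0 < a) {m k : ℕ}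
    [DecidablePred (Lg a m eta)] {t : ℝ}
    (h1 : nd lam a m (k - 1) ≤ t) (h2 : t < nd lam a m k) :
    R077.stepF x (longI a m eta) lam a m t = Layers.xL (Lg a m eta) x m k := by
  rw [stepF_cell hx ha (longI_subset a m eta) h1 h2, longI_eq_filter]
  unfold Layers.xL
  refine Finset.sum_congr ?_ (fun _ _ => rfl)
  ext i
  simp only [Finset.mem_filter, mem_prs, Layers.mem_pairsAt]
  constructor
  · rintro ⟨⟨h3, h4⟩, h5⟩
    exact ⟨⟨h3.1, h5.1, h5.2, h3.2.2⟩, h4⟩
  · rintro ⟨h3, h4⟩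
    exact ⟨⟨⟨h3.1, h3.2.1.trans h3.2.2.1, h3.2.2.2⟩, h4⟩, h3.2.1, h3.2.2.1⟩

lemma exists_cell {lam a : ℝ} (ha : 0 < a) {m : ℕ} (hm : 1 ≤ m) {t : ℝ}
    (h1 : nd lam a m 0 ≤ t) (h2 : t < nd lam a m m) :
    ∃ k, 1 ≤ k ∧ k ≤ m ∧ nd lam a m (k - 1) ≤ t ∧ t < nd lam a m k := by
  have hh := msh_pos ha hm
  have h0 : 0 ≤ (t - nd lam a m 0) / msh a m := div_nonneg (by linarith) hh.le
  have hnd : ∀ k : ℕ, nd lam a m k = nd lam a m 0 + k * msh a m := by
    intro k; unfold nd; simp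
  refine ⟨⌊(t - nd lam a m 0) / msh a m⌋₊ + 1, by omega, ?_, ?_, ?_⟩
  · have : ⌊(t - nd lam a m 0) / msh a m⌋₊ < m := by
      rw [Nat.floor_lt h0, div_lt_iff₀ hh]
      rw [hnd m] at h2
      linarith
    omega
  · rw [Nat.add_sub_cancel, hnd]
    have := Nat.floor_le h0
    rw [le_div_iff₀ hh] at this
    linarith
  · rw [hnd]
    have := Nat.lt_floor_add_one ((t - nd lam a m 0) / msh a m)
    rw [div_lt_iff₀ hh] at this
    push_cast
    linarith

lemma stepF_zero_out' {x : ℕ → ℝ} {lam a : ℝ} {m : ℕ} (ha : 0 < a)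
    {S : Finset (ℕ × ℕ)} (hS : S ⊆ prs m) {t : ℝ}
    (ht : ¬ (nd lam a m 0 ≤ t ∧ t < nd lam a m m)) : R077.stepF x S lam a m t = 0 := by
  unfold R077.stepF
  refine Finset.sum_eq_zero (fun i hi => ?_)
  have hp := mem_prs.1 (hS hi)
  unfold ind
  rw [if_neg, mul_zero]
  rintro ⟨h1, h2⟩
  apply ht
  have l1 : nd lam a m 0 ≤ lft lam a m i := nd_mono ha m (Nat.zero_le _)
  have l2 : rgt lam a m i ≤ nd lam a m m := nd_mono ha m hp.2.2
  exact ⟨by linarith, by linarith⟩

theorem stepLe : StepLe := by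
  intro f x lam a m S ha hm hL hS t
  by_cases ht : nd lam a m 0 ≤ t ∧ t < nd lam a m m
  · obtain ⟨k, hk1, hkm, hk2, hk3⟩ := exists_cell ha hm ht.1 ht.2
    have hseq : Layers.Seq x m := ⟨hL.x_zero, hL.x_out _ (by omega), hL.x_nonneg⟩
    rw [stepF_cell hL.x_nonneg ha hS hk2 hk3]
    refine le_trans ?_ (hL.x_le k hk1 hkm t hk2 hk3.le)
    rw [← Layers.sum_cc hseq hk1 hkm]
    refine Finset.sum_le_sum_of_subset_of_nonneg ?_ (fun i _ _ => Layers.cc_nonneg x i.1 i.2)
    intro i hi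
    rw [Finset.mem_filter] at hi
    have hp := mem_prs.1 (hS hi.1)
    rw [Layers.mem_pairsAt]
    omega
  · rw [stepF_zero_out' ha hS ht]
    exact hL.f_nonneg t

theorem X1 : Stmt_X1 := X1_of stepLe

theorem X4 : Stmt_X4 := X4_of stepLe

/-! ## X3 -/

theorem X3 : Stmt_X3 := by
  classical
  intro b p lam a L ha ha1
  refine ⟨|K3 b p lam a L|, abs_nonneg _, ?_⟩
  intro f v m eta ze hS hm hLm hze hzeta h8 hmz t ht
  have hp := hS.hp
  have hL := hS.hL
  have hL0 : 0 < L := by linarith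
  have hh := msh_pos ha hm
  have hnd : ∀ k : ℕ, nd lam a m k = nd lam a m 0 + k * msh a m := by
    intro k; unfold nd; simp
  have hnd0 : nd lam a m 0 = lam - a / 2 := nd_zero lam a m
  have hndm : nd lam a m m = lam + 3 * a / 2 := nd_last lam a hm
  have hndI : ∀ k, k ≤ m → nd lam a m k ∈ Icc (lam - 2) (lam + 4) := by
    intro k hk
    have h1 := nd_mono (lam := lam) ha m (Nat.zero_le k)
    have h2 := nd_mono (lam := lam) ha m hk
    rw [hnd0] at h1
    rw [hndm] at h2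
    exact ⟨by linarith, by linarith⟩
  set x := samp f lam a m L with hx
  have hxin : ∀ k, 1 ≤ k → k ≤ m → x k = f (nd lam a m k) - L * msh a m := by
    intro k h1 h2
    rw [hx]; unfold samp; rw [if_pos ⟨h1, h2⟩]
  have hx0 : ∀ k, 0 ≤ x k := by
    intro k
    by_cases hk : 1 ≤ k ∧ k ≤ m
    · rw [hxin k hk.1 hk.2]
      have h1 := hS.f_ge _ (hndI k hk.2)
      have h2 : 0 ≤ L * (f (nd lam a m k) - L * msh a m) := by
        have : L * (L * msh a m) ≤ 1 := by
          have : L * (L * msh a m) = L ^ 2 * msh a m := by ring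
          rw [this]
          have : 0 ≤ L ^ 2 * msh a m := by positivity
          linarith
        linarith
      exact nonneg_of_mul_nonneg_right h2 hL0
    · rw [hx]; unfold samp; rw [if_neg hk]
  have hseq : Layers.Seq x m := by
    refine ⟨?_, ?_, hx0⟩
    · rw [hx]; unfold samp; rw [if_neg (by omega)]
    · rw [hx]; unfold samp; rw [if_neg (by omega)]
  -- the cell
  obtain ⟨k, hk1, hkm, hk2, hk3⟩ := exists_cell (lam := lam) ha hm (t := t)
    (by rw [hnd0]; linarith [ht.1]) (by rw [hndm]; linarith [ht.2])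
  rw [stepF_long_cell hx0 ha hk2 hk3, stepF_long_cell hx0 ha hk2 hk3]
  set y := Layers.xL (Lg a m ze) x m k with hy
  set z := Layers.xL (Lg a m eta) x m k with hz
  have hz0 : 0 ≤ z := Layers.xL_nonneg _ _ _ _
  have hzy : z ≤ y := by
    refine Layers.xL_mono (fun i _ hi hs => hi ⟨hs.1, hs.2.1, hs.2.2.trans_le hzeta⟩)
  -- the window of nodes
  set i1 := ⌈(t - ze - nd lam a m 0) / msh a m⌉₊ with hi1
  set i2 := ⌊(t + ze - nd lam a m 0) / msh a m⌋₊ with hi2
  have hpos1 : 0 < (t - ze - nd lam a m 0) / msh a m := by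
    refine div_pos ?_ hh
    rw [hnd0]; linarith [ht.1]
  have hpos2 : 0 ≤ (t + ze - nd lam a m 0) / msh a m := by
    refine div_nonneg ?_ hh.le
    rw [hnd0]; linarith [ht.1]
  have hi1pos : 1 ≤ i1 := Nat.one_le_iff_ne_zero.2 (by
    have := Nat.ceil_pos.2 hpos1
    omega)
  have hi1k : i1 ≤ k := by
    rw [hi1, Nat.ceil_le, div_le_iff₀ hh]
    rw [hnd k] at hk3
    linarith
  have hki2 : k ≤ i2 := by
    rw [hi2, Nat.le_floor_iff hpos2, le_div_iff₀ hh]
    rw [hnd (k - 1), Nat.cast_sub hk1] at hk2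
    push_cast at hk2
    linarith
  have hi2m : i2 ≤ m := by
    have h1 := Nat.floor_le hpos2
    rw [← hi2, le_div_iff₀ hh] at h1
    have h2 : (i2 : ℝ) * msh a m ≤ m * msh a m := by
      have := hnd m
      rw [hndm] at this
      have : (m : ℝ) * msh a m = lam + 3 * a / 2 - nd lam a m 0 := by linarith
      rw [this]
      linarith [ht.2]
    have h3 : (i2 : ℝ) ≤ m := le_of_mul_le_mul_right h2 hh
    exact_mod_cast h3
  have hlen : ze ≤ ((i2 : ℝ) - i1 + 1) * msh a m := by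
    have h1 := Nat.lt_floor_add_one ((t + ze - nd lam a m 0) / msh a m)
    rw [← hi2, div_lt_iff₀ hh] at h1
    have h2 := Nat.ceil_lt_add_one hpos1.le
    rw [← hi1] at h2
    have h3 : ((i1 : ℝ) - 1) * msh a m < t - ze - nd lam a m 0 := by
      rw [← lt_div_iff₀ hh]; linarith
    nlinarith
  have hLgw : Lg a m ze (i1, i2) := by
    intro h
    have := h.2.2
    simp only at this
    linarith
  have hmem : (i1, i2) ∈ Layers.pairsAt m k := by
    rw [Layers.mem_pairsAt]
    simp only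
    omega
  -- the minimum over the window
  obtain ⟨j, hj, hjmin⟩ := Finset.exists_min_image (Finset.Icc i1 i2) x
    ⟨k, Finset.mem_Icc.2 ⟨hi1k, hki2⟩⟩
  rw [Finset.mem_Icc] at hj
  have hxy : x j ≤ y := Layers.le_xL hseq (Lg_upClosed ha m ze) hmem hLgw
    (fun j' h1 h2 => hjmin j' (Finset.mem_Icc.2 ⟨h1, h2⟩))
  have hxj := hxin j (by omega) (by omega)
  have hxk := hxin k hk1 hkm
  have hyx : y ≤ x k := Layers.xL_le hseq hk1 hkm
  refine ⟨nd lam a m j, ?_, ?_⟩
  · -- |nd j - t| ≤ ze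
    have h1 : (j : ℝ) * msh a m ≤ t + ze - nd lam a m 0 := by
      rw [← le_div_iff₀ hh, ← Nat.le_floor_iff hpos2]; exact hj.2
    have h2 : t - ze - nd lam a m 0 ≤ (j : ℝ) * msh a m := by
      rw [← div_le_iff₀ hh, ← Nat.ceil_le]; exact hj.1
    rw [hnd j, abs_le]
    exact ⟨by linarith, by linarith⟩
  · have h1 : |nd lam a m j - t| ≤ ze := by
      have h1 : (j : ℝ) * msh a m ≤ t + ze - nd lam a m 0 := by
        rw [← le_div_iff₀ hh, ← Nat.le_floor_iff hpos2]; exact hj.2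
      have h2 : t - ze - nd lam a m 0 ≤ (j : ℝ) * msh a m := by
        rw [← div_le_iff₀ hh, ← Nat.ceil_le]; exact hj.1
      rw [hnd j, abs_le]
      exact ⟨by linarith, by linarith⟩
    have h2 := x3_real (b := b) (p := p) (lam := lam) (a := a) (L := L) (t := t)
      (s := nd lam a m j) (ze := ze) (h := msh a m) (y := y) (z := z)
      (fs := f (nd lam a m j)) (vs := v (nd lam a m j)) hp hL ha ht hze.le
      (by linarith) h1 hh.le (hS.v_pos _) (hS.feq _) (by linarith)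
      (by
        have := hS.f_le _ (hndI k hkm)
        linarith) hz0 hzy
    refine h2.trans ?_
    have := mul_le_mul_of_nonneg_right (le_abs_self (K3 b p lam a L)) hh.le
    linarith

end Crest.Agent.R077.StepX
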