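import Crest.Agent.R077.RNear
import Crest.Agent.R077.MeasNu
import Crest.Agent.R077.StepX3
import Crest.Agent.R077.AA

/-!
# Row 77: STEP X, end part, integrated (helper392)
-/

set_option autoImplicit false
open MeasureTheory Set Real
open scoped ENNReal Topology

namespace Crest.Agent.R077.XEnd

section cyl
variable {M : Type} [MeasurableSpace M] {μ : Measure M}

theorem box_continuous {g : ℝ → ℝ} (hg : Continuous g) (ρ : ℝ) : Continuous (box g ρ) :=
  StepR1.continuous_bx hg.locallyIntegrable ρ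

/-- the window integral `∫_W G(t,θ') box F(·,θ) ρ t dt` -/
theorem window_near [IsFiniteMeasure μ] {S : Cyl M μ} {lam a L : ℝ} {m : ℕ}
    (hW : WinOK S lam a m L) {δ : ℝ} (hδ1 : δ ≤ 1) :
    Integrable (fun z : ℝ × M × M => ∫ t in Icc (lam - a / 2) (lam + 3 * a / 2),
      S.G t z.2.2 * box (fun s => S.F s z.2.1) z.1 t) (S.nuN δ) ∧
    ∫ z, (∫ t in Icc (lam - a / 2) (lam + 3 * a / 2),
      S.G t z.2.2 * box (fun s => S.F s z.2.1) z.1 t) ∂(S.nuN δ) ≤ S.J2 (lam + 2 * a) := by
  have ha := hW.ha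
  have ha1 := hW.ha1
  set W : Set ℝ := Icc (lam - a / 2) (lam + 3 * a / 2) with hWd
  have hcont : ∀ z : ℝ × M × M, Continuous fun t =>
      S.G t z.2.2 * box (fun s => S.F s z.2.1) z.1 t := fun z =>
    (RN.G_cont (S := S) z.2.2).mul (box_continuous (RN.F_cont (S := S) z.2.1) z.1)
  have hio : ∀ z : ℝ × M × M, IntegrableOn (fun t =>
      S.G t z.2.2 * box (fun s => S.F s z.2.1) z.1 t) W volume := fun z =>
    (hcont z).continuousOn.integrableOn_compact isCompact_Icc
  -- measurability
  have hm : Measurable fun z : ℝ × M × M => ∫ t in W,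
      S.G t z.2.2 * box (fun s => S.F s z.2.1) z.1 t := by
    refine ML.measurable_integral (f := fun (z : ℝ × M × M) t =>
      S.G t z.2.2 * box (fun s => S.F s z.2.1) z.1 t) ?_ (volume.restrict W)
    have h1 : Measurable fun y : (ℝ × M × M) × ℝ => y.1.2.1 :=
      measurable_fst.comp (measurable_snd.comp measurable_fst)
    have h2 : Measurable fun y : (ℝ × M × M) × ℝ => y.1.2.2 :=
      measurable_snd.comp (measurable_snd.comp measurable_fst)
    exact (ML.meas_G S measurable_snd h2).mul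
      (ML.meas_boxF S (measurable_fst.comp measurable_fst) measurable_snd h1)
  have hnn : ∀ z : ℝ × M × M, 0 < z.1 → ∀ t,
      0 ≤ S.G t z.2.2 * box (fun s => S.F s z.2.1) z.1 t := fun z hz t =>
    mul_nonneg (RN.G_pos S t _).le (RN.box_nonneg (fun s => (RN.F_pos S s _).le) hz.le t)
  have hsub : ∀ t ∈ W, t ∈ Icc (lam - 1) (lam + 3) := by
    intro t ht
    exact ⟨by linarith [ht.1], by linarith [ht.2]⟩
  have hint : Integrable (fun z : ℝ × M × M => ∫ t in W,
      S.G t z.2.2 * box (fun s => S.F s z.2.1) z.1 t) (S.nuN δ) := by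
    refine RN.int_of_bound hW (C := L * (2 * L) * (volume W).toReal) hδ1 hm ?_
    intro z hz hzδ
    have hL := (hW.solF z.2.1).hL
    have hb : ∀ t ∈ W, ‖S.G t z.2.2 * box (fun s => S.F s z.2.1) z.1 t‖
        ≤ L * (2 * z.1 * L) := by
      intro t ht
      have ht' := hsub t ht
      rw [Real.norm_eq_abs, abs_of_nonneg (hnn z hz t)]
      apply mul_le_mul
      · exact (hW.solG z.2.2).f_le t ⟨by linarith [ht'.1], by linarith [ht'.2]⟩
      · exact RN.box_le ((RN.F_cont (S := S) z.2.1).intervalIntegrable _ _) hz.le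
          (by linarith) ht' (hW.solF z.2.1).f_le
      · exact RN.box_nonneg (fun s => (RN.F_pos S s _).le) hz.le t
      · linarith
    have hfin : volume W < ∞ := by rw [hWd]; simp
    have h := norm_setIntegral_le_of_norm_le_const hfin hb
    rw [Real.norm_eq_abs] at h
    refine h.trans (le_of_eq ?_)
    rw [Measure.real]
    ring
  refine ⟨hint, ?_⟩
  -- comparison by lintegrals
  have e1 : ∀ᵐ z ∂(S.nuN δ), ENNReal.ofReal (∫ t in W,
      S.G t z.2.2 * box (fun s => S.F s z.2.1) z.1 t)
      = ∫⁻ t, W.indicator (fun t => ENNReal.ofReal (S.G t z.2.2)) t *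
          ENNReal.ofReal (box (fun s => S.F s z.2.1) z.1 t) := by
    filter_upwards [RN.nuN_ae S δ] with z hz
    rw [ofReal_integral_eq_lintegral_ofReal (hio z)
      (Filter.Eventually.of_forall fun t => hnn z hz.1 t),
      ← lintegral_indicator measurableSet_Icc]
    refine lintegral_congr fun t => ?_
    by_cases ht : t ∈ W
    · rw [indicator_of_mem ht, indicator_of_mem ht, ENNReal.ofReal_mul (RN.G_pos S t _).le]
    · rw [indicator_of_notMem ht, indicator_of_notMem ht, zero_mul]
  have hr : Measurable fun y : ℝ × M =>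
      W.indicator (fun t => ENNReal.ofReal (S.G t y.2)) y.1 := by
    have h1 : Measurable fun y : ℝ × M => ENNReal.ofReal (S.G y.1 y.2) :=
      (ML.meas_G S measurable_fst measurable_snd).ennreal_ofReal
    have h2 : (fun y : ℝ × M => W.indicator (fun t => ENNReal.ofReal (S.G t y.2)) y.1)
        = (Prod.fst ⁻¹' W).indicator fun y : ℝ × M => ENNReal.ofReal (S.G y.1 y.2) := by
      funext y
      by_cases hy : y.1 ∈ W
      · rw [indicator_of_mem hy, indicator_of_mem (show y ∈ Prod.fst ⁻¹' W from hy)]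
      · rw [indicator_of_notMem hy, indicator_of_notMem (show y ∉ Prod.fst ⁻¹' W from hy)]
    rw [h2]
    exact h1.indicator (measurable_fst measurableSet_Icc)
  have h3 : ∫⁻ z, ENNReal.ofReal (∫ t in W,
      S.G t z.2.2 * box (fun s => S.F s z.2.1) z.1 t) ∂(S.nuN δ) ≤ EnQ.J2E S (lam + 2 * a) := by
    rw [lintegral_congr_ae e1]
    refine (lintegral_mono' Measure.restrict_le_self le_rfl).trans ?_
    rw [ML.lint_box_F_t S (r := fun t θ => W.indicator (fun t => ENNReal.ofReal (S.G t θ)) t) hr]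
    unfold EnQ.J2E
    apply lintegral_mono
    intro θ
    simp only
    rw [← lintegral_indicator measurableSet_Iic]
    apply lintegral_mono
    intro t
    simp only
    by_cases ht : t ∈ W
    · rw [indicator_of_mem ht, indicator_of_mem (show t ∈ Iic (lam + 2 * a) from by
        have := ht.2; simp only [mem_Iic]; linarith), ENNReal.ofReal_mul (RN.G_pos S t _).le]
    · rw [indicator_of_notMem ht, zero_mul]
      exact zero_le
  have hnz : ∀ᵐ z ∂(S.nuN δ), 0 ≤ ∫ t in W,
      S.G t z.2.2 * box (fun s => S.F s z.2.1) z.1 t := by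
    filter_upwards [RN.nuN_ae S δ] with z hz
    exact integral_nonneg fun t => hnn z hz.1 t
  rw [integral_eq_lintegral_of_nonneg_ae hnz hm.aestronglyMeasurable, EnQ.J2_eq]
  exact ENNReal.toReal_mono (EnQ.J2E_ne_top S _) h3

theorem stepShr_nonneg (x : ℕ → ℝ) (I : Finset (ℕ × ℕ)) (lam a : ℝ) (m : ℕ) (ζ t : ℝ) :
    0 ≤ stepShr x I lam a m ζ t := by
  unfold stepShr
  refine Finset.sum_nonneg fun i _ => mul_nonneg (StepR1.rc_nonneg x i) ?_
  split_ifs <;> norm_num

theorem stepShr_le (x : ℕ → ℝ) (I : Finset (ℕ × ℕ)) (lam a : ℝ) (m : ℕ) {ζ : ℝ} (hζ : 0 ≤ ζ)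
    (t : ℝ) : stepShr x I lam a m ζ t ≤ stepF x I lam a m t := by
  unfold stepShr stepF ind
  refine Finset.sum_le_sum fun i _ => mul_le_mul_of_nonneg_left ?_ (StepR1.rc_nonneg x i)
  by_cases h1 : lft lam a m i + ζ ≤ t ∧ t < rgt lam a m i - ζ
  · rw [if_pos h1, if_pos ⟨by linarith [h1.1], by linarith [h1.2]⟩]
  · rw [if_neg h1]
    split_ifs <;> norm_num

theorem stepShr_intervalIntegrable (x : ℕ → ℝ) (I : Finset (ℕ × ℕ)) (lam a : ℝ) (m : ℕ)
    (ζ u v : ℝ) : IntervalIntegrable (stepShr x I lam a m ζ) volume u v := by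
  have e : stepShr x I lam a m ζ
      = StepR1.st I (rc x) (fun i => lft lam a m i + ζ) (fun i => rgt lam a m i - ζ) := by
    funext t
    unfold stepShr StepR1.st
    apply Finset.sum_congr rfl
    intro i _
    by_cases h : lft lam a m i + ζ ≤ t ∧ t < rgt lam a m i - ζ
    · rw [if_pos h, indicator_of_mem (show t ∈ Ico _ _ from h), mul_one]
    · rw [if_neg h, indicator_of_notMem (show t ∉ Ico _ _ from h), mul_zero]
  rw [e]
  exact StepR1.ii_of_loc (StepR1.loc_st _ _ _ _) u v

/-- integrability of the integrand with the shrunk layers -/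
theorem int_shr [IsFiniteMeasure μ] {S : Cyl M μ} {lam a L : ℝ} {m : ℕ}
    (hW : WinOK S lam a m L) (η : ℝ) {ζ : ℝ} (hζ : 0 ≤ ζ) {δ : ℝ} (hδ1 : δ ≤ 1) :
    Integrable (fun z : ℝ × M × M => ∫ t, tent lam a t * S.FLo lam a m L η t z.2.1 *
      box (stepShr (S.xG lam a m L z.2.2) (longI a m η) lam a m ζ) z.1 t) (S.nuN δ) := by
  have ha := hW.ha
  have ha1 := hW.ha1
  refine RN.int_of_bound hW (C := L * (2 * L)) hδ1 ?_ ?_
  · refine ML.measurable_integral (f := fun (z : ℝ × M × M) t =>
      tent lam a t * S.FLo lam a m L η t z.2.1 *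
        box (stepShr (S.xG lam a m L z.2.2) (longI a m η) lam a m ζ) z.1 t) ?_ volume
    have h1 : Measurable fun y : (ℝ × M × M) × ℝ => y.1.2.1 :=
      measurable_fst.comp (measurable_snd.comp measurable_fst)
    have h2 : Measurable fun y : ((ℝ × M × M) × ℝ) × ℝ => y.1.1.2.2 :=
      measurable_snd.comp (measurable_snd.comp (measurable_fst.comp measurable_fst))
    exact (((ML.measurable_tent lam a).comp measurable_snd).mul
      (ML.meas_FLo S lam a m L η measurable_snd h1)).mul
      (ML.measurable_box (f := fun (y : (ℝ × M × M) × ℝ) s =>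
        stepShr (S.xG lam a m L y.1.2.2) (longI a m η) lam a m ζ s)
        (ML.meas_stepShr_xG S lam a m L _ ζ measurable_snd h2)
        (measurable_fst.comp measurable_fst) measurable_snd)
  · intro z hz0 hzδ
    have hL : 1 ≤ L := (hW.solG z.2.1).hL
    have h := RN.tent_int_le (lam := lam) (a := a) (K := L) (B := 2 * z.1 * L)
      (h := fun t => S.FLo lam a m L η t z.2.1)
      (b := box (stepShr (S.xG lam a m L z.2.2) (longI a m η) lam a m ζ) z.1) ha
      (by linarith) (fun t => RN.FLo_nonneg S lam a m L η t z.2.1)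
      (fun t => RN.box_nonneg (fun s => stepShr_nonneg _ _ _ _ _ _ s) hz0.le t)
      (fun t ht => (RN.FLo_le hW η t z.2.1).trans
        ((hW.solF z.2.1).f_le t ⟨by linarith [ht.1], by linarith [ht.2]⟩))
      (fun t ht => RN.box_le (stepShr_intervalIntegrable _ _ _ _ _ _ _ _) hz0.le
        (by linarith) ⟨by linarith [ht.1], by linarith [ht.2]⟩
        (fun s hs => (stepShr_le _ _ _ _ _ hζ s).trans
          ((RN.GLo_le hW η s z.2.2).trans ((hW.solG z.2.2).f_le s hs))))
    rw [abs_of_nonneg h.1]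
    calc _ ≤ L * (2 * z.1 * L) := h.2
      _ = L * (2 * L) * z.1 := by ring

/-- for `ρ ≤ 1`: the `X0` integrand splits into shrunk part and end part -/
theorem split_shr {S : Cyl M μ} {lam a L : ℝ} {m : ℕ} (η ζ : ℝ) (z : ℝ × M × M) :
    (∫ t, tent lam a t * S.FLo lam a m L η t z.2.1 *
      box (fun s => S.GLo lam a m L η s z.2.2) z.1 t)
    = (∫ t, tent lam a t * S.FLo lam a m L η t z.2.1 *
        box (stepShr (S.xG lam a m L z.2.2) (longI a m η) lam a m ζ) z.1 t)
      + ∫ t, tent lam a t * S.FLo lam a m L η t z.2.1 *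
        box (fun s => S.GLo lam a m L η s z.2.2
          - stepShr (S.xG lam a m L z.2.2) (longI a m η) lam a m ζ s) z.1 t := by
  have hbd : ∀ g : ℝ → ℝ, LocallyIntegrable g volume →
      Integrable (fun t => tent lam a t * S.FLo lam a m L η t z.2.1 * box g z.1 t) volume := by
    intro g hg
    have hc : Continuous fun t => tent lam a t * box g z.1 t :=
      (TP.tent_continuous lam a).mul (StepR1.continuous_bx hg z.1)
    have h1 := StepR1.integrable_st_mul (longI a m η) (rc (S.xF lam a m L z.2.1))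
      (lft lam a m) (rgt lam a m) (g := fun t => tent lam a t * box g z.1 t)
      hc.locallyIntegrable
    refine h1.congr (Filter.Eventually.of_forall fun t => ?_)
    simp only
    unfold Cyl.FLo
    rw [StepR1.stepF_eq]
    ring
  have l1 : LocallyIntegrable (fun s => S.GLo lam a m L η s z.2.2) volume := by
    have : (fun s => S.GLo lam a m L η s z.2.2)
        = StepR1.st (longI a m η) (rc (S.xG lam a m L z.2.2)) (lft lam a m) (rgt lam a m) := by
      funext s
      unfold Cyl.GLo
      rw [StepR1.stepF_eq]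
    rw [this]
    exact StepR1.loc_st _ _ _ _
  have l2 : LocallyIntegrable (stepShr (S.xG lam a m L z.2.2) (longI a m η) lam a m ζ)
      volume := by
    rw [StepX.stepShr_eq]
    have : StepX.stepf (longI a m η) (rc (S.xG lam a m L z.2.2))
        (fun i => lft lam a m i + ζ) (fun i => rgt lam a m i - ζ)
        = StepR1.st (longI a m η) (rc (S.xG lam a m L z.2.2))
        (fun i => lft lam a m i + ζ) (fun i => rgt lam a m i - ζ) := by
      rw [← StepX.stepShr_eq]
      funext t
      unfold stepShr StepR1.st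
      apply Finset.sum_congr rfl
      intro i _
      by_cases h : lft lam a m i + ζ ≤ t ∧ t < rgt lam a m i - ζ
      · rw [if_pos h, indicator_of_mem (show t ∈ Ico _ _ from h), mul_one]
      · rw [if_neg h, indicator_of_notMem (show t ∉ Ico _ _ from h), mul_zero]
    rw [this]
    exact StepR1.loc_st _ _ _ _
  have l3 : LocallyIntegrable (fun s => S.GLo lam a m L η s z.2.2
      - stepShr (S.xG lam a m L z.2.2) (longI a m η) lam a m ζ s) volume := l1.sub l2
  rw [← integral_add (hbd _ l2) (hbd _ l3)]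
  refine integral_congr_ae (Filter.Eventually.of_forall fun t => ?_)
  simp only
  have hb : box (fun s => S.GLo lam a m L η s z.2.2) z.1 t
      = box (stepShr (S.xG lam a m L z.2.2) (longI a m η) lam a m ζ) z.1 t
        + box (fun s => S.GLo lam a m L η s z.2.2
          - stepShr (S.xG lam a m L z.2.2) (longI a m η) lam a m ζ s) z.1 t := by
    unfold box
    rw [intervalIntegral.integral_sub (StepR1.ii_of_loc l1 _ _) (StepR1.ii_of_loc l2 _ _)]
    ring
  rw [hb]
  ring

/-- integrability of the end part -/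
theorem int_end [IsFiniteMeasure μ] {S : Cyl M μ} {lam a L : ℝ} {m : ℕ}
    (hW : WinOK S lam a m L) (η : ℝ) {ζ : ℝ} (hζ : 0 ≤ ζ) {δ : ℝ} (hδ1 : δ ≤ 1) :
    Integrable (fun z : ℝ × M × M => ∫ t, tent lam a t * S.FLo lam a m L η t z.2.1 *
      box (fun s => S.GLo lam a m L η s z.2.2
        - stepShr (S.xG lam a m L z.2.2) (longI a m η) lam a m ζ s) z.1 t) (S.nuN δ) := by
  refine ((RN.int_Q3 hW η hδ1).sub (int_shr hW η hζ hδ1)).congr
    (Filter.Eventually.of_forall fun z => ?_)
  simp only [Pi.sub_apply]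
  rw [split_shr η ζ z]
  ring

/-- **STEP X, end part** -/
theorem XF_end [IsFiniteMeasure μ] {S : Cyl M μ} {lam a L : ℝ} {m : ℕ} {η ζ δ : ℝ}
    (hW : WinOK S lam a m L) (hδ : 0 < δ) (h1 : 16 * δ ≤ ζ) (h2 : 16 * ζ ≤ η) (h3 : 8 * η ≤ a)
    (h4 : msh a m ≤ ζ) :
    ∫ z, (∫ t, tent lam a t * S.FLo lam a m L η t z.2.1 *
      box (fun s => S.GLo lam a m L η s z.2.2
        - stepShr (S.xG lam a m L z.2.2) (longI a m η) lam a m ζ s) z.1 t) ∂(S.nuN δ)
    ≤ ζ * S.TVG lam a m L η + 16 * (ζ / η) * S.X0' lam a m L η δ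
      + 64 * (ζ / a ^ 2) * S.J2 (lam + 2 * a) := by
  have ha := hW.ha
  have ha1 := hW.ha1
  have hζ : 0 < ζ := by linarith
  have hη : 0 < η := by linarith
  have hδ1 : δ ≤ 1 := by linarith
  have iE := int_end hW η hζ.le hδ1
  obtain ⟨i5, t5⟩ := RN.tvG_near hW hη.le δ
  have i3 := RN.int_Q3' hW η hδ1
  obtain ⟨i6, t6⟩ := window_near hW hδ1
  have j5 := i5.const_mul ζ
  have j3 := i3.const_mul (16 * (ζ / η))
  have j6 := i6.const_mul (16 * (ζ / η) * (4 / a ^ 2) * η)
  have j53 := j5.add j3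
  have key : ∀ᵐ z ∂(S.nuN δ), (∫ t, tent lam a t * S.FLo lam a m L η t z.2.1 *
      box (fun s => S.GLo lam a m L η s z.2.2
        - stepShr (S.xG lam a m L z.2.2) (longI a m η) lam a m ζ s) z.1 t)
      ≤ ζ * tvS (box (fun s => S.F s z.2.1) z.1) (S.xG lam a m L z.2.2) (longI a m η) lam a m η
        + 16 * (ζ / η) * (∫ t, tent lam a t * S.GLo lam a m L η t z.2.2 *
            box (fun s => S.FLo lam a m L η s z.2.1) z.1 t)
        + 16 * (ζ / η) * (4 / a ^ 2) * η *
          (∫ t in Icc (lam - a / 2) (lam + 3 * a / 2),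
            S.G t z.2.2 * box (fun s => S.F s z.2.1) z.1 t) := by
    filter_upwards [RN.nuN_ae S δ] with z hz
    exact StepX.X4 (fun t => S.F t z.2.1) (fun t => S.G t z.2.2) (S.xF lam a m L z.2.1)
      (S.xG lam a m L z.2.2) lam a m η ζ z.1 ha ha1 hW.hm h3 hζ h2 hz.1 (by linarith [hz.2]) h4
      (RN.lay_F hW z.2.1) (RN.lay_G hW z.2.2)
  have hmono := integral_mono_ae iE (j53.add j6) key
  have e1 := integral_add j53 j6
  have e2 := integral_add j5 j3
  rw [integral_const_mul] at e1 e2
  rw [integral_const_mul] at e2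
  simp only [Pi.add_apply] at hmono e1 e2
  have t5' := mul_le_mul_of_nonneg_left t5 hζ.le
  have hc : 16 * (ζ / η) * (4 / a ^ 2) * η = 64 * (ζ / a ^ 2) := by
    field_simp
    ring
  have t6' := mul_le_mul_of_nonneg_left t6 (by positivity : 0 ≤ 16 * (ζ / η) * (4 / a ^ 2) * η)
  rw [hc] at t6'
  rw [hc] at e1
  unfold Cyl.X0'
  rw [hc] at hmono
  linarith

end cyl

end Crest.Agent.R077.XEnd
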