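import Crest.Agent.R077.Iface
import Crest.Agent.R077.TentPhi

/-! Row 77: the master double integral in `ℝ≥0∞`, Tonelli facts, `J1`, `J2` as lintegrals. -/

set_option autoImplicit false
open MeasureTheory Set Filter Topology
open scoped ENNReal

namespace Crest.Agent.R077.JB

section generic
variable {M : Type*} [MeasurableSpace M]

theorem meas_box {g : ℝ → M → ℝ≥0∞} (hg : Measurable (fun z : ℝ × M => g z.1 z.2)) :
    Measurable (fun z : ℝ × ℝ × M => ∫⁻ s in Ioo (z.1 - z.2.1) (z.1 + z.2.1), g s z.2.2) := by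
  have hset : MeasurableSet {w : (ℝ × ℝ × M) × ℝ | w.1.1 - w.1.2.1 < w.2 ∧ w.2 < w.1.1 + w.1.2.1} := by
    have a1 : Measurable (fun w : (ℝ × ℝ × M) × ℝ => w.1.1 - w.1.2.1) := by fun_prop
    have a2 : Measurable (fun w : (ℝ × ℝ × M) × ℝ => w.1.1 + w.1.2.1) := by fun_prop
    exact (measurableSet_lt a1 measurable_snd).inter (measurableSet_lt measurable_snd a2)
  have h1 : Measurable (fun w : (ℝ × ℝ × M) × ℝ =>
      indicator {w : (ℝ × ℝ × M) × ℝ | w.1.1 - w.1.2.1 < w.2 ∧ w.2 < w.1.1 + w.1.2.1}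
        (fun w => g w.2 w.1.2.2) w) := by
    apply Measurable.indicator _ hset
    exact hg.comp (f := fun w : (ℝ × ℝ × M) × ℝ => (w.2, w.1.2.2)) (by fun_prop)
  have h2 := h1.lintegral_prod_right' (ν := (volume : Measure ℝ))
  convert h2 using 2 with z
  rw [← lintegral_indicator measurableSet_Ioo]
  rfl

/-- box swap -/
theorem box_swap {f g : ℝ → ℝ≥0∞} (hf : Measurable f) (hg : Measurable g) (ρ : ℝ) :
    ∫⁻ t, f t * ∫⁻ s in Ioo (t - ρ) (t + ρ), g s = ∫⁻ s, g s * ∫⁻ t in Ioo (s - ρ) (s + ρ), f t := by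
  have hset : MeasurableSet {w : ℝ × ℝ | |w.2 - w.1| < ρ} :=
    measurableSet_lt (by fun_prop) measurable_const
  have hm : Measurable (fun w : ℝ × ℝ => indicator {w : ℝ × ℝ | |w.2 - w.1| < ρ}
      (fun w => f w.1 * g w.2) w) := by
    apply Measurable.indicator _ hset
    exact (hf.comp measurable_fst).mul (hg.comp measurable_snd)
  have e1 : ∀ t, f t * ∫⁻ s in Ioo (t - ρ) (t + ρ), g s
      = ∫⁻ s, indicator {w : ℝ × ℝ | |w.2 - w.1| < ρ} (fun w => f w.1 * g w.2) (t, s) := by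
    intro t
    rw [← lintegral_const_mul _ hg, ← lintegral_indicator measurableSet_Ioo]
    apply lintegral_congr
    intro s
    by_cases h : |s - t| < ρ
    · have h' := abs_lt.1 h
      rw [indicator_of_mem (show s ∈ Ioo (t - ρ) (t + ρ) from ⟨by linarith, by linarith⟩),
        indicator_of_mem (show (t, s) ∈ {w : ℝ × ℝ | |w.2 - w.1| < ρ} from h)]
    · rw [indicator_of_notMem, indicator_of_notMem]
      · exact h
      · intro hs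
        exact h (abs_lt.2 ⟨by linarith [hs.1], by linarith [hs.2]⟩)
  have e2 : ∀ s, g s * ∫⁻ t in Ioo (s - ρ) (s + ρ), f t
      = ∫⁻ t, indicator {w : ℝ × ℝ | |w.2 - w.1| < ρ} (fun w => f w.1 * g w.2) (t, s) := by
    intro s
    rw [← lintegral_const_mul _ hf, ← lintegral_indicator measurableSet_Ioo]
    apply lintegral_congr
    intro t
    by_cases h : |s - t| < ρ
    · have h' := abs_lt.1 h
      rw [indicator_of_mem (show t ∈ Ioo (s - ρ) (s + ρ) from ⟨by linarith, by linarith⟩),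
        indicator_of_mem (show (t, s) ∈ {w : ℝ × ℝ | |w.2 - w.1| < ρ} from h), mul_comm]
    · rw [indicator_of_notMem, indicator_of_notMem]
      · exact h
      · intro hs
        exact h (abs_lt.2 ⟨by linarith [hs.2], by linarith [hs.1]⟩)
  rw [lintegral_congr e1, lintegral_congr e2]
  exact lintegral_lintegral_swap hm.aemeasurable

/-- the master double integral -/
noncomputable def QQ (μ : Measure M) (h : ℝ → M → M → ℝ≥0∞) (f g : ℝ → M → ℝ≥0∞) : ℝ≥0∞ :=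
  ∫⁻ θ, ∫⁻ θ', ∫⁻ ρ in Ioi (0:ℝ), h ρ θ θ' *
    ∫⁻ t, f t θ * ∫⁻ s in Ioo (t - ρ) (t + ρ), g s θ' ∂volume ∂volume ∂volume ∂μ ∂μ

variable {μ : Measure M} [SFinite μ] {h : ℝ → M → M → ℝ≥0∞} {f g : ℝ → M → ℝ≥0∞}

theorem meas_hbox (hh : Measurable (fun z : ℝ × M × M => h z.1 z.2.1 z.2.2))
    (hg : Measurable (fun z : ℝ × M => g z.1 z.2)) (θ : M) :
    Measurable (fun z : (ℝ × M) × ℝ => h z.2 θ z.1.2 *
      ∫⁻ s in Ioo (z.1.1 - z.2) (z.1.1 + z.2), g s z.1.2) := by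
  apply Measurable.mul
  · exact hh.comp (f := fun z : (ℝ × M) × ℝ => (z.2, θ, z.1.2)) (by fun_prop)
  · exact (meas_box hg).comp (f := fun z : (ℝ × M) × ℝ => (z.1.1, z.2, z.1.2)) (by fun_prop)

theorem lintegral_rep (hh : Measurable (fun z : ℝ × M × M => h z.1 z.2.1 z.2.2))
    (hf : Measurable (fun z : ℝ × M => f z.1 z.2)) (hg : Measurable (fun z : ℝ × M => g z.1 z.2)) :
    ∫⁻ θ, ∫⁻ t, f t θ * (∫⁻ θ', ∫⁻ ρ in Ioi (0:ℝ), h ρ θ θ' *
        ∫⁻ s in Ioo (t - ρ) (t + ρ), g s θ' ∂volume ∂volume ∂μ) ∂volume ∂μ = QQ μ h f g := by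
  unfold QQ
  apply lintegral_congr
  intro θ
  have hfθ : Measurable (fun t => f t θ) := hf.comp (f := fun t : ℝ => (t, θ)) (by fun_prop)
  have m1 := meas_hbox hh hg θ
  have m2 : Measurable (fun z : ℝ × M => ∫⁻ ρ in Ioi (0:ℝ), h ρ θ z.2 *
      ∫⁻ s in Ioo (z.1 - ρ) (z.1 + ρ), g s z.2) := m1.lintegral_prod_right'
  have e1 : ∀ t, f t θ * (∫⁻ θ', ∫⁻ ρ in Ioi (0:ℝ), h ρ θ θ' *
        ∫⁻ s in Ioo (t - ρ) (t + ρ), g s θ' ∂volume ∂volume ∂μ)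
      = ∫⁻ θ', f t θ * ∫⁻ ρ in Ioi (0:ℝ), h ρ θ θ' *
        ∫⁻ s in Ioo (t - ρ) (t + ρ), g s θ' ∂volume ∂volume ∂μ := by
    intro t
    rw [lintegral_const_mul]
    exact m2.comp (f := fun θ' : M => (t, θ')) (by fun_prop)
  rw [lintegral_congr e1, lintegral_lintegral_swap]
  · apply lintegral_congr
    intro θ'
    have m3 : Measurable (fun z : ℝ × ℝ => h z.2 θ θ' *
        ∫⁻ s in Ioo (z.1 - z.2) (z.1 + z.2), g s θ') :=
      m1.comp (f := fun z : ℝ × ℝ => ((z.1, θ'), z.2)) (by fun_prop)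
    have e2 : ∀ t, f t θ * (∫⁻ ρ in Ioi (0:ℝ), h ρ θ θ' * ∫⁻ s in Ioo (t - ρ) (t + ρ), g s θ')
        = ∫⁻ ρ in Ioi (0:ℝ), f t θ * (h ρ θ θ' * ∫⁻ s in Ioo (t - ρ) (t + ρ), g s θ') := by
      intro t
      rw [lintegral_const_mul]
      exact m3.comp (f := fun ρ : ℝ => (t, ρ)) (by fun_prop)
    rw [lintegral_congr e2, lintegral_lintegral_swap]
    · apply lintegral_congr
      intro ρ
      rw [← lintegral_const_mul]
      · apply lintegral_congr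
        intro t
        ring
      · apply hfθ.mul
        exact (meas_box hg).comp (f := fun t : ℝ => (t, ρ, θ')) (by fun_prop)
    · apply Measurable.aemeasurable
      exact (hfθ.comp measurable_fst).mul m3
  · apply Measurable.aemeasurable
    exact (hfθ.comp measurable_fst).mul m2

theorem meas_in (hf : Measurable (fun z : ℝ × M => f z.1 z.2))
    (hg : Measurable (fun z : ℝ × M => g z.1 z.2)) :
    Measurable (fun z : ℝ × M × M => ∫⁻ t, f t z.2.1 * ∫⁻ s in Ioo (t - z.1) (t + z.1), g s z.2.2) := by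
  have m1 : Measurable (fun w : (ℝ × M × M) × ℝ => f w.2 w.1.2.1 *
      ∫⁻ s in Ioo (w.2 - w.1.1) (w.2 + w.1.1), g s w.1.2.2) := by
    apply Measurable.mul
    · exact hf.comp (f := fun w : (ℝ × M × M) × ℝ => (w.2, w.1.2.1)) (by fun_prop)
    · exact (meas_box hg).comp (f := fun w : (ℝ × M × M) × ℝ => (w.2, w.1.1, w.1.2.2)) (by fun_prop)
  exact m1.lintegral_prod_right'

theorem meas_int (hh : Measurable (fun z : ℝ × M × M => h z.1 z.2.1 z.2.2))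
    (hf : Measurable (fun z : ℝ × M => f z.1 z.2)) (hg : Measurable (fun z : ℝ × M => g z.1 z.2)) :
    Measurable (fun z : ℝ × M × M => h z.1 z.2.1 z.2.2 *
      ∫⁻ t, f t z.2.1 * ∫⁻ s in Ioo (t - z.1) (t + z.1), g s z.2.2) :=
  hh.mul (meas_in hf hg)

theorem meas_rho (hh : Measurable (fun z : ℝ × M × M => h z.1 z.2.1 z.2.2))
    (hf : Measurable (fun z : ℝ × M => f z.1 z.2)) (hg : Measurable (fun z : ℝ × M => g z.1 z.2))
    (s : Set ℝ) :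
    Measurable (fun z : M × M => ∫⁻ ρ in s, h ρ z.1 z.2 *
      ∫⁻ t, f t z.1 * ∫⁻ s in Ioo (t - ρ) (t + ρ), g s z.2) := by
  have m1 : Measurable (fun w : (M × M) × ℝ => h w.2 w.1.1 w.1.2 *
      ∫⁻ t, f t w.1.1 * ∫⁻ s in Ioo (t - w.2) (t + w.2), g s w.1.2) :=
    (meas_int hh hf hg).comp (f := fun w : (M × M) × ℝ => (w.2, w.1.1, w.1.2)) (by fun_prop)
  exact m1.lintegral_prod_right'

theorem QQ_symm (hh : Measurable (fun z : ℝ × M × M => h z.1 z.2.1 z.2.2))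
    (hsym : ∀ ρ θ θ', h ρ θ θ' = h ρ θ' θ)
    (hf : Measurable (fun z : ℝ × M => f z.1 z.2)) (hg : Measurable (fun z : ℝ × M => g z.1 z.2)) :
    QQ μ h f g = QQ μ h g f := by
  unfold QQ
  rw [lintegral_lintegral_swap (meas_rho hh hf hg (Ioi 0)).aemeasurable]
  apply lintegral_congr
  intro θ
  apply lintegral_congr
  intro θ'
  apply lintegral_congr
  intro ρ
  rw [hsym ρ θ' θ, box_swap]
  · exact hf.comp (f := fun t : ℝ => (t, θ')) (by fun_prop)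
  · exact hg.comp (f := fun t : ℝ => (t, θ)) (by fun_prop)

/-- splitting at `ρ = δ` -/
theorem QQ_le_split {f₁ g₁ f₂ g₂ f₃ g₃ : ℝ → M → ℝ≥0∞} {δ : ℝ} (hδ : 0 < δ)
    (hh : Measurable (fun z : ℝ × M × M => h z.1 z.2.1 z.2.2))
    (hf₃ : Measurable (fun z : ℝ × M => f₃ z.1 z.2)) (hg₃ : Measurable (fun z : ℝ × M => g₃ z.1 z.2))
    (h1 : ∀ θ θ' ρ, 0 < ρ → ρ ≤ δ → ∫⁻ t, f₁ t θ * ∫⁻ s in Ioo (t - ρ) (t + ρ), g₁ s θ'
        ≤ ∫⁻ t, f₂ t θ * ∫⁻ s in Ioo (t - ρ) (t + ρ), g₂ s θ')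
    (h2 : ∀ θ θ' ρ, δ < ρ → ∫⁻ t, f₁ t θ * ∫⁻ s in Ioo (t - ρ) (t + ρ), g₁ s θ'
        ≤ ∫⁻ t, f₃ t θ * ∫⁻ s in Ioo (t - ρ) (t + ρ), g₃ s θ') :
    QQ μ h f₁ g₁ ≤ QQ μ h f₂ g₂ + ∫⁻ θ, ∫⁻ θ', ∫⁻ ρ in Ioi δ, h ρ θ θ' *
      ∫⁻ t, f₃ t θ * ∫⁻ s in Ioo (t - ρ) (t + ρ), g₃ s θ' ∂volume ∂volume ∂volume ∂μ ∂μ := by
  unfold QQ
  have key : ∀ θ θ', ∫⁻ ρ in Ioi (0:ℝ), h ρ θ θ' *
      ∫⁻ t, f₁ t θ * ∫⁻ s in Ioo (t - ρ) (t + ρ), g₁ s θ'
      ≤ (∫⁻ ρ in Ioi (0:ℝ), h ρ θ θ' * ∫⁻ t, f₂ t θ * ∫⁻ s in Ioo (t - ρ) (t + ρ), g₂ s θ')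
        + ∫⁻ ρ in Ioi δ, h ρ θ θ' * ∫⁻ t, f₃ t θ * ∫⁻ s in Ioo (t - ρ) (t + ρ), g₃ s θ' := by
    intro θ θ'
    have hset : Ioi (0:ℝ) = Ioc 0 δ ∪ Ioi δ := (Ioc_union_Ioi_eq_Ioi hδ.le).symm
    calc ∫⁻ ρ in Ioi (0:ℝ), h ρ θ θ' * ∫⁻ t, f₁ t θ * ∫⁻ s in Ioo (t - ρ) (t + ρ), g₁ s θ'
        ≤ (∫⁻ ρ in Ioc (0:ℝ) δ, h ρ θ θ' * ∫⁻ t, f₁ t θ * ∫⁻ s in Ioo (t - ρ) (t + ρ), g₁ s θ')
          + ∫⁻ ρ in Ioi δ, h ρ θ θ' * ∫⁻ t, f₁ t θ * ∫⁻ s in Ioo (t - ρ) (t + ρ), g₁ s θ' := by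
          rw [hset]; exact lintegral_union_le _ _ _
      _ ≤ (∫⁻ ρ in Ioc (0:ℝ) δ, h ρ θ θ' * ∫⁻ t, f₂ t θ * ∫⁻ s in Ioo (t - ρ) (t + ρ), g₂ s θ')
          + ∫⁻ ρ in Ioi δ, h ρ θ θ' * ∫⁻ t, f₃ t θ * ∫⁻ s in Ioo (t - ρ) (t + ρ), g₃ s θ' := by
          apply add_le_add
          · apply setLIntegral_mono' measurableSet_Ioc
            intro ρ hρ
            exact mul_le_mul_right (h1 θ θ' ρ hρ.1 hρ.2) _
          · apply setLIntegral_mono' measurableSet_Ioi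
            intro ρ hρ
            exact mul_le_mul_right (h2 θ θ' ρ hρ) _
      _ ≤ _ := by
          gcongr
          exact Ioc_subset_Ioi_self
  have m3 := meas_rho (h := h) hh hf₃ hg₃ (Ioi δ)
  have m4 : Measurable (fun θ : M => ∫⁻ θ', ∫⁻ ρ in Ioi δ, h ρ θ θ' *
      ∫⁻ t, f₃ t θ * ∫⁻ s in Ioo (t - ρ) (t + ρ), g₃ s θ' ∂volume ∂volume ∂volume ∂μ) :=
    m3.lintegral_prod_right'
  rw [← lintegral_add_right _ m4]
  apply lintegral_mono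
  intro θ
  have m5 : Measurable (fun θ' : M => ∫⁻ ρ in Ioi δ, h ρ θ θ' *
      ∫⁻ t, f₃ t θ * ∫⁻ s in Ioo (t - ρ) (t + ρ), g₃ s θ') :=
    m3.comp (f := fun θ' : M => (θ, θ')) (by fun_prop)
  simp only []
  rw [← lintegral_add_right _ m5]
  exact lintegral_mono fun θ' => key θ θ'

end generic

end Crest.Agent.R077.JB
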