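import Crest.Agent.R077.JBase
import Crest.Agent.R077.ByParts

/-! Row 77: `Stmt_J`. -/

set_option autoImplicit false
set_option linter.unusedSectionVars false
open MeasureTheory Set Filter Topology
open scoped ENNReal

namespace Crest.Agent.R077.JB

variable {M : Type} [MeasurableSpace M] {μ : Measure M}

section basic
variable (S : Cyl M μ)

theorem F_meas : Measurable (fun z : ℝ × M => S.F z.1 z.2) := by
  unfold Cyl.F
  exact ((measurable_const.mul measurable_fst).exp).mul (S.V_meas.pow_const _)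

theorem G_meas : Measurable (fun z : ℝ × M => S.G z.1 z.2) := by
  unfold Cyl.G
  exact ((measurable_const.mul measurable_fst).exp).mul (S.U_meas.pow_const _)

theorem F_pos (t : ℝ) (θ : M) : 0 < S.F t θ := by
  have := S.V_pos t θ
  unfold Cyl.F; positivity

theorem G_pos (t : ℝ) (θ : M) : 0 < S.G t θ := by
  have := S.U_pos t θ
  unfold Cyl.G; positivity

theorem FV_meas : Measurable (fun z : ℝ × M => S.F z.1 z.2 * S.V z.1 z.2) :=
  (F_meas S).mul S.V_meas

theorem GU_meas : Measurable (fun z : ℝ × M => S.G z.1 z.2 * S.U z.1 z.2) :=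
  (G_meas S).mul S.U_meas

theorem FV_pos (t : ℝ) (θ : M) : 0 < S.F t θ * S.V t θ := mul_pos (F_pos S t θ) (S.V_pos t θ)
theorem GU_pos (t : ℝ) (θ : M) : 0 < S.G t θ * S.U t θ := mul_pos (G_pos S t θ) (S.U_pos t θ)

theorem F_cont (θ : M) : Continuous (fun t => S.F t θ) := by
  unfold Cyl.F
  have := (S.V_C1 θ).continuous
  apply Continuous.mul (by fun_prop)
  exact this.rpow_const fun t => Or.inl (S.V_pos t θ).ne'

theorem G_cont (θ : M) : Continuous (fun t => S.G t θ) := by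
  unfold Cyl.G
  have := (S.U_C1 θ).continuous
  apply Continuous.mul (by fun_prop)
  exact this.rpow_const fun t => Or.inl (S.U_pos t θ).ne'

/-- kernel in `ℝ≥0∞` -/
noncomputable def hh (ρ : ℝ) (θ θ' : M) : ℝ≥0∞ := ENNReal.ofReal (S.H ρ θ θ')
/-- `F` in `ℝ≥0∞` -/
noncomputable def fe (t : ℝ) (θ : M) : ℝ≥0∞ := ENNReal.ofReal (S.F t θ)
/-- `G` in `ℝ≥0∞` -/
noncomputable def ge (t : ℝ) (θ : M) : ℝ≥0∞ := ENNReal.ofReal (S.G t θ)

theorem hh_meas : Measurable (fun z : ℝ × M × M => hh S z.1 z.2.1 z.2.2) := S.H_meas.ennreal_ofReal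
theorem fe_meas : Measurable (fun z : ℝ × M => fe S z.1 z.2) := (F_meas S).ennreal_ofReal
theorem ge_meas : Measurable (fun z : ℝ × M => ge S z.1 z.2) := (G_meas S).ennreal_ofReal

theorem hh_symm (ρ : ℝ) (θ θ' : M) : hh S ρ θ θ' = hh S ρ θ' θ := by
  unfold hh; rw [S.H_symm]

variable [SFinite μ]

theorem E1 {α : ℝ → ℝ≥0∞} (hα : Measurable α) :
    ∫⁻ θ, ∫⁻ t, α t * ENNReal.ofReal (S.F t θ * S.V t θ) ∂volume ∂μ
      = QQ μ (hh S) (fun t θ => α t * fe S t θ) (ge S) := by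
  rw [← lintegral_rep (hh_meas S) ((hα.comp measurable_fst).mul (fe_meas S)) (ge_meas S)]
  apply lintegral_congr
  intro θ
  apply lintegral_congr
  intro t
  rw [ENNReal.ofReal_mul (F_pos S t θ).le, S.repV t θ, ← mul_assoc]
  rfl

theorem E2 {β : ℝ → ℝ≥0∞} (hβ : Measurable β) :
    ∫⁻ θ, ∫⁻ t, β t * ENNReal.ofReal (S.G t θ * S.U t θ) ∂volume ∂μ
      = QQ μ (hh S) (fe S) (fun t θ => β t * ge S t θ) := by
  have hm : Measurable (fun z : ℝ × M => β z.1 * ge S z.1 z.2) :=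
    (hβ.comp measurable_fst).mul (ge_meas S)
  rw [QQ_symm (hh_meas S) (hh_symm S) (fe_meas S) hm,
    ← lintegral_rep (hh_meas S) hm (fe_meas S)]
  apply lintegral_congr
  intro θ
  apply lintegral_congr
  intro t
  rw [ENNReal.ofReal_mul (G_pos S t θ).le, S.repU t θ, ← mul_assoc]
  rfl

/-- `J1` in `ℝ≥0∞` -/
noncomputable def J1e (T : ℝ) : ℝ≥0∞ :=
  ∫⁻ θ, ∫⁻ t in Iic T, ENNReal.ofReal (S.F t θ * S.V t θ) ∂volume ∂μ
/-- `J2` in `ℝ≥0∞` -/
noncomputable def J2e (T : ℝ) : ℝ≥0∞ :=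
  ∫⁻ θ, ∫⁻ t in Iic T, ENNReal.ofReal (S.G t θ * S.U t θ) ∂volume ∂μ
/-- `Bfar` in `ℝ≥0∞` -/
noncomputable def Be (δ : ℝ) : ℝ≥0∞ :=
  ∫⁻ θ, ∫⁻ θ', ∫⁻ ρ in Ioi δ, hh S ρ θ θ' *
      ∫⁻ t, fe S t θ * ∫⁻ s in Ioo (t - ρ) (t + ρ), ge S s θ' ∂volume ∂volume ∂volume ∂μ ∂μ

theorem J1e_ne_top (T : ℝ) : J1e S T ≠ ∞ := S.fin1 T
theorem J2e_ne_top (T : ℝ) : J2e S T ≠ ∞ := S.fin2 T

theorem ind_meas (T : ℝ) : Measurable (indicator (Iic T) (fun _ : ℝ => (1 : ℝ≥0∞))) :=
  measurable_const.indicator measurableSet_Iic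

theorem J1e_eq (T : ℝ) : J1e S T
    = QQ μ (hh S) (fun t θ => indicator (Iic T) (fun _ => 1) t * fe S t θ) (ge S) := by
  rw [← E1 S (ind_meas T)]
  unfold J1e
  apply lintegral_congr
  intro θ
  rw [← lintegral_indicator measurableSet_Iic]
  apply lintegral_congr
  intro t
  by_cases h : t ∈ Iic T
  · rw [indicator_of_mem h, indicator_of_mem h, one_mul]
  · rw [indicator_of_notMem h, indicator_of_notMem h, zero_mul]

theorem J2e_eq (T : ℝ) : J2e S T
    = QQ μ (hh S) (fe S) (fun t θ => indicator (Iic T) (fun _ => 1) t * ge S t θ) := by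
  rw [← E2 S (ind_meas T)]
  unfold J2e
  apply lintegral_congr
  intro θ
  rw [← lintegral_indicator measurableSet_Iic]
  apply lintegral_congr
  intro t
  by_cases h : t ∈ Iic T
  · rw [indicator_of_mem h, indicator_of_mem h, one_mul]
  · rw [indicator_of_notMem h, indicator_of_notMem h, zero_mul]

theorem J2e_le (T : ℝ) {δ : ℝ} (hδ : 0 < δ) : J2e S T ≤ J1e S (T + δ) + Be S δ := by
  rw [J2e_eq, J1e_eq]
  apply QQ_le_split hδ (hh_meas S) (fe_meas S) (ge_meas S)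
  · intro θ θ' ρ hρ hρδ
    apply lintegral_mono
    intro t
    beta_reduce
    by_cases ht : t ≤ T + δ
    · rw [indicator_of_mem (show t ∈ Iic (T + δ) from ht), one_mul]
      apply mul_le_mul_right
      apply lintegral_mono
      intro s
      beta_reduce
      by_cases hs : s ∈ Iic T
      · rw [indicator_of_mem hs, one_mul]
      · rw [indicator_of_notMem hs, zero_mul]; exact zero_le
    · push Not at ht
      have : ∫⁻ s in Ioo (t - ρ) (t + ρ), indicator (Iic T) (fun _ => (1 : ℝ≥0∞)) s * ge S s θ' = 0 := by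
        rw [← lintegral_zero (μ := volume.restrict (Ioo (t - ρ) (t + ρ)))]
        apply setLIntegral_congr_fun measurableSet_Ioo
        intro s hs
        simp only []
        rw [indicator_of_notMem, zero_mul]
        intro hs'
        have := hs.1
        have : s ≤ T := hs'
        linarith
      rw [this, mul_zero]
      exact zero_le
  · intro θ θ' ρ _
    apply lintegral_mono
    intro t
    beta_reduce
    apply mul_le_mul_right
    apply lintegral_mono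
    intro s
    beta_reduce
    by_cases hs : s ∈ Iic T
    · rw [indicator_of_mem hs, one_mul]
    · rw [indicator_of_notMem hs, zero_mul]; exact zero_le

theorem J1e_le (T : ℝ) {δ : ℝ} (hδ : 0 < δ) : J1e S T ≤ J2e S (T + δ) + Be S δ := by
  rw [J2e_eq, J1e_eq]
  apply QQ_le_split hδ (hh_meas S) (fe_meas S) (ge_meas S)
  · intro θ θ' ρ hρ hρδ
    apply lintegral_mono
    intro t
    beta_reduce
    by_cases ht : t ∈ Iic T
    · rw [indicator_of_mem ht, one_mul]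
      apply mul_le_mul_right
      apply setLIntegral_mono' measurableSet_Ioo
      intro s hs
      rw [indicator_of_mem, one_mul]
      have := hs.2
      have : t ≤ T := ht
      show s ≤ T + δ
      linarith
    · rw [indicator_of_notMem ht, zero_mul, zero_mul]; exact zero_le
  · intro θ θ' ρ _
    apply lintegral_mono
    intro t
    beta_reduce
    apply mul_le_mul_left
    by_cases hs : t ∈ Iic T
    · rw [indicator_of_mem hs, one_mul]
    · rw [indicator_of_notMem hs, zero_mul]; exact zero_le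

theorem Bfar_eq (δ : ℝ) : S.Bfar δ = (Be S δ).toReal := rfl

theorem Be_le : ∃ C κ : ℝ, 0 ≤ C ∧ 0 ≤ κ ∧ ∀ δ ∈ Ioc (0:ℝ) 1, Be S δ ≤ ENNReal.ofReal (C * δ ^ (-κ)) := by
  obtain ⟨C, κ, hC, hκ, h⟩ := S.far
  exact ⟨C, κ, hC, hκ, fun δ hδ => h δ hδ⟩

theorem Be_ne_top {δ : ℝ} (h0 : 0 < δ) (h1 : δ ≤ 1) : Be S δ ≠ ∞ := by
  obtain ⟨C, κ, _, _, h⟩ := Be_le S
  exact ne_top_of_le_ne_top ENNReal.ofReal_ne_top (h δ ⟨h0, h1⟩)

end basic

/-- Bochner double integral of a nonnegative function from lintegral -/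
theorem integral_eq_toReal [SFinite μ] {k : ℝ → M → ℝ} (hk : Measurable (fun z : ℝ × M => k z.1 z.2))
    (h0 : ∀ t θ, 0 ≤ k t θ) (ν : Measure ℝ) [SFinite ν]
    (hfin : ∫⁻ θ, ∫⁻ t, ENNReal.ofReal (k t θ) ∂ν ∂μ ≠ ∞) :
    ∫ θ, ∫ t, k t θ ∂ν ∂μ = (∫⁻ θ, ∫⁻ t, ENNReal.ofReal (k t θ) ∂ν ∂μ).toReal := by
  have hm : ∀ θ, Measurable (fun t => k t θ) := fun θ =>
    hk.comp (f := fun t : ℝ => (t, θ)) (by fun_prop)
  have e1 : ∀ θ, ∫ t, k t θ ∂ν = (∫⁻ t, ENNReal.ofReal (k t θ) ∂ν).toReal := fun θ =>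
    integral_eq_lintegral_of_nonneg_ae (ae_of_all _ fun t => h0 t θ) (hm θ).aestronglyMeasurable
  have m1 : Measurable (fun θ => ∫⁻ t, ENNReal.ofReal (k t θ) ∂ν) := by
    have : Measurable (fun z : M × ℝ => ENNReal.ofReal (k z.2 z.1)) :=
      (hk.comp (f := fun z : M × ℝ => (z.2, z.1)) (by fun_prop)).ennreal_ofReal
    exact this.lintegral_prod_right'
  simp_rw [e1]
  exact integral_toReal m1.aemeasurable (ae_lt_top m1 hfin)

section real
variable [SFinite μ] (S : Cyl M μ)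

theorem J1_eq (T : ℝ) : S.J1 T = (J1e S T).toReal :=
  integral_eq_toReal (FV_meas S) (fun t θ => (FV_pos S t θ).le) (volume.restrict (Iic T))
    (J1e_ne_top S T)

theorem J2_eq (T : ℝ) : S.J2 T = (J2e S T).toReal :=
  integral_eq_toReal (GU_meas S) (fun t θ => (GU_pos S t θ).le) (volume.restrict (Iic T))
    (J2e_ne_top S T)

theorem J1e_mono : Monotone (J1e S) := fun _ _ h =>
  lintegral_mono fun _ => lintegral_mono_set (Iic_subset_Iic.2 h)

theorem J2e_mono : Monotone (J2e S) := fun _ _ h =>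
  lintegral_mono fun _ => lintegral_mono_set (Iic_subset_Iic.2 h)

theorem J1_mono : Monotone S.J1 := fun a b h => by
  rw [J1_eq, J1_eq]
  exact ENNReal.toReal_mono (J1e_ne_top S b) (J1e_mono S h)

theorem J2_mono : Monotone S.J2 := fun a b h => by
  rw [J2_eq, J2_eq]
  exact ENNReal.toReal_mono (J2e_ne_top S b) (J2e_mono S h)

theorem J1_nonneg (T : ℝ) : 0 ≤ S.J1 T := by rw [J1_eq]; exact ENNReal.toReal_nonneg
theorem J2_nonneg (T : ℝ) : 0 ≤ S.J2 T := by rw [J2_eq]; exact ENNReal.toReal_nonneg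

theorem J2_le (T : ℝ) {δ : ℝ} (h0 : 0 < δ) (h1 : δ ≤ 1) : S.J2 T ≤ S.J1 (T + δ) + S.Bfar δ := by
  rw [J2_eq, J1_eq, Bfar_eq, ← ENNReal.toReal_add (J1e_ne_top S _) (Be_ne_top S h0 h1)]
  exact ENNReal.toReal_mono (ENNReal.add_ne_top.2 ⟨J1e_ne_top S _, Be_ne_top S h0 h1⟩)
    (J2e_le S T h0)

theorem J1_le (T : ℝ) {δ : ℝ} (h0 : 0 < δ) (h1 : δ ≤ 1) : S.J1 T ≤ S.J2 (T + δ) + S.Bfar δ := by
  rw [J2_eq, J1_eq, Bfar_eq, ← ENNReal.toReal_add (J2e_ne_top S _) (Be_ne_top S h0 h1)]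
  exact ENNReal.toReal_mono (ENNReal.add_ne_top.2 ⟨J2e_ne_top S _, Be_ne_top S h0 h1⟩)
    (J1e_le S T h0)

theorem Bfar_bound : ∃ C κ : ℝ, 0 ≤ C ∧ 0 ≤ κ ∧
    ∀ δ ∈ Ioc (0:ℝ) 1, 0 ≤ S.Bfar δ ∧ S.Bfar δ ≤ C * δ ^ (-κ) := by
  obtain ⟨C, κ, hC, hκ, h⟩ := Be_le S
  refine ⟨C, κ, hC, hκ, fun δ hδ => ⟨ENNReal.toReal_nonneg, ?_⟩⟩
  rw [Bfar_eq]
  apply ENNReal.toReal_le_of_le_ofReal _ (h δ hδ)
  have := hδ.1
  positivity

/-- the total energies -/
theorem tot_eq : ∫⁻ θ, ∫⁻ t, ENNReal.ofReal (S.F t θ * S.V t θ) ∂volume ∂μ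
    = ∫⁻ θ, ∫⁻ t, ENNReal.ofReal (S.G t θ * S.U t θ) ∂volume ∂μ := by
  have h1 := E1 S (α := fun _ => 1) measurable_const
  have h2 := E2 S (β := fun _ => 1) measurable_const
  simp only [one_mul] at h1 h2
  rw [h1, h2]

theorem tendsto_lint {k : ℝ → M → ℝ} (hk : Measurable (fun z : ℝ × M => k z.1 z.2)) :
    Tendsto (fun T : ℝ => ∫⁻ θ, ∫⁻ t in Iic T, ENNReal.ofReal (k t θ) ∂volume ∂μ) atTop
      (𝓝 (∫⁻ θ, ∫⁻ t, ENNReal.ofReal (k t θ) ∂volume ∂μ)) := by
  have hmono : Monotone (fun T : ℝ => ∫⁻ θ, ∫⁻ t in Iic T, ENNReal.ofReal (k t θ) ∂volume ∂μ) :=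
    fun _ _ h => lintegral_mono fun _ => lintegral_mono_set (Iic_subset_Iic.2 h)
  have hsub : Tendsto (fun n : ℕ => ∫⁻ θ, ∫⁻ t in Iic (n : ℝ), ENNReal.ofReal (k t θ) ∂volume ∂μ)
      atTop (𝓝 (∫⁻ θ, ∫⁻ t, ENNReal.ofReal (k t θ) ∂volume ∂μ)) := by
    have hm : Measurable (fun z : M × ℝ => ENNReal.ofReal (k z.2 z.1)) :=
      (hk.comp (f := fun z : M × ℝ => (z.2, z.1)) (by fun_prop)).ennreal_ofReal
    apply lintegral_tendsto_of_tendsto_of_monotone
    · intro n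
      exact (hm.lintegral_prod_right').aemeasurable
    · exact ae_of_all _ fun θ n n' h => lintegral_mono_set (Iic_subset_Iic.2 (by exact_mod_cast h))
    · refine ae_of_all _ fun θ => ?_
      have hmθ : Measurable (fun t => ENNReal.ofReal (k t θ)) :=
        hm.comp (f := fun t : ℝ => (θ, t)) (by fun_prop)
      have e : ∀ n : ℕ, ∫⁻ t in Iic (n : ℝ), ENNReal.ofReal (k t θ)
          = ∫⁻ t, indicator (Iic (n : ℝ)) (fun t => ENNReal.ofReal (k t θ)) t := fun n =>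
        (lintegral_indicator measurableSet_Iic _).symm
      simp_rw [e]
      apply lintegral_tendsto_of_tendsto_of_monotone
      · intro n
        exact (hmθ.indicator measurableSet_Iic).aemeasurable
      · refine ae_of_all _ fun t n n' h => ?_
        exact indicator_le_indicator_of_subset (Iic_subset_Iic.2 (by exact_mod_cast h))
          (fun _ => zero_le) t
      · refine ae_of_all _ fun t => ?_
        apply tendsto_const_nhds.congr'
        obtain ⟨N, hN⟩ := exists_nat_ge t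
        filter_upwards [eventually_ge_atTop N] with n hn
        rw [indicator_of_mem]
        have : (N : ℝ) ≤ n := by exact_mod_cast hn
        exact hN.trans this
  have h := tendsto_atTop_iSup hmono
  have h1 := h.comp (tendsto_natCast_atTop_atTop (R := ℝ))
  have := tendsto_nhds_unique h1 hsub
  rwa [this] at h

end real

end Crest.Agent.R077.JB
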