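import Crest.Agent.R077.JInf

/-! Row 77: `Stmt_J`, second part. -/

set_option autoImplicit false
set_option linter.unusedSectionVars false
open MeasureTheory Set Filter Topology
open scoped ENNReal

namespace Crest.Agent.R077.JB

variable {M : Type} [MeasurableSpace M] {μ : Measure M}

section gen
variable [SFinite μ] {k : ℝ → M → ℝ}

theorem integrable_inner (hk : Measurable (fun z : ℝ × M => k z.1 z.2))
    (h0 : ∀ t θ, 0 ≤ k t θ) (hfin : ∫⁻ θ, ∫⁻ t, ENNReal.ofReal (k t θ) ∂volume ∂μ ≠ ∞) :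
    Integrable (fun θ => ∫ t, k t θ) μ ∧ (∀ᵐ θ ∂μ, Integrable (fun t => k t θ)) := by
  have hm : ∀ θ, Measurable (fun t => k t θ) := fun θ =>
    hk.comp (f := fun t : ℝ => (t, θ)) (by fun_prop)
  have e1 : ∀ θ, ∫ t, k t θ = (∫⁻ t, ENNReal.ofReal (k t θ)).toReal := fun θ =>
    integral_eq_lintegral_of_nonneg_ae (ae_of_all _ fun t => h0 t θ) (hm θ).aestronglyMeasurable
  have m1 : Measurable (fun θ => ∫⁻ t, ENNReal.ofReal (k t θ)) := by
    have : Measurable (fun z : M × ℝ => ENNReal.ofReal (k z.2 z.1)) :=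
      (hk.comp (f := fun z : M × ℝ => (z.2, z.1)) (by fun_prop)).ennreal_ofReal
    exact this.lintegral_prod_right'
  constructor
  · simp_rw [e1]
    exact integrable_toReal_of_lintegral_ne_top m1.aemeasurable hfin
  · filter_upwards [ae_lt_top m1 hfin] with θ hθ
    refine ⟨(hm θ).aestronglyMeasurable, ?_⟩
    rw [hasFiniteIntegral_iff_ofReal (ae_of_all _ fun t => h0 t θ)]
    exact hθ

/-- comparison with the cut off -/
theorem phi_lint (hk : Measurable (fun z : ℝ × M => k z.1 z.2)) (h0 : ∀ t θ, 0 ≤ k t θ)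
    {a : ℝ} (ha : 0 < a) (lam : ℝ) :
    (∫⁻ θ, ∫⁻ t in Iic lam, ENNReal.ofReal (k t θ) ∂volume ∂μ)
      ≤ ∫⁻ θ, ∫⁻ t, ENNReal.ofReal (phi lam a t * k t θ) ∂volume ∂μ ∧
    (∫⁻ θ, ∫⁻ t, ENNReal.ofReal (phi lam a t * k t θ) ∂volume ∂μ)
      ≤ ∫⁻ θ, ∫⁻ t in Iic (lam + a), ENNReal.ofReal (k t θ) ∂volume ∂μ := by
  constructor
  · apply lintegral_mono
    intro θ
    beta_reduce
    rw [← lintegral_indicator measurableSet_Iic]
    apply lintegral_mono
    intro t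
    beta_reduce
    by_cases h : t ∈ Iic lam
    · rw [indicator_of_mem h, TP.phi_eq_one h, one_mul]
    · rw [indicator_of_notMem h]; exact zero_le
  · apply lintegral_mono
    intro θ
    beta_reduce
    rw [← lintegral_indicator measurableSet_Iic]
    apply lintegral_mono
    intro t
    beta_reduce
    by_cases h : t ∈ Iic (lam + a)
    · rw [indicator_of_mem h]
      apply ENNReal.ofReal_le_ofReal
      have h1 := TP.phi_le_one lam a t
      have h2 := h0 t θ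
      nlinarith
    · rw [indicator_of_notMem h]
      have : lam + a < t := not_le.1 h
      rw [TP.phi_eq_zero ha this.le, zero_mul, ENNReal.ofReal_zero]

/-- comparison with the tent -/
theorem tent_lint (hk : Measurable (fun z : ℝ × M => k z.1 z.2)) (h0 : ∀ t θ, 0 ≤ k t θ)
    {a : ℝ} (ha : 0 < a) (lam : ℝ) :
    (∫⁻ θ, ∫⁻ t, ENNReal.ofReal (tent lam a t * k t θ) ∂volume ∂μ)
      + ENNReal.ofReal (2 / a) * (∫⁻ θ, ∫⁻ t in Iic lam, ENNReal.ofReal (k t θ) ∂volume ∂μ)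
      ≤ ENNReal.ofReal (2 / a) *
        ∫⁻ θ, ∫⁻ t in Iic (lam + a), ENNReal.ofReal (k t θ) ∂volume ∂μ := by
  have hm : Measurable (fun z : M × ℝ => ENNReal.ofReal (k z.2 z.1)) :=
      (hk.comp (f := fun z : M × ℝ => (z.2, z.1)) (by fun_prop)).ennreal_ofReal
  have hmi : ∀ T : ℝ, Measurable (fun θ => ∫⁻ t in Iic T, ENNReal.ofReal (k t θ)) := fun T =>
    hm.lintegral_prod_right'
  rw [← lintegral_const_mul _ (hmi _), ← lintegral_const_mul _ (hmi _),
    ← lintegral_add_right _ ((hmi lam).const_mul _)]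
  apply lintegral_mono
  intro θ
  beta_reduce
  have hmθ : Measurable (fun t => ENNReal.ofReal (k t θ)) :=
    hm.comp (f := fun t : ℝ => (θ, t)) (by fun_prop)
  rw [← lintegral_indicator measurableSet_Iic, ← lintegral_indicator measurableSet_Iic,
    ← lintegral_const_mul _ (hmθ.indicator measurableSet_Iic),
    ← lintegral_const_mul _ (hmθ.indicator measurableSet_Iic),
    ← lintegral_add_right _ ((hmθ.indicator measurableSet_Iic).const_mul _)]
  apply lintegral_mono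
  intro t
  beta_reduce
  by_cases h1 : t ≤ lam
  · rw [indicator_of_mem (show t ∈ Iic lam from h1),
      indicator_of_mem (show t ∈ Iic (lam + a) from by simp only [mem_Iic]; linarith),
      TP.tent_eq_zero_left h1, zero_mul, ENNReal.ofReal_zero, zero_add]
  · rw [indicator_of_notMem (show t ∉ Iic lam from h1), mul_zero, add_zero]
    by_cases h2 : t ≤ lam + a
    · rw [indicator_of_mem (show t ∈ Iic (lam + a) from h2), ENNReal.ofReal_mul (TP.tent_nonneg _ _ _)]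
      exact mul_le_mul_left (ENNReal.ofReal_le_ofReal (TP.tent_le ha lam t)) _
    · push Not at h2
      rw [TP.tent_eq_zero_right h2.le, zero_mul, ENNReal.ofReal_zero]
      exact zero_le

end gen

section cyl
variable [SFinite μ] (S : Cyl M μ)

/-- cut off energies -/
noncomputable def P1 (lam a : ℝ) : ℝ := ∫ θ, ∫ t, phi lam a t * (S.F t θ * S.V t θ) ∂volume ∂μ
noncomputable def P2 (lam a : ℝ) : ℝ := ∫ θ, ∫ t, phi lam a t * (S.G t θ * S.U t θ) ∂volume ∂μ
noncomputable def W1 (lam a : ℝ) : ℝ := ∫ θ, ∫ t, tent lam a t * (S.F t θ * S.V t θ) ∂volume ∂μ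
noncomputable def W2 (lam a : ℝ) : ℝ := ∫ θ, ∫ t, tent lam a t * (S.G t θ * S.U t θ) ∂volume ∂μ

theorem phiFV_meas (lam a : ℝ) :
    Measurable (fun z : ℝ × M => phi lam a z.1 * (S.F z.1 z.2 * S.V z.1 z.2)) :=
  ((TP.phi_measurable lam a).comp measurable_fst).mul (FV_meas S)
theorem phiGU_meas (lam a : ℝ) :
    Measurable (fun z : ℝ × M => phi lam a z.1 * (S.G z.1 z.2 * S.U z.1 z.2)) :=
  ((TP.phi_measurable lam a).comp measurable_fst).mul (GU_meas S)
theorem tentFV_meas (lam a : ℝ) :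
    Measurable (fun z : ℝ × M => tent lam a z.1 * (S.F z.1 z.2 * S.V z.1 z.2)) :=
  ((TP.tent_measurable lam a).comp measurable_fst).mul (FV_meas S)
theorem tentGU_meas (lam a : ℝ) :
    Measurable (fun z : ℝ × M => tent lam a z.1 * (S.G z.1 z.2 * S.U z.1 z.2)) :=
  ((TP.tent_measurable lam a).comp measurable_fst).mul (GU_meas S)

variable {a : ℝ} (ha : 0 < a) (lam : ℝ)
include ha

theorem phiFV_nonneg (t : ℝ) (θ : M) : 0 ≤ phi lam a t * (S.F t θ * S.V t θ) :=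
  mul_nonneg (TP.phi_nonneg ha lam t) (FV_pos S t θ).le
theorem phiGU_nonneg (t : ℝ) (θ : M) : 0 ≤ phi lam a t * (S.G t θ * S.U t θ) :=
  mul_nonneg (TP.phi_nonneg ha lam t) (GU_pos S t θ).le
theorem tentFV_nonneg (t : ℝ) (θ : M) : 0 ≤ tent lam a t * (S.F t θ * S.V t θ) :=
  mul_nonneg (TP.tent_nonneg lam a t) (FV_pos S t θ).le
theorem tentGU_nonneg (t : ℝ) (θ : M) : 0 ≤ tent lam a t * (S.G t θ * S.U t θ) :=
  mul_nonneg (TP.tent_nonneg lam a t) (GU_pos S t θ).le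

theorem phiFV_fin : ∫⁻ θ, ∫⁻ t, ENNReal.ofReal (phi lam a t * (S.F t θ * S.V t θ)) ∂volume ∂μ ≠ ∞ :=
  ne_top_of_le_ne_top (J1e_ne_top S (lam + a))
    (phi_lint (FV_meas S) (fun t θ => (FV_pos S t θ).le) ha lam).2
theorem phiGU_fin : ∫⁻ θ, ∫⁻ t, ENNReal.ofReal (phi lam a t * (S.G t θ * S.U t θ)) ∂volume ∂μ ≠ ∞ :=
  ne_top_of_le_ne_top (J2e_ne_top S (lam + a))
    (phi_lint (GU_meas S) (fun t θ => (GU_pos S t θ).le) ha lam).2
theorem tentFV_fin : ∫⁻ θ, ∫⁻ t, ENNReal.ofReal (tent lam a t * (S.F t θ * S.V t θ)) ∂volume ∂μ ≠ ∞ :=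
  ne_top_of_le_ne_top (ENNReal.mul_ne_top ENNReal.ofReal_ne_top (J1e_ne_top S (lam + a)))
    (le_self_add.trans (tent_lint (FV_meas S) (fun t θ => (FV_pos S t θ).le) ha lam))
theorem tentGU_fin : ∫⁻ θ, ∫⁻ t, ENNReal.ofReal (tent lam a t * (S.G t θ * S.U t θ)) ∂volume ∂μ ≠ ∞ :=
  ne_top_of_le_ne_top (ENNReal.mul_ne_top ENNReal.ofReal_ne_top (J2e_ne_top S (lam + a)))
    (le_self_add.trans (tent_lint (GU_meas S) (fun t θ => (GU_pos S t θ).le) ha lam))

theorem P1_bounds : S.J1 lam ≤ P1 S lam a ∧ P1 S lam a ≤ S.J1 (lam + a) := by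
  have h := phi_lint (FV_meas S) (fun t θ => (FV_pos S t θ).le) ha lam (μ := μ)
  have e : P1 S lam a = _ := integral_eq_toReal (phiFV_meas S lam a) (phiFV_nonneg S ha lam)
    volume (phiFV_fin S ha lam)
  rw [e, J1_eq, J1_eq]
  exact ⟨ENNReal.toReal_mono (phiFV_fin S ha lam) h.1, ENNReal.toReal_mono (J1e_ne_top S _) h.2⟩

theorem P2_bounds : S.J2 lam ≤ P2 S lam a ∧ P2 S lam a ≤ S.J2 (lam + a) := by
  have h := phi_lint (GU_meas S) (fun t θ => (GU_pos S t θ).le) ha lam (μ := μ)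
  have e : P2 S lam a = _ := integral_eq_toReal (phiGU_meas S lam a) (phiGU_nonneg S ha lam)
    volume (phiGU_fin S ha lam)
  rw [e, J2_eq, J2_eq]
  exact ⟨ENNReal.toReal_mono (phiGU_fin S ha lam) h.1, ENNReal.toReal_mono (J2e_ne_top S _) h.2⟩

theorem W1_bound : 0 ≤ W1 S lam a ∧ W1 S lam a ≤ (2 / a) * (S.J1 (lam + a) - S.J1 lam) := by
  have h : (∫⁻ θ, ∫⁻ t, ENNReal.ofReal (tent lam a t * (S.F t θ * S.V t θ)) ∂volume ∂μ)
      + ENNReal.ofReal (2 / a) * J1e S lam ≤ ENNReal.ofReal (2 / a) * J1e S (lam + a) :=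
    tent_lint (FV_meas S) (fun t θ => (FV_pos S t θ).le) ha lam (μ := μ)
  have e : W1 S lam a = _ := integral_eq_toReal (tentFV_meas S lam a) (tentFV_nonneg S ha lam)
    volume (tentFV_fin S ha lam)
  refine ⟨by rw [e]; exact ENNReal.toReal_nonneg, ?_⟩
  have h2 := ENNReal.toReal_mono (ENNReal.mul_ne_top ENNReal.ofReal_ne_top (J1e_ne_top S (lam + a))) h
  rw [ENNReal.toReal_add (tentFV_fin S ha lam)
    (ENNReal.mul_ne_top ENNReal.ofReal_ne_top (J1e_ne_top S lam)), ENNReal.toReal_mul,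
    ENNReal.toReal_mul, ENNReal.toReal_ofReal (by positivity)] at h2
  rw [← J1_eq S lam, ← J1_eq S (lam + a), ← e] at h2
  linarith

theorem W2_bound : 0 ≤ W2 S lam a ∧ W2 S lam a ≤ (2 / a) * (S.J2 (lam + a) - S.J2 lam) := by
  have h : (∫⁻ θ, ∫⁻ t, ENNReal.ofReal (tent lam a t * (S.G t θ * S.U t θ)) ∂volume ∂μ)
      + ENNReal.ofReal (2 / a) * J2e S lam ≤ ENNReal.ofReal (2 / a) * J2e S (lam + a) :=
    tent_lint (GU_meas S) (fun t θ => (GU_pos S t θ).le) ha lam (μ := μ)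
  have e : W2 S lam a = _ := integral_eq_toReal (tentGU_meas S lam a) (tentGU_nonneg S ha lam)
    volume (tentGU_fin S ha lam)
  refine ⟨by rw [e]; exact ENNReal.toReal_nonneg, ?_⟩
  have h2 := ENNReal.toReal_mono (ENNReal.mul_ne_top ENNReal.ofReal_ne_top (J2e_ne_top S (lam + a))) h
  rw [ENNReal.toReal_add (tentGU_fin S ha lam)
    (ENNReal.mul_ne_top ENNReal.ofReal_ne_top (J2e_ne_top S lam)), ENNReal.toReal_mul,
    ENNReal.toReal_mul, ENNReal.toReal_ofReal (by positivity)] at h2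
  rw [← J2_eq S lam, ← J2_eq S (lam + a), ← e] at h2
  linarith

end cyl

section total
variable [SFinite μ] (S : Cyl M μ)

theorem J1e_pos [NeZero μ] (T : ℝ) : 0 < J1e S T := by
  rw [pos_iff_ne_zero]
  intro h
  have hm : Measurable (fun z : M × ℝ => ENNReal.ofReal (S.F z.2 z.1 * S.V z.2 z.1)) :=
      ((FV_meas S).comp (f := fun z : M × ℝ => (z.2, z.1)) (by fun_prop)).ennreal_ofReal
  have hmi : Measurable (fun θ => ∫⁻ t in Iic T, ENNReal.ofReal (S.F t θ * S.V t θ)) :=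
    hm.lintegral_prod_right'
  unfold J1e at h
  rw [lintegral_eq_zero_iff hmi] at h
  obtain ⟨θ, hθ⟩ := h.exists
  have hmθ : Measurable (fun t => ENNReal.ofReal (S.F t θ * S.V t θ)) :=
    hm.comp (f := fun t : ℝ => (θ, t)) (by fun_prop)
  have h2 : (∫⁻ t in Iic T, ENNReal.ofReal (S.F t θ * S.V t θ)) = 0 := hθ
  rw [lintegral_eq_zero_iff hmθ] at h2
  have hne : NeZero (volume.restrict (Iic T) : Measure ℝ) := by
    refine ⟨?_⟩
    rw [Ne, Measure.restrict_eq_zero, Real.volume_Iic]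
    exact ENNReal.top_ne_zero
  obtain ⟨t, ht⟩ := h2.exists
  have h3 : ENNReal.ofReal (S.F t θ * S.V t θ) = 0 := ht
  rw [ENNReal.ofReal_eq_zero] at h3
  exact absurd (FV_pos S t θ) (not_lt.2 h3)

theorem J1_pos [NeZero μ] (T : ℝ) : 0 < S.J1 T := by
  rw [J1_eq]
  exact ENNReal.toReal_pos (J1e_pos S T).ne' (J1e_ne_top S T)

theorem lim_eq {S1 S2 : ℝ} (h1 : Tendsto S.J1 atTop (𝓝 S1)) (h2 : Tendsto S.J2 atTop (𝓝 S2)) :
    S1 = S2 := by
  have a1 : Tendsto (J1e S) atTop (𝓝 (ENNReal.ofReal S1)) := by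
    have := ENNReal.tendsto_ofReal h1
    refine this.congr fun T => ?_
    rw [J1_eq, ENNReal.ofReal_toReal (J1e_ne_top S T)]
  have a2 : Tendsto (J2e S) atTop (𝓝 (ENNReal.ofReal S2)) := by
    have := ENNReal.tendsto_ofReal h2
    refine this.congr fun T => ?_
    rw [J2_eq, ENNReal.ofReal_toReal (J2e_ne_top S T)]
  have b1 := tendsto_nhds_unique a1 (tendsto_lint (FV_meas S))
  have b2 := tendsto_nhds_unique a2 (tendsto_lint (GU_meas S))
  have h := tot_eq S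
  rw [← b1, ← b2] at h
  have p1 : 0 ≤ S1 := ge_of_tendsto' h1 (J1_nonneg S)
  have p2 : 0 ≤ S2 := ge_of_tendsto' h2 (J2_nonneg S)
  exact (ENNReal.ofReal_eq_ofReal_iff p1 p2).1 h

end total

end Crest.Agent.R077.JB
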