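import Crest.Agent.R077.Kern
import Crest.Agent.R077.Polar

/-! Row 77: integrability of the cylinder kernel over the sphere. -/

set_option autoImplicit false

open MeasureTheory Set Filter Topology
open scoped ENNReal RealInnerProductSpace

namespace Crest.Agent.R077.Kern

variable {n : ℕ}

local notation "𝔼" => EuclideanSpace ℝ (Fin n)

/-- `∫_{‖w‖ < R} ‖w‖^{-(n-1)} < ∞` -/
lemma lintegral_ball_rpow (hn : 3 ≤ n) (R : ℝ) (hR : 0 < R) :
    ∫⁻ w in {x : 𝔼 | ‖x‖ ∈ Iio R}, ENNReal.ofReal (‖w‖ ^ (-((n : ℝ) - 1))) ≤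
      ENNReal.ofReal R * (sph n) univ := by
  have hm : Measurable fun w : 𝔼 => ENNReal.ofReal (‖w‖ ^ (-((n : ℝ) - 1))) := by fun_prop
  rw [setLIntegral_cyl (by omega) hm measurableSet_Iio]
  have hpre : Real.exp ⁻¹' Iio R = Iio (Real.log R) := by
    ext t; simp only [mem_preimage, mem_Iio]
    exact (Real.lt_log_iff_exp_lt hR).symm
  rw [hpre]
  have h1 : ∀ t : ℝ, ∀ θ : Metric.sphere (0 : 𝔼) 1, ENNReal.ofReal (Real.exp ((n : ℝ) * t)) *
      ENNReal.ofReal (‖Real.exp t • (θ : 𝔼)‖ ^ (-((n : ℝ) - 1))) = ENNReal.ofReal (Real.exp t) := by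
    intro t θ
    rw [norm_cyl, ← ENNReal.ofReal_mul (Real.exp_pos _).le, ← Real.exp_mul, ← Real.exp_add]
    congr 2; ring
  simp only [h1, lintegral_const]
  rw [lintegral_mul_const _ (by fun_prop)]
  gcongr
  have hint : IntegrableOn (fun t : ℝ => Real.exp t) (Iio (Real.log R)) :=
    (integrableOn_exp_Iic (Real.log R)).mono_set Iio_subset_Iic_self
  rw [← ofReal_integral_eq_lintegral_ofReal hint
    (Eventually.of_forall fun t => (Real.exp_pos t).le)]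
  apply ENNReal.ofReal_le_ofReal
  rw [← integral_Iic_eq_integral_Iio, integral_exp_Iic, Real.exp_log hR]

/-- (K4a) -/
theorem exists_lintegral_base_le (hn : 3 ≤ n) : ∃ C : ℝ≥0∞, C ≠ ⊤ ∧ ∀ θ : Sph n,
    ∫⁻ τ in Ioo (-1 : ℝ) 1, ∫⁻ θ', ENNReal.ofReal ((base τ θ θ') ^ (-(((n : ℝ) - 1) / 2)))
      ∂(sph n) ≤ C := by
  refine ⟨ENNReal.ofReal (Real.exp (((n : ℝ) + 1) / 2)) * (ENNReal.ofReal 4 * (sph n) univ),
    ENNReal.mul_ne_top ENNReal.ofReal_ne_top (ENNReal.mul_ne_top ENNReal.ofReal_ne_top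
      (measure_ne_top _ _)), fun θ => ?_⟩
  set h : 𝔼 → ℝ≥0∞ := fun z => ENNReal.ofReal (‖z - (θ : 𝔼)‖ ^ (-((n : ℝ) - 1))) with hh
  have hm : Measurable h := by rw [hh]; fun_prop
  have hn' : (3 : ℝ) ≤ n := by exact_mod_cast hn
  -- pointwise comparison
  have hpt : ∀ τ ∈ Ioo (-1 : ℝ) 1, ∀ θ' : Sph n,
      ENNReal.ofReal ((base τ θ θ') ^ (-(((n : ℝ) - 1) / 2))) ≤
      ENNReal.ofReal (Real.exp (((n : ℝ) + 1) / 2)) *
        (ENNReal.ofReal (Real.exp ((n : ℝ) * τ)) * h (Real.exp τ • (θ' : 𝔼))) := by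
    intro τ hτ θ'
    rw [hh]
    simp only
    rw [← ENNReal.ofReal_mul (Real.exp_pos _).le, ← ENNReal.ofReal_mul (Real.exp_pos _).le]
    apply ENNReal.ofReal_le_ofReal
    have h1 := norm_sub_sq_exp τ 0 θ' θ
    rw [Real.exp_zero, one_smul, add_zero, sub_zero, base_symm] at h1
    have hN : 0 ≤ ‖Real.exp τ • (θ' : 𝔼) - (θ : 𝔼)‖ := norm_nonneg _
    have h2 : ‖Real.exp τ • (θ' : 𝔼) - (θ : 𝔼)‖ ^ (-((n : ℝ) - 1)) =
        Real.exp (-(((n : ℝ) - 1) / 2) * τ) * (base τ θ θ') ^ (-(((n : ℝ) - 1) / 2)) := by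
      have e1 : ‖Real.exp τ • (θ' : 𝔼) - (θ : 𝔼)‖ ^ (-((n : ℝ) - 1)) =
          (‖Real.exp τ • (θ' : 𝔼) - (θ : 𝔼)‖ ^ (2 : ℕ)) ^ (-(((n : ℝ) - 1) / 2)) := by
        rw [← Real.rpow_natCast, ← Real.rpow_mul hN]
        congr 1; push_cast; ring
      rw [e1, h1, Real.mul_rpow (Real.exp_pos _).le (base_nonneg _ _ _), ← Real.exp_mul]
      congr 2; ring
    rw [h2]
    have h3 : (1 : ℝ) ≤ Real.exp (((n : ℝ) + 1) / 2) * (Real.exp ((n : ℝ) * τ) *
        Real.exp (-(((n : ℝ) - 1) / 2) * τ)) := by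
      rw [← Real.exp_add, ← Real.exp_add]
      apply Real.one_le_exp
      have := hτ.1
      nlinarith
    have h4 := Real.rpow_nonneg (base_nonneg τ θ θ') (-(((n : ℝ) - 1) / 2))
    calc (base τ θ θ') ^ (-(((n : ℝ) - 1) / 2))
        = 1 * (base τ θ θ') ^ (-(((n : ℝ) - 1) / 2)) := (one_mul _).symm
      _ ≤ (Real.exp (((n : ℝ) + 1) / 2) * (Real.exp ((n : ℝ) * τ) *
          Real.exp (-(((n : ℝ) - 1) / 2) * τ))) * (base τ θ θ') ^ (-(((n : ℝ) - 1) / 2)) :=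
          mul_le_mul_of_nonneg_right h3 h4
      _ = _ := by ring
  have hmS : ∀ τ : ℝ, Measurable fun θ' : Sph n =>
      ENNReal.ofReal (Real.exp ((n : ℝ) * τ)) * h (Real.exp τ • (θ' : 𝔼)) := fun τ =>
    (meas_cyl_left (by omega) hm τ).const_mul _
  calc ∫⁻ τ in Ioo (-1 : ℝ) 1, ∫⁻ θ', ENNReal.ofReal ((base τ θ θ') ^ (-(((n : ℝ) - 1) / 2)))
        ∂(sph n)
      ≤ ∫⁻ τ in Ioo (-1 : ℝ) 1, ∫⁻ θ', ENNReal.ofReal (Real.exp (((n : ℝ) + 1) / 2)) *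
        (ENNReal.ofReal (Real.exp ((n : ℝ) * τ)) * h (Real.exp τ • (θ' : 𝔼))) ∂(sph n) := by
        refine setLIntegral_mono' measurableSet_Ioo fun τ hτ => ?_
        exact lintegral_mono fun θ' => hpt τ hτ θ'
    _ = ENNReal.ofReal (Real.exp (((n : ℝ) + 1) / 2)) * ∫⁻ τ in Ioo (-1 : ℝ) 1, ∫⁻ θ',
        (ENNReal.ofReal (Real.exp ((n : ℝ) * τ)) * h (Real.exp τ • (θ' : 𝔼))) ∂(sph n) := by
        rw [← lintegral_const_mul' _ _ ENNReal.ofReal_ne_top]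
        refine lintegral_congr fun τ => ?_
        rw [lintegral_const_mul _ (hmS τ)]
    _ ≤ ENNReal.ofReal (Real.exp (((n : ℝ) + 1) / 2)) *
        ∫⁻ x in {x : 𝔼 | ‖x‖ ∈ Ioo (Real.exp (-1)) (Real.exp 1)}, h x := by
        gcongr
        rw [setLIntegral_cyl (by omega) hm measurableSet_Ioo]
        apply lintegral_mono_set
        intro τ hτ
        exact ⟨Real.exp_lt_exp.2 hτ.1, Real.exp_lt_exp.2 hτ.2⟩
    _ ≤ ENNReal.ofReal (Real.exp (((n : ℝ) + 1) / 2)) *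
        ∫⁻ x in (fun x : 𝔼 => x - (θ : 𝔼)) ⁻¹' {x : 𝔼 | ‖x‖ ∈ Iio (4 : ℝ)}, h x := by
        gcongr
        intro x hx
        have h1 : ‖x‖ < Real.exp 1 := hx.2
        have h2 := Real.exp_one_lt_d9
        show ‖x - (θ : 𝔼)‖ < 4
        have h3 := norm_sub_le x (θ : 𝔼)
        rw [norm_sph] at h3
        linarith
    _ = ENNReal.ofReal (Real.exp (((n : ℝ) + 1) / 2)) *
        ∫⁻ w in {x : 𝔼 | ‖x‖ ∈ Iio (4 : ℝ)}, ENNReal.ofReal (‖w‖ ^ (-((n : ℝ) - 1))) := by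
        congr 1
        have hmp : MeasurePreserving (fun x : 𝔼 => x - (θ : 𝔼)) volume volume :=
          measurePreserving_sub_right volume (θ : 𝔼)
        have hS : MeasurableSet {x : 𝔼 | ‖x‖ ∈ Iio (4 : ℝ)} := measurable_norm measurableSet_Iio
        exact hmp.setLIntegral_comp_preimage hS
          (f := fun w : 𝔼 => ENNReal.ofReal (‖w‖ ^ (-((n : ℝ) - 1)))) (by fun_prop)
    _ ≤ _ := by
        gcongr
        exact lintegral_ball_rpow hn 4 (by norm_num)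

lemma kk_zero_le (hn : 3 ≤ n) (θ θ' : Sph n) :
    ENNReal.ofReal (kk 0 θ θ') ≤ ENNReal.ofReal (2 ^ (((n : ℝ) - 1) / 2)) *
      ∫⁻ τ in Ioo (-1 : ℝ) 1, ENNReal.ofReal ((base τ θ θ') ^ (-(((n : ℝ) - 1) / 2))) := by
  have hn' : (3 : ℝ) ≤ n := by exact_mod_cast hn
  set d : ℝ := ‖(θ : 𝔼) - (θ' : 𝔼)‖ with hd
  have hd0 : 0 ≤ d := norm_nonneg _
  have hd2 : d ≤ 2 := by
    have := norm_sub_le (θ : 𝔼) (θ' : 𝔼)
    rw [norm_sph, norm_sph] at this
    rw [hd]; linarith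
  have hb0 : base 0 θ θ' = d ^ 2 := by
    rw [base_eq]; simp [hd]
  rcases eq_or_lt_of_le hd0 with h0 | hpos
  · have : kk 0 θ θ' = 0 := by
      unfold kk
      rw [hb0, ← h0, zero_pow two_ne_zero, Real.zero_rpow]
      have := cc_pos hn
      exact neg_ne_zero.2 this.ne'
    rw [this, ENNReal.ofReal_zero]; exact zero_le
  · -- lower bound on the integral
    have hlow : ∀ τ ∈ Ioo (-(d / 2)) (d / 2), ENNReal.ofReal ((2 * d ^ 2) ^ (-(((n : ℝ) - 1) / 2))) ≤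
        ENNReal.ofReal ((base τ θ θ') ^ (-(((n : ℝ) - 1) / 2))) := by
      intro τ hτ
      apply ENNReal.ofReal_le_ofReal
      have hτa : |τ| < d / 2 := abs_lt.2 hτ
      have hbp : 0 < base τ θ θ' := by
        have := dist_sq_le_base τ θ θ'
        have h3 : 0 < d ^ 2 := by positivity
        exact lt_of_lt_of_le h3 this
      apply Real.rpow_le_rpow_of_nonpos hbp _ (by linarith)
      rw [base_eq, ← hd]
      -- 2 sinh(τ/2) ≤ d
      have h4 : |2 * Real.sinh (τ / 2)| ≤ d := by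
        rw [abs_mul, abs_two]
        have h5 : |Real.sinh (τ / 2)| ≤ |τ| := by
          have hx1 : |τ| ≤ 1 := by linarith
          have a1 := abs_le.1 (Real.abs_exp_sub_one_sub_id_le (x := τ / 2) (by
            rw [abs_div, abs_two]; linarith [abs_nonneg τ]))
          have a2 := abs_le.1 (Real.abs_exp_sub_one_sub_id_le (x := -(τ / 2)) (by
            rw [abs_neg, abs_div, abs_two]; linarith [abs_nonneg τ]))
          have a3 : (τ / 2) ^ 2 ≤ |τ| / 2 := by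
            rw [← sq_abs, abs_div, abs_two]; nlinarith [abs_nonneg τ]
          have a4 : (-(τ / 2)) ^ 2 ≤ |τ| / 2 := by rw [neg_sq]; exact a3
          rw [Real.sinh_eq, abs_le]
          constructor
          · have := neg_abs_le τ; linarith [a1.1, a1.2, a2.1, a2.2]
          · have := le_abs_self τ; linarith [a1.1, a1.2, a2.1, a2.2]
        linarith
      have h7 : (2 * Real.sinh (τ / 2)) ^ 2 ≤ d ^ 2 := by
        rw [← sq_abs (2 * Real.sinh (τ / 2))]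
        exact pow_le_pow_left₀ (abs_nonneg _) h4 2
      linarith
    have hsub : Ioo (-(d / 2)) (d / 2) ⊆ Ioo (-1 : ℝ) 1 := Ioo_subset_Ioo (by linarith) (by linarith)
    have h8 : ENNReal.ofReal ((2 * d ^ 2) ^ (-(((n : ℝ) - 1) / 2))) * ENNReal.ofReal d ≤
        ∫⁻ τ in Ioo (-1 : ℝ) 1, ENNReal.ofReal ((base τ θ θ') ^ (-(((n : ℝ) - 1) / 2))) := by
      calc ENNReal.ofReal ((2 * d ^ 2) ^ (-(((n : ℝ) - 1) / 2))) * ENNReal.ofReal d
          = ∫⁻ _τ in Ioo (-(d / 2)) (d / 2),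
              ENNReal.ofReal ((2 * d ^ 2) ^ (-(((n : ℝ) - 1) / 2))) := by
            rw [setLIntegral_const, Real.volume_Ioo]; congr 2; ring
        _ ≤ ∫⁻ τ in Ioo (-(d / 2)) (d / 2),
              ENNReal.ofReal ((base τ θ θ') ^ (-(((n : ℝ) - 1) / 2))) :=
            setLIntegral_mono' measurableSet_Ioo hlow
        _ ≤ _ := lintegral_mono_set hsub
    refine le_trans ?_ (mul_le_mul_right h8 _)
    rw [← ENNReal.ofReal_mul (by positivity), ← ENNReal.ofReal_mul (by positivity)]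
    apply ENNReal.ofReal_le_ofReal
    unfold kk
    rw [hb0, Real.mul_rpow (by norm_num) (by positivity)]
    have e1 : (2 : ℝ) ^ (((n : ℝ) - 1) / 2) * 2 ^ (-(((n : ℝ) - 1) / 2)) = 1 := by
      rw [← Real.rpow_add (by norm_num)]; simp
    have e2 : (d ^ 2) ^ (-(((n : ℝ) - 1) / 2)) * d = (d ^ 2) ^ (-(cc n)) := by
      rw [← Real.rpow_natCast, ← Real.rpow_mul hd0, ← Real.rpow_mul hd0]
      nth_rewrite 2 [← Real.rpow_one d]
      rw [← Real.rpow_add hpos]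
      congr 1; unfold cc; push_cast; ring
    have e3 : 2 ^ (((n : ℝ) - 1) / 2) * ((2:ℝ) ^ (-(((n : ℝ) - 1) / 2)) *
        (d ^ 2) ^ (-(((n : ℝ) - 1) / 2)) * d) = (d ^ 2) ^ (-(cc n)) := by
      calc _ = ((2 : ℝ) ^ (((n : ℝ) - 1) / 2) * 2 ^ (-(((n : ℝ) - 1) / 2))) *
            ((d ^ 2) ^ (-(((n : ℝ) - 1) / 2)) * d) := by ring
        _ = _ := by rw [e1, e2, one_mul]
    rw [e3]

/-- (K4b) the kernel at `τ = 0` is integrable on the sphere, uniformly -/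
theorem exists_lintegral_kk_zero_le (hn : 3 ≤ n) : ∃ C : ℝ≥0∞, C ≠ ⊤ ∧ ∀ θ : Sph n,
    ∫⁻ θ', ENNReal.ofReal (kk 0 θ θ') ∂(sph n) ≤ C := by
  obtain ⟨C, hC, h⟩ := exists_lintegral_base_le hn
  refine ⟨ENNReal.ofReal (2 ^ (((n : ℝ) - 1) / 2)) * C,
    ENNReal.mul_ne_top ENNReal.ofReal_ne_top hC, fun θ => ?_⟩
  have hm : Measurable fun p : Sph n × ℝ =>
      ENNReal.ofReal ((base p.2 θ p.1) ^ (-(((n : ℝ) - 1) / 2))) := by
    apply ENNReal.measurable_ofReal.comp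
    apply Measurable.pow_const
    exact (continuous_base.comp (by fun_prop : Continuous fun p : Sph n × ℝ =>
      (p.2, θ, p.1))).measurable
  calc ∫⁻ θ', ENNReal.ofReal (kk 0 θ θ') ∂(sph n)
      ≤ ∫⁻ θ', (ENNReal.ofReal (2 ^ (((n : ℝ) - 1) / 2)) *
        (∫⁻ τ in Ioo (-1 : ℝ) 1, ENNReal.ofReal ((base τ θ θ') ^ (-(((n : ℝ) - 1) / 2)))))
          ∂(sph n) := lintegral_mono fun θ' => kk_zero_le hn θ θ'
    _ = ENNReal.ofReal (2 ^ (((n : ℝ) - 1) / 2)) * ∫⁻ θ',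
        (∫⁻ τ in Ioo (-1 : ℝ) 1, ENNReal.ofReal ((base τ θ θ') ^ (-(((n : ℝ) - 1) / 2))))
          ∂(sph n) := lintegral_const_mul' _ _ ENNReal.ofReal_ne_top
    _ = ENNReal.ofReal (2 ^ (((n : ℝ) - 1) / 2)) * ∫⁻ τ in Ioo (-1 : ℝ) 1, ∫⁻ θ',
          ENNReal.ofReal ((base τ θ θ') ^ (-(((n : ℝ) - 1) / 2))) ∂(sph n) := by
        rw [lintegral_lintegral_swap hm.aemeasurable]
    _ ≤ _ := by gcongr; exact h θ

end Crest.Agent.R077.Kern
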