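import Mathlib

/-! Row 77 (Henon-Lane-Emden): the Laplacian through lines, second derivative test, log. -/

set_option autoImplicit false
open Laplacian InnerProductSpace Filter Topology

namespace Crest.Agent.R077

variable {n : ℕ}

local notation "E" n => EuclideanSpace ℝ (Fin n)

/-- the Laplacian as a sum of second derivatives along the coordinate lines -/
theorem laplacian_eq_sum_deriv_deriv {g : (E n) → ℝ} {x : E n} (hg : ContDiffAt ℝ 2 g x) :
    (Δ g) x = ∑ i : Fin n, deriv (deriv (fun t : ℝ => g (x + t • EuclideanSpace.basisFun (Fin n) ℝ i))) 0 := by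
  rw [laplacian_eq_iteratedFDeriv_orthonormalBasis g (EuclideanSpace.basisFun (Fin n) ℝ)]
  refine Finset.sum_congr rfl fun i _ => ?_
  set e : E n := EuclideanSpace.basisFun (Fin n) ℝ i with he
  rw [iteratedFDeriv_two_apply]
  simp only [Matrix.cons_val_zero, Matrix.cons_val_one]
  have hline : ∀ t : ℝ, HasDerivAt (fun t : ℝ => x + t • e) e t := by
    intro t
    have h1 : HasDerivAt (fun t : ℝ => t • e) ((1 : ℝ) • e) t := (hasDerivAt_id t).smul_const e
    simpa using h1.const_add x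
  have hev : ∀ᶠ y in 𝓝 x, ContDiffAt ℝ 2 g y := hg.eventually (by simp)
  have htend : Tendsto (fun t : ℝ => x + t • e) (𝓝 0) (𝓝 x) := by
    have := (hline 0).continuousAt.tendsto
    simpa using this
  have h1 : (deriv (fun t : ℝ => g (x + t • e))) =ᶠ[𝓝 0] fun t => fderiv ℝ g (x + t • e) e := by
    filter_upwards [htend.eventually hev] with t ht
    have h2 : HasFDerivAt g (fderiv ℝ g (x + t • e)) (x + t • e) :=
      (ht.differentiableAt (by simp)).hasFDerivAt
    exact (h2.comp_hasDerivAt t (hline t)).deriv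
  rw [h1.deriv_eq]
  have h3 : ContDiffAt ℝ 1 (fderiv ℝ g) x := hg.fderiv_right (by norm_num)
  have h4 : HasFDerivAt (fderiv ℝ g) (fderiv ℝ (fderiv ℝ g) x) x :=
    (h3.differentiableAt (by simp)).hasFDerivAt
  have h5 : HasDerivAt (fun t : ℝ => fderiv ℝ g (x + t • e)) (fderiv ℝ (fderiv ℝ g) x e) 0 := by
    have h6 : HasFDerivAt (fderiv ℝ g) (fderiv ℝ (fderiv ℝ g) x) (x + (0 : ℝ) • e) := by
      simpa using h4
    exact h6.comp_hasDerivAt 0 (hline 0)
  have h7 : HasDerivAt (fun t : ℝ => fderiv ℝ g (x + t • e) e) (fderiv ℝ (fderiv ℝ g) x e e) 0 := by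
    have := h5.clm_apply (hasDerivAt_const (0 : ℝ) e)
    simpa using this
  exact h7.deriv.symm

theorem deriv_deriv_nonneg_of_isLocalMin {G : ℝ → ℝ} {x : ℝ} (hG : ContinuousAt G x)
    (hmin : IsLocalMin G x) : 0 ≤ deriv (deriv G) x := by
  by_contra hneg
  push Not at hneg
  have hmax := isLocalMax_of_deriv_deriv_neg hneg hmin.deriv_eq_zero hG
  have hconst : G =ᶠ[𝓝 x] fun _ => G x := by
    filter_upwards [hmin, hmax] with y h1 h2 using le_antisymm h2 h1
  have h1 : deriv G =ᶠ[𝓝 x] fun _ => 0 := by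
    have := hconst.deriv
    simpa using this
  have : deriv (deriv G) x = 0 := by
    rw [h1.deriv_eq]; simp
  linarith

/-- second derivative test -/
theorem laplacian_nonneg_of_isLocalMin {g : (E n) → ℝ} {x : E n} (hg : ContDiffAt ℝ 2 g x)
    (hmin : IsLocalMin g x) : 0 ≤ (Δ g) x := by
  rw [laplacian_eq_sum_deriv_deriv hg]
  refine Finset.sum_nonneg fun i _ => ?_
  set e : E n := EuclideanSpace.basisFun (Fin n) ℝ i with he
  have hc : ContinuousAt (fun t : ℝ => x + t • e) 0 := by fun_prop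
  have htend : Tendsto (fun t : ℝ => x + t • e) (𝓝 0) (𝓝 x) := by
    have := hc.tendsto
    simpa using this
  apply deriv_deriv_nonneg_of_isLocalMin
  · have h0 : ContinuousAt g (x + (0 : ℝ) • e) := by simpa using hg.continuousAt
    exact ContinuousAt.comp (g := g) (f := fun t : ℝ => x + t • e) h0 hc
  · have := htend.eventually hmin
    filter_upwards [this] with t ht
    simpa using ht

theorem contDiffAt_log_norm {x : E n} (hx : x ≠ 0) (k : ℕ∞) :
    ContDiffAt ℝ k (fun y : E n => Real.log ‖y‖) x :=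
  (contDiffAt_norm ℝ hx).log (norm_ne_zero_iff.2 hx)

/-- Laplacian of `log ‖x‖` -/
theorem laplacian_log_norm {x : E n} (hx : x ≠ 0) :
    (Δ (fun y : E n => Real.log ‖y‖)) x = ((n : ℝ) - 2) / ‖x‖ ^ 2 := by
  rw [laplacian_eq_sum_deriv_deriv (contDiffAt_log_norm hx 2)]
  have hN : 0 < ‖x‖ ^ 2 := by positivity
  have key : ∀ i : Fin n, deriv (deriv (fun t : ℝ =>
      Real.log ‖x + t • EuclideanSpace.basisFun (Fin n) ℝ i‖)) 0
        = 1 / ‖x‖ ^ 2 - 2 * (x i) ^ 2 / ‖x‖ ^ 4 := by
    intro i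
    set e : E n := EuclideanSpace.basisFun (Fin n) ℝ i with he
    have hne : ‖e‖ = 1 := by simp [he]
    have hin : ⟪x, e⟫_ℝ = x i := by
      rw [he, real_inner_comm, EuclideanSpace.basisFun_apply, EuclideanSpace.inner_single_left]
      simp
    have hq : ∀ t : ℝ, ‖x + t • e‖ ^ 2 = ‖x‖ ^ 2 + 2 * t * x i + t ^ 2 := by
      intro t
      rw [norm_add_sq_real, inner_smul_right, norm_smul, hin, hne]
      simp only [Real.norm_eq_abs, mul_one, sq_abs]
      ring
    have hfun : (fun t : ℝ => Real.log ‖x + t • e‖)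
        = fun t : ℝ => Real.log (‖x‖ ^ 2 + 2 * t * x i + t ^ 2) / 2 := by
      funext t
      rw [← hq t, Real.log_pow]; push_cast; ring
    rw [hfun]
    have hpoly : ∀ t : ℝ, HasDerivAt (fun t : ℝ => ‖x‖ ^ 2 + 2 * t * x i + t ^ 2)
        (2 * x i + 2 * t) t := by
      intro t
      have h1 : HasDerivAt (fun t : ℝ => 2 * t * x i) (2 * x i) t := by
        have := ((hasDerivAt_id t).const_mul 2).mul_const (x i)
        simpa using this
      have h2 : HasDerivAt (fun t : ℝ => t ^ 2) (2 * t) t := by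
        simpa using hasDerivAt_pow 2 t
      exact (h1.const_add (‖x‖ ^ 2)).add h2
    have hposev : ∀ᶠ t in 𝓝 (0 : ℝ), 0 < ‖x‖ ^ 2 + 2 * t * x i + t ^ 2 := by
      have hc : ContinuousAt (fun t : ℝ => ‖x‖ ^ 2 + 2 * t * x i + t ^ 2) 0 :=
        (hpoly 0).continuousAt
      apply hc.eventually (lt_mem_nhds (a := 0) ?_)
      simpa using hN
    have hd1 : deriv (fun t : ℝ => Real.log (‖x‖ ^ 2 + 2 * t * x i + t ^ 2) / 2) =ᶠ[𝓝 0]
        fun t => (x i + t) / (‖x‖ ^ 2 + 2 * t * x i + t ^ 2) := by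
      filter_upwards [hposev] with t ht
      have := ((hpoly t).log ht.ne').div_const 2
      rw [this.deriv]
      field_simp
    rw [hd1.deriv_eq]
    have hnum : HasDerivAt (fun t : ℝ => x i + t) 1 0 := by
      simpa using (hasDerivAt_id (0 : ℝ)).const_add (x i)
    have hden := hpoly 0
    have hden0 : (‖x‖ ^ 2 + 2 * 0 * x i + (0 : ℝ) ^ 2) ≠ 0 := by
      simpa using hN.ne'
    have h8 := hnum.div hden hden0
    have h9 : deriv (fun t : ℝ => (x i + t) / (‖x‖ ^ 2 + 2 * t * x i + t ^ 2)) 0 = _ := h8.deriv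
    rw [h9]
    have hx' : ‖x‖ ≠ 0 := norm_ne_zero_iff.2 hx
    simp only [mul_zero, zero_mul, add_zero, ne_eq, OfNat.ofNat_ne_zero, not_false_eq_true, zero_pow]
    field_simp
  simp_rw [key]
  rw [Finset.sum_sub_distrib]
  have hs : ∑ i : Fin n, 2 * (x i) ^ 2 / ‖x‖ ^ 4 = 2 / ‖x‖ ^ 2 := by
    rw [← Finset.sum_div, ← Finset.mul_sum]
    have : ∑ i : Fin n, (x i) ^ 2 = ‖x‖ ^ 2 := by
      rw [EuclideanSpace.norm_eq, Real.sq_sqrt (Finset.sum_nonneg fun _ _ => by positivity)]
      simp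
    rw [this]
    have hx' : ‖x‖ ≠ 0 := norm_ne_zero_iff.2 hx
    field_simp
  rw [hs]
  simp only [Finset.sum_const, Finset.card_univ, Fintype.card_fin, nsmul_eq_mul]
  ring

end Crest.Agent.R077
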