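import Crest.Agent.R077.Green

/-!
Row 77 (S0102), PDE block: local integrability of `f = -Δu` near the origin.
-/

set_option autoImplicit false

open MeasureTheory Laplacian InnerProductSpace Topology Filter Set

namespace Crest.Agent.R077

noncomputable section

variable {n : ℕ}

namespace LocI

lemma cut_f_eq {u f : EE n → ℝ} (hf : ∀ x, x ≠ 0 → -(Δ u) x = f x)
    (Q : EE n → ℝ) {δ : ℝ} (hδ : 0 < δ) (x : EE n) :
    (Q x * chi δ x) * f x = - ((Δ (fun x => u x * chi (δ / 2) x)) x * (Q x * chi δ x)) := by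
  have hδ2 : 0 < δ / 2 := by positivity
  by_cases hx : ‖x‖ ≤ δ
  · rw [chi_zero hδ hx]
    simp
  · have hx' : δ < ‖x‖ := not_le.mp hx
    have h5 : (fun x => u x * chi (δ / 2) x) =ᶠ[𝓝 x] u := by
      have : {y : EE n | δ < ‖y‖} ∈ 𝓝 x :=
        (isOpen_lt continuous_const continuous_norm).mem_nhds hx'
      filter_upwards [this] with y hy
      rw [chi_one hδ2 (by linarith [show δ < ‖y‖ from hy]), mul_one]
    have hx0 : x ≠ 0 := by
      intro h0
      rw [h0, norm_zero] at hx'
      linarith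
    rw [lap_congr_at h5, ← hf x hx0]
    ring

lemma integrable_cut {u f : EE n → ℝ}
    (hu2 : ContDiffOn ℝ 2 u {0}ᶜ) (hf : ∀ x, x ≠ 0 → -(Δ u) x = f x)
    {Q : EE n → ℝ} (hQ : Continuous Q) (hQc : HasCompactSupport Q) {δ : ℝ} (hδ : 0 < δ) :
    Integrable (fun x => (Q x * chi δ x) * f x) := by
  have hδ2 : 0 < δ / 2 := by positivity
  have h1 : (fun x => (Q x * chi δ x) * f x)
      = fun x => - ((Δ (fun x => u x * chi (δ / 2) x)) x * (Q x * chi δ x)) := by
    funext x
    exact cut_f_eq hf Q hδ x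
  rw [h1]
  apply Integrable.neg
  exact ((continuous_lap (contDiff_cut hu2 hδ2)).mul
    (hQ.mul (contDiff_chi (m := 0) δ).continuous)).integrable_of_hasCompactSupport
    (hQc.mul_right).mul_left

lemma split_cut {u : EE n → ℝ} (hu : Continuous u) {Q : EE n → ℝ} (hQ : ContDiff ℝ 2 Q)
    (hQc : HasCompactSupport Q) (δ : ℝ) :
    ∫ x, (u x - u 0) * (Δ (fun y => Q y * chi δ y)) x
      = (∫ x, (u x - u 0) * (chi δ x * (Δ Q) x)) + ∫ x, (u x - u 0) *
      (2 * ∑ i, pdv i Q x * pdv i (chi δ) x + Q x * (Δ (chi δ)) x) := by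
  have hlc := continuous_lap hQ
  have hls := hasCompactSupport_lap hQc
  rw [← integral_add]
  · congr 1
    funext x
    rw [lap_mul hQ (contDiff_chi (m := 2) δ)]
    ring
  · exact ((hu.sub continuous_const).mul
      ((contDiff_chi (m := 0) δ).continuous.mul hlc)).integrable_of_hasCompactSupport
      (hls.mul_left).mul_left
  · have hcQ : ∀ i, Continuous (pdv i Q) := fun i =>
      (contDiff_pdv (m := 0) (hQ.of_le (m := 1) (by norm_num)) (by norm_num) i).continuous
    have hcc : ∀ i, Continuous (pdv i (chi δ : EE n → ℝ)) := fun i =>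
      (contDiff_pdv (m := 0) (contDiff_chi (m := 1) δ) (by norm_num) i).continuous
    have hcont : Continuous fun x => (2 * ∑ i, pdv i Q x * pdv i (chi δ) x
        + Q x * (Δ (chi δ)) x) :=
      (continuous_const.mul (continuous_finsetSum _ fun i _ => (hcQ i).mul (hcc i))).add
        (hQ.continuous.mul (continuous_lap (contDiff_chi (m := 2) δ)))
    have hsupp : HasCompactSupport fun x => (2 * ∑ i, pdv i Q x * pdv i (chi δ) x
        + Q x * (Δ (chi δ)) x) := by
      apply hQc.mono'
      intro x hx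
      by_contra hx2
      have h1 : Q =ᶠ[𝓝 x] fun _ => (0:ℝ) := notMem_tsupport_iff_eventuallyEq.mp hx2
      apply hx
      have h2 : Q x = 0 := h1.self_of_nhds
      have h3 : ∀ i, pdv i Q x = 0 := by
        intro i
        rw [pdv_congr h1]
        unfold pdv
        simp
      simp [h2, h3]
    exact ((hu.sub continuous_const).mul hcont).integrable_of_hasCompactSupport hsupp.mul_left

/-- uniform bound for the cut off masses -/
lemma cut_bound (hn : 2 ≤ n) {u f : EE n → ℝ} (hu : Continuous u)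
    (hu2 : ContDiffOn ℝ 2 u {0}ᶜ) (hf : ∀ x, x ≠ 0 → -(Δ u) x = f x)
    {Q : EE n → ℝ} (hQ : ContDiff ℝ 2 Q) (hQc : HasCompactSupport Q) :
    ∃ C : ℝ, ∀ δ : ℝ, 0 < δ → δ ≤ 1 → ∫ x, (Q x * chi δ x) * f x ≤ C := by
  obtain ⟨K, hK0, hK⟩ := err_bound hn hu hQ hQc
  obtain ⟨B, hB⟩ := (isCompact_closedBall (0 : EE n) 2).exists_bound_of_continuousOn
    (hu.sub continuous_const).continuousOn (f := fun x => u x - u 0)
  have hB0 : 0 ≤ B := le_trans (norm_nonneg _) (hB 0 (Metric.mem_closedBall_self (by norm_num)))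
  have hlc := continuous_lap hQ
  have hls := hasCompactSupport_lap hQc
  have huint : Integrable (fun x => (u x - u 0) * (Δ Q) x) :=
    ((hu.sub continuous_const).mul hlc).integrable_of_hasCompactSupport hls.mul_left
  refine ⟨(∫ x, ‖(u x - u 0) * (Δ Q) x‖) + B * K, fun δ hδ hδ1 => ?_⟩
  have h1 := green_cut hu hu2 hf hQ hQc hδ
  rw [split_cut hu hQ hQc] at h1
  have h2 := hK B hB0 δ hδ hδ1 (by
    intro x hx
    exact hB x (by simpa using (by linarith : ‖x‖ ≤ 2)))
  have h3 : |∫ x, (u x - u 0) * (chi δ x * (Δ Q) x)| ≤ ∫ x, ‖(u x - u 0) * (Δ Q) x‖ := by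
    rw [← Real.norm_eq_abs]
    apply norm_integral_le_of_norm_le huint.norm
    refine ae_of_all _ fun x => ?_
    rw [norm_mul, norm_mul, norm_mul]
    apply mul_le_mul_of_nonneg_left _ (norm_nonneg _)
    rw [Real.norm_eq_abs (chi δ x), abs_of_nonneg (chi_nonneg _ _)]
    exact mul_le_of_le_one_left (norm_nonneg _) (chi_le_one _ _)
  have h4 := abs_le.mp h2
  have h5 := abs_le.mp h3
  linarith [h4.1, h5.1]

end LocI

/-- `f = -Δu ≥ 0` is locally integrable if `u` is continuous at the origin. -/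
theorem locInt (hn : 2 ≤ n) {u f : EE n → ℝ} (hu : Continuous u)
    (hu2 : ContDiffOn ℝ 2 u {0}ᶜ) (hf : ∀ x, x ≠ 0 → -(Δ u) x = f x)
    (hf0 : ∀ x, 0 ≤ f x) (hfm : Measurable f) : LocallyIntegrable f := by
  rw [locallyIntegrable_iff]
  intro k hk
  obtain ⟨R, hR⟩ := hk.isBounded.subset_closedBall (0 : EE n)
  set R1 : ℝ := max R 1 with hR1
  have hR10 : 0 < R1 := lt_of_lt_of_le one_pos (le_max_right _ _)
  let b : ContDiffBump (0 : EE n) := ⟨R1, 2 * R1, hR10, by linarith⟩
  have hQ : ContDiff ℝ 2 (b : EE n → ℝ) := b.contDiff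
  have hQc : HasCompactSupport (b : EE n → ℝ) := b.hasCompactSupport
  obtain ⟨C, hC⟩ := LocI.cut_bound hn hu hu2 hf hQ hQc
  set d : ℕ → ℝ := fun k => 1 / ((k : ℝ) + 1) with hd
  have hd0 : ∀ k, 0 < d k := fun k => by positivity
  have hd1 : ∀ k, d k ≤ 1 := by
    intro k
    rw [hd]
    simp only
    rw [div_le_one (by positivity)]
    have : (0:ℝ) ≤ k := Nat.cast_nonneg k
    linarith
  have hdl : Tendsto d atTop (𝓝 0) := tendsto_one_div_add_atTop_nhds_zero_nat
  have hae : ∀ᵐ x : EE n, x ≠ 0 := by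
    have : Nonempty (Fin n) := ⟨⟨0, by omega⟩⟩
    have : Nontrivial (EE n) := inferInstance
    rw [ae_iff]
    simp
  have hfin : ∫⁻ x, ENNReal.ofReal (b x * f x) ≤ ENNReal.ofReal C := by
    calc ∫⁻ x, ENNReal.ofReal (b x * f x)
        ≤ ∫⁻ x, liminf (fun k => ENNReal.ofReal ((b x * chi (d k) x) * f x)) atTop := by
          apply lintegral_mono_ae
          filter_upwards [hae] with x hx
          have h1 : 0 < ‖x‖ / 2 := by positivity
          have h2 : Tendsto (fun k => ENNReal.ofReal ((b x * chi (d k) x) * f x)) atTop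
              (𝓝 (ENNReal.ofReal (b x * f x))) := by
            apply tendsto_const_nhds.congr'
            filter_upwards [hdl.eventually (gt_mem_nhds h1)] with k hk
            rw [chi_one (hd0 k) (by linarith), mul_one]
          exact le_of_eq h2.liminf_eq.symm
      _ ≤ liminf (fun k => ∫⁻ x, ENNReal.ofReal ((b x * chi (d k) x) * f x)) atTop := by
          apply lintegral_liminf_le'
          intro k
          exact (LocI.integrable_cut hu2 hf hQ.continuous hQc
            (hd0 k)).aestronglyMeasurable.aemeasurable.ennreal_ofReal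
      _ ≤ liminf (fun _ : ℕ => ENNReal.ofReal C) atTop := by
          refine liminf_le_liminf (Eventually.of_forall fun k => ?_)
          rw [← ofReal_integral_eq_lintegral_ofReal
            (LocI.integrable_cut hu2 hf hQ.continuous hQc (hd0 k))
            (ae_of_all _ fun x => mul_nonneg (mul_nonneg b.nonneg (chi_nonneg _ _)) (hf0 x))]
          exact ENNReal.ofReal_le_ofReal (hC (d k) (hd0 k) (hd1 k))
      _ = ENNReal.ofReal C := by simp
  refine ⟨hfm.aestronglyMeasurable, ?_⟩
  rw [hasFiniteIntegral_iff_ofReal (ae_of_all _ hf0)]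
  calc ∫⁻ x in k, ENNReal.ofReal (f x)
      ≤ ∫⁻ x in k, ENNReal.ofReal (b x * f x) := by
        apply setLIntegral_mono' hk.measurableSet
        intro x hx
        have h1 : b x = 1 := by
          apply b.one_of_mem_closedBall
          exact Metric.closedBall_subset_closedBall (le_max_left _ _) (hR hx)
        rw [h1, one_mul]
    _ ≤ ∫⁻ x, ENNReal.ofReal (b x * f x) := setLIntegral_le_lintegral _ _
    _ ≤ ENNReal.ofReal C := hfin
    _ < ⊤ := ENNReal.ofReal_lt_top

end

end Crest.Agent.R077
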