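import Crest.Agent.R077.Lap

/-! Row 77 (Henon-Lane-Emden): the case `n = 2`. -/

set_option autoImplicit false
open Laplacian InnerProductSpace Filter Topology

namespace Crest.Agent.R077

/-- A positive continuous function on the punctured plane which is `C²` and strictly superharmonic
off `0` cannot exist. -/
theorem n_two_aux (u : EuclideanSpace ℝ (Fin 2) → ℝ) (huc : Continuous u)
    (hu2 : ContDiffOn ℝ 2 u {0}ᶜ) (hpos : ∀ x, 0 < u x)
    (hlap : ∀ x, x ≠ 0 → (Δ u) x < 0) : False := by
  -- minimum on the unit circle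
  have hcomp : IsCompact (Metric.sphere (0 : EuclideanSpace ℝ (Fin 2)) 1) := isCompact_sphere _ _
  have hne : (Metric.sphere (0 : EuclideanSpace ℝ (Fin 2)) 1).Nonempty :=
    ⟨EuclideanSpace.single 0 1, by simp⟩
  obtain ⟨x0, hx0, hmin0⟩ := hcomp.exists_isMinOn hne huc.continuousOn
  have hx0n : ‖x0‖ = 1 := by simpa using hx0
  set m : ℝ := u x0 with hm
  have hmpos : 0 < m := hpos x0
  have hsph : ∀ y : EuclideanSpace ℝ (Fin 2), ‖y‖ = 1 → m ≤ u y := by
    intro y hy
    exact hmin0 (by simpa using hy)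
  have hC2 : ∀ y : EuclideanSpace ℝ (Fin 2), y ≠ 0 → ContDiffAt ℝ 2 u y := fun y hy =>
    hu2.contDiffAt (isOpen_compl_singleton.mem_nhds hy)
  -- comparison
  have hcmp : ∀ σ : ℝ, (σ = 1 ∨ σ = -1) → ∀ x : EuclideanSpace ℝ (Fin 2), x ≠ 0 →
      0 ≤ σ * (‖x‖ - 1) → ∀ ε : ℝ, 0 < ε → m ≤ u x + ε * (σ * Real.log ‖x‖) := by
    intro σ hσ x hx hxσ ε hε
    have hσ2 : σ * σ = 1 := by rcases hσ with h | h <;> rw [h] <;> norm_num
    by_contra hcon
    push Not at hcon
    have hxn : 0 < ‖x‖ := norm_pos_iff.2 hx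
    -- a large T
    set T : ℝ := m / ε + |Real.log ‖x‖| with hT
    have hT0 : 0 < T := by have := abs_nonneg (Real.log ‖x‖); positivity
    set K : Set (EuclideanSpace ℝ (Fin 2)) :=
      {y | Real.exp (-T) ≤ ‖y‖ ∧ ‖y‖ ≤ Real.exp T ∧ 0 ≤ σ * (‖y‖ - 1)} with hK
    have hKclosed : IsClosed K := by
      rw [hK]
      apply IsClosed.inter
      · exact isClosed_le continuous_const continuous_norm
      · apply IsClosed.inter
        · exact isClosed_le continuous_norm continuous_const
        · have hc : Continuous (fun y : EuclideanSpace ℝ (Fin 2) => σ * (‖y‖ - 1)) := by fun_prop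
          exact isClosed_le continuous_const hc
    have hKcomp : IsCompact K := by
      apply (isCompact_closedBall (0 : EuclideanSpace ℝ (Fin 2)) (Real.exp T)).of_isClosed_subset hKclosed
      intro y hy
      simpa using hy.2.1
    have hKne : ∀ y ∈ K, y ≠ 0 := by
      intro y hy h0
      have := hy.1
      rw [h0, norm_zero] at this
      exact absurd this (not_le.2 (Real.exp_pos _))
    have hxK : x ∈ K := by
      refine ⟨?_, ?_, hxσ⟩
      · rw [← Real.le_log_iff_exp_le hxn]
        have := neg_abs_le (Real.log ‖x‖)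
        have : 0 < m / ε := by positivity
        linarith
      · rw [← Real.log_le_iff_le_exp hxn]
        have := le_abs_self (Real.log ‖x‖)
        have : 0 < m / ε := by positivity
        linarith
    set w : EuclideanSpace ℝ (Fin 2) → ℝ := fun y => u y + (ε * σ) * Real.log ‖y‖ with hw
    have hwc : ContinuousOn w K := by
      intro y hy
      have h0 := hKne y hy
      have : ContinuousAt w y :=
        huc.continuousAt.add (continuousAt_const.mul ((contDiffAt_log_norm h0 2).continuousAt))
      exact this.continuousWithinAt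
    obtain ⟨y, hyK, hymin⟩ := hKcomp.exists_isMinOn ⟨x, hxK⟩ hwc
    have hy0 := hKne y hyK
    have hyn : 0 < ‖y‖ := norm_pos_iff.2 hy0
    have hwy : w y < m := by
      have h1 : w y ≤ w x := hymin hxK
      have h2 : w x = u x + ε * (σ * Real.log ‖x‖) := by simp only [hw]; ring
      linarith
    -- y not on the unit circle
    have hy1 : ‖y‖ ≠ 1 := by
      intro h
      have h1 := hsph y h
      have h2 : w y = u y := by simp [hw, h]
      linarith
    have hyσ : 0 < σ * (‖y‖ - 1) := by
      refine lt_of_le_of_ne hyK.2.2 ?_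
      intro h
      have : σ * (σ * (‖y‖ - 1)) = 0 := by rw [← h]; ring
      rw [← mul_assoc, hσ2, one_mul] at this
      exact hy1 (by linarith)
    have hlogσ : 0 < σ * Real.log ‖y‖ := by
      rcases hσ with h | h
      · rw [h] at hyσ ⊢
        have : 0 < Real.log ‖y‖ := Real.log_pos (by linarith)
        linarith
      · rw [h] at hyσ ⊢
        have : Real.log ‖y‖ < 0 := Real.log_neg hyn (by linarith)
        linarith
    -- |log ‖y‖| < T
    have hlt : σ * Real.log ‖y‖ < T := by
      by_contra hge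
      push Not at hge
      have h1 : ε * T ≤ ε * (σ * Real.log ‖y‖) := mul_le_mul_of_nonneg_left hge hε.le
      have h2 : ε * T = m + ε * |Real.log ‖x‖| := by rw [hT]; field_simp
      have h3 : 0 ≤ ε * |Real.log ‖x‖| := by positivity
      have h4 : w y = u y + ε * (σ * Real.log ‖y‖) := by simp only [hw]; ring
      have h5 := hpos y
      linarith
    have hup : ‖y‖ < Real.exp T := by
      rw [← Real.log_lt_iff_lt_exp hyn]
      rcases hσ with h | h
      · rw [h] at hlt; linarith
      · rw [h] at hlogσ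
        linarith
    have hlow : Real.exp (-T) < ‖y‖ := by
      rw [← Real.lt_log_iff_exp_lt hyn]
      rcases hσ with h | h
      · rw [h] at hlogσ; linarith
      · rw [h] at hlt; linarith
    -- interior: local minimum
    have hnhds : K ∈ 𝓝 y := by
      have h1 : ∀ᶠ z in 𝓝 y, Real.exp (-T) < ‖z‖ :=
        (continuous_norm.continuousAt).eventually (lt_mem_nhds hlow)
      have h2 : ∀ᶠ z in 𝓝 y, ‖z‖ < Real.exp T :=
        (continuous_norm.continuousAt).eventually (gt_mem_nhds hup)
      have h3 : ∀ᶠ z in 𝓝 y, 0 < σ * (‖z‖ - 1) := by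
        have hc : ContinuousAt (fun z : EuclideanSpace ℝ (Fin 2) => σ * (‖z‖ - 1)) y := by fun_prop
        exact hc.eventually (lt_mem_nhds hyσ)
      filter_upwards [h1, h2, h3] with z hz1 hz2 hz3
      exact ⟨hz1.le, hz2.le, hz3.le⟩
    have hloc : IsLocalMin w y := hymin.isLocalMin hnhds
    have hlC : ContDiffAt ℝ 2 (fun z : EuclideanSpace ℝ (Fin 2) => Real.log ‖z‖) y :=
      contDiffAt_log_norm hy0 2
    have hwC : ContDiffAt ℝ 2 w y := (hC2 y hy0).add (contDiffAt_const.mul hlC)
    have h0 := laplacian_nonneg_of_isLocalMin hwC hloc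
    have hsm : ContDiffAt ℝ 2 ((ε * σ) • (fun z : EuclideanSpace ℝ (Fin 2) => Real.log ‖z‖)) y :=
      contDiffAt_const.smul hlC
    have hweq : w = u + (ε * σ) • (fun z : EuclideanSpace ℝ (Fin 2) => Real.log ‖z‖) := by
      funext z; simp [hw]
    have hlapw : (Δ w) y = (Δ u) y := by
      rw [hweq, ContDiffAt.laplacian_add (hC2 y hy0) hsm, laplacian_smul _ hlC,
        laplacian_log_norm hy0]
      norm_num
    rw [hlapw] at h0
    exact absurd (hlap y hy0) (not_lt.2 h0)
  -- hence u ≥ m off 0
  have hge : ∀ x : EuclideanSpace ℝ (Fin 2), x ≠ 0 → m ≤ u x := by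
    intro x hx
    obtain ⟨σ, hσ, hxσ⟩ : ∃ σ : ℝ, (σ = 1 ∨ σ = -1) ∧ 0 ≤ σ * (‖x‖ - 1) := by
      rcases le_total 1 ‖x‖ with h | h
      · exact ⟨1, Or.inl rfl, by linarith⟩
      · exact ⟨-1, Or.inr rfl, by linarith⟩
    have h1 := hcmp σ hσ x hx hxσ
    by_contra hcon
    push Not at hcon
    set L : ℝ := |σ * Real.log ‖x‖| + 1 with hL
    have hLpos : 0 < L := by positivity
    have h2 := h1 ((m - u x) / (2 * L)) (by have : 0 < m - u x := by linarith
                                            positivity)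
    have h3 : (m - u x) / (2 * L) * (σ * Real.log ‖x‖) ≤ (m - u x) / (2 * L) * L := by
      apply mul_le_mul_of_nonneg_left
      · have := le_abs_self (σ * Real.log ‖x‖)
        rw [hL]; linarith
      · have : 0 < m - u x := by linarith
        positivity
    have h4 : (m - u x) / (2 * L) * L = (m - u x) / 2 := by field_simp
    linarith
  -- contradiction at x0
  have hx00 : x0 ≠ 0 := by
    intro h; rw [h, norm_zero] at hx0n; exact absurd hx0n (by norm_num)
  have hloc : IsLocalMin u x0 := by
    filter_upwards [isOpen_compl_singleton.mem_nhds hx00] with y hy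
    exact hge y hy
  have h1 := laplacian_nonneg_of_isLocalMin (hC2 x0 hx00) hloc
  exact absurd (hlap x0 hx00) (not_lt.2 h1)

/-- S0102 for `n = 2`. -/
theorem n_two (p q A B : ℝ) (u v : EuclideanSpace ℝ (Fin 2) → ℝ)
    (hu : Continuous u) (hu2 : ContDiffOn ℝ 2 u {0}ᶜ)
    (hup : ∀ x, 0 < u x) (hvp : ∀ x, 0 < v x)
    (heq : ∀ x, x ≠ 0 →
          -(Δ u) x = ‖x‖ ^ A * v x ^ p ∧ -(Δ v) x = ‖x‖ ^ B * u x ^ q) : False := by
  apply n_two_aux u hu hu2 hup
  intro x hx
  have h1 := (heq x hx).1
  have h2 : 0 < ‖x‖ ^ A * v x ^ p := by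
    have := norm_pos_iff.2 hx
    have := hvp x
    positivity
  linarith

end Crest.Agent.R077
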