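import Crest.Agent.R077.Green

/-!
Row 77 (S0102), PDE block G2: representation inequalities
-/

set_option autoImplicit false

open MeasureTheory Laplacian InnerProductSpace Topology Filter Set

namespace Crest.Agent.R077

noncomputable section

variable {n : ℕ}

/-! ### one-dimensional gluing -/

/-- truncation of a function at `T` -/
def trunc (g : ℝ → ℝ) (T t : ℝ) : ℝ := if t < T then g t else 0

lemma hasDerivAt_trunc {g g' : ℝ → ℝ} {T t : ℝ} (hg : HasDerivAt g (g' t) t)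
    (h0 : g T = 0) (h1 : g' T = 0) : HasDerivAt (trunc g T) (trunc g' T t) t := by
  rcases lt_trichotomy t T with h | h | h
  · have h2 : trunc g T =ᶠ[𝓝 t] g := by
      filter_upwards [Iio_mem_nhds h] with s hs
      exact if_pos hs
    have h3 : trunc g' T t = g' t := if_pos h
    rw [h3]
    exact hg.congr_of_eventuallyEq h2
  · subst h
    have h3 : trunc g' t t = 0 := by
      unfold trunc
      simp
    rw [h3]
    rw [h1] at hg
    rw [hasDerivAt_iff_isLittleO] at hg ⊢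
    simp only [smul_zero, sub_zero] at hg ⊢
    have h4 : trunc g t t = 0 := by
      unfold trunc
      simp
    rw [h4]
    rw [h0] at hg
    simp only [sub_zero] at hg ⊢
    refine Asymptotics.IsBigO.trans_isLittleO ?_ hg
    apply Asymptotics.IsBigO.of_bound 1
    refine Filter.Eventually.of_forall fun s => ?_
    unfold trunc
    split_ifs
    · simp
    · simp
  · have h2 : trunc g T =ᶠ[𝓝 t] fun _ => 0 := by
      filter_upwards [Ioi_mem_nhds h] with s hs
      exact if_neg (not_lt.mpr (le_of_lt hs))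
    have h3 : trunc g' T t = 0 := if_neg (not_lt.mpr (le_of_lt h))
    rw [h3]
    exact (hasDerivAt_const t (0:ℝ)).congr_of_eventuallyEq h2

/-! ### radial functions about a centre -/

lemma hasFDerivAt_nsq (x y : EE n) :
    HasFDerivAt (fun y : EE n => ‖y - x‖ ^ 2) (2 • (innerSL ℝ (y - x))) y := by
  have h := ((hasFDerivAt_id y).sub_const x).norm_sq
  have h2 : (2 • (innerSL ℝ (id y - x)).comp (ContinuousLinearMap.id ℝ (EE n)))
      = 2 • (innerSL ℝ (y - x)) := by
    ext v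
    simp
  rw [← h2]
  exact h

lemma hasFDerivAt_radial {φ : ℝ → ℝ} {φ' : ℝ} {x y : EE n}
    (h : HasDerivAt φ φ' (‖y - x‖ ^ 2)) :
    HasFDerivAt (fun y : EE n => φ (‖y - x‖ ^ 2)) (φ' • (2 • (innerSL ℝ (y - x)))) y :=
  h.comp_hasFDerivAt y (hasFDerivAt_nsq x y)

lemma pdv_radial {φ : ℝ → ℝ} {φ' : ℝ} {x y : EE n}
    (h : HasDerivAt φ φ' (‖y - x‖ ^ 2)) (i : Fin n) :
    pdv i (fun y : EE n => φ (‖y - x‖ ^ 2)) y = φ' * (2 * (y i - x i)) := by
  unfold pdv
  rw [(hasFDerivAt_radial h).fderiv]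
  simp only [smul_apply, smul_eq_mul, innerSL_apply_apply, nsmul_eq_mul, Nat.cast_ofNat]
  congr 2
  rw [real_inner_comm]
  simp [EuclideanSpace.inner_single_left]

lemma sum_sq_eq (x y : EE n) : ∑ i, (y i - x i) ^ 2 = ‖y - x‖ ^ 2 := by
  rw [EuclideanSpace.norm_sq_eq]
  simp

/-- A radial `C²` function given by successive derivatives on `[0,∞)`. -/
lemma contDiff_radial {φ0 φ1 φ2 : ℝ → ℝ} {x : EE n}
    (h0 : ∀ t, 0 ≤ t → HasDerivAt φ0 (φ1 t) t) (h1 : ∀ t, 0 ≤ t → HasDerivAt φ1 (φ2 t) t)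
    (h2 : Continuous fun y : EE n => φ2 (‖y - x‖ ^ 2)) :
    ContDiff ℝ 2 (fun y : EE n => φ0 (‖y - x‖ ^ 2)) := by
  have hc : ContDiff ℝ 1 (fun y : EE n => φ1 (‖y - x‖ ^ 2)) := by
    rw [show (1 : WithTop ℕ∞) = 0 + 1 from by norm_num, contDiff_succ_iff_fderiv]
    refine ⟨fun y => (hasFDerivAt_radial (h1 _ (by positivity))).differentiableAt, by simp, ?_⟩
    have h3 : fderiv ℝ (fun y : EE n => φ1 (‖y - x‖ ^ 2))
        = fun y => φ2 (‖y - x‖ ^ 2) • (2 • (innerSL ℝ (y - x))) := by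
      funext y
      exact (hasFDerivAt_radial (h1 _ (by positivity))).fderiv
    rw [h3, contDiff_zero]
    have h4 : Continuous fun y : EE n => (innerSL ℝ (y - x)) :=
      (innerSL ℝ).continuous.comp (continuous_id.sub continuous_const)
    exact h2.smul (h4.const_smul 2)
  rw [show (2 : WithTop ℕ∞) = 1 + 1 from by norm_num, contDiff_succ_iff_fderiv]
  refine ⟨fun y => (hasFDerivAt_radial (h0 _ (by positivity))).differentiableAt, by simp, ?_⟩
  have h3 : fderiv ℝ (fun y : EE n => φ0 (‖y - x‖ ^ 2))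
      = fun y => φ1 (‖y - x‖ ^ 2) • (2 • (innerSL ℝ (y - x))) := by
    funext y
    exact (hasFDerivAt_radial (h0 _ (by positivity))).fderiv
  rw [h3]
  have h4 : ContDiff ℝ 1 fun y : EE n => (innerSL ℝ (y - x)) :=
    (innerSL ℝ (E := EE n)).contDiff.comp (contDiff_id.sub contDiff_const)
  exact hc.smul (h4.const_smul 2)

lemma lap_radial {φ0 φ1 φ2 : ℝ → ℝ} {x : EE n}
    (h0 : ∀ t, 0 ≤ t → HasDerivAt φ0 (φ1 t) t) (h1 : ∀ t, 0 ≤ t → HasDerivAt φ1 (φ2 t) t)
    (h2 : Continuous fun y : EE n => φ2 (‖y - x‖ ^ 2)) (y : EE n) :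
    (Δ (fun y : EE n => φ0 (‖y - x‖ ^ 2))) y
      = 4 * ‖y - x‖ ^ 2 * φ2 (‖y - x‖ ^ 2) + 2 * n * φ1 (‖y - x‖ ^ 2) := by
  rw [lap_eq (contDiff_radial h0 h1 h2).contDiffAt]
  have h3 : ∀ i, pdv i (fun y : EE n => φ0 (‖y - x‖ ^ 2))
      = fun y => φ1 (‖y - x‖ ^ 2) * (2 * (y i - x i)) := by
    intro i
    funext y
    exact pdv_radial (h0 _ (by positivity)) i
  have h5 : ∀ i, pdv i (pdv i (fun y : EE n => φ0 (‖y - x‖ ^ 2))) y
      = φ2 (‖y - x‖ ^ 2) * (4 * (y i - x i) ^ 2) + 2 * φ1 (‖y - x‖ ^ 2) := by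
    intro i
    rw [h3 i]
    have hd1 : DifferentiableAt ℝ (fun y : EE n => φ1 (‖y - x‖ ^ 2)) y :=
      (hasFDerivAt_radial (h1 _ (by positivity))).differentiableAt
    have hl : HasFDerivAt (fun y : EE n => 2 * (y i - x i))
        ((2:ℝ) • (EuclideanSpace.proj i : EE n →L[ℝ] ℝ)) y := by
      have h6 : HasFDerivAt (fun y : EE n => y i) (EuclideanSpace.proj i : EE n →L[ℝ] ℝ) y :=
        (EuclideanSpace.proj i : EE n →L[ℝ] ℝ).hasFDerivAt
      exact (h6.sub_const (x i)).const_mul 2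
    rw [pdv_mul hd1 hl.differentiableAt, pdv_radial (h1 _ (by positivity))]
    have h7 : pdv i (fun y : EE n => 2 * (y i - x i)) y = 2 := by
      unfold pdv
      rw [hl.fderiv]
      simp
    rw [h7]
    ring
  simp_rw [h5]
  rw [Finset.sum_add_distrib, ← Finset.mul_sum, ← Finset.mul_sum, sum_sq_eq]
  simp
  ring


/-! ### the explicit kernel -/

/-- `(t+e)^(-c)` minus its second Taylor polynomial at `T` -/
def kk0 (c e T t : ℝ) : ℝ :=
  (t + e) ^ (-c) - ((T + e) ^ (-c) - c * (T + e) ^ (-c - 1) * (t - T)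
    + c * (c + 1) / 2 * (T + e) ^ (-c - 2) * (t - T) ^ 2)

def kk1 (c e T t : ℝ) : ℝ :=
  -c * (t + e) ^ (-c - 1) - (- c * (T + e) ^ (-c - 1)
    + c * (c + 1) * (T + e) ^ (-c - 2) * (t - T))

def kk2 (c e T t : ℝ) : ℝ :=
  c * (c + 1) * (t + e) ^ (-c - 2) - c * (c + 1) * (T + e) ^ (-c - 2)

lemma hasDerivAt_kk0 {c e T t : ℝ} (ht : 0 < t + e) :
    HasDerivAt (kk0 c e T) (kk1 c e T t) t := by
  have h1 : HasDerivAt (fun s : ℝ => (s + e) ^ (-c)) (-c * (t + e) ^ (-c - 1)) t := by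
    have := ((hasDerivAt_id t).add_const e).rpow_const (p := -c) (Or.inl ht.ne')
    simpa [mul_comm] using this
  have h2 : HasDerivAt (fun s : ℝ => s - T) 1 t := (hasDerivAt_id t).sub_const T
  have h3 : HasDerivAt (fun s : ℝ => (s - T) ^ 2) (2 * (t - T)) t := by
    have := h2.fun_pow 2
    simpa using this
  have h4 := h1.sub ((h2.const_mul (c * (T + e) ^ (-c - 1))).const_sub ((T + e) ^ (-c)) |>.add
    (h3.const_mul (c * (c + 1) / 2 * (T + e) ^ (-c - 2))))
  refine h4.congr_deriv ?_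
  unfold kk1
  ring

lemma hasDerivAt_kk1 {c e T t : ℝ} (ht : 0 < t + e) :
    HasDerivAt (kk1 c e T) (kk2 c e T t) t := by
  have h1 : HasDerivAt (fun s : ℝ => (s + e) ^ (-c - 1)) ((-c - 1) * (t + e) ^ (-c - 1 - 1)) t := by
    have := ((hasDerivAt_id t).add_const e).rpow_const (p := -c - 1) (Or.inl ht.ne')
    simpa [mul_comm] using this
  have h2 : HasDerivAt (fun s : ℝ => s - T) 1 t := (hasDerivAt_id t).sub_const T
  have h4 := (h1.const_mul (-c)).sub
    ((h2.const_mul (c * (c + 1) * (T + e) ^ (-c - 2))).const_add (- c * (T + e) ^ (-c - 1)))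
  refine h4.congr_deriv ?_
  unfold kk2
  rw [show (-c - 1 - 1 : ℝ) = -c - 2 by ring]
  ring

lemma kk0_T (c e T : ℝ) : kk0 c e T T = 0 := by
  unfold kk0
  simp

lemma kk1_T (c e T : ℝ) : kk1 c e T T = 0 := by
  unfold kk1
  simp

lemma kk2_T (c e T : ℝ) : kk2 c e T T = 0 := by
  unfold kk2
  simp

lemma kk2_nonneg {c e T t : ℝ} (hc : 0 ≤ c) (ht : 0 < t + e) (htT : t ≤ T) :
    0 ≤ kk2 c e T t := by
  unfold kk2
  have h1 : (T + e) ^ (-c - 2) ≤ (t + e) ^ (-c - 2) :=
    Real.rpow_le_rpow_of_nonpos ht (by linarith) (by linarith)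
  have h2 : 0 ≤ c * (c + 1) := by positivity
  nlinarith [mul_le_mul_of_nonneg_left h1 h2]

lemma kk1_nonpos {c e T t : ℝ} (hc : 0 ≤ c) (he : 0 < e) (ht : 0 ≤ t) (htT : t ≤ T) :
    kk1 c e T t ≤ 0 := by
  have hmono : MonotoneOn (kk1 c e T) (Icc 0 T) := by
    apply monotoneOn_of_deriv_nonneg (convex_Icc 0 T)
    · intro s hs
      exact (hasDerivAt_kk1 (by linarith [hs.1])).continuousAt.continuousWithinAt
    · intro s hs
      rw [interior_Icc] at hs
      exact (hasDerivAt_kk1 (by linarith [hs.1])).differentiableAt.differentiableWithinAt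
    · intro s hs
      rw [interior_Icc] at hs
      rw [(hasDerivAt_kk1 (by linarith [hs.1])).deriv]
      exact kk2_nonneg hc (by linarith [hs.1]) hs.2.le
  have := hmono ⟨ht, htT⟩ (right_mem_Icc.mpr (le_trans ht htT)) htT
  rwa [kk1_T] at this

lemma kk0_nonneg {c e T t : ℝ} (hc : 0 ≤ c) (he : 0 < e) (ht : 0 ≤ t) (htT : t ≤ T) :
    0 ≤ kk0 c e T t := by
  have hanti : AntitoneOn (kk0 c e T) (Icc 0 T) := by
    apply antitoneOn_of_deriv_nonpos (convex_Icc 0 T)
    · intro s hs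
      exact (hasDerivAt_kk0 (by linarith [hs.1])).continuousAt.continuousWithinAt
    · intro s hs
      rw [interior_Icc] at hs
      exact (hasDerivAt_kk0 (by linarith [hs.1])).differentiableAt.differentiableWithinAt
    · intro s hs
      rw [interior_Icc] at hs
      rw [(hasDerivAt_kk0 (by linarith [hs.1])).deriv]
      exact kk1_nonpos hc he hs.1.le hs.2.le
  have := hanti ⟨ht, htT⟩ (right_mem_Icc.mpr (le_trans ht htT)) htT
  rwa [kk0_T] at this

lemma kk0_le {c e T t : ℝ} (hc : 0 ≤ c) (he : 0 < e) (ht : 0 ≤ t) (htT : t ≤ T) :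
    kk0 c e T t ≤ (t + e) ^ (-c) := by
  unfold kk0
  have hS : 0 < T + e := by linarith
  have h1 : 0 ≤ (T + e) ^ (-c) := Real.rpow_nonneg hS.le _
  have h2 : 0 ≤ (T + e) ^ (-c - 1) := Real.rpow_nonneg hS.le _
  have h3 : 0 ≤ (T + e) ^ (-c - 2) := Real.rpow_nonneg hS.le _
  have h4 : 0 ≤ c * (T + e) ^ (-c - 1) * (T - t) :=
    mul_nonneg (mul_nonneg hc h2) (by linarith)
  have h5 : 0 ≤ c * (c + 1) / 2 * (T + e) ^ (-c - 2) * (t - T) ^ 2 := by positivity
  nlinarith

lemma kk0_ge {c e T t : ℝ} (hc : 0 ≤ c) (he : 0 < e) (ht : 0 ≤ t) (htT : t ≤ T) :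
    (t + e) ^ (-c) - (1 + c + c * (c + 1) / 2) * (T + e) ^ (-c) ≤ kk0 c e T t := by
  unfold kk0
  have hS : 0 < T + e := by linarith
  have h1 : 0 ≤ (T + e) ^ (-c) := Real.rpow_nonneg hS.le _
  have h2 : (T + e) ^ (-c - 1) * (T + e) = (T + e) ^ (-c) := by
    rw [← Real.rpow_add_one hS.ne']
    congr 1
    ring
  have h3 : (T + e) ^ (-c - 2) * (T + e) ^ 2 = (T + e) ^ (-c) := by
    rw [← Real.rpow_natCast (T + e) 2, ← Real.rpow_add hS]
    congr 1
    push_cast
    ring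
  have h2n : 0 ≤ (T + e) ^ (-c - 1) := Real.rpow_nonneg hS.le _
  have h3n : 0 ≤ (T + e) ^ (-c - 2) := Real.rpow_nonneg hS.le _
  have h4 : c * (T + e) ^ (-c - 1) * (T - t) ≤ c * (T + e) ^ (-c) := by
    rw [← h2, mul_assoc]
    apply mul_le_mul_of_nonneg_left _ hc
    apply mul_le_mul_of_nonneg_left _ h2n
    linarith
  have h5 : c * (c + 1) / 2 * (T + e) ^ (-c - 2) * (t - T) ^ 2
      ≤ c * (c + 1) / 2 * (T + e) ^ (-c) := by
    rw [← h3, mul_assoc]
    apply mul_le_mul_of_nonneg_left _ (by positivity)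
    apply mul_le_mul_of_nonneg_left _ h3n
    nlinarith
  nlinarith

/-- the main kernel `2nc e (t+e)^(-c-2)` -/
def WW (n : ℕ) (c e t : ℝ) : ℝ := 2 * n * c * e * (t + e) ^ (-c - 2)

/-- the Epanechnikov kernel -/
def MM (n : ℕ) (c e T t : ℝ) : ℝ :=
  n * c * (T + e) ^ (-c - 2) * ((n + 2) * (T - t) + 2 * e)

lemma kk_lap {c e T t : ℝ} (hcn : c + 1 = (n : ℝ) / 2) (he : 0 < e) (ht : 0 ≤ t) (hT : 0 < T) :
    4 * t * kk2 c e T t + 2 * n * kk1 c e T t = - WW n c e t + MM n c e T t := by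
  unfold kk1 kk2 WW MM
  have hte : 0 < t + e := by linarith
  have hS : 0 < T + e := by linarith
  have h1 : (t + e) ^ (-c - 1) = (t + e) ^ (-c - 2) * (t + e) := by
    rw [← Real.rpow_add_one hte.ne']
    congr 1
    ring
  have h2 : (T + e) ^ (-c - 1) = (T + e) ^ (-c - 2) * (T + e) := by
    rw [← Real.rpow_add_one hS.ne']
    congr 1
    ring
  have hn : (n : ℝ) = 2 * (c + 1) := by linarith
  rw [h1, h2, hn]
  ring

/-- the test function -/
def qq (c e T : ℝ) (x y : EE n) : ℝ := trunc (kk0 c e T) T (‖y - x‖ ^ 2)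

lemma continuous_trunc_comp {g : ℝ → ℝ} {T : ℝ} (x : EE n)
    (hg : Continuous fun y : EE n => g (‖y - x‖ ^ 2)) (h0 : g T = 0) :
    Continuous fun y : EE n => trunc g T (‖y - x‖ ^ 2) := by
  have h1 : (fun y : EE n => trunc g T (‖y - x‖ ^ 2))
      = fun y : EE n => if T ≤ ‖y - x‖ ^ 2 then 0 else g (‖y - x‖ ^ 2) := by
    funext y
    unfold trunc
    by_cases h : ‖y - x‖ ^ 2 < T
    · rw [if_pos h, if_neg (not_le.mpr h)]
    · rw [if_neg h, if_pos (not_lt.mp h)]
  rw [h1]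
  apply Continuous.if_le continuous_const hg continuous_const (by fun_prop)
  intro y hy
  rw [← hy, h0]

lemma continuous_rpow_comp {e : ℝ} (he : 0 < e) (r : ℝ) (x : EE n) :
    Continuous fun y : EE n => (‖y - x‖ ^ 2 + e) ^ r := by
  apply Continuous.rpow_const (by fun_prop)
  intro y
  left
  positivity

lemma continuous_kk2 {c e T : ℝ} (he : 0 < e) (x : EE n) :
    Continuous fun y : EE n => kk2 c e T (‖y - x‖ ^ 2) := by
  unfold kk2
  exact (continuous_const.mul (continuous_rpow_comp he _ x)).sub continuous_const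

lemma contDiff_qq {c e T : ℝ} (he : 0 < e) (x : EE n) : ContDiff ℝ 2 (qq c e T x) := by
  unfold qq
  apply contDiff_radial (φ1 := trunc (kk1 c e T) T) (φ2 := trunc (kk2 c e T) T)
  · intro t ht
    exact hasDerivAt_trunc (hasDerivAt_kk0 (by linarith)) (kk0_T _ _ _) (kk1_T _ _ _)
  · intro t ht
    exact hasDerivAt_trunc (hasDerivAt_kk1 (by linarith)) (kk1_T _ _ _) (kk2_T _ _ _)
  · exact continuous_trunc_comp x (continuous_kk2 he x) (kk2_T _ _ _)

lemma lap_qq {c e T : ℝ} (hcn : c + 1 = (n : ℝ) / 2) (he : 0 < e) (hT : 0 < T) (x y : EE n) :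
    (Δ (qq c e T x)) y
      = - trunc (WW n c e) T (‖y - x‖ ^ 2) + trunc (MM n c e T) T (‖y - x‖ ^ 2) := by
  unfold qq
  rw [lap_radial (φ1 := trunc (kk1 c e T) T) (φ2 := trunc (kk2 c e T) T)]
  · unfold trunc
    split_ifs with h
    · exact kk_lap hcn he (by positivity) hT
    · simp
  · intro t ht
    exact hasDerivAt_trunc (hasDerivAt_kk0 (by linarith)) (kk0_T _ _ _) (kk1_T _ _ _)
  · intro t ht
    exact hasDerivAt_trunc (hasDerivAt_kk1 (by linarith)) (kk1_T _ _ _) (kk2_T _ _ _)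
  · exact continuous_trunc_comp x (continuous_kk2 he x) (kk2_T _ _ _)

lemma supp_qq {c e T : ℝ} (x : EE n) : HasCompactSupport (qq c e T x) := by
  apply HasCompactSupport.intro (isCompact_closedBall x (Real.sqrt T))
  intro y hy
  unfold qq trunc
  rw [if_neg]
  intro h
  apply hy
  rw [mem_closedBall_iff_norm]
  have h1 : ‖y - x‖ = Real.sqrt (‖y - x‖ ^ 2) := (Real.sqrt_sq (norm_nonneg _)).symm
  rw [h1]
  exact Real.sqrt_le_sqrt h.le


/-! ### the identity for `e > 0` -/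

lemma trunc_eq_indicator (g : ℝ → ℝ) (T : ℝ) (x : EE n) (u : EE n → ℝ) :
    (fun y => trunc g T (‖y - x‖ ^ 2) * u y)
      = {y : EE n | ‖y - x‖ ^ 2 < T}.indicator (fun y => g (‖y - x‖ ^ 2) * u y) := by
  funext y
  unfold trunc indicator
  by_cases h : ‖y - x‖ ^ 2 < T
  · rw [if_pos h, if_pos (by exact h)]
  · rw [if_neg h, if_neg (by exact h), zero_mul]

lemma measurableSet_nball (T : ℝ) (x : EE n) : MeasurableSet {y : EE n | ‖y - x‖ ^ 2 < T} :=
  (isOpen_lt (by fun_prop) continuous_const).measurableSet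

lemma nball_subset (T : ℝ) (x : EE n) :
    {y : EE n | ‖y - x‖ ^ 2 < T} ⊆ Metric.closedBall x (Real.sqrt T) := by
  intro y hy
  rw [mem_closedBall_iff_norm, ← Real.sqrt_sq (norm_nonneg (y - x))]
  exact Real.sqrt_le_sqrt (le_of_lt hy)

lemma integrable_trunc {g : ℝ → ℝ} {T : ℝ} (x : EE n) {u : EE n → ℝ}
    (hg : Continuous fun y : EE n => g (‖y - x‖ ^ 2)) (hu : Continuous u) :
    Integrable (fun y => trunc g T (‖y - x‖ ^ 2) * u y) := by
  rw [trunc_eq_indicator, integrable_indicator_iff (measurableSet_nball T x)]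
  exact ((hg.mul hu).continuousOn.integrableOn_compact
    (isCompact_closedBall x (Real.sqrt T))).mono_set (nball_subset T x)

lemma continuous_WW {c e : ℝ} (he : 0 < e) (x : EE n) :
    Continuous fun y : EE n => WW n c e (‖y - x‖ ^ 2) := by
  unfold WW
  exact continuous_const.mul (continuous_rpow_comp he _ x)

lemma continuous_MM {c e T : ℝ} (x : EE n) :
    Continuous fun y : EE n => MM n c e T (‖y - x‖ ^ 2) := by
  unfold MM
  fun_prop

lemma ident (hn : 2 ≤ n) {u f : EE n → ℝ} (hu : Continuous u)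
    (hu2 : ContDiffOn ℝ 2 u {0}ᶜ) (hf : ∀ x, x ≠ 0 → -(Δ u) x = f x)
    (hfi : LocallyIntegrable f) {c e T : ℝ} (hcn : c + 1 = (n : ℝ) / 2) (he : 0 < e)
    (hT : 0 < T) (x : EE n) :
    ∫ y, trunc (WW n c e) T (‖y - x‖ ^ 2) * u y
      = (∫ y, qq c e T x y * f y) + ∫ y, trunc (MM n c e T) T (‖y - x‖ ^ 2) * u y := by
  have h := green_test hn hu hu2 hf hfi (contDiff_qq (c := c) (T := T) he x) (supp_qq x)
  have h1 : ∀ y, u y * (Δ (qq c e T x)) y
      = trunc (MM n c e T) T (‖y - x‖ ^ 2) * u y - trunc (WW n c e) T (‖y - x‖ ^ 2) * u y := by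
    intro y
    rw [lap_qq hcn he hT]
    ring
  simp_rw [h1] at h
  rw [integral_sub (integrable_trunc x (continuous_MM x) hu)
    (integrable_trunc x (continuous_WW he x) hu)] at h
  linarith

/-! ### the limit `e → 0` of the main term -/

/-- half of `n`, minus one -/
def cR (n : ℕ) : ℝ := (n : ℝ) / 2 - 1

lemma cR_eq (n : ℕ) : cR n + 1 = (n : ℝ) / 2 := by unfold cR; ring

lemma cR_pos (hn : 3 ≤ n) : 0 < cR n := by
  unfold cR
  have : (3 : ℝ) ≤ n := by exact_mod_cast hn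
  linarith

/-- the limiting kernel -/
def KR (n : ℕ) (z : EE n) : ℝ := 2 * n * cR n * (1 + ‖z‖ ^ 2) ^ (-cR n - 2)

/-- the constant -/
def kapR (n : ℕ) : ℝ := ∫ z : EE n, KR n z

lemma integrable_KR (n : ℕ) : Integrable (KR n) := by
  unfold KR
  apply Integrable.const_mul
  have h := integrable_rpow_neg_one_add_norm_sq (E := EE n) (μ := volume) (r := (n : ℝ) + 2)
    (by rw [finrank_euclideanSpace_fin]; linarith)
  have h2 : (-cR n - 2 : ℝ) = -((n : ℝ) + 2) / 2 := by unfold cR; ring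
  rw [h2]
  exact h

lemma KR_pos (hn : 3 ≤ n) (z : EE n) : 0 < KR n z := by
  unfold KR
  have h1 := cR_pos hn
  have h2 : (0:ℝ) < n := by exact_mod_cast (by omega : 0 < n)
  have h3 : (0:ℝ) < 1 + ‖z‖ ^ 2 := by positivity
  have h4 := Real.rpow_pos_of_pos h3 (-cR n - 2)
  positivity

lemma continuous_KR (n : ℕ) : Continuous (KR n) := by
  unfold KR
  apply continuous_const.mul
  apply Continuous.rpow_const (by fun_prop)
  intro z
  left
  positivity

lemma kapR_pos (hn : 3 ≤ n) : 0 < kapR n := by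
  apply integral_pos_of_integrable_nonneg_nonzero (x := (0 : EE n)) (continuous_KR n)
    (integrable_KR n) (fun z => (KR_pos hn z).le) (KR_pos hn 0).ne'

lemma scale_WW {s : ℝ} (hs : 0 < s) (T : ℝ) (z : EE n) :
    s ^ n * trunc (WW n (cR n) (s ^ 2)) T (s ^ 2 * ‖z‖ ^ 2)
      = if s ^ 2 * ‖z‖ ^ 2 < T then KR n z else 0 := by
  unfold trunc
  split_ifs with h
  · unfold WW KR
    have h1 : s ^ 2 * ‖z‖ ^ 2 + s ^ 2 = s ^ 2 * (1 + ‖z‖ ^ 2) := by ring
    rw [h1, Real.mul_rpow (by positivity) (by positivity)]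
    have h2 : (s ^ 2) ^ (-cR n - 2) = (s ^ (n + 2))⁻¹ := by
      rw [← Real.rpow_natCast s 2, ← Real.rpow_mul hs.le, ← Real.rpow_natCast s (n + 2),
        ← Real.rpow_neg hs.le]
      congr 1
      unfold cR
      push_cast
      ring
    rw [h2]
    have h3 : s ^ (n + 2) ≠ 0 := by positivity
    have h4 : s ^ n * s ^ 2 = s ^ (n + 2) := by rw [pow_add]
    calc s ^ n * (2 * n * cR n * s ^ 2 * ((s ^ (n + 2))⁻¹ * (1 + ‖z‖ ^ 2) ^ (-cR n - 2)))
        = (s ^ n * s ^ 2) * (s ^ (n + 2))⁻¹ * (2 * n * cR n * (1 + ‖z‖ ^ 2) ^ (-cR n - 2)) := by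
          ring
      _ = 2 * n * cR n * (1 + ‖z‖ ^ 2) ^ (-cR n - 2) := by
          rw [h4, mul_inv_cancel₀ h3, one_mul]
  · simp

lemma main_scaled {u : EE n → ℝ} {s : ℝ} (hs : 0 < s) (T : ℝ) (x : EE n) :
    ∫ y, trunc (WW n (cR n) (s ^ 2)) T (‖y - x‖ ^ 2) * u y
      = ∫ z : EE n, (if s ^ 2 * ‖z‖ ^ 2 < T then KR n z else 0) * u (s • z + x) := by
  set F : EE n → ℝ := fun y => trunc (WW n (cR n) (s ^ 2)) T (‖y - x‖ ^ 2) * u y with hF
  have h1 : ∫ y, F y = ∫ z, F (z + x) := (integral_add_right_eq_self F x).symm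
  have h2 := Measure.integral_comp_smul_of_nonneg (volume : Measure (EE n))
    (fun z => F (z + x)) s (hR := hs.le)
  rw [finrank_euclideanSpace_fin] at h2
  have h3 : ∫ z, F (z + x) = s ^ n * ∫ z, F (s • z + x) := by
    rw [h2, smul_eq_mul, ← mul_assoc, mul_inv_cancel₀ (by positivity), one_mul]
  rw [h1, h3, ← integral_const_mul]
  congr 1
  funext z
  rw [hF]
  simp only
  have h4 : ‖s • z + x - x‖ ^ 2 = s ^ 2 * ‖z‖ ^ 2 := by
    rw [add_sub_cancel_right, norm_smul, Real.norm_eq_abs, abs_of_pos hs]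
    ring
  rw [h4, ← mul_assoc, scale_WW hs]

lemma main_lim {u : EE n → ℝ} (hu : Continuous u) (hn : 3 ≤ n) {T : ℝ} (hT : 0 < T) (x : EE n)
    {s : ℕ → ℝ} (hs : ∀ k, 0 < s k) (hsl : Tendsto s atTop (𝓝 0)) :
    Tendsto (fun k => ∫ y, trunc (WW n (cR n) (s k ^ 2)) T (‖y - x‖ ^ 2) * u y) atTop
      (𝓝 (kapR n * u x)) := by
  simp_rw [main_scaled (hs _)]
  have h1 : kapR n * u x = ∫ z : EE n, KR n z * u x := by
    rw [integral_mul_const]
    rfl
  rw [h1]
  obtain ⟨B, hB⟩ := (isCompact_closedBall x (Real.sqrt T)).exists_bound_of_continuousOn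
    hu.continuousOn
  have hB0 : 0 ≤ B := le_trans (norm_nonneg _) (hB x (Metric.mem_closedBall_self
    (Real.sqrt_nonneg _)))
  apply tendsto_integral_of_dominated_convergence (fun z => KR n z * B)
  · intro k
    have hm : Measurable fun z : EE n => (if s k ^ 2 * ‖z‖ ^ 2 < T then KR n z else 0) :=
      Measurable.ite (isOpen_lt (by fun_prop) continuous_const).measurableSet
        (continuous_KR n).measurable measurable_const
    exact hm.aestronglyMeasurable.mul
      ((hu.comp (by fun_prop : Continuous fun z : EE n => s k • z + x)).aestronglyMeasurable)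
  · exact (integrable_KR n).mul_const B
  · intro k
    refine ae_of_all _ fun z => ?_
    split_ifs with h
    · rw [norm_mul, Real.norm_eq_abs (KR n z), abs_of_pos (KR_pos hn z)]
      apply mul_le_mul_of_nonneg_left _ (KR_pos hn z).le
      apply hB
      rw [mem_closedBall_iff_norm, add_sub_cancel_right, ← Real.sqrt_sq (norm_nonneg (s k • z))]
      apply Real.sqrt_le_sqrt
      rw [norm_smul, Real.norm_eq_abs, abs_of_pos (hs k)]
      nlinarith
    · rw [zero_mul, norm_zero]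
      exact mul_nonneg (KR_pos hn z).le hB0
  · refine ae_of_all _ fun z => ?_
    have h2 : Tendsto (fun k => s k ^ 2 * ‖z‖ ^ 2) atTop (𝓝 0) := by
      have := (hsl.pow 2).mul_const (‖z‖ ^ 2)
      simpa using this
    have h3 : Tendsto (fun k => u (s k • z + x)) atTop (𝓝 (u x)) := by
      have h4 : Tendsto (fun k => s k • z + x) atTop (𝓝 x) := by
        have := (hsl.smul_const z).add_const x
        simpa using this
      exact (hu.tendsto x).comp h4
    have h5 : Tendsto (fun k => KR n z * u (s k • z + x)) atTop (𝓝 (KR n z * u x)) :=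
      h3.const_mul _
    apply h5.congr'
    filter_upwards [h2.eventually (gt_mem_nhds hT)] with k hk
    rw [if_pos hk]


/-! ### bounds for the kernels -/

lemma trunc_nonneg {g : ℝ → ℝ} {T t : ℝ} (h : t < T → 0 ≤ g t) : 0 ≤ trunc g T t := by
  unfold trunc
  split_ifs with h1
  · exact h h1
  · exact le_refl _

lemma MM_nonneg {c e T t : ℝ} (hc : 0 ≤ c) (he : 0 < e) (hT : 0 < T) (htT : t ≤ T) :
    0 ≤ MM n c e T t := by
  unfold MM
  have h1 : 0 ≤ (T + e) ^ (-c - 2) := Real.rpow_nonneg (by linarith) _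
  have h2 : 0 ≤ ((n : ℝ) + 2) * (T - t) + 2 * e :=
    add_nonneg (mul_nonneg (by positivity) (by linarith)) (by linarith)
  positivity

lemma MM_le {c e T t : ℝ} (hc : 0 ≤ c) (he : 0 < e) (hT : 0 < T) (ht : 0 ≤ t) :
    MM n c e T t ≤ n * c * (n + 2) * T ^ (-c - 1) := by
  unfold MM
  have h1 : 0 ≤ (T + e) ^ (-c - 2) := Real.rpow_nonneg (by linarith) _
  have hn0 : (0:ℝ) ≤ n := Nat.cast_nonneg n
  have h2 : ((n : ℝ) + 2) * (T - t) + 2 * e ≤ (n + 2) * (T + e) := by nlinarith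
  have h3 : (T + e) ^ (-c - 1) = (T + e) ^ (-c - 2) * (T + e) := by
    rw [← Real.rpow_add_one (by linarith : T + e ≠ 0)]
    congr 1
    ring
  have h4 : (T + e) ^ (-c - 1) ≤ T ^ (-c - 1) :=
    Real.rpow_le_rpow_of_nonpos hT (by linarith) (by linarith)
  have h5 : 0 ≤ (n : ℝ) * c := by positivity
  calc (n : ℝ) * c * (T + e) ^ (-c - 2) * ((n + 2) * (T - t) + 2 * e)
      ≤ (n : ℝ) * c * (T + e) ^ (-c - 2) * ((n + 2) * (T + e)) :=
        mul_le_mul_of_nonneg_left h2 (by positivity)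
    _ = n * c * (n + 2) * (T + e) ^ (-c - 1) := by rw [h3]; ring
    _ ≤ n * c * (n + 2) * T ^ (-c - 1) := mul_le_mul_of_nonneg_left h4 (by positivity)

lemma MM_ge {c e T t : ℝ} (hc : 0 ≤ c) (he : 0 < e) (heT : e ≤ T) (hT : 0 < T)
    (htT : t ≤ T / 2) :
    n * c * (n + 2) / 2 * T * (2 * T) ^ (-c - 2) ≤ MM n c e T t := by
  unfold MM
  have h1 : (2 * T) ^ (-c - 2) ≤ (T + e) ^ (-c - 2) :=
    Real.rpow_le_rpow_of_nonpos (by linarith) (by linarith) (by linarith)
  have h1' : 0 ≤ (2 * T) ^ (-c - 2) := Real.rpow_nonneg (by linarith) _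
  have hn0 : (0:ℝ) ≤ n := Nat.cast_nonneg n
  have h2 : ((n : ℝ) + 2) * (T / 2) ≤ (n + 2) * (T - t) + 2 * e := by nlinarith
  have h5 : 0 ≤ (n : ℝ) * c := by positivity
  calc n * c * (n + 2) / 2 * T * (2 * T) ^ (-c - 2)
      = (n * c * (2 * T) ^ (-c - 2)) * (((n : ℝ) + 2) * (T / 2)) := by ring
    _ ≤ (n * c * (T + e) ^ (-c - 2)) * (((n : ℝ) + 2) * (T - t) + 2 * e) := by
        apply mul_le_mul (mul_le_mul_of_nonneg_left h1 h5) h2 (by positivity) (by positivity)

lemma qq_nonneg {c e T : ℝ} (hc : 0 ≤ c) (he : 0 < e) (x y : EE n) : 0 ≤ qq c e T x y :=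
  trunc_nonneg fun h => kk0_nonneg hc he (by positivity) h.le

lemma qq_le {c e T : ℝ} (hc : 0 ≤ c) (he : 0 < e) (x y : EE n) :
    qq c e T x y ≤ (‖y - x‖ ^ 2 + e) ^ (-c) := by
  unfold qq trunc
  split_ifs with h
  · exact kk0_le hc he (by positivity) h.le
  · exact Real.rpow_nonneg (by positivity) _

lemma norm_pow_eq (n : ℕ) (x y : EE n) :
    (‖y - x‖ ^ 2) ^ (-cR n) = ‖x - y‖ ^ ((2:ℝ) - n) := by
  rw [← Real.rpow_natCast ‖y - x‖ 2, ← Real.rpow_mul (norm_nonneg _), norm_sub_rev]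
  congr 1
  unfold cR
  push_cast
  ring

lemma qq_tendsto (hn : 3 ≤ n) {x y : EE n} (hxy : y ≠ x) {e T : ℕ → ℝ}
    (he : ∀ k, 0 < e k) (hel : Tendsto e atTop (𝓝 0)) (hT : Tendsto T atTop atTop) :
    Tendsto (fun k => qq (cR n) (e k) (T k) x y) atTop (𝓝 (‖x - y‖ ^ ((2:ℝ) - n))) := by
  have hc := cR_pos hn
  have ht : 0 < ‖y - x‖ ^ 2 := by
    have : 0 < ‖y - x‖ := norm_pos_iff.mpr (sub_ne_zero.mpr hxy)
    positivity
  rw [← norm_pow_eq]
  set t := ‖y - x‖ ^ 2 with htdef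
  set C := (1 + cR n + cR n * (cR n + 1) / 2) with hC
  have h1 : Tendsto (fun k => (t + e k) ^ (-cR n)) atTop (𝓝 (t ^ (-cR n))) := by
    have h2 : Tendsto (fun k => t + e k) atTop (𝓝 t) := by
      have := hel.const_add t
      simpa using this
    exact (Real.continuousAt_rpow_const t (-cR n) (Or.inl ht.ne')).tendsto.comp h2
  have h3 : Tendsto (fun k => (T k + e k) ^ (-cR n)) atTop (𝓝 0) := by
    have h4 : Tendsto (fun k => T k + e k) atTop atTop :=
      tendsto_atTop_mono (fun k => by linarith [(he k).le]) hT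
    exact (tendsto_rpow_neg_atTop hc).comp h4
  have h5 : Tendsto (fun k => (t + e k) ^ (-cR n) - C * (T k + e k) ^ (-cR n)) atTop
      (𝓝 (t ^ (-cR n))) := by
    have := h1.sub (h3.const_mul C)
    simpa using this
  have h6 : ∀ᶠ k in atTop, t < T k := hT.eventually_gt_atTop t
  apply tendsto_of_tendsto_of_tendsto_of_le_of_le' h5 h1
  · filter_upwards [h6] with k hk
    unfold qq trunc
    rw [if_pos hk]
    exact kk0_ge hc.le (he k) ht.le hk.le
  · filter_upwards [h6] with k hk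
    exact qq_le hc.le (he k) x y

lemma int_qqf {f : EE n → ℝ} (hfi : LocallyIntegrable f) {c e T : ℝ} (he : 0 < e) (x : EE n) :
    Integrable (fun y => qq c e T x y * f y) := by
  have := hfi.integrable_smul_left_of_hasCompactSupport
    (contDiff_qq (c := c) (e := e) (T := T) he x).continuous (supp_qq x)
  simpa [smul_eq_mul] using this

/-- **G2 (upper bound of the potential)** -/
theorem rep_le (hn : 3 ≤ n) {u f : EE n → ℝ} (hu : Continuous u) (hu0 : ∀ x, 0 ≤ u x)
    (hu2 : ContDiffOn ℝ 2 u {0}ᶜ) (hf : ∀ x, x ≠ 0 → -(Δ u) x = f x) (hf0 : ∀ x, 0 ≤ f x)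
    (hfi : LocallyIntegrable f) (x : EE n) :
    ∫⁻ y, ENNReal.ofReal (‖x - y‖ ^ ((2:ℝ) - n) * f y) ≤ ENNReal.ofReal (kapR n * u x) := by
  have hc := cR_pos hn
  set s0 : ℕ → ℝ := fun k => 1 / ((k : ℝ) + 1) with hs0
  have hs00 : ∀ k, 0 < s0 k := fun k => by positivity
  have hs0l : Tendsto s0 atTop (𝓝 0) := tendsto_one_div_add_atTop_nhds_zero_nat
  have hex : ∀ k : ℕ, ∃ j : ℕ, k ≤ j ∧
      ∫ y, trunc (WW n (cR n) (s0 j ^ 2)) ((k:ℝ) + 1) (‖y - x‖ ^ 2) * u y
        ≤ kapR n * u x + s0 k := by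
    intro k
    have h1 := main_lim hu hn (T := (k:ℝ) + 1) (by positivity) x hs00 hs0l
    have h2 := h1.eventually (gt_mem_nhds (show kapR n * u x < kapR n * u x + s0 k by
      linarith [hs00 k]))
    obtain ⟨N, hN⟩ := eventually_atTop.mp h2
    exact ⟨max N k, le_max_right _ _, (hN _ (le_max_left _ _)).le⟩
  choose J hJk hJ using hex
  set e : ℕ → ℝ := fun k => s0 (J k) ^ 2 with he
  set T : ℕ → ℝ := fun k => (k:ℝ) + 1 with hT
  have he0 : ∀ k, 0 < e k := fun k => by have := hs00 (J k); positivity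
  have hJt : Tendsto J atTop atTop := tendsto_atTop_mono hJk tendsto_id
  have hel : Tendsto e atTop (𝓝 0) := by
    have := (hs0l.comp hJt).pow 2
    simpa using this
  have hTt : Tendsto T atTop atTop :=
    tendsto_atTop_add_const_right _ _ tendsto_natCast_atTop_atTop
  have hfm : AEStronglyMeasurable f := hfi.aestronglyMeasurable
  -- each approximation
  have hle : ∀ k, ∫⁻ y, ENNReal.ofReal (qq (cR n) (e k) (T k) x y * f y)
      ≤ ENNReal.ofReal (kapR n * u x + s0 k) := by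
    intro k
    rw [← ofReal_integral_eq_lintegral_ofReal (int_qqf hfi (he0 k) x)
      (ae_of_all _ fun y => mul_nonneg (qq_nonneg hc.le (he0 k) x y) (hf0 y))]
    apply ENNReal.ofReal_le_ofReal
    have hT0 : 0 < T k := by positivity
    have h1 := ident (by omega) hu hu2 hf hfi (cR_eq n) (he0 k) hT0 x
    have h2 : 0 ≤ ∫ y, trunc (MM n (cR n) (e k) (T k)) (T k) (‖y - x‖ ^ 2) * u y :=
      integral_nonneg fun y => mul_nonneg
        (trunc_nonneg fun h => MM_nonneg hc.le (he0 k) hT0 h.le) (hu0 y)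
    have h3 := hJ k
    linarith
  have hpt : ∀ y, ENNReal.ofReal (‖x - y‖ ^ ((2:ℝ) - n) * f y)
      ≤ liminf (fun k => ENNReal.ofReal (qq (cR n) (e k) (T k) x y * f y)) atTop := by
    intro y
    by_cases hxy : y = x
    · subst hxy
      have h2n : ((2:ℝ) - n) ≠ 0 := by
        have : (3:ℝ) ≤ n := by exact_mod_cast hn
        linarith
      simp [Real.zero_rpow h2n]
    · have h1 := (qq_tendsto hn hxy he0 hel hTt).mul_const (f y)
      have h2 := (ENNReal.continuous_ofReal.tendsto _).comp h1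
      exact le_of_eq h2.liminf_eq.symm
  calc ∫⁻ y, ENNReal.ofReal (‖x - y‖ ^ ((2:ℝ) - n) * f y)
      ≤ ∫⁻ y, liminf (fun k => ENNReal.ofReal (qq (cR n) (e k) (T k) x y * f y)) atTop :=
        lintegral_mono hpt
    _ ≤ liminf (fun k => ∫⁻ y, ENNReal.ofReal (qq (cR n) (e k) (T k) x y * f y)) atTop := by
        apply lintegral_liminf_le'
        intro k
        exact (int_qqf hfi (he0 k) x).aestronglyMeasurable.aemeasurable.ennreal_ofReal
    _ ≤ liminf (fun k => ENNReal.ofReal (kapR n * u x + s0 k)) atTop :=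
        liminf_le_liminf (Eventually.of_forall hle)
    _ = ENNReal.ofReal (kapR n * u x) := by
        have h1 : Tendsto (fun k => kapR n * u x + s0 k) atTop (𝓝 (kapR n * u x)) := by
          have := hs0l.const_add (kapR n * u x)
          simpa using this
        exact ((ENNReal.continuous_ofReal.tendsto _).comp h1).liminf_eq


lemma rep_integrable (hn : 3 ≤ n) {u f : EE n → ℝ} (hu : Continuous u) (hu0 : ∀ x, 0 ≤ u x)
    (hu2 : ContDiffOn ℝ 2 u {0}ᶜ) (hf : ∀ x, x ≠ 0 → -(Δ u) x = f x) (hf0 : ∀ x, 0 ≤ f x)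
    (hfi : LocallyIntegrable f) (x : EE n) :
    Integrable (fun y => ‖x - y‖ ^ ((2:ℝ) - n) * f y) := by
  have hm : AEStronglyMeasurable (fun y : EE n => ‖x - y‖ ^ ((2:ℝ) - n) * f y) := by
    apply AEStronglyMeasurable.mul _ hfi.aestronglyMeasurable
    have : Measurable fun y : EE n => ‖x - y‖ ^ ((2:ℝ) - n) := by fun_prop
    exact this.aestronglyMeasurable
  refine ⟨hm, ?_⟩
  rw [hasFiniteIntegral_iff_ofReal
    (ae_of_all _ fun y => mul_nonneg (Real.rpow_nonneg (norm_nonneg _) _) (hf0 y))]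
  exact lt_of_le_of_lt (rep_le hn hu hu0 hu2 hf hf0 hfi x) ENNReal.ofReal_lt_top

/-- **G2 (lower bound of the potential)**: `kap u(x0) ≤ potential + C u(x)` for all `x, x0`. -/
theorem rep_ge (hn : 3 ≤ n) {u f : EE n → ℝ} (hu : Continuous u) (hu0 : ∀ x, 0 ≤ u x)
    (hu2 : ContDiffOn ℝ 2 u {0}ᶜ) (hf : ∀ x, x ≠ 0 → -(Δ u) x = f x) (hf0 : ∀ x, 0 ≤ f x)
    (hfi : LocallyIntegrable f) (x0 x : EE n) :
    kapR n * u x0 ≤ (∫ y, ‖x0 - y‖ ^ ((2:ℝ) - n) * f y)
      + 16 ^ (cR n + 2) / 4 * (kapR n * u x) := by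
  have hc := cR_pos hn
  have hnpos : (0:ℝ) < n := by exact_mod_cast (by omega : 0 < n)
  set T : ℝ := ‖x - x0‖ ^ 2 + 1 with hT
  have hT1 : 1 ≤ T := by rw [hT]; nlinarith [sq_nonneg ‖x - x0‖]
  have hT0 : 0 < T := by linarith
  set s0 : ℕ → ℝ := fun k => 1 / ((k : ℝ) + 1) with hs0
  have hs00 : ∀ k, 0 < s0 k := fun k => by positivity
  have hs01 : ∀ k, s0 k ≤ 1 := by
    intro k
    rw [hs0]
    simp only
    rw [div_le_one (by positivity)]
    have : (0:ℝ) ≤ k := Nat.cast_nonneg k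
    linarith
  have hs0l : Tendsto s0 atTop (𝓝 0) := tendsto_one_div_add_atTop_nhds_zero_nat
  have he0 : ∀ k, 0 < s0 k ^ 2 := fun k => by have := hs00 k; positivity
  have he1 : ∀ k, s0 k ^ 2 ≤ 1 := fun k => pow_le_one₀ (hs00 k).le (hs01 k)
  have hPint := rep_integrable hn hu hu0 hu2 hf hf0 hfi x0
  set P := ∫ y, ‖x0 - y‖ ^ ((2:ℝ) - n) * f y with hP
  set I := ∫ y in {y : EE n | ‖y - x0‖ ^ 2 < T}, u y with hI
  have huI : ∀ (S : ℝ) (z : EE n), IntegrableOn u {y : EE n | ‖y - z‖ ^ 2 < S} := fun S z =>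
    (hu.continuousOn.integrableOn_compact
      (isCompact_closedBall z (Real.sqrt S))).mono_set (nball_subset S z)
  have hI0 : 0 ≤ I := integral_nonneg fun y => hu0 y
  set a1 : ℝ := n * cR n * (n + 2) * T ^ (-cR n - 1) with ha1
  set a2 : ℝ := n * cR n * (n + 2) / 2 * (8 * T) * (2 * (8 * T)) ^ (-cR n - 2) with ha2
  have ha10 : 0 ≤ a1 := by
    have := Real.rpow_nonneg hT0.le (-cR n - 1)
    positivity
  have ha20 : 0 < a2 := by
    have := Real.rpow_pos_of_pos (by linarith : (0:ℝ) < 2 * (8 * T)) (-cR n - 2)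
    positivity
  -- upper bound at `x0`
  have hup : kapR n * u x0 ≤ P + a1 * I := by
    have h1 := main_lim hu hn hT0 x0 hs00 hs0l
    apply le_of_tendsto' h1
    intro k
    rw [ident (by omega) hu hu2 hf hfi (cR_eq n) (he0 k) hT0 x0]
    apply add_le_add
    · apply integral_mono_ae (int_qqf hfi (he0 k) x0) hPint
      have hae : ∀ᵐ y : EE n, y ≠ x0 := by
        have : Nonempty (Fin n) := ⟨⟨0, by omega⟩⟩
        have : Nontrivial (EE n) := inferInstance
        rw [ae_iff]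
        simp
      filter_upwards [hae] with y hy
      apply mul_le_mul_of_nonneg_right _ (hf0 y)
      rw [← norm_pow_eq]
      refine le_trans (qq_le hc.le (he0 k) x0 y) ?_
      have ht : 0 < ‖y - x0‖ ^ 2 := by
        have : 0 < ‖y - x0‖ := norm_pos_iff.mpr (sub_ne_zero.mpr hy)
        positivity
      exact Real.rpow_le_rpow_of_nonpos ht (by linarith [he0 k]) (by linarith)
    · rw [trunc_eq_indicator, integral_indicator (measurableSet_nball T x0), hI,
        ← integral_const_mul]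
      apply setIntegral_mono_on
      · have := integrable_trunc (T := T) x0
          (continuous_MM (n := n) (c := cR n) (e := s0 k ^ 2) (T := T) x0) hu
        rw [trunc_eq_indicator, integrable_indicator_iff (measurableSet_nball T x0)] at this
        exact this
      · exact (huI T x0).const_mul a1
      · exact measurableSet_nball T x0
      · intro y _
        exact mul_le_mul_of_nonneg_right (MM_le hc.le (he0 k) hT0 (by positivity)) (hu0 y)
  -- lower bound at `x`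
  have hlow : a2 * I ≤ kapR n * u x := by
    have hT8 : 0 < 8 * T := by linarith
    have h1 := main_lim hu hn hT8 x hs00 hs0l
    apply ge_of_tendsto' h1
    intro k
    rw [ident (by omega) hu hu2 hf hfi (cR_eq n) (he0 k) hT8 x]
    have h2 : 0 ≤ ∫ y, qq (cR n) (s0 k ^ 2) (8 * T) x y * f y :=
      integral_nonneg fun y => mul_nonneg (qq_nonneg hc.le (he0 k) x y) (hf0 y)
    have h3 : a2 * I ≤ ∫ y, trunc (MM n (cR n) (s0 k ^ 2) (8 * T)) (8 * T) (‖y - x‖ ^ 2) * u y := by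
      rw [hI, ← integral_const_mul, ← integral_indicator (measurableSet_nball T x0)]
      apply integral_mono
      · rw [integrable_indicator_iff (measurableSet_nball T x0)]
        exact (huI T x0).const_mul a2
      · exact integrable_trunc x (continuous_MM x) hu
      · intro y
        simp only
        by_cases hy : ‖y - x0‖ ^ 2 < T
        · rw [indicator_of_mem (show y ∈ {y : EE n | ‖y - x0‖ ^ 2 < T} from hy)]
          have h4 : ‖y - x‖ ^ 2 ≤ 4 * T := by
            have h5 : ‖y - x‖ ≤ ‖y - x0‖ + ‖x - x0‖ := by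
              have h6 : y - x = (y - x0) - (x - x0) := by abel
              rw [h6]
              exact norm_sub_le _ _
            have h7 : ‖x - x0‖ ^ 2 ≤ T := by rw [hT]; linarith
            have h8 : ‖y - x‖ ^ 2 ≤ (‖y - x0‖ + ‖x - x0‖) ^ 2 :=
              pow_le_pow_left₀ (norm_nonneg _) h5 2
            nlinarith [sq_nonneg (‖y - x0‖ - ‖x - x0‖)]
          unfold trunc
          rw [if_pos (by linarith)]
          apply mul_le_mul_of_nonneg_right _ (hu0 y)
          exact MM_ge hc.le (he0 k) (by linarith [he1 k]) hT8 (by linarith)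
        · rw [indicator_of_notMem (show y ∉ {y : EE n | ‖y - x0‖ ^ 2 < T} from hy)]
          exact mul_nonneg (trunc_nonneg fun h => MM_nonneg hc.le (he0 k) hT8 h.le) (hu0 y)
    linarith
  have hratio : a1 = 16 ^ (cR n + 2) / 4 * a2 := by
    rw [ha1, ha2]
    have h1 : (2 * (8 * T)) ^ (-cR n - 2) = 16 ^ (-cR n - 2) * T ^ (-cR n - 2) := by
      rw [show 2 * (8 * T) = 16 * T by ring, Real.mul_rpow (by norm_num) hT0.le]
    have h2 : T ^ (-cR n - 1) = T ^ (-cR n - 2) * T := by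
      rw [← Real.rpow_add_one hT0.ne']
      congr 1
      ring
    have h3 : (16:ℝ) ^ (cR n + 2) * 16 ^ (-cR n - 2) = 1 := by
      rw [← Real.rpow_add (by norm_num)]
      rw [show cR n + 2 + (-cR n - 2) = 0 by ring, Real.rpow_zero]
    rw [h1, h2]
    calc n * cR n * (n + 2) * (T ^ (-cR n - 2) * T)
        = (n * cR n * (n + 2) * (T ^ (-cR n - 2) * T)) * 1 := by ring
      _ = (n * cR n * (n + 2) * (T ^ (-cR n - 2) * T))
          * ((16:ℝ) ^ (cR n + 2) * 16 ^ (-cR n - 2)) := by rw [h3]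
      _ = _ := by ring
  have h9 : (0:ℝ) ≤ 16 ^ (cR n + 2) / 4 := by positivity
  calc kapR n * u x0 ≤ P + a1 * I := hup
    _ = P + 16 ^ (cR n + 2) / 4 * (a2 * I) := by rw [hratio]; ring
    _ ≤ P + 16 ^ (cR n + 2) / 4 * (kapR n * u x) :=
        add_le_add_right (mul_le_mul_of_nonneg_left hlow h9) P

/-- **G2, dichotomy**: either the representation is exact or `u` is bounded below. -/
theorem rep_dichotomy (hn : 3 ≤ n) {u f : EE n → ℝ} (hu : Continuous u) (hu0 : ∀ x, 0 ≤ u x)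
    (hu2 : ContDiffOn ℝ 2 u {0}ᶜ) (hf : ∀ x, x ≠ 0 → -(Δ u) x = f x) (hf0 : ∀ x, 0 ≤ f x)
    (hfi : LocallyIntegrable f) :
    (∀ x, ∫⁻ y, ENNReal.ofReal (‖x - y‖ ^ ((2:ℝ) - n) * f y) = ENNReal.ofReal (kapR n * u x))
      ∨ (∃ c : ℝ, 0 < c ∧ ∀ x, c ≤ u x) := by
  by_cases h : ∃ c : ℝ, 0 < c ∧ ∀ x, c ≤ u x
  · exact Or.inr h
  · left
    intro x0
    apply le_antisymm (rep_le hn hu hu0 hu2 hf hf0 hfi x0)
    rw [← ofReal_integral_eq_lintegral_ofReal (rep_integrable hn hu hu0 hu2 hf hf0 hfi x0)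
      (ae_of_all _ fun y => mul_nonneg (Real.rpow_nonneg (norm_nonneg _) _) (hf0 y))]
    apply ENNReal.ofReal_le_ofReal
    apply le_of_forall_pos_le_add
    intro ε hε
    have hk := kapR_pos hn
    have h9 : (0:ℝ) < 16 ^ (cR n + 2) / 4 := by positivity
    have hδ : 0 < ε / (16 ^ (cR n + 2) / 4 * kapR n) := by positivity
    have h1 : ∃ x, u x < ε / (16 ^ (cR n + 2) / 4 * kapR n) := by
      by_contra hcon
      push Not at hcon
      exact h ⟨_, hδ, hcon⟩
    obtain ⟨x, hx⟩ := h1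
    have h2 := rep_ge hn hu hu0 hu2 hf hf0 hfi x0 x
    have h3 : 16 ^ (cR n + 2) / 4 * (kapR n * u x) ≤ ε := by
      rw [lt_div_iff₀ (by positivity)] at hx
      nlinarith
    linarith

end

end Crest.Agent.R077
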