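import Crest.Agent.R077.LocInt
import Crest.Agent.R077.Rep
import Crest.Agent.R077.Far

/-!
Row 77 (S0102): from the PDE hypotheses with `3 ≤ n` to the integral system with exact
representations (`Mass.Sup` with `κ = kapR n`).
-/

set_option autoImplicit false

open MeasureTheory Laplacian InnerProductSpace Topology Filter Set
open scoped ENNReal

namespace Crest.Agent.R077

noncomputable section

variable {n : ℕ}

/-- The integral form of a classical positive solution, `3 ≤ n`. -/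
theorem pde_sup (hn : 3 ≤ n) {p q A B : ℝ} (hp : 0 < p) (hq : 0 < q)
    {u v : EuclideanSpace ℝ (Fin n) → ℝ} (hu : Continuous u) (hv : Continuous v)
    (hu2 : ContDiffOn ℝ 2 u {0}ᶜ) (hv2 : ContDiffOn ℝ 2 v {0}ᶜ)
    (hu0 : ∀ x, 0 < u x) (hv0 : ∀ x, 0 < v x)
    (heq : ∀ x, x ≠ 0 → -(Δ u) x = ‖x‖ ^ A * v x ^ p ∧ -(Δ v) x = ‖x‖ ^ B * u x ^ q) :
    Mass.Sup n p q A B (kapR n) u v where
  hn := hn
  hp := hp
  hq := hq
  hκ := kapR_pos hn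
  hu := hu
  hv := hv
  hu0 := hu0
  hv0 := hv0
  repu := by
    have hf : ∀ x, x ≠ 0 → -(Δ u) x = Mass.den A p v x := fun x hx => (heq x hx).1
    have hf0 : ∀ x, 0 ≤ Mass.den A p v x := Mass.den_nonneg hv0
    exact rep_le hn hu (fun x => (hu0 x).le) hu2 hf hf0
      (locInt (by omega) hu hu2 hf hf0 (Mass.den_measurable hv))
  repv := by
    have hf : ∀ x, x ≠ 0 → -(Δ v) x = Mass.den B q u x := fun x hx => (heq x hx).2
    have hf0 : ∀ x, 0 ≤ Mass.den B q u x := Mass.den_nonneg hu0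
    exact rep_le hn hv (fun x => (hv0 x).le) hv2 hf hf0
      (locInt (by omega) hv hv2 hf hf0 (Mass.den_measurable hu))

/-- Exactness of the first representation. -/
theorem pde_exact (hn : 3 ≤ n) {p q A B : ℝ} (hp : 0 < p) (hq : 0 < q)
    {u v : EuclideanSpace ℝ (Fin n) → ℝ} (hu : Continuous u) (hv : Continuous v)
    (hu2 : ContDiffOn ℝ 2 u {0}ᶜ) (hv2 : ContDiffOn ℝ 2 v {0}ᶜ)
    (hu0 : ∀ x, 0 < u x) (hv0 : ∀ x, 0 < v x)
    (heq : ∀ x, x ≠ 0 → -(Δ u) x = ‖x‖ ^ A * v x ^ p ∧ -(Δ v) x = ‖x‖ ^ B * u x ^ q) :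
    ∀ x, ∫⁻ y, ENNReal.ofReal (‖x - y‖ ^ ((2 : ℝ) - n) * Mass.den A p v y)
      = ENNReal.ofReal (kapR n * u x) := by
  have hS := pde_sup hn hp hq hu hv hu2 hv2 hu0 hv0 heq
  have hf : ∀ x, x ≠ 0 → -(Δ u) x = Mass.den A p v x := fun x hx => (heq x hx).1
  have hf0 : ∀ x, 0 ≤ Mass.den A p v x := Mass.den_nonneg hv0
  rcases rep_dichotomy hn hu (fun x => (hu0 x).le) hu2 hf hf0
    (locInt (by omega) hu hu2 hf hf0 (Mass.den_measurable hv)) with h | h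
  · exact h
  · exact (Mass.no_lower hS h).elim

/-- Output of the PDE part, `3 ≤ n`. -/
theorem pdeAsm (hn : 3 ≤ n) {p q A B : ℝ} (hp : 0 < p) (hq : 0 < q)
    {u v : EuclideanSpace ℝ (Fin n) → ℝ} (hu : Continuous u) (hv : Continuous v)
    (hu2 : ContDiffOn ℝ 2 u {0}ᶜ) (hv2 : ContDiffOn ℝ 2 v {0}ᶜ)
    (hu0 : ∀ x, 0 < u x) (hv0 : ∀ x, 0 < v x)
    (heq : ∀ x, x ≠ 0 → -(Δ u) x = ‖x‖ ^ A * v x ^ p ∧ -(Δ v) x = ‖x‖ ^ B * u x ^ q) :
    ∃ κ : ℝ, Mass.Sup n p q A B κ u v ∧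
      (∀ x, ∫⁻ y, ENNReal.ofReal (‖x - y‖ ^ ((2 : ℝ) - n) * Mass.den A p v y)
        = ENNReal.ofReal (κ * u x)) ∧
      (∀ x, ∫⁻ y, ENNReal.ofReal (‖x - y‖ ^ ((2 : ℝ) - n) * Mass.den B q u y)
        = ENNReal.ofReal (κ * v x)) :=
  ⟨kapR n, pde_sup hn hp hq hu hv hu2 hv2 hu0 hv0 heq,
    pde_exact hn hp hq hu hv hu2 hv2 hu0 hv0 heq,
    pde_exact hn hq hp hv hu hv2 hu2 hv0 hu0 fun x hx => ⟨(heq x hx).2, (heq x hx).1⟩⟩

end

end Crest.Agent.R077
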