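import Crest.Agent.R077.PdeAsm
import Crest.Agent.R077.CylOf
import Crest.Agent.R077.N2
import Crest.Agent.R077.Iface

/-!
Row 77 (S0102): the final reduction: the statement follows from `Stmt_Core`.
-/

set_option autoImplicit false

open MeasureTheory Laplacian InnerProductSpace Topology Filter Set
open scoped ENNReal

namespace Crest.Agent.R077

/-- S0102 from the core theorem. -/
theorem final_of (hCore : Stmt_Core) (n : ℕ) (hn : 2 ≤ n) (p q A B : ℝ) (hp : 0 < p) (hq : 0 < q)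
    (hsub : (n : ℝ) - 2 < ((n : ℝ) + A) / (p + 1) + ((n : ℝ) + B) / (q + 1)) :
    ¬ ∃ u v : EuclideanSpace ℝ (Fin n) → ℝ,
        Continuous u ∧ Continuous v ∧
        ContDiffOn ℝ 2 u {0}ᶜ ∧ ContDiffOn ℝ 2 v {0}ᶜ ∧
        (∀ x, 0 < u x) ∧ (∀ x, 0 < v x) ∧
        ∀ x, x ≠ 0 →
          -(Δ u) x = ‖x‖ ^ A * v x ^ p ∧ -(Δ v) x = ‖x‖ ^ B * u x ^ q := by
  rintro ⟨u, v, hu, hv, hu2, hv2, hu0, hv0, heq⟩
  rcases Nat.lt_or_ge n 3 with h3 | h3
  · obtain rfl : n = 2 := by omega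
    exact n_two p q A B u v hu hu2 hu0 hv0 heq
  · obtain ⟨κ, hS, ru, rv⟩ := pdeAsm h3 hp hq hu hv hu2 hv2 hu0 hv0 heq
    obtain ⟨C⟩ := CylOf.cylOf hS hsub hu2 hv2 ru rv
    exact hCore _ _ (CylOf.sph_ne_zero (by omega)) C

end Crest.Agent.R077
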