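import Crest.Agent.R077.CylOf
import Crest.Agent.R077.Rep
import Crest.Agent.R077.LocInt
import Crest.Agent.R077.N2
import Crest.Agent.R077.Core

/-! Row 77: the PDE assembly and the reduction of S0102 to the core theorem (captain). -/

set_option autoImplicit false

open Laplacian InnerProductSpace MeasureTheory Set

namespace Crest.Agent.R077.Fin

open Crest.Agent.R077.Mass

variable {n : ℕ}

theorem S0102_of_core (hcore : Stmt_Core)
    (n : ℕ) (hn : 2 ≤ n) (p q A B : ℝ) (hp : 0 < p) (hq : 0 < q)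
    (hsub : (n : ℝ) - 2 < ((n : ℝ) + A) / (p + 1) + ((n : ℝ) + B) / (q + 1)) :
    ¬ ∃ u v : EuclideanSpace ℝ (Fin n) → ℝ,
        Continuous u ∧ Continuous v ∧
        ContDiffOn ℝ 2 u {0}ᶜ ∧ ContDiffOn ℝ 2 v {0}ᶜ ∧
        (∀ x, 0 < u x) ∧ (∀ x, 0 < v x) ∧
        ∀ x, x ≠ 0 →
          -(Δ u) x = ‖x‖ ^ A * v x ^ p ∧ -(Δ v) x = ‖x‖ ^ B * u x ^ q := by
  rintro ⟨u, v, hu, hv, hu2, hv2, hu0, hv0, heq⟩
  rcases hn.eq_or_lt with h | h
  · subst h
    exact n_two p q A B u v hu hu2 hu0 hv0 heq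
  · have hn3 : 3 ≤ n := h
    have hf : ∀ x, x ≠ 0 → -(Δ u) x = den A p v x := fun x hx => (heq x hx).1
    have hg : ∀ x, x ≠ 0 → -(Δ v) x = den B q u x := fun x hx => (heq x hx).2
    have hf0 : ∀ x, 0 ≤ den A p v x := fun x => den_nonneg hv0 x
    have hg0 : ∀ x, 0 ≤ den B q u x := fun x => den_nonneg hu0 x
    have hfi : LocallyIntegrable (den A p v) :=
      locInt hn hu hu2 hf hf0 (den_measurable hv)
    have hgi : LocallyIntegrable (den B q u) :=
      locInt hn hv hv2 hg hg0 (den_measurable hu)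
    have hS : Sup n p q A B (kapR n) u v :=
      { hn := hn3, hp := hp, hq := hq, hκ := kapR_pos hn3, hu := hu, hv := hv, hu0 := hu0,
        hv0 := hv0
        repu := fun x => rep_le hn3 hu (fun x => (hu0 x).le) hu2 hf hf0 hfi x
        repv := fun x => rep_le hn3 hv (fun x => (hv0 x).le) hv2 hg hg0 hgi x }
    have ru := (rep_dichotomy hn3 hu (fun x => (hu0 x).le) hu2 hf hf0 hfi).resolve_right
      (fun hc => no_lower hS hc)
    have rv := (rep_dichotomy hn3 hv (fun x => (hv0 x).le) hv2 hg hg0 hgi).resolve_right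
      (fun hc => no_lower hS.symm hc)
    obtain ⟨S⟩ := CylOf.cylOf hS hsub hu2 hv2 ru rv
    exact hcore _ _ (CylOf.sph_ne_zero (n := n) (by omega)) S

end Crest.Agent.R077.Fin
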