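import Mathlib

set_option autoImplicit false

namespace Crest.Agent.R077.StepR1

open MeasureTheory Set

/-- box sum `G_ρ(t) = ∫_{t-ρ}^{t+ρ} G` -/
noncomputable def bx (ρ : ℝ) (G : ℝ → ℝ) (t : ℝ) : ℝ := ∫ s in (t - ρ)..(t + ρ), G s

/-- `z_ρ(t) = ∫_{t-ρ}^{t+ρ} (φ(t) G(s) - Ω_G(s)) ds` -/
noncomputable def zz (ρ : ℝ) (φ G Om : ℝ → ℝ) (t : ℝ) : ℝ :=
  ∫ s in (t - ρ)..(t + ρ), (φ t * G s - Om s)

lemma ii_of_loc {g : ℝ → ℝ} (hg : LocallyIntegrable g volume) (a b : ℝ) :
    IntervalIntegrable g volume a b :=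
  intervalIntegrable_iff.mpr <|
    (hg.integrableOn_isCompact isCompact_uIcc).mono_set uIoc_subset_uIcc

/-- by parts against a locally integrable function -/
lemma parts {φ w g : ℝ → ℝ} (hφ : ∀ t, HasDerivAt φ (-w t) t) (hw : Continuous w)
    (hg : LocallyIntegrable g volume) (c A B : ℝ) :
    ∫ t in A..B, φ t * g t
      = φ B * (∫ s in c..B, g s) - φ A * (∫ s in c..A, g s) +
        ∫ t in A..B, w t * ∫ s in c..t, g s := by
  have hii := ii_of_loc hg
  have hφc : ContDiff ℝ 1 φ := by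
    rw [contDiff_one_iff_deriv]
    refine ⟨fun t => (hφ t).differentiableAt, ?_⟩
    have : deriv φ = fun t => -w t := funext fun t => (hφ t).deriv
    rw [this]; exact hw.neg
  have hac1 : AbsolutelyContinuousOnInterval φ A B :=
    ContDiffOn.absolutelyContinuousOnInterval hφc.contDiffOn
  -- first with `c = A`
  have key : ∫ t in A..B, φ t * g t
      = φ B * (∫ s in A..B, g s) + ∫ t in A..B, w t * ∫ s in A..t, g s := by
    have hac2 : AbsolutelyContinuousOnInterval (fun x => ∫ v in A..x, g v) A B :=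
      (hii A B).absolutelyContinuousOnInterval_intervalIntegral left_mem_uIcc
    have h := hac1.integral_mul_deriv_eq_deriv_mul hac2
    have e1 : ∫ t in A..B, φ t * deriv (fun x => ∫ v in A..x, g v) t
        = ∫ t in A..B, φ t * g t := by
      apply intervalIntegral.integral_congr_ae
      have := LocallyIntegrable.ae_hasDerivAt_integral hg
      filter_upwards [this] with t ht _
      rw [(ht A).deriv]
    have e2 : ∫ t in A..B, deriv φ t * (∫ v in A..t, g v)
        = - ∫ t in A..B, w t * (∫ v in A..t, g v) := by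
      rw [← intervalIntegral.integral_neg]
      apply intervalIntegral.integral_congr
      intro t _
      simp only [(hφ t).deriv]; ring
    rw [e1, e2] at h
    rw [h]
    simp
  have hwint : ∫ t in A..B, w t = φ A - φ B := by
    have := intervalIntegral.integral_eq_sub_of_hasDerivAt (f := φ) (f' := fun t => -w t)
      (a := A) (b := B) (fun t _ => hφ t) (hw.neg.intervalIntegrable _ _)
    rw [intervalIntegral.integral_neg] at this
    linarith
  have hcon : ∫ t in A..B, w t * ∫ s in A..t, g s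
      = (∫ t in A..B, w t * ∫ s in c..t, g s) - (∫ s in c..A, g s) * (φ A - φ B) := by
    rw [← hwint, ← intervalIntegral.integral_const_mul, ← intervalIntegral.integral_sub]
    · apply intervalIntegral.integral_congr
      intro t _
      simp only
      have : (∫ s in c..t, g s) = (∫ s in c..A, g s) + ∫ s in A..t, g s :=
        (intervalIntegral.integral_add_adjacent_intervals (hii _ _) (hii _ _)).symm
      rw [this]; ring
    · apply ContinuousOn.intervalIntegrable
      apply hw.continuousOn.mul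
      exact (intervalIntegral.continuous_primitive (fun a b => hii a b) c).continuousOn
    · exact (continuous_const.mul hw).intervalIntegrable _ _
  have hsplit : (∫ s in c..B, g s) = (∫ s in c..A, g s) + ∫ s in A..B, g s :=
    (intervalIntegral.integral_add_adjacent_intervals (hii _ _) (hii _ _)).symm
  rw [key, hcon, hsplit]
  ring

lemma loc_shift {g : ℝ → ℝ} (hg : LocallyIntegrable g volume) (r : ℝ) :
    LocallyIntegrable (fun t => g (t + r)) volume := by
  rw [MeasureTheory.locallyIntegrable_iff]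
  intro K hK
  have h1 : IntegrableOn g ((fun t => t + r) '' K) volume :=
    hg.integrableOn_isCompact (hK.image (by fun_prop))
  have hmp : MeasurePreserving (fun t : ℝ => t + r) volume volume :=
    measurePreserving_add_right volume r
  have h2 := (hmp.integrableOn_comp_preimage (MeasurableEquiv.addRight r).measurableEmbedding
    (f := g) (s := (fun t => t + r) '' K)).mpr h1
  refine h2.mono_set ?_
  intro t ht
  exact ⟨t, ht, rfl⟩

lemma loc_shift_sub {g : ℝ → ℝ} (hg : LocallyIntegrable g volume) (r : ℝ) :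
    LocallyIntegrable (fun t => g (t - r)) volume := by
  simpa only [sub_eq_add_neg] using loc_shift hg (-r)

lemma loc_diff {g : ℝ → ℝ} (hg : LocallyIntegrable g volume) (r : ℝ) :
    LocallyIntegrable (fun t => g (t + r) - g (t - r)) volume :=
  (loc_shift hg r).sub (loc_shift_sub hg r)

/-- shift difference integral -/
lemma int_shift_diff {G : ℝ → ℝ} (hG : LocallyIntegrable G volume) (ρ A B : ℝ) :
    ∫ t in A..B, (G (t + ρ) - G (t - ρ)) = bx ρ G B - bx ρ G A := by
  have hii := ii_of_loc hG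
  have h1 := ii_of_loc (loc_shift hG ρ)
  have h2 := ii_of_loc (loc_shift hG (-ρ))
  have h2' : ∀ a b, IntervalIntegrable (fun t => G (t - ρ)) volume a b := by
    intro a b; simpa [sub_eq_add_neg] using h2 a b
  rw [intervalIntegral.integral_sub (h1 A B) (h2' A B)]
  rw [intervalIntegral.integral_comp_add_right (fun x => G x),
    intervalIntegral.integral_comp_sub_right (fun x => G x)]
  unfold bx
  have e1 : (∫ s in (B - ρ)..(B + ρ), G s)
      = (∫ s in (B - ρ)..(A - ρ), G s) + (∫ s in (A - ρ)..(A + ρ), G s)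
        + ∫ s in (A + ρ)..(B + ρ), G s := by
    rw [intervalIntegral.integral_add_adjacent_intervals (hii _ _) (hii _ _),
      intervalIntegral.integral_add_adjacent_intervals (hii _ _) (hii _ _)]
  rw [e1, intervalIntegral.integral_symm (A - ρ) (B - ρ)]
  ring

lemma continuous_bx {G : ℝ → ℝ} (hG : LocallyIntegrable G volume) (ρ : ℝ) :
    Continuous (bx ρ G) := by
  have : bx ρ G = fun t => (∫ s in (0:ℝ)..(t + ρ), G s) - ∫ s in (0:ℝ)..(t - ρ), G s := by
    funext t
    unfold bx
    rw [intervalIntegral.integral_interval_sub_left (ii_of_loc hG _ _) (ii_of_loc hG _ _)]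
  rw [this]
  have hc := intervalIntegral.continuous_primitive (fun a b => ii_of_loc hG a b) (0:ℝ)
  exact (hc.comp (continuous_id.add continuous_const)).sub
    (hc.comp (continuous_id.sub continuous_const))

lemma zz_eq {φ G Om : ℝ → ℝ} (hG : LocallyIntegrable G volume)
    (hOm : LocallyIntegrable Om volume) (ρ t : ℝ) :
    zz ρ φ G Om t = φ t * bx ρ G t - bx ρ Om t := by
  unfold zz bx
  rw [intervalIntegral.integral_sub ((ii_of_loc hG _ _).const_mul _) (ii_of_loc hOm _ _),
    intervalIntegral.integral_const_mul]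

/-- the identity on one interval: velocity `φ(t)` against arbitrary `(G, Ω_G)`. -/
lemma ident_interval {φ w G Om : ℝ → ℝ} (hφ : ∀ t, HasDerivAt φ (-w t) t) (hw : Continuous w)
    (hG : LocallyIntegrable G volume) (hOm : LocallyIntegrable Om volume) (ρ A B : ℝ) :
    ∫ t in A..B, (φ t * (G (t + ρ) - G (t - ρ)) - (Om (t + ρ) - Om (t - ρ)))
      = (∫ t in A..B, w t * bx ρ G t) + (zz ρ φ G Om B - zz ρ φ G Om A) := by
  have hφc : Continuous φ := continuous_iff_continuousAt.mpr fun t => (hφ t).continuousAt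
  have hsG : LocallyIntegrable (fun t => G (t + ρ) - G (t - ρ)) volume := loc_diff hG ρ
  have hsO : LocallyIntegrable (fun t => Om (t + ρ) - Om (t - ρ)) volume := loc_diff hOm ρ
  rw [intervalIntegral.integral_sub ((ii_of_loc hsG A B).continuousOn_mul hφc.continuousOn)
    (ii_of_loc hsO A B)]
  rw [parts hφ hw hsG A A B, int_shift_diff hG, int_shift_diff hOm]
  have hwint : ∫ t in A..B, w t = φ A - φ B := by
    have := intervalIntegral.integral_eq_sub_of_hasDerivAt (f := φ) (f' := fun t => -w t)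
      (a := A) (b := B) (fun t _ => hφ t) (hw.neg.intervalIntegrable _ _)
    rw [intervalIntegral.integral_neg] at this
    linarith
  have hbc : Continuous (bx ρ G) := continuous_bx hG ρ
  have e3 : ∫ t in A..B, w t * ∫ s in A..t, (G (s + ρ) - G (s - ρ))
      = (∫ t in A..B, w t * bx ρ G t) - bx ρ G A * (φ A - φ B) := by
    rw [← hwint, ← intervalIntegral.integral_const_mul, ← intervalIntegral.integral_sub]
    · apply intervalIntegral.integral_congr
      intro t _
      simp only
      rw [int_shift_diff hG]; ring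
    · exact (hw.mul hbc).intervalIntegrable _ _
    · exact (continuous_const.mul hw).intervalIntegrable _ _
  rw [e3, zz_eq hG hOm, zz_eq hG hOm]
  simp
  ring

/-- step function of a finite family of intervals -/
noncomputable def st {ι : Type*} (S : Finset ι) (c A B : ι → ℝ) (t : ℝ) : ℝ :=
  ∑ i ∈ S, (Ico (A i) (B i)).indicator (fun _ => c i) t

lemma st_nonneg {ι : Type*} {S : Finset ι} {c A B : ι → ℝ} (hc : ∀ i ∈ S, 0 ≤ c i) (t : ℝ) :
    0 ≤ st S c A B t :=
  Finset.sum_nonneg fun i hi => indicator_nonneg (fun _ _ => hc i hi) _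

lemma measurable_st {ι : Type*} (S : Finset ι) (c A B : ι → ℝ) : Measurable (st S c A B) := by
  unfold st
  exact Finset.measurable_fun_sum S fun i _ => measurable_const.indicator measurableSet_Ico

lemma integrable_st {ι : Type*} (S : Finset ι) (c A B : ι → ℝ) : Integrable (st S c A B) volume := by
  unfold st
  apply integrable_finsetSum
  intro i _
  rw [integrable_indicator_iff measurableSet_Ico]
  exact integrableOn_const (by simp)

lemma loc_st {ι : Type*} (S : Finset ι) (c A B : ι → ℝ) :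
    LocallyIntegrable (st S c A B) volume := (integrable_st S c A B).locallyIntegrable

/-- integral of step function times locally integrable function -/
lemma integrable_st_mul {ι : Type*} (S : Finset ι) (c A B : ι → ℝ) {g : ℝ → ℝ}
    (hg : LocallyIntegrable g volume) : Integrable (fun t => st S c A B t * g t) volume := by
  have : (fun t => st S c A B t * g t)
      = fun t => ∑ i ∈ S, (Ico (A i) (B i)).indicator (fun t => c i * g t) t := by
    funext t
    unfold st
    rw [Finset.sum_mul]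
    apply Finset.sum_congr rfl
    intro i _
    by_cases h : t ∈ Ico (A i) (B i)
    · simp [h]
    · simp [h]
  rw [this]
  apply integrable_finsetSum
  intro i _
  rw [integrable_indicator_iff measurableSet_Ico]
  have h1 : IntegrableOn g (Icc (A i) (B i)) volume := hg.integrableOn_isCompact isCompact_Icc
  exact (h1.mono_set Ico_subset_Icc_self).const_mul _

lemma integral_st_mul {ι : Type*} (S : Finset ι) (c A B : ι → ℝ) (hAB : ∀ i ∈ S, A i ≤ B i)
    {g : ℝ → ℝ} (hg : LocallyIntegrable g volume) :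
    ∫ t, st S c A B t * g t = ∑ i ∈ S, c i * ∫ t in (A i)..(B i), g t := by
  have : (fun t => st S c A B t * g t)
      = fun t => ∑ i ∈ S, (Ico (A i) (B i)).indicator (fun t => c i * g t) t := by
    funext t
    unfold st
    rw [Finset.sum_mul]
    apply Finset.sum_congr rfl
    intro i _
    by_cases h : t ∈ Ico (A i) (B i)
    · simp [h]
    · simp [h]
  rw [this, integral_finsetSum]
  · apply Finset.sum_congr rfl
    intro i hi
    rw [integral_indicator measurableSet_Ico, integral_Ico_eq_integral_Ioc,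
      ← intervalIntegral.integral_of_le (hAB i hi), intervalIntegral.integral_const_mul]
  · intro i _
    rw [integrable_indicator_iff measurableSet_Ico]
    have h1 : IntegrableOn g (Icc (A i) (B i)) volume := hg.integrableOn_isCompact isCompact_Icc
    exact (h1.mono_set Ico_subset_Icc_self).const_mul _

/-- the "one-sided" form `∫ f {φ (G(·+ρ) - G(·-ρ)) - (Ω_G(·+ρ) - Ω_G(·-ρ))}` -/
noncomputable def hf (ρ : ℝ) (φ f G Om : ℝ → ℝ) : ℝ :=
  ∫ t, f t * (φ t * (G (t + ρ) - G (t - ρ)) - (Om (t + ρ) - Om (t - ρ)))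

/-- exact identity `D^{L*} = ∫ w F^L G_ρ + Σ c_I [z_ρ]_I`. -/
theorem hf_st {ι : Type*} (S : Finset ι) (c A B : ι → ℝ) (hAB : ∀ i ∈ S, A i ≤ B i)
    {φ w G Om : ℝ → ℝ} (hφ : ∀ t, HasDerivAt φ (-w t) t) (hw : Continuous w)
    (hG : LocallyIntegrable G volume) (hOm : LocallyIntegrable Om volume) (ρ : ℝ) :
    hf ρ φ (st S c A B) G Om
      = (∫ t, w t * st S c A B t * bx ρ G t) +
        ∑ i ∈ S, c i * (zz ρ φ G Om (B i) - zz ρ φ G Om (A i)) := by
  have hφc : Continuous φ := continuous_iff_continuousAt.mpr fun t => (hφ t).continuousAt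
  unfold hf
  have hsG := loc_diff hG ρ
  have hsO := loc_diff hOm ρ
  have hloc : LocallyIntegrable
      (fun t => φ t * (G (t + ρ) - G (t - ρ)) - (Om (t + ρ) - Om (t - ρ))) volume := by
    refine LocallyIntegrable.sub ?_ hsO
    exact hsG.continuous_mul hφc
  rw [integral_st_mul S c A B hAB hloc]
  have e1 : (fun t => w t * st S c A B t * bx ρ G t)
      = fun t => st S c A B t * (w t * bx ρ G t) := by
    funext t; ring
  have hbc := continuous_bx hG ρ
  rw [e1, integral_st_mul S c A B hAB (g := fun t => w t * bx ρ G t)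
    (hw.mul hbc).locallyIntegrable]
  rw [← Finset.sum_add_distrib]
  apply Finset.sum_congr rfl
  intro i _
  rw [ident_interval hφ hw hG hOm]
  ring

/-- Lipschitz control of `φ` differences. -/
lemma phi_sub_abs {φ w : ℝ → ℝ} (hφ : ∀ t, HasDerivAt φ (-w t) t) (hw : Continuous w)
    {La : ℝ} (hw0 : ∀ t, 0 ≤ w t) (hLip : ∀ s t, |w s - w t| ≤ La * |s - t|) (hLa : 0 ≤ La)
    {t r m : ℝ} (hm : |r - t| ≤ m) : |φ t - φ r| ≤ m * (w t + La * m) := by
  have hm0 : 0 ≤ m := (abs_nonneg _).trans hm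
  have hint : ∫ x in t..r, w x = φ t - φ r := by
    have := intervalIntegral.integral_eq_sub_of_hasDerivAt (f := φ) (f' := fun t => -w t)
      (a := t) (b := r) (fun t _ => hφ t) (hw.neg.intervalIntegrable _ _)
    rw [intervalIntegral.integral_neg] at this
    linarith
  rw [← hint]
  have h1 : ‖∫ x in t..r, w x‖ ≤ (w t + La * m) * |r - t| := by
    apply intervalIntegral.norm_integral_le_of_norm_le_const
    intro x hx
    rw [Real.norm_eq_abs, abs_of_nonneg (hw0 x)]
    have h2 := hLip x t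
    have h3 : |x - t| ≤ |r - t| := by
      rw [uIoc_eq_union] at hx
      rcases hx with hx | hx
      · rw [abs_of_nonneg (by linarith [hx.1]), abs_of_nonneg (by linarith [hx.1, hx.2])]
        linarith [hx.2]
      · rw [abs_of_nonpos (by linarith [hx.2]), abs_of_nonpos (by linarith [hx.1, hx.2])]
        linarith [hx.1]
    have h4 : w x - w t ≤ La * |x - t| := (le_abs_self _).trans h2
    have h5 : La * |x - t| ≤ La * m := mul_le_mul_of_nonneg_left (h3.trans hm) hLa
    linarith
  rw [Real.norm_eq_abs] at h1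
  refine h1.trans ?_
  have h6 : 0 ≤ w t + La * m := add_nonneg (hw0 t) (mul_nonneg hLa hm0)
  rw [mul_comm]
  exact mul_le_mul_of_nonneg_right hm h6

/-- velocity-weighted function: `Ω_F = φ F` except on the short layers, which move rigidly with
velocity `φ(centre)`. -/
noncomputable def omv {ι : Type*} (φ : ℝ → ℝ) (S : Finset ι) (c A B : ι → ℝ) (F : ℝ → ℝ) (t : ℝ) :
    ℝ :=
  φ t * (F t - st S c A B t) + st S (fun i => c i * φ ((A i + B i) / 2)) A B t

lemma loc_omv {ι : Type*} {φ : ℝ → ℝ} (hφc : Continuous φ) (S : Finset ι) (c A B : ι → ℝ)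
    {F : ℝ → ℝ} (hF : LocallyIntegrable F volume) :
    LocallyIntegrable (omv φ S c A B F) volume := by
  unfold omv
  exact ((hF.sub (loc_st S c A B)).continuous_mul hφc).add (loc_st S _ A B)

/-- pointwise bound behind the `z` bound -/
lemma omv_diff_abs {ι : Type*} {φ w : ℝ → ℝ} (hφ : ∀ t, HasDerivAt φ (-w t) t)
    (hw : Continuous w) {La : ℝ} (hw0 : ∀ t, 0 ≤ w t)
    (hLip : ∀ s t, |w s - w t| ≤ La * |s - t|) (hLa : 0 ≤ La) (S : Finset ι) (c A B : ι → ℝ)
    (hc : ∀ i ∈ S, 0 ≤ c i) {η ρ : ℝ} (hη : 0 ≤ η)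
    (hsh : ∀ i ∈ S, B i - A i ≤ η) {F : ℝ → ℝ} (hFS : ∀ t, st S c A B t ≤ F t)
    {t s : ℝ} (hts : |s - t| ≤ ρ) :
    |φ t * F s - omv φ S c A B F s| ≤ (η / 2 + ρ) * (w t + La * (η / 2 + ρ)) * F s := by
  have hρ : 0 ≤ ρ := (abs_nonneg _).trans hts
  set K := (η / 2 + ρ) * (w t + La * (η / 2 + ρ)) with hK
  have e : φ t * F s - omv φ S c A B F s
      = (φ t - φ s) * (F s - st S c A B s)
        + ∑ i ∈ S, (Ico (A i) (B i)).indicator (fun _ => c i * (φ t - φ ((A i + B i) / 2))) s := by
    have e1 : ∑ i ∈ S, (Ico (A i) (B i)).indicator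
          (fun _ => c i * (φ t - φ ((A i + B i) / 2))) s
        = φ t * st S c A B s - st S (fun i => c i * φ ((A i + B i) / 2)) A B s := by
      unfold st
      rw [Finset.mul_sum, ← Finset.sum_sub_distrib]
      apply Finset.sum_congr rfl
      intro i _
      by_cases h : s ∈ Ico (A i) (B i)
      · simp [h]; ring
      · simp [h]
    rw [e1]; unfold omv; ring
  rw [e]
  have h1 : |(φ t - φ s) * (F s - st S c A B s)| ≤ K * (F s - st S c A B s) := by
    rw [abs_mul, abs_of_nonneg (sub_nonneg.mpr (hFS s))]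
    apply mul_le_mul_of_nonneg_right _ (sub_nonneg.mpr (hFS s))
    rw [hK]
    apply phi_sub_abs hφ hw hw0 hLip hLa
    linarith
  have h2 : |∑ i ∈ S, (Ico (A i) (B i)).indicator
        (fun _ => c i * (φ t - φ ((A i + B i) / 2))) s| ≤ K * st S c A B s := by
    refine (Finset.abs_sum_le_sum_abs _ _).trans ?_
    unfold st
    rw [Finset.mul_sum]
    apply Finset.sum_le_sum
    intro i hi
    by_cases h : s ∈ Ico (A i) (B i)
    · simp only [h, indicator_of_mem]
      rw [abs_mul, abs_of_nonneg (hc i hi), mul_comm]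
      apply mul_le_mul_of_nonneg_right _ (hc i hi)
      rw [hK]
      apply phi_sub_abs hφ hw hw0 hLip hLa
      have hm : |(A i + B i) / 2 - s| ≤ η / 2 := by
        have := hsh i hi
        rw [abs_le]; constructor <;> linarith [h.1, h.2]
      calc |(A i + B i) / 2 - t| = |((A i + B i) / 2 - s) + (s - t)| := by ring_nf
        _ ≤ |(A i + B i) / 2 - s| + |s - t| := abs_add_le _ _
        _ ≤ η / 2 + ρ := by linarith
    · simp [h]
  calc |(φ t - φ s) * (F s - st S c A B s) + ∑ i ∈ S, (Ico (A i) (B i)).indicator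
          (fun _ => c i * (φ t - φ ((A i + B i) / 2))) s|
      ≤ |(φ t - φ s) * (F s - st S c A B s)| + |∑ i ∈ S, (Ico (A i) (B i)).indicator
          (fun _ => c i * (φ t - φ ((A i + B i) / 2))) s| := abs_add_le _ _
    _ ≤ K * (F s - st S c A B s) + K * st S c A B s := add_le_add h1 h2
    _ = K * F s := by ring

/-- far from the support of `w` the difference vanishes -/
lemma omv_diff_zero {ι : Type*} {φ : ℝ → ℝ} (S : Finset ι) (c A B : ι → ℝ)
    {η ρ : ℝ} (hη : 0 ≤ η)
    (hsh : ∀ i ∈ S, B i - A i ≤ η) {F : ℝ → ℝ}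
    {t s : ℝ} (hts : |s - t| ≤ ρ) (hcon : ∀ r, |r - t| ≤ η / 2 + ρ → φ r = φ t) :
    φ t * F s - omv φ S c A B F s = 0 := by
  have hs : φ s = φ t := hcon s (by linarith)
  have e1 : st S (fun i => c i * φ ((A i + B i) / 2)) A B s = φ t * st S c A B s := by
    unfold st
    rw [Finset.mul_sum]
    apply Finset.sum_congr rfl
    intro i hi
    by_cases h : s ∈ Ico (A i) (B i)
    · simp only [h, indicator_of_mem]
      rw [hcon]
      · ring
      have hm : |(A i + B i) / 2 - s| ≤ η / 2 := by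
        have := hsh i hi
        rw [abs_le]; constructor <;> linarith [h.1, h.2]
      calc |(A i + B i) / 2 - t| = |((A i + B i) / 2 - s) + (s - t)| := by ring_nf
        _ ≤ |(A i + B i) / 2 - s| + |s - t| := abs_add_le _ _
        _ ≤ η / 2 + ρ := by linarith
    · simp [h]
  unfold omv
  rw [e1, hs]; ring

lemma bx_nonneg {ρ : ℝ} (hρ : 0 ≤ ρ) {G : ℝ → ℝ} (hG : ∀ t, 0 ≤ G t) (t : ℝ) :
    0 ≤ bx ρ G t :=
  intervalIntegral.integral_nonneg (by linarith) fun s _ => hG s

lemma bx_mono {ρ : ℝ} (hρ : 0 ≤ ρ) {G H : ℝ → ℝ} (hG : LocallyIntegrable G volume)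
    (hH : LocallyIntegrable H volume) (h : ∀ t, G t ≤ H t) (t : ℝ) :
    bx ρ G t ≤ bx ρ H t :=
  intervalIntegral.integral_mono_on (by linarith) (ii_of_loc hG _ _) (ii_of_loc hH _ _)
    fun s _ => h s

/-- the weight at an end: `1_R(t) (w(t) + La η)` -/
noncomputable def qw (w : ℝ → ℝ) (La η : ℝ) (R : Set ℝ) (t : ℝ) : ℝ :=
  R.indicator (fun t => w t + La * η) t

lemma qw_nonneg {w : ℝ → ℝ} {La η : ℝ} {R : Set ℝ} (hw0 : ∀ t, 0 ≤ w t) (hLa : 0 ≤ La)
    (hη : 0 ≤ η) (t : ℝ) : 0 ≤ qw w La η R t :=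
  indicator_nonneg (fun t _ => add_nonneg (hw0 t) (mul_nonneg hLa hη)) t

/-- **the `z` bound.** -/
theorem zz_abs {ι : Type*} {φ w : ℝ → ℝ} (hφ : ∀ t, HasDerivAt φ (-w t) t)
    (hw : Continuous w) {La : ℝ} (hw0 : ∀ t, 0 ≤ w t)
    (hLip : ∀ s t, |w s - w t| ≤ La * |s - t|) (hLa : 0 ≤ La) (S : Finset ι) (c A B : ι → ℝ)
    (hc : ∀ i ∈ S, 0 ≤ c i) {η ρ : ℝ} (hη : 0 ≤ η) (hρ : 0 ≤ ρ) (hρη : ρ ≤ η / 2)
    (hsh : ∀ i ∈ S, B i - A i ≤ η) {F : ℝ → ℝ} (hF : LocallyIntegrable F volume)
    (hFS : ∀ t, st S c A B t ≤ F t) {R : Set ℝ}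
    (hR : ∀ t, t ∉ R → ∀ r, |r - t| ≤ η → φ r = φ t) (t : ℝ) :
    |zz ρ φ F (omv φ S c A B F) t| ≤ η * qw w La η R t * bx ρ F t := by
  have hφc : Continuous φ := continuous_iff_continuousAt.mpr fun t => (hφ t).continuousAt
  have hF0 : ∀ t, 0 ≤ F t := fun t => (st_nonneg hc t).trans (hFS t)
  have hOm := loc_omv hφc S c A B hF
  have hii1 : IntervalIntegrable (fun s => φ t * F s - omv φ S c A B F s) volume
      (t - ρ) (t + ρ) := ((ii_of_loc hF _ _).const_mul _).sub (ii_of_loc hOm _ _)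
  by_cases ht : t ∈ R
  · have h1 : |zz ρ φ F (omv φ S c A B F) t|
        ≤ ∫ s in (t - ρ)..(t + ρ), |φ t * F s - omv φ S c A B F s| := by
      unfold zz
      exact intervalIntegral.abs_integral_le_integral_abs (by linarith)
    have h2 : ∫ s in (t - ρ)..(t + ρ), |φ t * F s - omv φ S c A B F s|
        ≤ ∫ s in (t - ρ)..(t + ρ), (η * (w t + La * η)) * F s := by
      apply intervalIntegral.integral_mono_on (by linarith) hii1.abs
        ((ii_of_loc hF _ _).const_mul _)
      intro s hs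
      have hts : |s - t| ≤ ρ := by rw [abs_le]; constructor <;> linarith [hs.1, hs.2]
      refine (omv_diff_abs hφ hw hw0 hLip hLa S c A B hc hη hsh hFS hts).trans ?_
      apply mul_le_mul_of_nonneg_right _ (hF0 s)
      have h3 : η / 2 + ρ ≤ η := by linarith
      have h4 : 0 ≤ η / 2 + ρ := by linarith
      have h5 : La * (η / 2 + ρ) ≤ La * η := mul_le_mul_of_nonneg_left h3 hLa
      have h6 : 0 ≤ La * (η / 2 + ρ) := mul_nonneg hLa h4
      apply mul_le_mul h3 (by linarith) (add_nonneg (hw0 t) h6) hη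
    rw [intervalIntegral.integral_const_mul] at h2
    unfold qw
    rw [indicator_of_mem ht]
    exact h1.trans h2
  · have h1 : zz ρ φ F (omv φ S c A B F) t = 0 := by
      unfold zz
      rw [intervalIntegral.integral_congr (g := fun _ => (0:ℝ)), intervalIntegral.integral_zero]
      intro s hs
      rw [uIcc_of_le (by linarith)] at hs
      have hts : |s - t| ≤ ρ := by rw [abs_le]; constructor <;> linarith [hs.1, hs.2]
      exact omv_diff_zero S c A B hη hsh hts fun r hr => hR t ht r (hr.trans (by linarith))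
    rw [h1, abs_zero]
    unfold qw
    rw [indicator_of_notMem ht]
    simp

/-! ### the bilinear form `D_ρ` -/

/-- `D_ρ((F,Ω_F),(G,Ω_G))` for two densities moving with velocities `Ω_F/F`, `Ω_G/G` -/
noncomputable def DD (ρ : ℝ) (F OF G OG : ℝ → ℝ) : ℝ :=
  (∫ t, (OF t * G (t + ρ) - F t * OG (t + ρ))) - ∫ t, (OF t * G (t - ρ) - F t * OG (t - ρ))

lemma DD_left {ι : Type*} (S : Finset ι) (c A B : ι → ℝ) {φ G OG : ℝ → ℝ}
    (hφc : Continuous φ) (hG : LocallyIntegrable G volume) (hOG : LocallyIntegrable OG volume)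
    (ρ : ℝ) :
    DD ρ (st S c A B) (fun t => φ t * st S c A B t) G OG = hf ρ φ (st S c A B) G OG ∧
    Integrable (fun t => φ t * st S c A B t * G (t + ρ) - st S c A B t * OG (t + ρ)) volume ∧
    Integrable (fun t => φ t * st S c A B t * G (t - ρ) - st S c A B t * OG (t - ρ)) volume := by
  have e1 : (fun t => φ t * st S c A B t * G (t + ρ) - st S c A B t * OG (t + ρ))
      = fun t => st S c A B t * (φ t * G (t + ρ) - OG (t + ρ)) := by
    funext t; ring
  have e2 : (fun t => φ t * st S c A B t * G (t - ρ) - st S c A B t * OG (t - ρ))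
      = fun t => st S c A B t * (φ t * G (t - ρ) - OG (t - ρ)) := by
    funext t; ring
  have l1 : LocallyIntegrable (fun t => φ t * G (t + ρ) - OG (t + ρ)) volume :=
    ((loc_shift hG ρ).continuous_mul hφc).sub (loc_shift hOG ρ)
  have l2 : LocallyIntegrable (fun t => φ t * G (t - ρ) - OG (t - ρ)) volume :=
    ((loc_shift_sub hG ρ).continuous_mul hφc).sub (loc_shift_sub hOG ρ)
  have i1 := integrable_st_mul S c A B l1
  have i2 := integrable_st_mul S c A B l2
  refine ⟨?_, e1 ▸ i1, e2 ▸ i2⟩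
  unfold DD hf
  rw [e1, e2, ← integral_sub i1 i2]
  apply integral_congr_ae
  filter_upwards with t
  ring

lemma DD_right {ι : Type*} (S : Finset ι) (c A B : ι → ℝ) {φ F OF : ℝ → ℝ}
    (hφc : Continuous φ) (hF : LocallyIntegrable F volume) (hOF : LocallyIntegrable OF volume)
    (ρ : ℝ) :
    DD ρ F OF (st S c A B) (fun t => φ t * st S c A B t) = hf ρ φ (st S c A B) F OF ∧
    Integrable (fun t => OF t * st S c A B (t + ρ) - F t * (φ (t + ρ) * st S c A B (t + ρ)))
      volume ∧
    Integrable (fun t => OF t * st S c A B (t - ρ) - F t * (φ (t - ρ) * st S c A B (t - ρ)))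
      volume := by
  have l1 : LocallyIntegrable (fun s => OF (s - ρ) - φ s * F (s - ρ)) volume :=
    (loc_shift_sub hOF ρ).sub ((loc_shift_sub hF ρ).continuous_mul hφc)
  have l2 : LocallyIntegrable (fun s => OF (s + ρ) - φ s * F (s + ρ)) volume :=
    (loc_shift hOF ρ).sub ((loc_shift hF ρ).continuous_mul hφc)
  have i1 := integrable_st_mul S c A B l1
  have i2 := integrable_st_mul S c A B l2
  have e1 : (fun t => OF t * st S c A B (t + ρ) - F t * (φ (t + ρ) * st S c A B (t + ρ)))
      = fun t => (fun s => st S c A B s * (OF (s - ρ) - φ s * F (s - ρ))) (t + ρ) := by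
    funext t
    simp only [add_sub_cancel_right]
    ring
  have e2 : (fun t => OF t * st S c A B (t - ρ) - F t * (φ (t - ρ) * st S c A B (t - ρ)))
      = fun t => (fun s => st S c A B s * (OF (s + ρ) - φ s * F (s + ρ))) (t - ρ) := by
    funext t
    simp only [sub_add_cancel]
    ring
  have j1 := i1.comp_add_right ρ
  have j2 := i2.comp_sub_right ρ
  refine ⟨?_, e1 ▸ j1, e2 ▸ j2⟩
  unfold DD hf
  rw [e1, e2, integral_add_right_eq_self (fun s => st S c A B s * (OF (s - ρ) - φ s * F (s - ρ))) ρ,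
    integral_sub_right_eq_self (fun s => st S c A B s * (OF (s + ρ) - φ s * F (s + ρ))) ρ,
    ← integral_sub i1 i2]
  apply integral_congr_ae
  filter_upwards with t
  ring

lemma int4 {f1 f2 f3 f4 g : ℝ → ℝ} (h1 : Integrable f1 volume) (h2 : Integrable f2 volume)
    (h3 : Integrable f3 volume) (h4 : Integrable f4 volume)
    (hg : ∀ t, g t = f1 t - f2 t - f3 t + f4 t) :
    ∫ t, g t = (∫ t, f1 t) - (∫ t, f2 t) - (∫ t, f3 t) + ∫ t, f4 t := by
  have h12 : Integrable (fun t => f1 t - f2 t) volume := h1.sub h2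
  have h123 : Integrable (fun t => f1 t - f2 t - f3 t) volume := h12.sub h3
  rw [← integral_sub h1 h2, ← integral_sub h12 h3, ← integral_add h123 h4]
  exact integral_congr_ae (Filter.Eventually.of_forall hg)

/-- decomposition `D = D' + D^{L*} + D^{*L} - D^{LL}` -/
theorem DD_decomp {ι κ : Type*} (S : Finset ι) (c A B : ι → ℝ) (T : Finset κ) (d A' B' : κ → ℝ)
    {φ F OF G OG : ℝ → ℝ} (hφc : Continuous φ)
    (hF : LocallyIntegrable F volume) (hOF : LocallyIntegrable OF volume)
    (hG : LocallyIntegrable G volume) (hOG : LocallyIntegrable OG volume) (ρ : ℝ)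
    (hI1 : Integrable (fun t => OF t * G (t + ρ) - F t * OG (t + ρ)) volume)
    (hI2 : Integrable (fun t => OF t * G (t - ρ) - F t * OG (t - ρ)) volume) :
    DD ρ F OF G OG
      = DD ρ (fun t => F t - st S c A B t) (fun t => OF t - φ t * st S c A B t)
          (fun t => G t - st T d A' B' t) (fun t => OG t - φ t * st T d A' B' t)
        + hf ρ φ (st S c A B) G OG + hf ρ φ (st T d A' B') F OF
        - hf ρ φ (st S c A B) (st T d A' B') (fun t => φ t * st T d A' B' t) := by
  obtain ⟨a1, a2, a3⟩ := DD_left S c A B hφc hG hOG ρ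
  obtain ⟨b1, b2, b3⟩ := DD_right T d A' B' hφc hF hOF ρ
  have hT := loc_st T d A' B'
  have hφT : LocallyIntegrable (fun t => φ t * st T d A' B' t) volume := hT.continuous_mul hφc
  obtain ⟨c1, c2, c3⟩ := DD_left S c A B hφc hT hφT ρ
  rw [← a1, ← b1, ← c1]
  unfold DD
  have e1 : ∫ t, ((OF t - φ t * st S c A B t) * (G (t + ρ) - st T d A' B' (t + ρ))
        - (F t - st S c A B t) * (OG (t + ρ) - φ (t + ρ) * st T d A' B' (t + ρ)))
      = (∫ t, (OF t * G (t + ρ) - F t * OG (t + ρ)))
        - (∫ t, (φ t * st S c A B t * G (t + ρ) - st S c A B t * OG (t + ρ)))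
        - (∫ t, (OF t * st T d A' B' (t + ρ) - F t * (φ (t + ρ) * st T d A' B' (t + ρ))))
        + ∫ t, (φ t * st S c A B t * st T d A' B' (t + ρ)
            - st S c A B t * (φ (t + ρ) * st T d A' B' (t + ρ))) := by
    exact int4 hI1 a2 b2 c2 fun t => by ring
  have e2 : ∫ t, ((OF t - φ t * st S c A B t) * (G (t - ρ) - st T d A' B' (t - ρ))
        - (F t - st S c A B t) * (OG (t - ρ) - φ (t - ρ) * st T d A' B' (t - ρ)))
      = (∫ t, (OF t * G (t - ρ) - F t * OG (t - ρ)))
        - (∫ t, (φ t * st S c A B t * G (t - ρ) - st S c A B t * OG (t - ρ)))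
        - (∫ t, (OF t * st T d A' B' (t - ρ) - F t * (φ (t - ρ) * st T d A' B' (t - ρ))))
        + ∫ t, (φ t * st S c A B t * st T d A' B' (t - ρ)
            - st S c A B t * (φ (t - ρ) * st T d A' B' (t - ρ))) := by
    exact int4 hI2 a3 b3 c3 fun t => by ring
  rw [e1, e2]
  ring

/-- end sums -/
noncomputable def ends {ι : Type*} (S : Finset ι) (c A B : ι → ℝ) (g : ℝ → ℝ) : ℝ :=
  ∑ i ∈ S, c i * (g (A i) + g (B i))

lemma hf_st_ge {ι : Type*} (S : Finset ι) (c A B : ι → ℝ) (hAB : ∀ i ∈ S, A i ≤ B i)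
    (hc : ∀ i ∈ S, 0 ≤ c i)
    {φ w G Om : ℝ → ℝ} (hφ : ∀ t, HasDerivAt φ (-w t) t) (hw : Continuous w)
    (hG : LocallyIntegrable G volume) (hOm : LocallyIntegrable Om volume) (ρ : ℝ)
    {q : ℝ → ℝ} (hq : ∀ t, |zz ρ φ G Om t| ≤ q t) :
    |hf ρ φ (st S c A B) G Om - ∫ t, w t * st S c A B t * bx ρ G t| ≤ ends S c A B q := by
  rw [hf_st S c A B hAB hφ hw hG hOm, add_sub_cancel_left]
  refine (Finset.abs_sum_le_sum_abs _ _).trans ?_
  unfold ends
  apply Finset.sum_le_sum
  intro i hi
  rw [abs_mul, abs_of_nonneg (hc i hi)]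
  apply mul_le_mul_of_nonneg_left _ (hc i hi)
  calc |zz ρ φ G Om (B i) - zz ρ φ G Om (A i)|
      ≤ |zz ρ φ G Om (B i)| + |zz ρ φ G Om (A i)| := abs_sub _ _
    _ ≤ q (A i) + q (B i) := by linarith [hq (A i), hq (B i)]

lemma ends_mono {ι : Type*} {S : Finset ι} {c A B : ι → ℝ} (hc : ∀ i ∈ S, 0 ≤ c i)
    {g h : ℝ → ℝ} (hgh : ∀ t, g t ≤ h t) : ends S c A B g ≤ ends S c A B h := by
  unfold ends
  apply Finset.sum_le_sum
  intro i hi
  exact mul_le_mul_of_nonneg_left (add_le_add (hgh _) (hgh _)) (hc i hi)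

lemma ends_const_mul {ι : Type*} (S : Finset ι) (c A B : ι → ℝ) (k : ℝ) (g : ℝ → ℝ) :
    ends S c A B (fun t => k * g t) = k * ends S c A B g := by
  unfold ends
  rw [Finset.mul_sum]
  apply Finset.sum_congr rfl
  intro i _
  ring

lemma omv_empty {ι : Type*} (φ : ℝ → ℝ) (c A B : ι → ℝ) (F : ℝ → ℝ) :
    omv φ ∅ c A B F = fun t => φ t * F t := by
  funext t; simp [omv, st]

lemma omv_sub {ι : Type*} (φ : ℝ → ℝ) (S : Finset ι) (c A B : ι → ℝ) (F H : ℝ → ℝ) (t : ℝ) :
    omv φ S c A B (fun t => F t - H t) t = omv φ S c A B F t - φ t * H t := by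
  simp only [omv]; ring

/-- **STEP R, one `(θ, θ', ρ)`.**  `F ≥ F^S + F^L`, `G ≥ G^S + G^L` (short layers move rigidly with
velocity `φ(centre)`, everything else with velocity `φ(t)`); `hpos` = positivity of the remaining
part. -/
theorem stepR1 {ι κ : Type*} {φ w : ℝ → ℝ} (hφ : ∀ t, HasDerivAt φ (-w t) t)
    (hw : Continuous w) {La : ℝ} (hw0 : ∀ t, 0 ≤ w t)
    (hLip : ∀ s t, |w s - w t| ≤ La * |s - t|) (hLa : 0 ≤ La)
    {η ρ : ℝ} (hη : 0 ≤ η) (hρ : 0 ≤ ρ) (hρη : ρ ≤ η / 2) {R : Set ℝ}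
    (hR : ∀ t, t ∉ R → ∀ r, |r - t| ≤ η → φ r = φ t)
    (SF LF : Finset ι) (c A B : ι → ℝ) (hcS : ∀ i ∈ SF, 0 ≤ c i) (hcL : ∀ i ∈ LF, 0 ≤ c i)
    (hsh : ∀ i ∈ SF, B i - A i ≤ η) (hAB : ∀ i ∈ LF, A i ≤ B i)
    (SG LG : Finset κ) (d A' B' : κ → ℝ) (hdS : ∀ i ∈ SG, 0 ≤ d i) (hdL : ∀ i ∈ LG, 0 ≤ d i)
    (hsh' : ∀ i ∈ SG, B' i - A' i ≤ η) (hAB' : ∀ i ∈ LG, A' i ≤ B' i)
    {F G : ℝ → ℝ} (hF : LocallyIntegrable F volume) (hG : LocallyIntegrable G volume)
    (hFS : ∀ t, st SF c A B t + st LF c A B t ≤ F t)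
    (hGS : ∀ t, st SG d A' B' t + st LG d A' B' t ≤ G t)
    (hI1 : Integrable (fun t => omv φ SF c A B F t * G (t + ρ)
      - F t * omv φ SG d A' B' G (t + ρ)) volume)
    (hI2 : Integrable (fun t => omv φ SF c A B F t * G (t - ρ)
      - F t * omv φ SG d A' B' G (t - ρ)) volume)
    (hpos : 0 ≤ DD ρ (fun t => F t - st LF c A B t)
      (omv φ SF c A B (fun t => F t - st LF c A B t))
      (fun t => G t - st LG d A' B' t) (omv φ SG d A' B' (fun t => G t - st LG d A' B' t))) :
    (∫ t, w t * st LF c A B t * bx ρ G t) + (∫ t, w t * st LG d A' B' t * bx ρ F t)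
      - (∫ t, w t * st LF c A B t * bx ρ (st LG d A' B') t)
      - η * (2 * ends LF c A B (fun y => qw w La η R y * bx ρ G y)
        + ends LG d A' B' (fun y => qw w La η R y * bx ρ F y))
    ≤ DD ρ F (omv φ SF c A B F) G (omv φ SG d A' B' G) := by
  have hφc : Continuous φ := continuous_iff_continuousAt.mpr fun t => (hφ t).continuousAt
  have hOF := loc_omv hφc SF c A B hF
  have hOG := loc_omv hφc SG d A' B' hG
  have hGL := loc_st LG d A' B'
  have hφGL : LocallyIntegrable (fun t => φ t * st LG d A' B' t) volume :=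
    hGL.continuous_mul hφc
  have hFL0 : ∀ t, 0 ≤ st LF c A B t := st_nonneg hcL
  have hGL0 : ∀ t, 0 ≤ st LG d A' B' t := st_nonneg hdL
  have hFS0 : ∀ t, 0 ≤ st SF c A B t := st_nonneg hcS
  have hGS0 : ∀ t, 0 ≤ st SG d A' B' t := st_nonneg hdS
  have hdec := DD_decomp LF c A B LG d A' B' hφc hF hOF hG hOG ρ hI1 hI2
  have eF : omv φ SF c A B (fun t => F t - st LF c A B t)
      = fun t => omv φ SF c A B F t - φ t * st LF c A B t := by
    funext t; exact omv_sub φ SF c A B F _ t
  have eG : omv φ SG d A' B' (fun t => G t - st LG d A' B' t)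
      = fun t => omv φ SG d A' B' G t - φ t * st LG d A' B' t := by
    funext t; exact omv_sub φ SG d A' B' G _ t
  rw [eF, eG] at hpos
  -- z bounds
  have z1 : ∀ t, |zz ρ φ G (omv φ SG d A' B' G) t| ≤ η * (qw w La η R t * bx ρ G t) := by
    intro t
    have := zz_abs hφ hw hw0 hLip hLa SG d A' B' hdS hη hρ hρη hsh' hG
      (fun t => by linarith [hGS t, hGL0 t]) hR t
    linarith
  have z2 : ∀ t, |zz ρ φ F (omv φ SF c A B F) t| ≤ η * (qw w La η R t * bx ρ F t) := by
    intro t
    have := zz_abs hφ hw hw0 hLip hLa SF c A B hcS hη hρ hρη hsh hF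
      (fun t => by linarith [hFS t, hFL0 t]) hR t
    linarith
  have z3 : ∀ t, |zz ρ φ (st LG d A' B') (fun t => φ t * st LG d A' B' t) t|
      ≤ η * (qw w La η R t * bx ρ G t) := by
    intro t
    have h := zz_abs hφ hw hw0 hLip hLa (∅ : Finset κ) d A' B' (by simp) hη hρ hρη
      (by simp) hGL (fun t => by simpa [st] using hGL0 t) hR t
    rw [omv_empty] at h
    refine h.trans ?_
    have h2 : bx ρ (st LG d A' B') t ≤ bx ρ G t :=
      bx_mono hρ hGL hG (fun t => by linarith [hGS t, hGS0 t]) t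
    have h3 : 0 ≤ η * qw w La η R t := mul_nonneg hη (qw_nonneg hw0 hLa hη t)
    calc η * qw w La η R t * bx ρ (st LG d A' B') t ≤ η * qw w La η R t * bx ρ G t :=
          mul_le_mul_of_nonneg_left h2 h3
      _ = η * (qw w La η R t * bx ρ G t) := by ring
  have h1 := hf_st_ge LF c A B hAB hcL hφ hw hG hOG ρ z1
  have h2 := hf_st_ge LG d A' B' hAB' hdL hφ hw hF hOF ρ z2
  have h3 := hf_st_ge LF c A B hAB hcL hφ hw hGL hφGL ρ z3
  rw [ends_const_mul] at h1 h2 h3
  have h1' := (abs_le.mp h1).1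
  have h2' := (abs_le.mp h2).1
  have h3' := (abs_le.mp h3).2
  rw [hdec]
  linarith

end Crest.Agent.R077.StepR1
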