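import Crest.Agent.R077.LayersMeas
import Crest.Agent.R077.Iface

set_option autoImplicit false

open MeasureTheory Set

namespace Crest.Agent.R077.TV

/-- pointwise comparison behind the end bounds. -/
theorem tv_point {w : ℝ → ℝ} {La β y t de eta : ℝ} (hLa : 0 ≤ La) (hw0 : ∀ t, 0 ≤ w t)
    (hwL : ∀ s t, |w s - w t| ≤ La * |s - t|) (heta0 : 0 ≤ eta) (heta : eta ≤ de)
    (hyt : |y - t| ≤ de) :
    (w y + 2 * La * eta) * Real.exp (-β * y) ≤
      Real.exp (|β| * de) * ((w t + 3 * La * de) * Real.exp (-β * t)) := by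
  have hde : 0 ≤ de := le_trans heta0 heta
  have h1 : w y ≤ w t + La * de := by
    have := (abs_le.mp (hwL y t)).2
    have h2 : La * |y - t| ≤ La * de := mul_le_mul_of_nonneg_left hyt hLa
    linarith
  have h2 : w y + 2 * La * eta ≤ w t + 3 * La * de := by nlinarith
  have h3 : Real.exp (-β * y) ≤ Real.exp (|β| * de) * Real.exp (-β * t) := by
    rw [← Real.exp_add]
    apply Real.exp_le_exp.mpr
    have h4 : β * (t - y) ≤ |β| * de := by
      calc β * (t - y) ≤ |β * (t - y)| := le_abs_self _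
        _ = |β| * |y - t| := by rw [abs_mul, abs_sub_comm]
        _ ≤ |β| * de := mul_le_mul_of_nonneg_left hyt (abs_nonneg _)
    nlinarith
  have h5 : 0 ≤ w t + 3 * La * de := by have := hw0 t; positivity
  calc (w y + 2 * La * eta) * Real.exp (-β * y)
      ≤ (w t + 3 * La * de) * Real.exp (-β * y) :=
        mul_le_mul_of_nonneg_right h2 (Real.exp_nonneg _)
    _ ≤ (w t + 3 * La * de) * (Real.exp (|β| * de) * Real.exp (-β * t)) :=
        mul_le_mul_of_nonneg_left h3 h5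
    _ = _ := by ring

theorem continuous_of_lip {w : ℝ → ℝ} {La : ℝ}
    (hwL : ∀ s t, |w s - w t| ≤ La * |s - t|) : Continuous w := by
  have hLa : 0 ≤ La := by
    have := hwL 1 0
    have h2 := abs_nonneg (w 1 - w 0)
    norm_num at this
    linarith
  have : LipschitzWith (Real.toNNReal La) w := by
    apply LipschitzWith.of_dist_le_mul
    intro s t
    rw [Real.dist_eq, Real.dist_eq, Real.coe_toNNReal _ hLa]
    exact hwL s t
  exact this.continuous

/-- An end `y` of an interval `[u,v]` (`y = u` or `y = v`, or any point of it) is paid by any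
subinterval of length `D = v - u ≤ de`. -/
theorem tv_end {w : ℝ → ℝ} {La β y u v de eta : ℝ} (hLa : 0 ≤ La) (hw0 : ∀ t, 0 ≤ w t)
    (hwL : ∀ s t, |w s - w t| ≤ La * |s - t|) (heta0 : 0 ≤ eta) (heta : eta ≤ de)
    (huv : u ≤ v) (hD : v - u ≤ de) (hy : y ∈ Icc u v) :
    (v - u) * ((w y + 2 * La * eta) * Real.exp (-β * y)) ≤
      Real.exp (|β| * de) * ∫ t in u..v, (w t + 3 * La * de) * Real.exp (-β * t) := by
  have hwc : Continuous w := continuous_of_lip hwL
  have h0 : ∫ _t in u..v, (w y + 2 * La * eta) * Real.exp (-β * y)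
      = (v - u) * ((w y + 2 * La * eta) * Real.exp (-β * y)) := by
    rw [intervalIntegral.integral_const, smul_eq_mul]
  rw [← h0, ← intervalIntegral.integral_const_mul]
  apply intervalIntegral.integral_mono_on huv
  · exact intervalIntegrable_const
  · apply Continuous.intervalIntegrable
    fun_prop
  intro t ht
  apply tv_point hLa hw0 hwL heta0 heta
  rw [abs_le]
  constructor <;> linarith [ht.1, ht.2, hy.1, hy.2]

/-- Both ends of a run, with `D = min (length) de`. -/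
theorem tv_run {w : ℝ → ℝ} {La β y1 y2 de eta D : ℝ} (hLa : 0 ≤ La) (hw0 : ∀ t, 0 ≤ w t)
    (hwL : ∀ s t, |w s - w t| ≤ La * |s - t|) (heta0 : 0 ≤ eta) (heta : eta ≤ de)
    (hD0 : 0 ≤ D) (hD : D ≤ de) (hDl : D ≤ y2 - y1) :
    D * ((w y1 + 2 * La * eta) * Real.exp (-β * y1) +
        (w y2 + 2 * La * eta) * Real.exp (-β * y2)) ≤
      2 * Real.exp (|β| * de) * ∫ t in y1..y2, (w t + 3 * La * de) * Real.exp (-β * t) := by
  have hde : 0 ≤ de := le_trans heta0 heta
  have hwc : Continuous w := continuous_of_lip hwL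
  have hint : ∀ p q : ℝ, IntervalIntegrable
      (fun t => (w t + 3 * La * de) * Real.exp (-β * t)) volume p q := by
    intro p q
    apply Continuous.intervalIntegrable
    fun_prop
  have hnn : ∀ t, 0 ≤ (w t + 3 * La * de) * Real.exp (-β * t) := by
    intro t
    have := hw0 t
    positivity
  have h1 := tv_end (β := β) (y := y1) (u := y1) (v := y1 + D) hLa hw0 hwL heta0 heta (by linarith)
    (by linarith) ⟨le_refl _, by linarith⟩
  have h2 := tv_end (β := β) (y := y2) (u := y2 - D) (v := y2) hLa hw0 hwL heta0 heta (by linarith)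
    (by linarith) ⟨by linarith, le_refl _⟩
  have h3 : ∫ t in y1..(y1 + D), (w t + 3 * La * de) * Real.exp (-β * t) ≤
      ∫ t in y1..y2, (w t + 3 * La * de) * Real.exp (-β * t) := by
    apply intervalIntegral.integral_mono_interval (le_refl _) (by linarith) (by linarith)
    · exact Filter.Eventually.of_forall hnn
    · exact hint _ _
  have h4 : ∫ t in (y2 - D)..y2, (w t + 3 * La * de) * Real.exp (-β * t) ≤
      ∫ t in y1..y2, (w t + 3 * La * de) * Real.exp (-β * t) := by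
    apply intervalIntegral.integral_mono_interval (by linarith) (by linarith) (le_refl _)
    · exact Filter.Eventually.of_forall hnn
    · exact hint _ _
  have e0 : 0 ≤ Real.exp (|β| * de) := Real.exp_nonneg _
  have h5 := mul_le_mul_of_nonneg_left h3 e0
  have h6 := mul_le_mul_of_nonneg_left h4 e0
  have e1 : y1 + D - y1 = D := by ring
  have e2 : y2 - (y2 - D) = D := by ring
  rw [e1] at h1
  rw [e2] at h2
  nlinarith

/-- **STEP TV**, abstract form: a finite family `s` of "long at scale `eta`" runs with intervals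
`[y1 i, y2 i]`, level masses `κ i ≥ 0` (`∫ σ^{1/p}` over the levels of the run); `Z1 i`, `Z2 i` are
the end contributions (`rc * ω(y) * V(y)`, `0` when the end is outside the active region); `sd` is
the subfamily of the runs which are long at scale `de`. -/
theorem stepTV_abs {ι : Type} [DecidableEq ι] {w : ℝ → ℝ} {La β de eta CV : ℝ} (s sd : Finset ι)
    (hsd : sd ⊆ s) (y1 y2 κ Z1 Z2 : ι → ℝ) (hLa : 0 ≤ La) (hw0 : ∀ t, 0 ≤ w t)
    (hwL : ∀ s t, |w s - w t| ≤ La * |s - t|) (heta0 : 0 < eta) (heta : eta ≤ de)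
    (hCV : 0 ≤ CV) (hκ : ∀ i ∈ s, 0 ≤ κ i) (hy : ∀ i ∈ s, y1 i ≤ y2 i)
    (hlong : ∀ i ∈ s, i ∉ sd → eta ≤ y2 i - y1 i)
    (hZ1 : ∀ i ∈ s, Z1 i ≤ CV * (κ i * ((w (y1 i) + 2 * La * eta) * Real.exp (-β * y1 i))))
    (hZ2 : ∀ i ∈ s, Z2 i ≤ CV * (κ i * ((w (y2 i) + 2 * La * eta) * Real.exp (-β * y2 i))))
    (hZd : ∀ i ∈ sd, y2 i - y1 i < de → Z1 i ≤ 0 ∧ Z2 i ≤ 0) :
    eta * ∑ i ∈ s, (Z1 i + Z2 i) ≤
      2 * Real.exp (|β| * de) * CV *
        (eta / de * ∑ i ∈ sd, κ i * (∫ t in (y1 i)..(y2 i), (w t + 3 * La * de) * Real.exp (-β * t))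
          + ∑ i ∈ s \ sd, κ i * (∫ t in (y1 i)..(y2 i), (w t + 3 * La * de) * Real.exp (-β * t))) := by
  have hde : 0 < de := lt_of_lt_of_le heta0 heta
  have hInn : ∀ i ∈ s, 0 ≤ ∫ t in (y1 i)..(y2 i), (w t + 3 * La * de) * Real.exp (-β * t) := by
    intro i hi
    apply intervalIntegral.integral_nonneg (hy i hi)
    intro t _
    have := hw0 t
    positivity
  -- pointwise bound for i ∈ sd
  have hA : ∀ i ∈ sd, eta * (Z1 i + Z2 i) ≤ 2 * Real.exp (|β| * de) * CV *
      (eta / de * (κ i * (∫ t in (y1 i)..(y2 i), (w t + 3 * La * de) * Real.exp (-β * t)))) := by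
    intro i hi
    have his := hsd hi
    have hI := hInn i his
    have hk := hκ i his
    by_cases hl : y2 i - y1 i < de
    · have := hZd i hi hl
      have h1 : eta * (Z1 i + Z2 i) ≤ 0 := by nlinarith [this.1, this.2]
      refine le_trans h1 ?_
      positivity
    · have hl' : de ≤ y2 i - y1 i := not_lt.mp hl
      have h1 := tv_run (β := β) hLa hw0 hwL heta0.le heta hde.le (le_refl de) hl'
      have h2 := hZ1 i his
      have h3 := hZ2 i his
      have h4 : Z1 i + Z2 i ≤ CV * κ i * ((w (y1 i) + 2 * La * eta) * Real.exp (-β * y1 i) +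
          (w (y2 i) + 2 * La * eta) * Real.exp (-β * y2 i)) := by nlinarith
      have h5 : (w (y1 i) + 2 * La * eta) * Real.exp (-β * y1 i) +
          (w (y2 i) + 2 * La * eta) * Real.exp (-β * y2 i) ≤ (2 * Real.exp (|β| * de) *
          ∫ t in (y1 i)..(y2 i), (w t + 3 * La * de) * Real.exp (-β * t)) / de := by
        rw [le_div_iff₀ hde]
        linarith
      have h6 : Z1 i + Z2 i ≤ CV * κ i * ((2 * Real.exp (|β| * de) *
          ∫ t in (y1 i)..(y2 i), (w t + 3 * La * de) * Real.exp (-β * t)) / de) :=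
        le_trans h4 (mul_le_mul_of_nonneg_left h5 (by positivity))
      calc eta * (Z1 i + Z2 i) ≤ eta * (CV * κ i * ((2 * Real.exp (|β| * de) *
          ∫ t in (y1 i)..(y2 i), (w t + 3 * La * de) * Real.exp (-β * t)) / de)) :=
            mul_le_mul_of_nonneg_left h6 heta0.le
        _ = _ := by ring
  have hB : ∀ i ∈ s \ sd, eta * (Z1 i + Z2 i) ≤ 2 * Real.exp (|β| * de) * CV *
      (κ i * (∫ t in (y1 i)..(y2 i), (w t + 3 * La * de) * Real.exp (-β * t))) := by
    intro i hi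
    rw [Finset.mem_sdiff] at hi
    have his := hi.1
    have hI := hInn i his
    have hk := hκ i his
    have h1 := tv_run (β := β) hLa hw0 hwL heta0.le heta heta0.le heta (hlong i his hi.2)
    have h2 := hZ1 i his
    have h3 := hZ2 i his
    have h4 : Z1 i + Z2 i ≤ CV * κ i * ((w (y1 i) + 2 * La * eta) * Real.exp (-β * y1 i) +
        (w (y2 i) + 2 * La * eta) * Real.exp (-β * y2 i)) := by nlinarith
    calc eta * (Z1 i + Z2 i) ≤ eta * (CV * κ i *
          ((w (y1 i) + 2 * La * eta) * Real.exp (-β * y1 i) +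
          (w (y2 i) + 2 * La * eta) * Real.exp (-β * y2 i))) :=
            mul_le_mul_of_nonneg_left h4 heta0.le
      _ = CV * κ i * (eta * ((w (y1 i) + 2 * La * eta) * Real.exp (-β * y1 i) +
          (w (y2 i) + 2 * La * eta) * Real.exp (-β * y2 i))) := by ring
      _ ≤ CV * κ i * (2 * Real.exp (|β| * de) *
          ∫ t in (y1 i)..(y2 i), (w t + 3 * La * de) * Real.exp (-β * t)) :=
            mul_le_mul_of_nonneg_left h1 (by positivity)
      _ = _ := by ring
  have hA' := Finset.sum_le_sum hA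
  have hB' := Finset.sum_le_sum hB
  rw [← Finset.mul_sum, ← Finset.mul_sum, ← Finset.mul_sum] at hA'
  rw [← Finset.mul_sum, ← Finset.mul_sum] at hB'
  rw [← Finset.sum_sdiff hsd, mul_add]
  linarith

/-! ## Instantiation on the discrete layers -/

open Layers

/-- nodes of the grid -/
noncomputable def nd' (t0 h : ℝ) (k : ℕ) : ℝ := t0 + k * h

/-- the level mass `∫ σ^{1/p}` of a layer -/
noncomputable def tvκ (x : ℕ → ℝ) (pe : ℝ) (i : ℕ × ℕ) : ℝ := ∫ σ in lay x i, σ ^ (1 / pe)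

/-- primitive of `σ^{1/p}` on `[0,X)` -/
noncomputable def tvP (pe X : ℝ) : ℝ := ∫ σ in Ico 0 X, σ ^ (1 / pe)

theorem tvκ_nonneg {x : ℕ → ℝ} {m : ℕ} (hx : Seq x m) (pe : ℝ) (i : ℕ × ℕ) : 0 ≤ tvκ x pe i := by
  unfold tvκ
  apply setIntegral_nonneg (measurableSet_lay x i)
  intro σ hσ
  have : 0 ≤ σ := by
    have h1 : base x i.1 i.2 ≤ σ := hσ.1
    have h2 : x (i.1 - 1) ≤ base x i.1 i.2 := le_max_left _ _
    exact (hx.nonneg _).trans (h2.trans h1)
  exact Real.rpow_nonneg this _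

theorem integrableOn_rpow_Ico {pe : ℝ} (hpe : 0 < pe) (A B : ℝ) :
    IntegrableOn (fun σ : ℝ => σ ^ (1 / pe)) (Ico A B) := by
  have hc : Continuous fun σ : ℝ => σ ^ (1 / pe) :=
    Real.continuous_rpow_const (by positivity)
  exact (hc.integrableOn_Icc (a := A) (b := B)).mono_set Ico_subset_Icc_self

theorem tvP_xL {x : ℕ → ℝ} {m k : ℕ} (hx : Seq x m) {Lg : ℕ × ℕ → Prop} [DecidablePred Lg]
    (hL : UpClosed Lg m) {pe : ℝ} (hpe : 0 < pe) :
    tvP pe (xL Lg x m k) = ∑ i ∈ (pairsAt m k).filter Lg, tvκ x pe i := by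
  unfold tvP tvκ
  rw [sum_integral_long hx hL]
  exact integrableOn_rpow_Ico hpe _ _

theorem tvP_x {x : ℕ → ℝ} {m k : ℕ} (hx : Seq x m) (h1 : 1 ≤ k) (h2 : k ≤ m)
    {pe : ℝ} (hpe : 0 < pe) :
    tvP pe (x k) = ∑ i ∈ pairsAt m k, tvκ x pe i := by
  unfold tvP tvκ
  rw [sum_integral hx h1 h2]
  exact integrableOn_rpow_Ico hpe _ _

theorem integral_run_eq (t0 h : ℝ) {g : ℝ → ℝ} (hg : Continuous g) {l r : ℕ} (_hl : 1 ≤ l) (hlr : l ≤ r) :
    ∫ t in (nd' t0 h (l - 1))..(nd' t0 h r), g t =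
      ∑ k ∈ Finset.Icc l r, ∫ t in (nd' t0 h (k - 1))..(nd' t0 h k), g t := by
  induction r, hlr using Nat.le_induction with
  | base => simp
  | succ n hn ih =>
    have h1 : Finset.Icc l (n + 1) = insert (n + 1) (Finset.Icc l n) := by
      ext j; simp only [Finset.mem_Icc, Finset.mem_insert]; omega
    have h2 : n + 1 ∉ Finset.Icc l n := by simp
    rw [h1, Finset.sum_insert h2, ← ih, Nat.add_sub_cancel]
    have h3 := intervalIntegral.integral_add_adjacent_intervals (μ := volume) (f := g)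
      (a := nd' t0 h (l - 1)) (b := nd' t0 h n) (c := nd' t0 h (n + 1))
      (hg.intervalIntegrable _ _) (hg.intervalIntegrable _ _)
    linarith

/-- sums over layers of integrals over their intervals = sums over cells -/
theorem sum_run_eq {x : ℕ → ℝ} {m : ℕ} (hx : Seq x m) {Lg : ℕ × ℕ → Prop} [DecidablePred Lg]
    (hL : UpClosed Lg m) {pe : ℝ} (hpe : 0 < pe) (t0 h : ℝ) {g : ℝ → ℝ} (hg : Continuous g) :
    ∑ i ∈ (pairs m).filter Lg, tvκ x pe i * (∫ t in (nd' t0 h (i.1 - 1))..(nd' t0 h i.2), g t) =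
      ∑ k ∈ Finset.Icc 1 m, tvP pe (xL Lg x m k) *
        ∫ t in (nd' t0 h (k - 1))..(nd' t0 h k), g t := by
  have h1 : ∀ i ∈ (pairs m).filter Lg,
      tvκ x pe i * (∫ t in (nd' t0 h (i.1 - 1))..(nd' t0 h i.2), g t) =
      ∑ k ∈ Finset.Icc i.1 i.2, tvκ x pe i *
        ∫ t in (nd' t0 h (k - 1))..(nd' t0 h k), g t := by
    intro i hi
    have hi' := mem_pairs.1 (Finset.mem_filter.1 hi).1
    rw [integral_run_eq t0 h hg hi'.1 hi'.2.1, Finset.mul_sum]
  rw [Finset.sum_congr rfl h1, sum_pairs_comm]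
  apply Finset.sum_congr rfl
  intro k _
  rw [← Finset.sum_mul, tvP_xL hx hL hpe]

/-- value of `V` at an end of a layer -/
theorem tv_endV {b pe σ Fy Lh Fmin y : ℝ} (hpe : 0 < pe) (hFmin : 0 < Fmin) (h1 : Fmin ≤ Fy)
    (h2 : Fy ≤ σ + 2 * Lh) (hLh : 0 ≤ Lh) (h3 : 4 * Lh ≤ Fmin) :
    (Real.exp (-b * y) * Fy) ^ (1 / pe) ≤
      (1 + 4 * Lh / Fmin) ^ (1 / pe) * (Real.exp (-(b / pe) * y) * σ ^ (1 / pe)) := by
  have hσ : Fmin / 2 ≤ σ := by linarith
  have hσ0 : 0 < σ := by linarith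
  have h4 : Fy ≤ (1 + 4 * Lh / Fmin) * σ := by
    have : 2 * Lh ≤ 4 * Lh / Fmin * σ := by
      rw [div_mul_eq_mul_div, le_div_iff₀ hFmin]
      nlinarith
    linarith
  have h5 : Real.exp (-(b / pe) * y) = (Real.exp (-b * y)) ^ (1 / pe) := by
    rw [← Real.exp_mul]
    congr 1
    field_simp
  have h6 : 0 ≤ 1 + 4 * Lh / Fmin := by positivity
  rw [h5, ← Real.mul_rpow (Real.exp_nonneg _) hσ0.le, ← Real.mul_rpow h6 (by positivity)]
  apply Real.rpow_le_rpow (by have := hFmin.le.trans h1; positivity) _ (by positivity)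
  calc Real.exp (-b * y) * Fy ≤ Real.exp (-b * y) * ((1 + 4 * Lh / Fmin) * σ) :=
        mul_le_mul_of_nonneg_left h4 (Real.exp_nonneg _)
    _ = _ := by ring

/-- `cc * V(y)` against the level mass -/
theorem tv_cc_le {x : ℕ → ℝ} {i : ℕ × ℕ} {pe CV Vy β y : ℝ} (hpe : 0 < pe)
    (h : ∀ σ ∈ lay x i, Vy ≤ CV * (Real.exp (-β * y) * σ ^ (1 / pe))) :
    cc x i.1 i.2 * Vy ≤ CV * (tvκ x pe i * Real.exp (-β * y)) := by
  have h1 : ∫ _σ in lay x i, Vy = cc x i.1 i.2 * Vy := by
    rw [setIntegral_const, smul_eq_mul, Measure.real, volume_lay,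
      ENNReal.toReal_ofReal (cc_nonneg _ _ _)]
  have h2 : ∫ σ in lay x i, CV * (Real.exp (-β * y) * σ ^ (1 / pe)) =
      CV * (tvκ x pe i * Real.exp (-β * y)) := by
    rw [integral_const_mul, integral_const_mul]
    unfold tvκ
    ring
  rw [← h1, ← h2]
  apply setIntegral_mono_on _ _ (measurableSet_lay x i) h
  · exact integrableOn_const (by unfold lay; simp)
  · exact ((integrableOn_rpow_Ico hpe _ _).const_mul _).const_mul _

/-- long at scale `eta`: touches the boundary of the window or has length `≥ eta` -/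
def tvLong (m : ℕ) (h eta : ℝ) (i : ℕ × ℕ) : Prop :=
  i.1 = 1 ∨ i.2 = m ∨ eta ≤ ((i.2 : ℝ) - i.1 + 1) * h

noncomputable instance (m : ℕ) (h eta : ℝ) : DecidablePred (tvLong m h eta) :=
  fun _ => Classical.propDecidable _

theorem tvLong_upClosed {m : ℕ} {h : ℝ} (hh : 0 ≤ h) (eta : ℝ) : UpClosed (tvLong m h eta) m := by
  intro i hi j hj h1 h2 hl
  rw [mem_pairs] at hi hj
  rcases hl with hl | hl | hl
  · left; omega
  · right; left; omega
  · right; right
    refine le_trans hl (mul_le_mul_of_nonneg_right ?_ hh)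
    have e1 : (j.1 : ℝ) ≤ i.1 := by exact_mod_cast h1
    have e2 : (i.2 : ℝ) ≤ j.2 := by exact_mod_cast h2
    linarith

theorem tvLong_mono {m : ℕ} {h eta de : ℝ} (hed : eta ≤ de) (i : ℕ × ℕ)
    (hi : tvLong m h de i) : tvLong m h eta i := by
  rcases hi with hi | hi | hi
  · left; exact hi
  · right; left; exact hi
  · right; right; linarith

/-- the active weight of an end -/
noncomputable def tvω (w : ℝ → ℝ) (La lam a eta y : ℝ) : ℝ :=
  if lam - 2 * eta ≤ y ∧ y ≤ lam + a + 2 * eta then w y + 2 * La * eta else 0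

/-- the total end contribution of the long layers -/
noncomputable def TVsum (x : ℕ → ℝ) (m : ℕ) (t0 h : ℝ) (w V : ℝ → ℝ) (La lam a eta : ℝ) : ℝ :=
  ∑ i ∈ (pairs m).filter (tvLong m h eta),
    (cc x i.1 i.2 * (tvω w La lam a eta (nd' t0 h (i.1 - 1)) * V (nd' t0 h (i.1 - 1))) +
     cc x i.1 i.2 * (tvω w La lam a eta (nd' t0 h i.2) * V (nd' t0 h i.2)))

/-- `∫ w ψ(t, x^{L,eta})`, divided by nothing: `P(X) e^{-β t} = ∫_0^X e_σ(t) dσ` -/
noncomputable def tvE (x : ℕ → ℝ) (m : ℕ) (t0 h : ℝ) (g : ℝ → ℝ) (β pe eta : ℝ) : ℝ :=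
  ∑ k ∈ Finset.Icc 1 m, tvP pe (xL (tvLong m h eta) x m k) *
    ∫ t in (nd' t0 h (k - 1))..(nd' t0 h k), g t * Real.exp (-β * t)

/-- `∫ ψ(t, x)` over the window -/
noncomputable def tvSS (x : ℕ → ℝ) (m : ℕ) (t0 h : ℝ) (β pe : ℝ) : ℝ :=
  ∑ k ∈ Finset.Icc 1 m, tvP pe (x k) *
    ∫ t in (nd' t0 h (k - 1))..(nd' t0 h k), Real.exp (-β * t)

/-- **STEP TV** for one fiber. -/
theorem stepTV {x : ℕ → ℝ} {m : ℕ} (hx : Seq x m) (hm : 1 ≤ m) {lam a h La b pe eta de L Fmin : ℝ}
    {w F V : ℝ → ℝ} (ha : 0 < a) (hh : (m : ℝ) * h = 2 * a) (hLa : 0 ≤ La) (hw0 : ∀ t, 0 ≤ w t)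
    (hwL : ∀ s t, |w s - w t| ≤ La * |s - t|) (hpe : 0 < pe) (heta0 : 0 < eta) (heta : eta ≤ de)
    (hde : de + 2 * eta < a / 2) (hL : 0 ≤ L) (hFmin : 0 < Fmin) (hLF : 4 * (L * h) ≤ Fmin)
    (hxF : ∀ k, 1 ≤ k → k ≤ m → x k = F (nd' (lam - a / 2) h k) - L * h)
    (hFlo : ∀ k, k ≤ m → Fmin ≤ F (nd' (lam - a / 2) h k))
    (hFL : ∀ k, 1 ≤ k → k < m →
      F (nd' (lam - a / 2) h k) ≤ F (nd' (lam - a / 2) h (k + 1)) + L * h)
    (hV : ∀ k, k ≤ m → V (nd' (lam - a / 2) h k) =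
      (Real.exp (-b * nd' (lam - a / 2) h k) * F (nd' (lam - a / 2) h k)) ^ (1 / pe)) :
    eta * TVsum x m (lam - a / 2) h w V La lam a eta ≤
      2 * Real.exp (|b / pe| * de) * (1 + 4 * (L * h) / Fmin) ^ (1 / pe) *
        (eta / de * tvE x m (lam - a / 2) h w (b / pe) pe de +
          (tvE x m (lam - a / 2) h w (b / pe) pe eta - tvE x m (lam - a / 2) h w (b / pe) pe de) +
          3 * La * de * tvSS x m (lam - a / 2) h (b / pe) pe) := by
  classical
  set t0 : ℝ := lam - a / 2 with ht0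
  set β : ℝ := b / pe with hβ
  set CV : ℝ := (1 + 4 * (L * h) / Fmin) ^ (1 / pe) with hCVd
  have hm0 : (0 : ℝ) < m := by exact_mod_cast hm
  have hh0 : 0 < h := by
    by_contra hc
    push Not at hc
    have : (m : ℝ) * h ≤ 0 := mul_nonpos_of_nonneg_of_nonpos hm0.le hc
    linarith
  have hde0 : 0 < de := lt_of_lt_of_le heta0 heta
  have hLh : 0 ≤ L * h := mul_nonneg hL hh0.le
  have hCV : 0 ≤ CV := by
    rw [hCVd]
    apply Real.rpow_nonneg
    positivity
  have hwc : Continuous w := continuous_of_lip hwL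
  have hUe : UpClosed (tvLong m h eta) m := tvLong_upClosed hh0.le eta
  have hUd : UpClosed (tvLong m h de) m := tvLong_upClosed hh0.le de
  set s : Finset (ℕ × ℕ) := (pairs m).filter (tvLong m h eta) with hs
  set sd : Finset (ℕ × ℕ) := (pairs m).filter (tvLong m h de) with hsd
  have hsub : sd ⊆ s := by
    intro i hi
    rw [hsd, Finset.mem_filter] at hi
    rw [hs, Finset.mem_filter]
    exact ⟨hi.1, tvLong_mono heta i hi.2⟩
  have hpos : ∀ i ∈ s, 1 ≤ i.1 ∧ i.1 ≤ i.2 ∧ i.2 ≤ m := fun i hi =>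
    mem_pairs.1 (Finset.mem_filter.1 hi).1
  have hcast : ∀ i ∈ s, ((i.1 - 1 : ℕ) : ℝ) = (i.1 : ℝ) - 1 := by
    intro i hi
    have := (hpos i hi).1
    push_cast [Nat.cast_sub this]
    ring
  have hlen : ∀ i ∈ s, nd' t0 h i.2 - nd' t0 h (i.1 - 1) = ((i.2 : ℝ) - i.1 + 1) * h := by
    intro i hi
    unfold nd'
    rw [hcast i hi]
    ring
  have hlen0 : ∀ i ∈ s, nd' t0 h (i.1 - 1) ≤ nd' t0 h i.2 := by
    intro i hi
    have h1 := hlen i hi
    have h2 : (i.1 : ℝ) ≤ i.2 := by exact_mod_cast (hpos i hi).2.1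
    have h3 : 0 ≤ ((i.2 : ℝ) - i.1 + 1) * h := mul_nonneg (by linarith) hh0.le
    linarith
  have hnm : nd' t0 h m = lam + 3 * a / 2 := by
    unfold nd'; rw [hh, ht0]; ring
  have hn0 : nd' t0 h 0 = lam - a / 2 := by
    unfold nd'; rw [ht0]; simp
  have hω0 : ∀ y, y < lam - 2 * eta → tvω w La lam a eta y = 0 := by
    intro y hy
    unfold tvω
    rw [if_neg]
    rintro ⟨h1, _⟩
    linarith
  have hω1 : ∀ y, lam + a + 2 * eta < y → tvω w La lam a eta y = 0 := by
    intro y hy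
    unfold tvω
    rw [if_neg]
    rintro ⟨_, h1⟩
    linarith
  have hωle : ∀ y, tvω w La lam a eta y ≤ w y + 2 * La * eta := by
    intro y
    unfold tvω
    split_ifs
    · exact le_refl _
    · have := hw0 y
      positivity
  have hωnn : ∀ y, 0 ≤ tvω w La lam a eta y := by
    intro y
    unfold tvω
    split_ifs
    · have := hw0 y
      positivity
    · exact le_refl _
  have hκ : ∀ i ∈ s, 0 ≤ tvκ x pe i := fun i _ => tvκ_nonneg hx pe i
  have hV0 : ∀ k, k ≤ m → 0 ≤ V (nd' t0 h k) := by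
    intro k hk
    rw [hV k hk]
    apply Real.rpow_nonneg
    have := hFlo k hk
    have : 0 ≤ F (nd' t0 h k) := by linarith
    positivity
  -- end bounds
  have hendbd : ∀ i ∈ s, ∀ y, cc x i.1 i.2 * V y ≤ CV * (tvκ x pe i * Real.exp (-β * y)) →
      cc x i.1 i.2 * (tvω w La lam a eta y * V y) ≤
        CV * (tvκ x pe i * ((w y + 2 * La * eta) * Real.exp (-β * y))) := by
    intro i hi y hy
    have h1 := hωnn y
    have h2 := hωle y
    have h3 := hκ i hi
    have h4 : 0 ≤ CV * (tvκ x pe i * Real.exp (-β * y)) := by positivity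
    calc cc x i.1 i.2 * (tvω w La lam a eta y * V y)
        = tvω w La lam a eta y * (cc x i.1 i.2 * V y) := by ring
      _ ≤ tvω w La lam a eta y * (CV * (tvκ x pe i * Real.exp (-β * y))) :=
          mul_le_mul_of_nonneg_left hy h1
      _ ≤ (w y + 2 * La * eta) * (CV * (tvκ x pe i * Real.exp (-β * y))) :=
          mul_le_mul_of_nonneg_right h2 h4
      _ = _ := by ring
  have hω00 : ∀ i ∈ s, ∀ y, tvω w La lam a eta y = 0 →
      cc x i.1 i.2 * (tvω w La lam a eta y * V y) ≤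
        CV * (tvκ x pe i * ((w y + 2 * La * eta) * Real.exp (-β * y))) := by
    intro i hi y hy
    rw [hy]
    have h3 := hκ i hi
    have := hw0 y
    have : 0 ≤ CV * (tvκ x pe i * ((w y + 2 * La * eta) * Real.exp (-β * y))) := by positivity
    simpa using this
  have hZ1 : ∀ i ∈ s, cc x i.1 i.2 * (tvω w La lam a eta (nd' t0 h (i.1 - 1)) *
      V (nd' t0 h (i.1 - 1))) ≤ CV * (tvκ x pe i *
        ((w (nd' t0 h (i.1 - 1)) + 2 * La * eta) * Real.exp (-β * nd' t0 h (i.1 - 1)))) := by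
    intro i hi
    obtain ⟨h1, h2, h3⟩ := hpos i hi
    by_cases hi1 : i.1 = 1
    · apply hω00 i hi
      apply hω0
      rw [hi1]
      simp only [Nat.sub_self]
      rw [hn0]
      linarith
    · apply hendbd i hi
      apply tv_cc_le hpe
      intro σ hσ
      rw [mem_lay h2] at hσ
      rw [hV (i.1 - 1) (by omega)]
      apply tv_endV hpe hFmin (hFlo _ (by omega)) _ hLh hLF
      have h4 := hσ.1.1
      rw [hxF (i.1 - 1) (by omega) (by omega)] at h4
      linarith
  have hZ2 : ∀ i ∈ s, cc x i.1 i.2 * (tvω w La lam a eta (nd' t0 h i.2) *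
      V (nd' t0 h i.2)) ≤ CV * (tvκ x pe i *
        ((w (nd' t0 h i.2) + 2 * La * eta) * Real.exp (-β * nd' t0 h i.2))) := by
    intro i hi
    obtain ⟨h1, h2, h3⟩ := hpos i hi
    by_cases hi1 : i.2 = m
    · apply hω00 i hi
      apply hω1
      rw [hi1, hnm]
      linarith
    · apply hendbd i hi
      apply tv_cc_le hpe
      intro σ hσ
      rw [mem_lay h2] at hσ
      rw [hV i.2 (by omega)]
      apply tv_endV hpe hFmin (hFlo _ (by omega)) _ hLh hLF
      have h4 := hσ.1.2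
      rw [hxF (i.2 + 1) (by omega) (by omega)] at h4
      have h5 := hFL i.2 (by omega) (by omega)
      linarith
  have hZd : ∀ i ∈ sd, nd' t0 h i.2 - nd' t0 h (i.1 - 1) < de →
      cc x i.1 i.2 * (tvω w La lam a eta (nd' t0 h (i.1 - 1)) * V (nd' t0 h (i.1 - 1))) ≤ 0 ∧
      cc x i.1 i.2 * (tvω w La lam a eta (nd' t0 h i.2) * V (nd' t0 h i.2)) ≤ 0 := by
    intro i hi hlt
    have his := hsub hi
    have hl := hlen i his
    have h0 := hlen0 i his
    have hid : tvLong m h de i := (Finset.mem_filter.1 hi).2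
    have hz : tvω w La lam a eta (nd' t0 h (i.1 - 1)) = 0 ∧
        tvω w La lam a eta (nd' t0 h i.2) = 0 := by
      rcases hid with h1 | h1 | h1
      · rw [h1] at hlt h0 ⊢
        simp only [Nat.sub_self] at hlt h0 ⊢
        rw [hn0] at hlt ⊢
        constructor
        · apply hω0; linarith
        · apply hω0; linarith
      · rw [h1] at hlt h0 ⊢
        rw [hnm] at hlt ⊢
        constructor
        · apply hω1; linarith
        · apply hω1; linarith
      · rw [← hl] at h1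
        linarith
    rw [hz.1, hz.2]
    simp
  have hlong : ∀ i ∈ s, i ∉ sd → eta ≤ nd' t0 h i.2 - nd' t0 h (i.1 - 1) := by
    intro i hi hnd
    have hie : tvLong m h eta i := (Finset.mem_filter.1 hi).2
    have hnd' : ¬ tvLong m h de i := fun hc =>
      hnd (Finset.mem_filter.2 ⟨(Finset.mem_filter.1 hi).1, hc⟩)
    rw [hlen i hi]
    rcases hie with h1 | h1 | h1
    · exact absurd (Or.inl h1) hnd'
    · exact absurd (Or.inr (Or.inl h1)) hnd'
    · exact h1
  have main := stepTV_abs (w := w) (La := La) (β := β) (de := de) (eta := eta) (CV := CV) s sd hsub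
    (fun i => nd' t0 h (i.1 - 1)) (fun i => nd' t0 h i.2) (fun i => tvκ x pe i)
    (fun i => cc x i.1 i.2 * (tvω w La lam a eta (nd' t0 h (i.1 - 1)) * V (nd' t0 h (i.1 - 1))))
    (fun i => cc x i.1 i.2 * (tvω w La lam a eta (nd' t0 h i.2) * V (nd' t0 h i.2)))
    hLa hw0 hwL heta0 heta hCV hκ hlen0 hlong hZ1 hZ2 hZd
  -- the integrals
  have hg1 : Continuous fun t => w t * Real.exp (-β * t) := by fun_prop
  have hg2 : Continuous fun t => Real.exp (-β * t) := by fun_prop
  have hsplit : ∀ i : ℕ × ℕ,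
      (∫ t in (nd' t0 h (i.1 - 1))..(nd' t0 h i.2), (w t + 3 * La * de) * Real.exp (-β * t)) =
      (∫ t in (nd' t0 h (i.1 - 1))..(nd' t0 h i.2), w t * Real.exp (-β * t)) +
      3 * La * de * ∫ t in (nd' t0 h (i.1 - 1))..(nd' t0 h i.2), Real.exp (-β * t) := by
    intro i
    rw [← intervalIntegral.integral_const_mul, ← intervalIntegral.integral_add
      (hg1.intervalIntegrable _ _) ((hg2.intervalIntegrable _ _).const_mul _)]
    congr 1
    funext t
    ring
  have hsumE : ∀ (Q : Finset (ℕ × ℕ)), ∑ i ∈ Q, tvκ x pe i *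
      (∫ t in (nd' t0 h (i.1 - 1))..(nd' t0 h i.2), (w t + 3 * La * de) * Real.exp (-β * t)) =
      ∑ i ∈ Q, tvκ x pe i *
        (∫ t in (nd' t0 h (i.1 - 1))..(nd' t0 h i.2), w t * Real.exp (-β * t)) +
      3 * La * de * ∑ i ∈ Q, tvκ x pe i *
        ∫ t in (nd' t0 h (i.1 - 1))..(nd' t0 h i.2), Real.exp (-β * t) := by
    intro Q
    rw [Finset.mul_sum, ← Finset.sum_add_distrib]
    apply Finset.sum_congr rfl
    intro i _
    rw [hsplit i]
    ring
  have hEd : ∑ i ∈ sd, tvκ x pe i *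
      (∫ t in (nd' t0 h (i.1 - 1))..(nd' t0 h i.2), w t * Real.exp (-β * t)) =
      tvE x m t0 h w β pe de := by
    unfold tvE
    exact sum_run_eq hx hUd hpe t0 h hg1
  have hEe : ∑ i ∈ s, tvκ x pe i *
      (∫ t in (nd' t0 h (i.1 - 1))..(nd' t0 h i.2), w t * Real.exp (-β * t)) =
      tvE x m t0 h w β pe eta := by
    unfold tvE
    exact sum_run_eq hx hUe hpe t0 h hg1
  have hSe : ∑ i ∈ s, tvκ x pe i *
      (∫ t in (nd' t0 h (i.1 - 1))..(nd' t0 h i.2), Real.exp (-β * t)) ≤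
      tvSS x m t0 h β pe := by
    rw [hs, sum_run_eq hx hUe hpe t0 h hg2]
    unfold tvSS
    apply Finset.sum_le_sum
    intro k hk
    rw [Finset.mem_Icc] at hk
    apply mul_le_mul_of_nonneg_right
    · rw [tvP_xL hx hUe hpe, tvP_x hx hk.1 hk.2 hpe]
      exact Finset.sum_le_sum_of_subset_of_nonneg (Finset.filter_subset _ _)
        (fun i _ _ => tvκ_nonneg hx pe i)
    · apply intervalIntegral.integral_nonneg
      · unfold nd'
        have h1 : ((k - 1 : ℕ) : ℝ) ≤ k := by exact_mod_cast Nat.sub_le k 1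
        nlinarith
      · intro t _
        exact (Real.exp_pos _).le
  have hdiff : ∀ f : ℕ × ℕ → ℝ, ∑ i ∈ s \ sd, f i = ∑ i ∈ s, f i - ∑ i ∈ sd, f i := by
    intro f
    have := Finset.sum_sdiff (f := f) hsub
    linarith
  set Sd : ℝ := ∑ i ∈ sd, tvκ x pe i *
      ∫ t in (nd' t0 h (i.1 - 1))..(nd' t0 h i.2), Real.exp (-β * t) with hSd
  set Se : ℝ := ∑ i ∈ s, tvκ x pe i *
      ∫ t in (nd' t0 h (i.1 - 1))..(nd' t0 h i.2), Real.exp (-β * t) with hSe'
  have hSd0 : 0 ≤ Sd := by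
    rw [hSd]
    apply Finset.sum_nonneg
    intro i hi
    apply mul_nonneg (tvκ_nonneg hx pe i)
    apply intervalIntegral.integral_nonneg (hlen0 i (hsub hi))
    intro t _
    exact (Real.exp_pos _).le
  have hmain2 : eta * TVsum x m t0 h w V La lam a eta ≤ 2 * Real.exp (|β| * de) * CV *
      (eta / de * (tvE x m t0 h w β pe de + 3 * La * de * Sd) +
        ((tvE x m t0 h w β pe eta + 3 * La * de * Se) -
          (tvE x m t0 h w β pe de + 3 * La * de * Sd))) := by
    have e1 : TVsum x m t0 h w V La lam a eta = ∑ i ∈ s,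
        (cc x i.1 i.2 * (tvω w La lam a eta (nd' t0 h (i.1 - 1)) * V (nd' t0 h (i.1 - 1))) +
        cc x i.1 i.2 * (tvω w La lam a eta (nd' t0 h i.2) * V (nd' t0 h i.2))) := rfl
    rw [e1]
    refine le_trans main (le_of_eq ?_)
    rw [hdiff, hsumE sd, hsumE s, hEd, hEe]
  refine le_trans hmain2 ?_
  apply mul_le_mul_of_nonneg_left _ (by positivity)
  have hr : eta / de ≤ 1 := by rw [div_le_one hde0]; exact heta
  have h1 : eta / de * Sd ≤ Sd := by nlinarith
  have h2 : 0 ≤ 3 * La * de := by positivity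
  have h3 : eta / de * Sd + (Se - Sd) ≤ tvSS x m t0 h β pe := by linarith
  have h4 := mul_le_mul_of_nonneg_left h3 h2
  nlinarith

end Crest.Agent.R077.TV
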