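import Crest.Agent.R077.Defs

/-!
# Row 77: elementary facts on `tent`, `phi`, `nd`, `msh`
-/

set_option autoImplicit false

open MeasureTheory Set

namespace Crest.Agent.R077

theorem tent_cont (lam a : ℝ) : Continuous (tent lam a) := by
  unfold tent; fun_prop

theorem tent_nonneg (lam a t : ℝ) : 0 ≤ tent lam a t := by
  unfold tent; exact mul_nonneg (by positivity) (le_max_left _ _)

theorem tent_zero_left {lam a t : ℝ} (h : t ≤ lam) : tent lam a t = 0 := by
  unfold tent
  rw [max_eq_left ((min_le_left _ _).trans (by linarith)), mul_zero]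

theorem tent_zero_right {lam a t : ℝ} (h : lam + a ≤ t) : tent lam a t = 0 := by
  unfold tent
  rw [max_eq_left ((min_le_right _ _).trans (by linarith)), mul_zero]

theorem tent_le {lam a t : ℝ} (ha : 0 < a) : tent lam a t ≤ 2 / a := by
  unfold tent
  have h1 : max 0 (min (t - lam) (lam + a - t)) ≤ a / 2 := by
    refine max_le (by positivity) ?_
    rcases le_total (t - lam) (a / 2) with h | h
    · exact (min_le_left _ _).trans h
    · exact (min_le_right _ _).trans (by linarith)
  calc 4 / a ^ 2 * max 0 (min (t - lam) (lam + a - t)) ≤ 4 / a ^ 2 * (a / 2) :=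
        mul_le_mul_of_nonneg_left h1 (by positivity)
    _ = 2 / a := by field_simp; ring

theorem tent_lip (lam a t s : ℝ) : |tent lam a t - tent lam a s| ≤ (4 / a ^ 2) * |t - s| := by
  unfold tent
  rw [← mul_sub, abs_mul, abs_of_nonneg (by positivity : (0:ℝ) ≤ 4 / a ^ 2)]
  refine mul_le_mul_of_nonneg_left ?_ (by positivity)
  have h1 := abs_max_sub_max_le_max 0 (min (t - lam) (lam + a - t)) 0 (min (s - lam) (lam + a - s))
  have h2 := abs_min_sub_min_le_max (t - lam) (lam + a - t) (s - lam) (lam + a - s)
  have e1 : (t - lam) - (s - lam) = t - s := by ring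
  have e2 : (lam + a - t) - (lam + a - s) = -(t - s) := by ring
  rw [e1, e2, abs_neg, max_self] at h2
  rw [sub_self, abs_zero] at h1
  exact h1.trans (max_le (abs_nonneg _) h2)

theorem phi_hasDerivAt (lam a t : ℝ) : HasDerivAt (phi lam a) (-tent lam a t) t := by
  have h := intervalIntegral.integral_hasDerivAt_right ((tent_cont lam a).intervalIntegrable lam t)
    ((tent_cont lam a).stronglyMeasurableAtFilter _ _) (tent_cont lam a).continuousAt
  have := h.const_sub 1
  exact this

theorem phi_cont (lam a : ℝ) : Continuous (phi lam a) :=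
  continuous_iff_continuousAt.2 fun t => (phi_hasDerivAt lam a t).continuousAt

theorem phi_left {lam a t : ℝ} (h : t ≤ lam) : phi lam a t = 1 := by
  unfold phi
  have : ∫ s in lam..t, tent lam a s = ∫ s in lam..t, (0:ℝ) := by
    refine intervalIntegral.integral_congr fun s hs => ?_
    rw [uIcc_of_ge h] at hs
    exact tent_zero_left hs.2
  rw [this]; simp

theorem integral_tent {lam a : ℝ} (ha : 0 < a) : ∫ t in lam..(lam + a), tent lam a t = 1 := by
  have h1 : ∫ t in lam..(lam + a / 2), tent lam a t = 1 / 2 := by
    have : ∫ t in lam..(lam + a / 2), tent lam a t = ∫ t in lam..(lam + a / 2), 4 / a ^ 2 * (t - lam) := by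
      refine intervalIntegral.integral_congr fun s hs => ?_
      rw [uIcc_of_le (by linarith)] at hs
      unfold tent
      rw [min_eq_left (by linarith [hs.2]), max_eq_right (by linarith [hs.1])]
    rw [this, intervalIntegral.integral_const_mul, intervalIntegral.integral_comp_sub_right (fun x => x)]
    rw [integral_id]
    field_simp; ring
  have h2 : ∫ t in (lam + a / 2)..(lam + a), tent lam a t = 1 / 2 := by
    have : ∫ t in (lam + a / 2)..(lam + a), tent lam a t =
        ∫ t in (lam + a / 2)..(lam + a), 4 / a ^ 2 * (lam + a - t) := by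
      refine intervalIntegral.integral_congr fun s hs => ?_
      rw [uIcc_of_le (by linarith)] at hs
      unfold tent
      rw [min_eq_right (by linarith [hs.1]), max_eq_right (by linarith [hs.2])]
    rw [this, intervalIntegral.integral_const_mul, intervalIntegral.integral_comp_sub_left (fun x => x)]
    rw [integral_id]
    field_simp; ring
  rw [← intervalIntegral.integral_add_adjacent_intervals
    ((tent_cont lam a).intervalIntegrable lam (lam + a / 2)) ((tent_cont lam a).intervalIntegrable _ _),
    h1, h2]
  norm_num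

theorem phi_right {lam a t : ℝ} (ha : 0 < a) (h : lam + a ≤ t) : phi lam a t = 0 := by
  unfold phi
  rw [← intervalIntegral.integral_add_adjacent_intervals
    ((tent_cont lam a).intervalIntegrable lam (lam + a)) ((tent_cont lam a).intervalIntegrable _ _),
    integral_tent ha]
  have : ∫ s in (lam + a)..t, tent lam a s = ∫ s in (lam + a)..t, (0:ℝ) := by
    refine intervalIntegral.integral_congr fun s hs => ?_
    rw [uIcc_of_le h] at hs
    exact tent_zero_right hs.1
  rw [this]; simp

theorem phi_anti (lam a : ℝ) : Antitone (phi lam a) :=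
  antitone_of_deriv_nonpos (fun t => (phi_hasDerivAt lam a t).differentiableAt) fun t => by
    rw [(phi_hasDerivAt lam a t).deriv]; linarith [tent_nonneg lam a t]

theorem phi_nonneg {lam a : ℝ} (ha : 0 < a) (t : ℝ) : 0 ≤ phi lam a t := by
  rcases le_total t (lam + a) with h | h
  · rw [← phi_right (lam := lam) ha (le_refl (lam + a))]; exact phi_anti lam a h
  · exact (phi_right ha h).ge

theorem phi_le_one (lam a t : ℝ) : phi lam a t ≤ 1 := by
  rcases le_total lam t with h | h
  · rw [← phi_left (a := a) (le_refl lam)]; exact phi_anti lam a h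
  · exact (phi_left h).le

theorem phi_sub (lam a x y : ℝ) : phi lam a x - phi lam a y = ∫ t in x..y, tent lam a t := by
  have h1 : ∀ t ∈ uIcc x y, HasDerivAt (fun t => -phi lam a t) (tent lam a t) t := fun t _ =>
    ((phi_hasDerivAt lam a t).neg.congr_deriv (neg_neg _))
  rw [intervalIntegral.integral_eq_sub_of_hasDerivAt h1 ((tent_cont lam a).intervalIntegrable _ _)]
  ring

theorem msh_pos {a : ℝ} {m : ℕ} (ha : 0 < a) (hm : 1 ≤ m) : 0 < msh a m := by
  unfold msh
  have : (0:ℝ) < m := by exact_mod_cast hm
  positivity

theorem nd_zero (lam a : ℝ) (m : ℕ) : nd lam a m 0 = lam - a / 2 := by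
  unfold nd; simp

theorem nd_succ (lam a : ℝ) (m k : ℕ) : nd lam a m (k + 1) = nd lam a m k + msh a m := by
  unfold nd; push_cast; ring

theorem nd_last (lam a : ℝ) {m : ℕ} (hm : 1 ≤ m) : nd lam a m m = lam + 3 * a / 2 := by
  unfold nd msh
  have : (m:ℝ) ≠ 0 := by positivity
  field_simp; ring

theorem nd_sub (lam a : ℝ) (m j k : ℕ) : nd lam a m k - nd lam a m j = ((k:ℝ) - j) * msh a m := by
  unfold nd; ring

end Crest.Agent.R077
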