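import Crest.Agent.R077.StepW2
import Crest.Agent.R077.Tent
import Crest.Agent.R077.Iface

/-!
# Row 77: `Stmt_W1` (STEP W for one angle)
-/

set_option autoImplicit false

open Set MeasureTheory Filter Topology

noncomputable section

namespace Crest.Agent.R077.W

open Layers

/-- the long class at scale `η` -/
def Lg (a : ℝ) (m : ℕ) (η : ℝ) (i : ℕ × ℕ) : Prop :=
  ¬ (2 ≤ i.1 ∧ i.2 + 1 ≤ m ∧ ((i.2 : ℝ) - i.1 + 1) * msh a m < η)

theorem prs_eq (m : ℕ) : prs m = pairs m := rfl

open Classical in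
theorem shortI_eq (a : ℝ) (m : ℕ) (η : ℝ) :
    shortI a m η = (pairs m).filter (fun i => ¬ Lg a m η i) := by
  unfold shortI Lg
  rw [prs_eq]
  ext i
  simp only [Finset.mem_filter, not_not]

open Classical in
theorem longI_eq (a : ℝ) (m : ℕ) (η : ℝ) :
    longI a m η = (pairs m).filter (fun i => Lg a m η i) := by
  unfold longI
  rw [shortI_eq, prs_eq]
  ext i
  simp only [Finset.mem_sdiff, Finset.mem_filter, not_and, not_not]
  exact ⟨fun h => ⟨h.1, h.2 h.1⟩, fun h => ⟨h.1, fun _ => h.2⟩⟩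

theorem upClosed (a : ℝ) (ha : 0 < a) (m : ℕ) (η : ℝ) : UpClosed (Lg a m η) m := by
  intro p hp q hq h1 h2 hL hs
  refine hL ⟨by have := hs.1; omega, by have := hs.2.1; omega, lt_of_le_of_lt ?_ hs.2.2⟩
  have h3 : (q.1 : ℝ) ≤ p.1 := by exact_mod_cast h1
  have h4 : (p.2 : ℝ) ≤ q.2 := by exact_mod_cast h2
  have h5 : 0 ≤ msh a m := by unfold msh; positivity
  exact mul_le_mul_of_nonneg_right (by linarith) h5

theorem rc_eq {x : ℕ → ℝ} {m : ℕ} (hx : Seq x m) {i : ℕ × ℕ} (hi : i ∈ pairs m) :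
    rc x i = cc x i.1 i.2 := by
  obtain ⟨h1, h12, hm⟩ := mem_pairs.1 hi
  have hb := base_nonneg hx i.1 i.2
  have hsub1 : Ioo (base x i.1 i.2) (top x i.1 i.2) ⊆ {σ : ℝ | 0 < σ ∧ IsRun x i.1 i.2 σ} := by
    intro σ hσ
    have hl : σ ∈ lay x i := Ioo_subset_Ico_self hσ
    rw [mem_lay h12] at hl
    exact ⟨lt_of_le_of_lt hb hσ.1, h1, h12, hl.1.1, hl.1.2, hl.2⟩
  have hsub2 : {σ : ℝ | 0 < σ ∧ IsRun x i.1 i.2 σ} ⊆ Ico (base x i.1 i.2) (top x i.1 i.2) := by
    rintro σ ⟨_, _, _, a3, a4, a5⟩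
    have : σ ∈ lay x i := (mem_lay h12).2 ⟨⟨a3, a4⟩, a5⟩
    exact this
  have hv : volume {σ : ℝ | 0 < σ ∧ IsRun x i.1 i.2 σ} = ENNReal.ofReal (top x i.1 i.2 - base x i.1 i.2) :=
    le_antisymm ((measure_mono hsub2).trans_eq Real.volume_Ico)
      (Real.volume_Ioo.symm.le.trans (measure_mono hsub1))
  unfold rc cc
  rw [hv, ENNReal.toReal_ofReal']

/-- `stepF` of the long class on the cell `k` -/
theorem stepF_cell {x : ℕ → ℝ} {m : ℕ} (hx : Seq x m) {a : ℝ} (ha : 0 < a) (hm : 1 ≤ m) (lam η : ℝ)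
    {k : ℕ} (hk1 : 1 ≤ k) (hk2 : k ≤ m) {t : ℝ} (ht : t ∈ Ico (nd lam a m (k - 1)) (nd lam a m k)) :
    open Classical in stepF x (longI a m η) lam a m t = xL (Lg a m η) x m k := by
  classical
  have hmono : Monotone (nd lam a m) := monotone_nat_of_le_succ fun k => by
    rw [nd_succ]; have := msh_pos ha hm; linarith
  unfold stepF xL
  rw [longI_eq]
  have hfil : (pairsAt m k).filter (Lg a m η) =
      ((pairs m).filter (fun i => Lg a m η i)).filter (fun i => i.1 ≤ k ∧ k ≤ i.2) := by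
    unfold pairsAt
    ext i
    simp only [Finset.mem_filter]
    tauto
  rw [hfil, Finset.sum_filter (s := (pairs m).filter (fun i => Lg a m η i))]
  refine Finset.sum_congr rfl fun i hi => ?_
  have hi' := (Finset.mem_filter.1 hi).1
  obtain ⟨h1, h12, hm'⟩ := mem_pairs.1 hi'
  rw [rc_eq hx hi']
  unfold ind lft rgt
  have e : (nd lam a m (i.1 - 1) ≤ t ∧ t < nd lam a m i.2) ↔ (i.1 ≤ k ∧ k ≤ i.2) := by
    constructor
    · rintro ⟨c1, c2⟩
      constructor
      · by_contra hcon
        have : nd lam a m k ≤ nd lam a m (i.1 - 1) := hmono (by omega)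
        linarith [ht.2]
      · by_contra hcon
        have : nd lam a m i.2 ≤ nd lam a m (k - 1) := hmono (by omega)
        linarith [ht.1]
    · rintro ⟨c1, c2⟩
      exact ⟨(hmono (by omega)).trans ht.1, lt_of_lt_of_le ht.2 (hmono c2)⟩
  by_cases hc : i.1 ≤ k ∧ k ≤ i.2
  · rw [if_pos hc, if_pos (e.2 hc), mul_one]
  · rw [if_neg hc, if_neg (fun h => hc (e.1 h)), mul_zero]

/-- integral over the line of a function given cell by cell -/
theorem int_cells {nd : ℕ → ℝ} {m : ℕ} (hmono : Monotone nd) {g : ℝ → ℝ} {G : ℕ → ℝ → ℝ}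
    (hg0 : ∀ t, t ∉ Icc (nd 0) (nd m) → g t = 0)
    (hG : ∀ k, 1 ≤ k → k ≤ m → IntervalIntegrable (G k) volume (nd (k - 1)) (nd k))
    (he : ∀ k, 1 ≤ k → k ≤ m → ∀ t ∈ Ioo (nd (k - 1)) (nd k), g t = G k t) (hm : 1 ≤ m) :
    ∫ t, g t = ∑ k ∈ Finset.Icc 1 m, ∫ t in nd (k - 1)..nd k, G k t := by
  have h1 : ∀ k, 1 ≤ k → k ≤ m → IntervalIntegrable g volume (nd (k - 1)) (nd k) := by
    intro k hk1 hk2
    refine (hG k hk1 hk2).congr_uIoo ?_
    rw [uIoo_of_le (hmono (Nat.sub_le k 1))]
    exact fun t ht => (he k hk1 hk2 t ht).symm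
  have h0m : nd 0 ≤ nd m := hmono (Nat.zero_le _)
  rw [← setIntegral_eq_integral_of_forall_compl_eq_zero hg0, integral_Icc_eq_integral_Ioc,
    ← intervalIntegral.integral_of_le h0m]
  have h2 := integral_cells (nd := nd) (g := g) (l := 1) (r := m) hm h1
  simp only [Nat.sub_self] at h2
  rw [h2]
  refine Finset.sum_congr rfl fun k hk => ?_
  rw [Finset.mem_Icc] at hk
  exact intervalIntegral.integral_congr_Ioo_of_le (hmono (Nat.sub_le k 1)) (he k hk.1 hk.2)

theorem tent_out {lam a : ℝ} (ha : 0 < a) {m : ℕ} (hm : 1 ≤ m) {t : ℝ}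
    (ht : t ∉ Icc (nd lam a m 0) (nd lam a m m)) : tent lam a t = 0 := by
  rw [nd_zero, nd_last lam a hm, mem_Icc, not_and_or, not_le, not_le] at ht
  rcases ht with h | h
  · exact tent_zero_left (by linarith)
  · exact tent_zero_right (by linarith)

/-- constant of STEP W -/
def KW (b p lam L : ℝ) : ℝ :=
  |Real.exp (|b| * (|lam| + 2) / p) *
    ((1 / p) * max ((1 / (2 * L)) ^ (1 / p - 1)) (L ^ (1 / p - 1)) * (2 * L)) * (4 * L) + 2 * L * (4 * L)|

theorem samp_seq {b p lam a L : ℝ} (ha : 0 < a) (ha1 : a ≤ 1) {f v : ℝ → ℝ} {m : ℕ}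
    (S : Sol b p f v lam L) (hm : 1 ≤ m) (hLm : 4 * L ^ 2 * msh a m ≤ 1) :
    Seq (samp f lam a m L) m ∧ ∀ k, 1 ≤ k → k ≤ m → 1 / (2 * L) ≤ samp f lam a m L k := by
  have hL := S.hL
  have hh := msh_pos ha hm
  have hmono : Monotone (nd lam a m) := monotone_nat_of_le_succ fun k => by
    rw [nd_succ]; linarith
  have hin : ∀ k, k ≤ m → nd lam a m k ∈ Icc (lam - 2) (lam + 4) := by
    intro k hk
    have h1 := hmono (Nat.zero_le k)
    have h2 := hmono hk
    rw [nd_zero] at h1
    rw [nd_last lam a hm] at h2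
    constructor <;> linarith
  have hge : ∀ k, 1 ≤ k → k ≤ m → 1 / (2 * L) ≤ samp f lam a m L k := by
    intro k hk1 hk2
    unfold samp
    rw [if_pos ⟨hk1, hk2⟩]
    have h1 := S.f_ge _ (hin k hk2)
    rw [div_le_iff₀ (by positivity)]
    nlinarith
  refine ⟨⟨?_, ?_, fun k => ?_⟩, hge⟩
  · unfold samp; simp
  · unfold samp; rw [if_neg (by omega)]
  · by_cases hk : 1 ≤ k ∧ k ≤ m
    · refine le_trans ?_ (hge k hk.1 hk.2)
      positivity
    · unfold samp; rw [if_neg hk]

theorem wgrid {b p lam a L : ℝ} (ha : 0 < a) (ha1 : a ≤ 1) {f v : ℝ → ℝ} {m : ℕ} {η : ℝ}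
    (S : Sol b p f v lam L) (hm : 1 ≤ m) (hLm : 4 * L ^ 2 * msh a m ≤ 1) (hη : 0 < η) :
    WGrid b p η L (msh a m) (1 / (2 * L)) L
      (Real.exp (|b| * (|lam| + 2) / p) *
        ((1 / p) * max ((1 / (2 * L)) ^ (1 / p - 1)) (L ^ (1 / p - 1)) * (2 * L)) * msh a m)
      m (nd lam a m) (samp f lam a m L) (Lg a m η) f v (deriv v) (tent lam a) (phi lam a) := by
  have hL := S.hL
  have hp := S.hp
  have hh := msh_pos ha hm
  have hmono : Monotone (nd lam a m) := monotone_nat_of_le_succ fun k => by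
    rw [nd_succ]; linarith
  have hwin : Icc (nd lam a m 0) (nd lam a m m) ⊆ Icc (lam - 2) (lam + 4) := by
    rw [nd_zero, nd_last lam a hm]
    exact Icc_subset_Icc (by linarith) (by linarith)
  obtain ⟨hseq, hge⟩ := samp_seq ha ha1 S hm hLm
  exact
  { p_pos := hp
    η_nonneg := hη.le
    h_pos := hh
    L_nonneg := by linarith
    nd_succ := fun k => nd_succ lam a m k
    seq := hseq
    x_eq := fun k h1 h2 => by unfold samp; rw [if_pos ⟨h1, h2⟩]
    up := upClosed a ha m η
    short := fun q hq hs => by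
      unfold Lg at hs
      rw [not_not] at hs
      refine ⟨hs.1, hs.2.1, ?_⟩
      rw [nd_sub]
      have h1 : ((q.1 - 1 : ℕ) : ℝ) = (q.1 : ℝ) - 1 := by
        rw [Nat.cast_sub (by have := hs.1; omega)]; simp
      rw [h1]
      have h2 : ((q.2 : ℝ) - ((q.1 : ℝ) - 1)) = (q.2 : ℝ) - q.1 + 1 := by ring
      rw [h2]
      exact hs.2.2.le
    f0_pos := by positivity
    x_ge := hge
    F_le := fun t ht => S.f_le t (hwin ht)
    lip := fun s hs t ht => S.f_lip s (hwin hs) t (hwin ht)
    e_ge := fun t ht => by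
      have h1 := hwin ht
      rw [nd_zero, nd_last lam a hm] at ht
      have hM : 0 ≤ max ((1 / (2 * L)) ^ (1 / p - 1)) (L ^ (1 / p - 1)) :=
        le_max_of_le_left (Real.rpow_nonneg (by positivity) _)
      have hE : Real.exp (-(b * t) / p) ≤ Real.exp (|b| * (|lam| + 2) / p) := by
        rw [Real.exp_le_exp]
        refine div_le_div_of_nonneg_right ?_ hp.le
        have ht2 : |t| ≤ |lam| + 2 := by
          rw [abs_le]
          have := neg_abs_le lam
          have := le_abs_self lam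
          constructor <;> linarith [ht.1, ht.2]
        calc -(b * t) ≤ |b * t| := neg_le_abs _
          _ = |b| * |t| := abs_mul _ _
          _ ≤ |b| * (|lam| + 2) := mul_le_mul_of_nonneg_left ht2 (abs_nonneg _)
      calc Real.exp (-(b * t) / p) *
            ((1 / p) * max ((1 / (2 * L)) ^ (1 / p - 1)) (L ^ (1 / p - 1)) * (2 * L * msh a m))
          ≤ Real.exp (|b| * (|lam| + 2) / p) *
            ((1 / p) * max ((1 / (2 * L)) ^ (1 / p - 1)) (L ^ (1 / p - 1)) * (2 * L * msh a m)) :=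
            mul_le_mul_of_nonneg_right hE (by positivity)
        _ = _ := by ring
    w_cont := tent_cont lam a
    w_nonneg := tent_nonneg lam a
    φ_deriv := phi_hasDerivAt lam a
    V_pos := fun t _ => S.v_pos t
    F_eq := fun t _ => S.feq t
    V_deriv := fun t _ => (S.v_C1.differentiable (by norm_num) t).hasDerivAt
    V'_cont := (S.v_C1.continuous_deriv (by norm_num)).continuousOn }

theorem W1 : Stmt_W1 := by
  intro b p lam a L ha ha1
  refine ⟨KW b p lam L, abs_nonneg _, ?_⟩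
  intro f v m η S hm hLm hη hηa
  classical
  have H := wgrid ha ha1 S hm hLm hη
  have hL := S.hL
  have hp := S.hp
  have hh := msh_pos ha hm
  have hmono := H.nd_mono
  have hvc : Continuous v := S.v_C1.continuous
  have hfc : Continuous f := by
    have : f = fun t => Real.exp (b * t) * v t ^ p := funext S.feq
    rw [this]
    exact (by fun_prop : Continuous fun t : ℝ => Real.exp (b * t)).mul
      (hvc.rpow_const fun t => Or.inl (S.v_pos t).ne')
  have hwc := tent_cont lam a
  have hw0 := tent_nonneg lam a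
  have h0m : nd lam a m 0 ≤ nd lam a m m := hmono (Nat.zero_le _)
  have hφ1 : phi lam a (nd lam a m m) = 0 := phi_right ha (by rw [nd_last lam a hm]; linarith)
  have key := H.stepW (T0 := nd lam a m 0) (T1 := nd lam a m m) le_rfl le_rfl hφ1
    (fun t ht => tent_out ha hm ht) (fun t _ => S.v_pos t) (fun t _ => S.feq t) H.V_deriv H.V'_cont
  have hphi := stepW_phi (b := b) hp h0m hwc (phi_hasDerivAt lam a) hφ1 (fun t _ => S.v_pos t)
    (fun t _ => S.feq t) H.V_deriv H.V'_cont
  -- conversion of the integrals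
  have c1 : ∫ t, tent lam a t * (f t * v t) = ∫ t in nd lam a m 0..nd lam a m m, tent lam a t * f t * v t := by
    rw [← setIntegral_eq_integral_of_forall_compl_eq_zero (s := Icc (nd lam a m 0) (nd lam a m m))
      (fun t ht => by rw [tent_out ha hm ht, zero_mul]), integral_Icc_eq_integral_Ioc,
      ← intervalIntegral.integral_of_le h0m]
    congr 1; funext t; ring
  have c2 : ∫ t, tent lam a t * (stepF (samp f lam a m L) (longI a m η) lam a m t * v t) =
      ∑ k ∈ Finset.Icc 1 m, ∫ t in nd lam a m (k - 1)..nd lam a m k,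
        tent lam a t * (xL (Lg a m η) (samp f lam a m L) m k * v t) := by
    refine int_cells hmono (fun t ht => by rw [tent_out ha hm ht, zero_mul]) (fun k _ _ => ?_)
      (fun k h1 h2 t ht => ?_) hm
    · exact (hwc.mul (continuous_const.mul hvc)).intervalIntegrable _ _
    · rw [stepF_cell H.seq ha hm lam η h1 h2 (Ioo_subset_Ico_self ht)]
  have c3 : ∫ t, tent lam a t * psi b p t (stepF (samp f lam a m L) (longI a m η) lam a m t) =
      ∑ k ∈ Finset.Icc 1 m, ∫ t in nd lam a m (k - 1)..nd lam a m k,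
        tent lam a t * psi b p t (xL (Lg a m η) (samp f lam a m L) m k) := by
    refine int_cells hmono (fun t ht => by rw [tent_out ha hm ht, zero_mul]) (fun k _ _ => ?_)
      (fun k h1 h2 t ht => ?_) hm
    · exact (hwc.mul (by unfold psi; fun_prop)).intervalIntegrable _ _
    · rw [stepF_cell H.seq ha hm lam η h1 h2 (Ioo_subset_Ico_self ht)]
  have c4 : (∑ i ∈ shortI a m η, rc (samp f lam a m L) i *
          ∫ t in (lft lam a m i)..(rgt lam a m i), (phi lam a (mid lam a m i) - phi lam a t) * deriv v t) =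
      ∑ q ∈ (pairs m).filter (fun q => ¬ Lg a m η q), cc (samp f lam a m L) q.1 q.2 *
        ∫ t in nd lam a m (q.1 - 1)..nd lam a m q.2,
          (phi lam a ((nd lam a m (q.1 - 1) + nd lam a m q.2) / 2) - phi lam a t) * deriv v t := by
    rw [shortI_eq]
    refine Finset.sum_congr rfl fun i hi => ?_
    rw [rc_eq H.seq (Finset.mem_filter.1 hi).1]
    rfl
  rw [c1, c2, c3, c4]
  rw [hphi] at key
  have key2 := (abs_le.1 key).2
  -- bounds of the error terms
  have hwin : Icc (nd lam a m 0) (nd lam a m m) ⊆ Icc (lam - 2) (lam + 4) := by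
    rw [nd_zero, nd_last lam a hm]
    exact Icc_subset_Icc (by linarith) (by linarith)
  have hlen : nd lam a m m - nd lam a m 0 = 2 * a := by
    rw [nd_zero, nd_last lam a hm]; ring
  have hbd : ∀ g : ℝ → ℝ, Continuous g → (∀ t ∈ Icc (lam - 2) (lam + 4), g t ≤ L) →
      (∫ t in nd lam a m 0..nd lam a m m, tent lam a t * g t) ≤ 4 * L := by
    intro g hg hgL
    have : (∫ t in nd lam a m 0..nd lam a m m, tent lam a t * g t) ≤
        ∫ t in nd lam a m 0..nd lam a m m, 2 / a * L := by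
      refine intervalIntegral.integral_mono_on h0m ((hwc.mul hg).intervalIntegrable _ _)
        (by simp) fun t ht => ?_
      calc tent lam a t * g t ≤ tent lam a t * L := mul_le_mul_of_nonneg_left (hgL t (hwin ht)) (hw0 t)
        _ ≤ 2 / a * L := mul_le_mul_of_nonneg_right (tent_le ha) (by linarith)
    refine this.trans_eq ?_
    rw [intervalIntegral.integral_const, hlen, smul_eq_mul]
    field_simp
    ring
  have hbF := hbd f hfc S.f_le
  have hbV := hbd v hvc S.v_le
  have hFV0 : 0 ≤ ∫ t in nd lam a m 0..nd lam a m m, tent lam a t * f t * v t := by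
    refine intervalIntegral.integral_nonneg h0m fun t ht => ?_
    have h1 : 0 ≤ f t := by
      rw [S.feq]
      have := S.v_pos t
      positivity
    have h2 := (S.v_pos t).le
    have h3 := hw0 t
    positivity
  have hη1 : η ≤ 1 := by linarith
  have hexp : Real.exp (|b| * η / p) - 1 ≤ cb b p * η := by
    unfold cb
    have h1 : 0 ≤ |b| * η / p := by positivity
    have h2 : |b| * η / p ≤ |b| / p := by
      refine div_le_div_of_nonneg_right ?_ hp.le
      have := mul_le_mul_of_nonneg_left hη1 (abs_nonneg b)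
      linarith
    have h3 : Real.exp (|b| * η / p) - 1 ≤ |b| * η / p * Real.exp (|b| * η / p) := by
      have h4 := Real.add_one_le_exp (-(|b| * η / p))
      have h5 : Real.exp (|b| * η / p) * Real.exp (-(|b| * η / p)) = 1 := by
        rw [← Real.exp_add]; simp
      have h6 := Real.exp_pos (|b| * η / p)
      nlinarith
    have h4 := Real.exp_le_exp.2 h2
    calc Real.exp (|b| * η / p) - 1 ≤ |b| * η / p * Real.exp (|b| * η / p) := h3
      _ ≤ |b| * η / p * Real.exp (|b| / p) := mul_le_mul_of_nonneg_left h4 h1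
      _ = |b| / p * Real.exp (|b| / p) * η := by ring
  have hexp0 : 0 ≤ Real.exp (|b| * η / p) - 1 := by
    have h1 : 0 ≤ |b| * η / p := by positivity
    have := Real.add_one_le_exp (|b| * η / p)
    linarith
  set I := ∫ t in nd lam a m 0..nd lam a m m, tent lam a t * f t * v t with hI
  have t1 : (Real.exp (|b| * η / p) - 1) * (p / (p + 1) * I) ≤ cb b p * η * I := by
    have h1 : p / (p + 1) ≤ 1 := by rw [div_le_one (by linarith)]; linarith
    have h2 : p / (p + 1) * I ≤ I := by
      have := mul_le_mul_of_nonneg_right h1 hFV0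
      linarith
    calc (Real.exp (|b| * η / p) - 1) * (p / (p + 1) * I) ≤ (Real.exp (|b| * η / p) - 1) * I :=
          mul_le_mul_of_nonneg_left h2 hexp0
      _ ≤ cb b p * η * I := mul_le_mul_of_nonneg_right hexp hFV0
  set e1 := Real.exp (|b| * (|lam| + 2) / p) *
    ((1 / p) * max ((1 / (2 * L)) ^ (1 / p - 1)) (L ^ (1 / p - 1)) * (2 * L)) with he1
  have he10 : 0 ≤ e1 := by
    have hM : 0 ≤ max ((1 / (2 * L)) ^ (1 / p - 1)) (L ^ (1 / p - 1)) :=
      le_max_of_le_left (Real.rpow_nonneg (by positivity) _)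
    rw [he1]
    positivity
  have t2 : e1 * msh a m * (∫ t in nd lam a m 0..nd lam a m m, tent lam a t * f t) ≤
      e1 * msh a m * (4 * L) := mul_le_mul_of_nonneg_left hbF (by positivity)
  have t3 : 2 * L * msh a m * (∫ t in nd lam a m 0..nd lam a m m, tent lam a t * v t) ≤
      2 * L * msh a m * (4 * L) := mul_le_mul_of_nonneg_left hbV (by positivity)
  have t4 : e1 * msh a m * (4 * L) + 2 * L * msh a m * (4 * L) ≤ KW b p lam L * msh a m := by
    have : e1 * msh a m * (4 * L) + 2 * L * msh a m * (4 * L) =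
        (e1 * (4 * L) + 2 * L * (4 * L)) * msh a m := by ring
    rw [this]
    exact mul_le_mul_of_nonneg_right (le_abs_self _) hh.le
  linarith

end Crest.Agent.R077.W
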