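import Mathlib

set_option autoImplicit false

namespace Crest.Agent.R077.StepX

open MeasureTheory Set

/-- `Gam a b rho s` = length of `[a,b] ∩ (s - rho, s + rho)`. -/
noncomputable def Gam (a b rho s : ℝ) : ℝ := max 0 (min b (s + rho) - max a (s - rho))

lemma Gam_nonneg (a b rho s : ℝ) : 0 ≤ Gam a b rho s := le_max_left _ _

lemma Gam_le (a b rho s : ℝ) (hr : 0 ≤ rho) : Gam a b rho s ≤ 2 * rho := by
  unfold Gam
  apply max_le (by linarith)
  have h1 : min b (s + rho) ≤ s + rho := min_le_right _ _
  have h2 : s - rho ≤ max a (s - rho) := le_max_right _ _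
  linarith

lemma continuous_Gam (a b rho : ℝ) : Continuous (Gam a b rho) := by
  unfold Gam; fun_prop

/-- inside the interval the function is `2 rho`. -/
lemma Gam_eq_of_mem (a b rho s : ℝ) (hr : 0 ≤ rho) (h1 : a ≤ s - rho) (h2 : s + rho ≤ b) :
    Gam a b rho s = 2 * rho := by
  unfold Gam
  rw [min_eq_right h2, max_eq_right h1, max_eq_right (by linarith)]
  ring

/-- Key trapezoid lemma: close to the left end `s1` of a long interval, `Gam_I` is controlled by its value
at `s1` and its average over `[s1, s1 + eta/2]`. -/
lemma Gam_le_left (a b rho eta ze s1 s : ℝ) (hr : 0 ≤ rho) (heta : 0 < eta)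
    (hab : eta ≤ b - a) (hze : 0 ≤ ze) (hsmall : ze + 2 * rho ≤ eta / 4)
    (hs1 : s1 ≤ s) (hs2 : s ≤ s1 + ze) :
    Gam a b rho s ≤ Gam a b rho s1 + (8 / eta) * ∫ x in s1..(s1 + eta / 2), Gam a b rho x := by
  by_cases hle : Gam a b rho s ≤ Gam a b rho s1
  · have hint : 0 ≤ ∫ x in s1..(s1 + eta / 2), Gam a b rho x :=
      intervalIntegral.integral_nonneg (by linarith) (fun x _ => Gam_nonneg _ _ _ _)
    have : 0 ≤ (8 / eta) * ∫ x in s1..(s1 + eta / 2), Gam a b rho x := by positivity
    linarith
  · push Not at hle
    -- the left end `a` satisfies `s1 - rho < a < s1 + ze + rho`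
    have ha1 : s1 - rho < a := by
      by_contra hcon
      push Not at hcon
      -- then max a (s1 - rho) = s1 - rho, Gam s ≤ Gam s1
      apply absurd hle
      push Not
      unfold Gam
      apply max_le (le_max_left _ _)
      have e1 : max a (s1 - rho) = s1 - rho := max_eq_right hcon
      have e2 : max a (s - rho) = s - rho := max_eq_right (by linarith)
      rw [e1, e2]
      apply le_trans _ (le_max_right _ _)
      rcases min_cases b (s + rho) with h | h <;> rcases min_cases b (s1 + rho) with h' | h' <;>
        linarith
    have ha2 : a < s1 + ze + rho := by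
      by_contra hcon
      push Not at hcon
      apply absurd hle
      push Not
      have : Gam a b rho s = 0 := by
        unfold Gam
        apply max_eq_left
        have h1 : min b (s + rho) ≤ s + rho := min_le_right _ _
        have h2 : a ≤ max a (s - rho) := le_max_left _ _
        linarith
      rw [this]; exact Gam_nonneg _ _ _ _
    -- on [s1 + ze + 2 rho, s1 + eta/2] the function equals 2 rho
    have hint : 2 * rho * (eta / 4) ≤ ∫ x in s1..(s1 + eta / 2), Gam a b rho x := by
      have hc := continuous_Gam a b rho
      have hsplit : ∫ x in s1..(s1 + eta / 2), Gam a b rho x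
          = (∫ x in s1..(s1 + eta / 4), Gam a b rho x) +
            ∫ x in (s1 + eta / 4)..(s1 + eta / 2), Gam a b rho x :=
        (intervalIntegral.integral_add_adjacent_intervals (hc.intervalIntegrable _ _)
          (hc.intervalIntegrable _ _)).symm
      rw [hsplit]
      have h0 : 0 ≤ ∫ x in s1..(s1 + eta / 4), Gam a b rho x :=
        intervalIntegral.integral_nonneg (by linarith) (fun x _ => Gam_nonneg _ _ _ _)
      have h1 : ∫ x in (s1 + eta / 4)..(s1 + eta / 2), Gam a b rho x
          = ∫ x in (s1 + eta / 4)..(s1 + eta / 2), (2 * rho) := by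
        apply intervalIntegral.integral_congr
        intro x hx
        rw [uIcc_of_le (by linarith)] at hx
        exact Gam_eq_of_mem a b rho x hr (by linarith [hx.1]) (by linarith [hx.2])
      rw [h1, intervalIntegral.integral_const, smul_eq_mul]
      have : (s1 + eta / 2 - (s1 + eta / 4)) = eta / 4 := by ring
      rw [this]
      nlinarith
    have hG : Gam a b rho s ≤ 2 * rho := Gam_le a b rho s hr
    have h8 : 2 * rho ≤ (8 / eta) * ∫ x in s1..(s1 + eta / 2), Gam a b rho x := by
      have : (8 / eta) * (2 * rho * (eta / 4)) = 4 * rho := by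
        field_simp; ring
      have hmul := mul_le_mul_of_nonneg_left hint (by positivity : (0:ℝ) ≤ 8 / eta)
      rw [this] at hmul
      linarith
    have := Gam_nonneg a b rho s1
    linarith

end Crest.Agent.R077.StepX
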