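import Mathlib
import Crest.Agent.R077.StepXGam

/-!
# Row 77, STEP X, one-dimensional parts (helper615)

Blueprint notes 9268-9270 of helper427.  Everything here is for plain functions on `ℝ` and finite weighted
families of half-open intervals.
-/

set_option autoImplicit false

namespace Crest.Agent.R077.StepX

open MeasureTheory Set

/-! ## right end version of the trapezoid lemma -/

lemma Gam_reflect (a b rho s : ℝ) : Gam a b rho s = Gam (-b) (-a) rho (-s) := by
  unfold Gam
  congr 1
  rw [show -s + rho = -(s - rho) by ring, show -s - rho = -(s + rho) by ring,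
    min_neg_neg, max_neg_neg]
  ring

lemma Gam_le_right (a b rho eta ze t1 s : ℝ) (hr : 0 ≤ rho) (heta : 0 < eta)
    (hab : eta ≤ b - a) (hze : 0 ≤ ze) (hsmall : ze + 2 * rho ≤ eta / 4)
    (hs1 : t1 - ze ≤ s) (hs2 : s ≤ t1) :
    Gam a b rho s ≤ Gam a b rho t1 + (8 / eta) * ∫ x in (t1 - eta / 2)..t1, Gam a b rho x := by
  have h := Gam_le_left (-b) (-a) rho eta ze (-t1) (-s) hr heta (by linarith) hze hsmall
    (by linarith) (by linarith)
  rw [← Gam_reflect, ← Gam_reflect] at h
  have e : ∫ x in (-t1)..(-t1 + eta / 2), Gam (-b) (-a) rho x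
      = ∫ x in (t1 - eta / 2)..t1, Gam a b rho x := by
    have h2 := intervalIntegral.integral_comp_neg (a := t1 - eta / 2) (b := t1)
      (fun x => Gam (-b) (-a) rho x)
    rw [show -(t1 - eta / 2) = -t1 + eta / 2 by ring] at h2
    rw [← h2]
    apply intervalIntegral.integral_congr
    intro x _
    exact (Gam_reflect a b rho x).symm
  rw [e] at h
  exact h

/-! ## boxes -/

/-- box integral of `h` around `t` -/
noncomputable def box (h : ℝ → ℝ) (rho t : ℝ) : ℝ := ∫ s in (t - rho)..(t + rho), h s

lemma box_eq_setIntegral (h : ℝ → ℝ) {rho : ℝ} (hr : 0 ≤ rho) (t : ℝ) :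
    box h rho t = ∫ s in Ioc (t - rho) (t + rho), h s := by
  unfold box
  rw [intervalIntegral.integral_of_le (by linarith)]

lemma box_nonneg {h : ℝ → ℝ} (hh : ∀ t, 0 ≤ h t) {rho : ℝ} (hr : 0 ≤ rho) (t : ℝ) :
    0 ≤ box h rho t := by
  unfold box
  exact intervalIntegral.integral_nonneg (by linarith) (fun x _ => hh x)

lemma continuous_box {h : ℝ → ℝ} (hh : Integrable h) (rho : ℝ) : Continuous (box h rho) := by
  unfold box
  have h1 : ∀ t : ℝ, ∫ s in (t - rho)..(t + rho), h s
      = (∫ s in (0:ℝ)..(t + rho), h s) - ∫ s in (0:ℝ)..(t - rho), h s := by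
    intro t
    rw [intervalIntegral.integral_interval_sub_left (hh.intervalIntegrable) (hh.intervalIntegrable)]
  simp_rw [h1]
  have hc : Continuous (fun x : ℝ => ∫ s in (0:ℝ)..x, h s) :=
    intervalIntegral.continuous_primitive (fun a b => hh.intervalIntegrable) 0
  exact (hc.comp (by fun_prop)).sub (hc.comp (by fun_prop))

lemma box_le_of_bound {h : ℝ → ℝ} {rho : ℝ} (hr : 0 ≤ rho) (hh : Integrable h) (h0 : ∀ t, 0 ≤ h t)
    (t : ℝ) : box h rho t ≤ ∫ s, h s := by
  rw [box_eq_setIntegral h hr]
  exact setIntegral_le_integral hh (Filter.Eventually.of_forall h0)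

lemma box_add {h k : ℝ → ℝ} (hh : Integrable h) (hk : Integrable k) (rho t : ℝ) :
    box (fun s => h s + k s) rho t = box h rho t + box k rho t := by
  unfold box
  exact intervalIntegral.integral_add hh.intervalIntegrable hk.intervalIntegrable

lemma box_finset_sum {ι : Type*} (S : Finset ι) (h : ι → ℝ → ℝ) (hh : ∀ i ∈ S, Integrable (h i))
    (rho t : ℝ) :
    box (fun s => ∑ i ∈ S, h i s) rho t = ∑ i ∈ S, box (h i) rho t := by
  unfold box
  exact intervalIntegral.integral_finsetSum (fun i hi => (hh i hi).intervalIntegrable)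

/-- (X1) box swap (Fubini). -/
theorem box_swap {h1 h2 : ℝ → ℝ} (i1 : Integrable h1) (i2 : Integrable h2) {rho : ℝ}
    (hr : 0 ≤ rho) :
    ∫ t, h1 t * box h2 rho t = ∫ s, h2 s * box h1 rho s := by
  -- the function of two variables
  set K : ℝ → ℝ → ℝ := fun t s => h1 t * h2 s * (Icc (-rho) rho).indicator (fun _ => (1:ℝ)) (t - s)
    with hK
  have hKint : Integrable (fun z : ℝ × ℝ => K z.1 z.2) (volume.prod volume) := by
    have hp : Integrable (fun z : ℝ × ℝ => h1 z.1 * h2 z.2) (volume.prod volume) := i1.mul_prod i2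
    have hm : MeasurableSet {z : ℝ × ℝ | z.1 - z.2 ∈ Icc (-rho) rho} :=
      (measurable_fst.sub measurable_snd) measurableSet_Icc
    have := hp.indicator hm
    refine this.congr (Filter.Eventually.of_forall ?_)
    intro z
    simp only [hK, Set.indicator_apply, Set.mem_ofPred_eq]
    split_ifs <;> simp
  have e1 : ∀ t, ∫ s, K t s = h1 t * box h2 rho t := by
    intro t
    rw [box_eq_setIntegral h2 hr, ← integral_Icc_eq_integral_Ioc, ← integral_indicator measurableSet_Icc,
      ← integral_const_mul]
    congr 1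
    ext s
    simp only [hK, Set.indicator_apply, Set.mem_Icc]
    by_cases hc : (-rho ≤ t - s ∧ t - s ≤ rho)
    · rw [if_pos hc, if_pos ⟨by linarith [hc.2], by linarith [hc.1]⟩]; ring
    · rw [if_neg hc, if_neg (fun h' => hc ⟨by linarith [h'.2], by linarith [h'.1]⟩)]; ring
  have e2 : ∀ s, ∫ t, K t s = h2 s * box h1 rho s := by
    intro s
    rw [box_eq_setIntegral h1 hr, ← integral_Icc_eq_integral_Ioc, ← integral_indicator measurableSet_Icc,
      ← integral_const_mul]
    congr 1
    ext t
    simp only [hK, Set.indicator_apply, Set.mem_Icc]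
    by_cases hc : (-rho ≤ t - s ∧ t - s ≤ rho)
    · rw [if_pos hc, if_pos ⟨by linarith [hc.1], by linarith [hc.2]⟩]; ring
    · rw [if_neg hc, if_neg (fun h' => hc ⟨by linarith [h'.1], by linarith [h'.2]⟩)]; ring
  calc ∫ t, h1 t * box h2 rho t = ∫ t, ∫ s, K t s := by simp_rw [e1]
    _ = ∫ s, ∫ t, K t s := integral_integral_swap hKint
    _ = ∫ s, h2 s * box h1 rho s := by simp_rw [e2]

/-! ## finite weighted families of intervals -/

/-- step function of a finite weighted family of intervals -/
noncomputable def stepf {ι : Type*} (S : Finset ι) (c a b : ι → ℝ) (t : ℝ) : ℝ :=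
  ∑ i ∈ S, (Ico (a i) (b i)).indicator (fun _ => c i) t

lemma ind_integrable (a b c : ℝ) : Integrable ((Ico a b).indicator (fun _ => c)) := by
  rw [integrable_indicator_iff measurableSet_Ico]
  exact integrableOn_const (by simp) (by simp)

lemma stepf_integrable {ι : Type*} (S : Finset ι) (c a b : ι → ℝ) :
    Integrable (stepf S c a b) := by
  unfold stepf
  exact integrable_finsetSum S (fun i _ => ind_integrable (a i) (b i) (c i))

lemma stepf_nonneg {ι : Type*} {S : Finset ι} {c a b : ι → ℝ} (hc : ∀ i ∈ S, 0 ≤ c i) (t : ℝ) :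
    0 ≤ stepf S c a b t := by
  unfold stepf
  refine Finset.sum_nonneg (fun i hi => ?_)
  rw [Set.indicator_apply]
  split_ifs
  · exact hc i hi
  · exact le_rfl

lemma measurable_stepf {ι : Type*} (S : Finset ι) (c a b : ι → ℝ) :
    Measurable (stepf S c a b) := by
  unfold stepf
  exact Finset.measurable_sum S (fun i _ => measurable_const.indicator measurableSet_Ico)

lemma box_ind (a b c rho : ℝ) (hr : 0 ≤ rho) (t : ℝ) :
    box ((Ico a b).indicator (fun _ => c)) rho t = c * Gam a b rho t := by
  rw [box_eq_setIntegral _ hr, ← integral_Icc_eq_integral_Ioc, integral_Icc_eq_integral_Ico,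
    setIntegral_indicator measurableSet_Ico,
    Ico_inter_Ico, setIntegral_const, smul_eq_mul, mul_comm]
  congr 1
  rw [Measure.real, Real.volume_Ico]
  unfold Gam
  have e : (t + rho) ⊓ b - (t - rho) ⊔ a = min b (t + rho) - max a (t - rho) := by
    rw [min_comm, max_comm]
  rw [e]
  rcases le_total (min b (t + rho) - max a (t - rho)) 0 with h | h
  · rw [ENNReal.ofReal_of_nonpos h, max_eq_left h]; rfl
  · rw [ENNReal.toReal_ofReal h, max_eq_right h]

lemma box_stepf {ι : Type*} (S : Finset ι) (c a b : ι → ℝ) (rho : ℝ) (hr : 0 ≤ rho) (t : ℝ) :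
    box (stepf S c a b) rho t = ∑ i ∈ S, c i * Gam (a i) (b i) rho t := by
  have : stepf S c a b = fun s => ∑ i ∈ S, (Ico (a i) (b i)).indicator (fun _ => c i) s := rfl
  rw [this, box_finset_sum S _ (fun i _ => ind_integrable (a i) (b i) (c i))]
  exact Finset.sum_congr rfl (fun i _ => box_ind _ _ _ rho hr t)


/-! ## weights -/

/-- the characteristic function of `[a,b)` -/
noncomputable def chi (a b t : ℝ) : ℝ := (Ico a b).indicator (fun _ => (1:ℝ)) t

lemma chi_nonneg (a b t : ℝ) : 0 ≤ chi a b t := by
  unfold chi; rw [Set.indicator_apply]; split_ifs <;> norm_num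

lemma chi_integrable (a b : ℝ) : Integrable (chi a b) := ind_integrable a b 1

lemma box_chi (a b rho : ℝ) (hr : 0 ≤ rho) (t : ℝ) : box (chi a b) rho t = Gam a b rho t := by
  have := box_ind a b 1 rho hr t
  rw [one_mul] at this
  exact this

lemma stepf_eq_chi {ι : Type*} (S : Finset ι) (c a b : ι → ℝ) (t : ℝ) :
    stepf S c a b t = ∑ i ∈ S, c i * chi (a i) (b i) t := by
  unfold stepf chi
  refine Finset.sum_congr rfl (fun i _ => ?_)
  rw [Set.indicator_apply, Set.indicator_apply]
  split_ifs <;> simp

lemma w_chi_integrable {w : ℝ → ℝ} (hw : Continuous w) (a b : ℝ) :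
    Integrable (fun t => w t * chi a b t) := by
  have h : Integrable ((Ico a b).indicator w) := by
    rw [integrable_indicator_iff measurableSet_Ico]
    exact (hw.integrableOn_Icc (a := a) (b := b)).mono_set Ico_subset_Icc_self
  refine h.congr (Filter.Eventually.of_forall ?_)
  intro t
  simp only [chi, Set.indicator_apply]
  split_ifs <;> simp

lemma w_stepf_integrable {ι : Type*} {w : ℝ → ℝ} (hw : Continuous w) (S : Finset ι)
    (c a b : ι → ℝ) : Integrable (fun t => w t * stepf S c a b t) := by
  have : (fun t => w t * stepf S c a b t)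
      = fun t => ∑ i ∈ S, c i * (w t * chi (a i) (b i) t) := by
    ext t
    rw [stepf_eq_chi, Finset.mul_sum]
    exact Finset.sum_congr rfl (fun i _ => by ring)
  rw [this]
  exact integrable_finsetSum S (fun i _ => (w_chi_integrable hw (a i) (b i)).const_mul (c i))

lemma box_w_stepf {ι : Type*} {w : ℝ → ℝ} (hw : Continuous w) (S : Finset ι)
    (c a b : ι → ℝ) (rho t : ℝ) :
    box (fun s => w s * stepf S c a b s) rho t
      = ∑ i ∈ S, c i * box (fun s => w s * chi (a i) (b i) s) rho t := by
  have : (fun t => w t * stepf S c a b t)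
      = fun t => ∑ i ∈ S, c i * (w t * chi (a i) (b i) t) := by
    ext t
    rw [stepf_eq_chi, Finset.mul_sum]
    exact Finset.sum_congr rfl (fun i _ => by ring)
  rw [this, box_finset_sum S _ (fun i _ => (w_chi_integrable hw (a i) (b i)).const_mul (c i))]
  refine Finset.sum_congr rfl (fun i _ => ?_)
  unfold box
  rw [intervalIntegral.integral_const_mul]

lemma box_mono_on {h k : ℝ → ℝ} (hh : Integrable h) (hk : Integrable k) {rho : ℝ} (hr : 0 ≤ rho)
    {t : ℝ} (hle : ∀ s, |s - t| ≤ rho → h s ≤ k s) : box h rho t ≤ box k rho t := by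
  unfold box
  refine intervalIntegral.integral_mono_on (by linarith) hh.intervalIntegrable
    hk.intervalIntegrable (fun s hs => hle s ?_)
  rw [abs_le]
  exact ⟨by linarith [hs.1], by linarith [hs.2]⟩

lemma box_const_mul (c : ℝ) (h : ℝ → ℝ) (rho t : ℝ) :
    box (fun s => c * h s) rho t = c * box h rho t := by
  unfold box; exact intervalIntegral.integral_const_mul c h

/-- upper bound of the weighted overlap -/
lemma box_w_chi_le {w : ℝ → ℝ} (hw : Continuous w) {a b rho s C : ℝ} (hr : 0 ≤ rho)
    (hC : ∀ t, |t - s| ≤ rho → w t ≤ C) :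
    box (fun t => w t * chi a b t) rho s ≤ C * Gam a b rho s := by
  rw [← box_chi a b rho hr s, ← box_const_mul]
  exact box_mono_on (w_chi_integrable hw a b) ((chi_integrable a b).const_mul C) hr
    (fun t ht => mul_le_mul_of_nonneg_right (hC t ht) (chi_nonneg a b t))

/-- lower bound of the weighted overlap -/
lemma le_box_w_chi {w : ℝ → ℝ} (hw : Continuous w) {a b rho s C D : ℝ} (hr : 0 ≤ rho)
    (hC : ∀ t, |t - s| ≤ rho → C ≤ w t + D) :
    C * Gam a b rho s ≤ box (fun t => w t * chi a b t) rho s + D * Gam a b rho s := by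
  rw [← box_chi a b rho hr s, ← box_const_mul, ← box_const_mul,
    ← box_add (w_chi_integrable hw a b) ((chi_integrable a b).const_mul D)]
  refine box_mono_on ((chi_integrable a b).const_mul C)
    ((w_chi_integrable hw a b).add ((chi_integrable a b).const_mul D)) hr (fun t ht => ?_)
  have := mul_le_mul_of_nonneg_right (hC t ht) (chi_nonneg a b t)
  show C * chi a b t ≤ w t * chi a b t + D * chi a b t
  linarith

/-- hypotheses on the weight -/
structure Wt (w : ℝ → ℝ) (La : ℝ) : Prop where
  nonneg : ∀ t, 0 ≤ w t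
  La0 : 0 ≤ La
  lip : ∀ s t, |w s - w t| ≤ La * |s - t|

lemma Wt.continuous {w : ℝ → ℝ} {La : ℝ} (h : Wt w La) : Continuous w := by
  have : LipschitzWith (Real.toNNReal La) w := by
    refine LipschitzWith.of_dist_le_mul (fun s t => ?_)
    rw [Real.dist_eq, Real.dist_eq, Real.coe_toNNReal _ h.La0]
    exact h.lip s t
  exact this.continuous

lemma Wt.le {w : ℝ → ℝ} {La : ℝ} (h : Wt w La) (s t : ℝ) {d : ℝ} (hd : |s - t| ≤ d) :
    w s ≤ w t + La * d := by
  have h1 := h.lip s t
  have h2 := le_abs_self (w s - w t)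
  have h3 := mul_le_mul_of_nonneg_left hd h.La0
  linarith

/-- one interval, one end -/
lemma one_interval {w : ℝ → ℝ} {La : ℝ} (hW : Wt w La)
    {a b rho eta ze s1 s A B : ℝ} (hr : 0 ≤ rho) (heta : 0 < eta) (hrz : rho ≤ ze)
    (hsmall : ze + 2 * rho ≤ eta / 4)
    (hs : |s - s1| ≤ ze) (hAB : A ≤ B) (hx : ∀ x ∈ Icc A B, |x - s1| ≤ eta / 2)
    (hGam : Gam a b rho s ≤ Gam a b rho s1 + (8 / eta) * ∫ x in A..B, Gam a b rho x) :
    box (fun t => w t * chi a b t) rho s ≤ (w s1 + 2 * La * ze) * Gam a b rho s1
      + (8 / eta) * ∫ x in A..B, (box (fun t => w t * chi a b t) rho x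
          + La * eta * Gam a b rho x) := by
  have hze : 0 ≤ ze := hr.trans hrz
  have hLa := hW.La0
  set Cc := w s1 + La * (ze + rho) with hCc
  have hCc0 : 0 ≤ Cc := by have := hW.nonneg s1; positivity
  -- step 1
  have h1 : box (fun t => w t * chi a b t) rho s ≤ Cc * Gam a b rho s := by
    refine box_w_chi_le hW.continuous hr (fun t ht => ?_)
    refine hW.le t s1 ?_
    have := abs_sub_le t s s1
    linarith
  -- step 2
  have h2 : ∀ x ∈ Icc A B, Cc * Gam a b rho x
      ≤ box (fun t => w t * chi a b t) rho x + La * eta * Gam a b rho x := by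
    intro x hxx
    refine le_box_w_chi hW.continuous hr (fun t ht => ?_)
    have h3 := hW.le s1 t (d := eta / 2 + rho) (by
      have := abs_sub_le s1 x t
      rw [abs_sub_comm s1 x, abs_sub_comm x t] at this
      have := hx x hxx
      linarith)
    rw [hCc]
    nlinarith
  have hcG := continuous_Gam a b rho
  have hcb : Continuous (box (fun t => w t * chi a b t) rho) :=
    continuous_box (w_chi_integrable hW.continuous a b) rho
  have h4 : Cc * ∫ x in A..B, Gam a b rho x
      ≤ ∫ x in A..B, (box (fun t => w t * chi a b t) rho x + La * eta * Gam a b rho x) := by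
    rw [← intervalIntegral.integral_const_mul]
    refine intervalIntegral.integral_mono_on hAB ?_ ?_ h2
    · exact (continuous_const.mul hcG).intervalIntegrable _ _
    · exact (hcb.add (continuous_const.mul hcG)).intervalIntegrable _ _
  have h5 : Cc * Gam a b rho s ≤ Cc * Gam a b rho s1
      + (8 / eta) * (Cc * ∫ x in A..B, Gam a b rho x) := by
    have := mul_le_mul_of_nonneg_left hGam hCc0
    calc Cc * Gam a b rho s ≤ Cc * (Gam a b rho s1 + (8 / eta) * ∫ x in A..B, Gam a b rho x) := this
      _ = _ := by ring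
  have h6 := mul_le_mul_of_nonneg_left h4 (by positivity : (0:ℝ) ≤ 8 / eta)
  have h7 : Cc * Gam a b rho s1 ≤ (w s1 + 2 * La * ze) * Gam a b rho s1 := by
    refine mul_le_mul_of_nonneg_right ?_ (Gam_nonneg _ _ _ _)
    rw [hCc]; nlinarith
  linarith

/-- one end, whole family -/
lemma family_end {ι : Type*} {w : ℝ → ℝ} {La : ℝ} (hW : Wt w La) {S : Finset ι} {c a b : ι → ℝ}
    (hc : ∀ i ∈ S, 0 ≤ c i)
    {rho eta ze s1 s A B : ℝ} (hr : 0 ≤ rho) (heta : 0 < eta) (hrz : rho ≤ ze)
    (hsmall : ze + 2 * rho ≤ eta / 4)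
    (hs : |s - s1| ≤ ze) (hAB : A ≤ B) (hx : ∀ x ∈ Icc A B, |x - s1| ≤ eta / 2)
    (hG : ∀ i ∈ S, (∀ t ∈ Ico (a i) (b i), w t = 0) ∨
      Gam (a i) (b i) rho s ≤ Gam (a i) (b i) rho s1
        + (8 / eta) * ∫ x in A..B, Gam (a i) (b i) rho x) :
    box (fun t => w t * stepf S c a b t) rho s ≤ (w s1 + 2 * La * ze) * box (stepf S c a b) rho s1
      + (8 / eta) * ∫ x in A..B, (box (fun t => w t * stepf S c a b t) rho x
          + La * eta * box (stepf S c a b) rho x) := by
  have hze : 0 ≤ ze := hr.trans hrz
  have hLa := hW.La0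
  have hw := hW.continuous
  have e1 : ∫ x in A..B, (box (fun t => w t * stepf S c a b t) rho x
          + La * eta * box (stepf S c a b) rho x)
      = ∑ i ∈ S, c i * ∫ x in A..B, (box (fun t => w t * chi (a i) (b i) t) rho x
          + La * eta * Gam (a i) (b i) rho x) := by
    have : ∀ x, (box (fun t => w t * stepf S c a b t) rho x
          + La * eta * box (stepf S c a b) rho x)
        = ∑ i ∈ S, c i * (box (fun t => w t * chi (a i) (b i) t) rho x
          + La * eta * Gam (a i) (b i) rho x) := by
      intro x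
      rw [box_w_stepf hw, box_stepf S c a b rho hr, Finset.mul_sum, ← Finset.sum_add_distrib]
      exact Finset.sum_congr rfl (fun i _ => by ring)
    simp_rw [this]
    rw [intervalIntegral.integral_finsetSum]
    · refine Finset.sum_congr rfl (fun i _ => ?_)
      rw [intervalIntegral.integral_const_mul]
    · intro i _
      refine Continuous.intervalIntegrable ?_ _ _
      exact continuous_const.mul ((continuous_box (w_chi_integrable hw (a i) (b i)) rho).add
        (continuous_const.mul (continuous_Gam (a i) (b i) rho)))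
  rw [e1, box_w_stepf hw, box_stepf S c a b rho hr, Finset.mul_sum, Finset.mul_sum,
    ← Finset.sum_add_distrib]
  refine Finset.sum_le_sum (fun i hi => ?_)
  have key : box (fun t => w t * chi (a i) (b i) t) rho s
      ≤ (w s1 + 2 * La * ze) * Gam (a i) (b i) rho s1
      + (8 / eta) * ∫ x in A..B, (box (fun t => w t * chi (a i) (b i) t) rho x
          + La * eta * Gam (a i) (b i) rho x) := by
    rcases hG i hi with h0 | h1
    · have hz : (fun t => w t * chi (a i) (b i) t) = fun _ => 0 := by
        ext t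
        unfold chi
        rw [Set.indicator_apply]
        split_ifs with ht
        · rw [h0 t ht]; simp
        · simp
      rw [hz]
      have hb0 : ∀ x, box (fun _ => (0:ℝ)) rho x = 0 := by
        intro x; unfold box; simp
      rw [hb0]
      have hA : 0 ≤ ∫ x in A..B, (box (fun _ => (0:ℝ)) rho x + La * eta * Gam (a i) (b i) rho x) := by
        refine intervalIntegral.integral_nonneg hAB (fun x _ => ?_)
        rw [hb0]
        have := Gam_nonneg (a i) (b i) rho x
        positivity
      have hB := Gam_nonneg (a i) (b i) rho s1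
      have hw1 := hW.nonneg s1
      positivity
    · exact one_interval hW hr heta hrz hsmall hs hAB hx h1
  have := mul_le_mul_of_nonneg_left key (hc i hi)
  calc c i * box (fun t => w t * chi (a i) (b i) t) rho s
      ≤ c i * ((w s1 + 2 * La * ze) * Gam (a i) (b i) rho s1
      + (8 / eta) * ∫ x in A..B, (box (fun t => w t * chi (a i) (b i) t) rho x
          + La * eta * Gam (a i) (b i) rho x)) := this
    _ = _ := by ring

/-! ## (X2) the end parts of the second family -/

lemma setIntegral_Ico_eq {h : ℝ → ℝ} {u v : ℝ} (huv : u ≤ v) :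
    ∫ x in Ico u v, h x = ∫ x in u..v, h x := by
  rw [intervalIntegral.integral_of_le huv, ← integral_Icc_eq_integral_Ioc,
    integral_Icc_eq_integral_Ico]

lemma integral_stepf_mul {ι : Type*} {h : ℝ → ℝ} (hc : Continuous h) (T : Finset ι)
    (d u v : ι → ℝ) :
    ∫ s, stepf T d u v s * h s = ∑ j ∈ T, d j * ∫ s in Ico (u j) (v j), h s := by
  have e : (fun s => stepf T d u v s * h s) = fun s => ∑ j ∈ T, d j * (h s * chi (u j) (v j) s) := by
    ext s
    rw [stepf_eq_chi, Finset.sum_mul]
    exact Finset.sum_congr rfl (fun j _ => by ring)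
  rw [e, integral_finsetSum T (fun j _ => (w_chi_integrable hc (u j) (v j)).const_mul (d j))]
  refine Finset.sum_congr rfl (fun j _ => ?_)
  rw [integral_const_mul, ← integral_indicator measurableSet_Ico]
  congr 2
  ext s
  unfold chi
  rw [Set.indicator_apply, Set.indicator_apply]
  split_ifs <;> simp

/-- three pieces of `[u,v)` -/
lemma three_pieces {h : ℝ → ℝ} (hc : Continuous h) (h0 : ∀ x, 0 ≤ h x) {u v ze : ℝ} (hze : 0 ≤ ze)
    : ∫ x in Ico u v, h x ≤ (∫ x in Ico (u + ze) (v - ze), h x) + (∫ x in u..(u + ze), h x)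
      + ∫ x in (v - ze)..v, h x := by
  rw [← setIntegral_Ico_eq (by linarith : u ≤ u + ze),
    ← setIntegral_Ico_eq (by linarith : v - ze ≤ v)]
  simp_rw [← integral_indicator measurableSet_Ico]
  have hi : ∀ a b : ℝ, Integrable ((Ico a b).indicator h) := by
    intro a b
    rw [integrable_indicator_iff measurableSet_Ico]
    exact (hc.integrableOn_Icc (a := a) (b := b)).mono_set Ico_subset_Icc_self
  have e : (∫ x, (Ico (u + ze) (v - ze)).indicator h x) + (∫ x, (Ico u (u + ze)).indicator h x)
      + (∫ x, (Ico (v - ze) v).indicator h x)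
      = ∫ x, ((Ico (u + ze) (v - ze)).indicator h x + (Ico u (u + ze)).indicator h x
        + (Ico (v - ze) v).indicator h x) := by
    rw [integral_add (f := fun x => (Ico (u + ze) (v - ze)).indicator h x
      + (Ico u (u + ze)).indicator h x) ((hi _ _).add (hi _ _)) (hi _ _),
      integral_add (hi _ _) (hi _ _)]
  rw [e]
  refine integral_mono (hi _ _) (((hi _ _).add (hi _ _)).add (hi _ _)) (fun x => ?_)
  show (Ico u v).indicator h x ≤ (Ico (u + ze) (v - ze)).indicator h x
    + (Ico u (u + ze)).indicator h x + (Ico (v - ze) v).indicator h x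
  have hx := h0 x
  by_cases hm : x ∈ Ico u v
  · have hn : ∀ a b, 0 ≤ (Ico a b).indicator h x := by
      intro a b; rw [Set.indicator_apply]; split_ifs <;> simp [hx]
    rw [Set.indicator_of_mem hm]
    rcases lt_or_ge x (u + ze) with h1 | h1
    · rw [Set.indicator_of_mem (show x ∈ Ico u (u + ze) from ⟨hm.1, h1⟩)]
      linarith [hn (u + ze) (v - ze), hn (v - ze) v]
    · rcases lt_or_ge x (v - ze) with h2 | h2
      · rw [Set.indicator_of_mem (show x ∈ Ico (u + ze) (v - ze) from ⟨h1, h2⟩)]
        linarith [hn u (u + ze), hn (v - ze) v]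
      · rw [Set.indicator_of_mem (show x ∈ Ico (v - ze) v from ⟨h2, hm.2⟩)]
        linarith [hn u (u + ze), hn (u + ze) (v - ze)]
  · rw [Set.indicator_of_notMem hm]
    have hn : ∀ a b, 0 ≤ (Ico a b).indicator h x := by
      intro a b; rw [Set.indicator_apply]; split_ifs <;> simp [hx]
    linarith [hn u (u + ze), hn (u + ze) (v - ze), hn (v - ze) v]

lemma box_w_zero {f w : ℝ → ℝ} {rho s : ℝ} (hr : 0 ≤ rho) (h : ∀ t, |t - s| ≤ rho → w t = 0) :
    box (fun t => w t * f t) rho s = 0 := by
  unfold box
  have : ∫ t in (s - rho)..(s + rho), w t * f t = ∫ t in (s - rho)..(s + rho), (0:ℝ) := by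
    refine intervalIntegral.integral_congr (fun t ht => ?_)
    rw [uIcc_of_le (by linarith)] at ht
    show w t * f t = 0
    rw [h t (by rw [abs_le]; exact ⟨by linarith [ht.1], by linarith [ht.2]⟩), zero_mul]
  rw [this]; simp

/-- **(X2)** `f = ∑ c_i 1_{[a_i,b_i)}`, `g = ∑ d_j 1_{[u_j,v_j)}`; `ĝ` = the family `g` with all intervals
shrunk by `ze` at both ends.  `EL j`/`ER j`: the left/right end of `J_j` counts. -/
theorem kap_bound {ι κ : Type*} {w : ℝ → ℝ} {La : ℝ} (hW : Wt w La)
    {S : Finset ι} {c a b : ι → ℝ} (hc : ∀ i ∈ S, 0 ≤ c i)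
    {T : Finset κ} {d u v : κ → ℝ} (hd : ∀ j ∈ T, 0 ≤ d j) (huv : ∀ j ∈ T, u j ≤ v j)
    (EL ER : κ → Prop) [DecidablePred EL] [DecidablePred ER]
    {rho eta ze : ℝ} (hr : 0 ≤ rho) (heta : 0 < eta) (hrz : rho ≤ ze)
    (hsmall : ze + 2 * rho ≤ eta / 4)
    (hI : ∀ i ∈ S, eta ≤ b i - a i ∨ ∀ t ∈ Ico (a i) (b i), w t = 0)
    (hEL : ∀ j ∈ T, EL j → eta ≤ v j - u j)
    (hER : ∀ j ∈ T, ER j → eta ≤ v j - u j)
    (hEL' : ∀ j ∈ T, ¬ EL j → ∀ t ∈ Icc (u j - rho) (u j + ze + rho), w t = 0)
    (hER' : ∀ j ∈ T, ¬ ER j → ∀ t ∈ Icc (v j - ze - rho) (v j + rho), w t = 0) :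
    (1 - 8 * ze / eta) * ∫ t, w t * stepf S c a b t * box (stepf T d u v) rho t
      ≤ (∫ t, w t * stepf S c a b t
            * box (stepf T d (fun j => u j + ze) (fun j => v j - ze)) rho t)
        + ze * ∑ j ∈ T.filter EL, d j * ((w (u j) + 2 * La * ze) * box (stepf S c a b) rho (u j))
        + ze * ∑ j ∈ T.filter ER, d j * ((w (v j) + 2 * La * ze) * box (stepf S c a b) rho (v j))
        + 8 * ze * La * ∫ t, stepf S c a b t * box (stepf T d u v) rho t := by
  have hze : 0 ≤ ze := hr.trans hrz
  have hLa := hW.La0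
  have hw := hW.continuous
  set f := stepf S c a b with hf
  have hfi : Integrable f := stepf_integrable S c a b
  have hf0 : ∀ t, 0 ≤ f t := stepf_nonneg hc
  have hwfi : Integrable (fun t => w t * f t) := w_stepf_integrable hw S c a b
  have hwf0 : ∀ t, 0 ≤ w t * f t := fun t => mul_nonneg (hW.nonneg t) (hf0 t)
  set h : ℝ → ℝ := box (fun t => w t * f t) rho with hh
  have hhc : Continuous h := continuous_box hwfi rho
  have hh0 : ∀ x, 0 ≤ h x := box_nonneg hwf0 hr
  have hbc : Continuous (box f rho) := continuous_box hfi rho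
  have hb0 : ∀ x, 0 ≤ box f rho x := box_nonneg hf0 hr
  set P : ℝ → ℝ := fun x => h x + La * eta * box f rho x with hP
  have hPc : Continuous P := hhc.add (continuous_const.mul hbc)
  have hP0 : ∀ x, 0 ≤ P x := fun x => by
    have := hh0 x; have := hb0 x; simp only [hP]; positivity
  -- swap
  have s1 : ∫ t, w t * f t * box (stepf T d u v) rho t
      = ∑ j ∈ T, d j * ∫ s in Ico (u j) (v j), h s := by
    rw [box_swap hwfi (stepf_integrable T d u v) hr, integral_stepf_mul hhc]
  have s2 : ∫ t, w t * f t * box (stepf T d (fun j => u j + ze) (fun j => v j - ze)) rho t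
      = ∑ j ∈ T, d j * ∫ s in Ico (u j + ze) (v j - ze), h s := by
    rw [box_swap hwfi (stepf_integrable T d _ _) hr, integral_stepf_mul hhc]
  have s3 : ∫ t, f t * box (stepf T d u v) rho t
      = ∑ j ∈ T, d j * ∫ s in Ico (u j) (v j), box f rho s := by
    rw [box_swap hfi (stepf_integrable T d u v) hr, integral_stepf_mul hbc]
  rw [s1, s2, s3]
  -- the estimate for one interval
  have key : ∀ j ∈ T, ∫ s in Ico (u j) (v j), h s
      ≤ (∫ s in Ico (u j + ze) (v j - ze), h s)
        + (if EL j then ze * ((w (u j) + 2 * La * ze) * box f rho (u j)) else 0)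
        + (if ER j then ze * ((w (v j) + 2 * La * ze) * box f rho (v j)) else 0)
        + 8 * ze / eta * ∫ s in Ico (u j) (v j), P s := by
    intro j hj
    have h3 := three_pieces (u := u j) (v := v j) hhc hh0 hze
    have hL : (∫ x in (u j)..(u j + ze), h x)
        ≤ (if EL j then ze * ((w (u j) + 2 * La * ze) * box f rho (u j)) else 0)
          + (if EL j then 8 * ze / eta * ∫ x in (u j)..(u j + eta / 2), P x else 0) := by
      by_cases hE : EL j
      · rw [if_pos hE, if_pos hE]
        have : ∫ x in (u j)..(u j + ze), h x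
            ≤ ∫ x in (u j)..(u j + ze), ((w (u j) + 2 * La * ze) * box f rho (u j)
              + (8 / eta) * ∫ x in (u j)..(u j + eta / 2), P x) := by
          refine intervalIntegral.integral_mono_on (by linarith) (hhc.intervalIntegrable _ _)
            (by simp) (fun x hx => ?_)
          refine family_end hW hc hr heta hrz hsmall ?_ (by linarith) ?_ ?_
          · rw [abs_le]; exact ⟨by linarith [hx.1], by linarith [hx.2]⟩
          · intro y hy
            rw [abs_le]; exact ⟨by linarith [hy.1], by linarith [hy.2]⟩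
          · intro i hi
            rcases hI i hi with h1 | h1
            · exact Or.inr (Gam_le_left (a i) (b i) rho eta ze (u j) x hr heta h1 hze hsmall
                hx.1 hx.2)
            · exact Or.inl h1
        refine this.trans (le_of_eq ?_)
        rw [intervalIntegral.integral_const, smul_eq_mul]
        ring
      · rw [if_neg hE, if_neg hE]
        have : ∫ x in (u j)..(u j + ze), h x = ∫ x in (u j)..(u j + ze), (0:ℝ) := by
          refine intervalIntegral.integral_congr (fun x hx => ?_)
          rw [uIcc_of_le (by linarith)] at hx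
          refine box_w_zero hr (fun t ht => hEL' j hj hE t ?_)
          rw [abs_le] at ht
          exact ⟨by linarith [hx.1], by linarith [hx.2]⟩
        rw [this]; simp
    have hR : (∫ x in (v j - ze)..(v j), h x)
        ≤ (if ER j then ze * ((w (v j) + 2 * La * ze) * box f rho (v j)) else 0)
          + (if ER j then 8 * ze / eta * ∫ x in (v j - eta / 2)..(v j), P x else 0) := by
      by_cases hE : ER j
      · rw [if_pos hE, if_pos hE]
        have : ∫ x in (v j - ze)..(v j), h x
            ≤ ∫ x in (v j - ze)..(v j), ((w (v j) + 2 * La * ze) * box f rho (v j)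
              + (8 / eta) * ∫ x in (v j - eta / 2)..(v j), P x) := by
          refine intervalIntegral.integral_mono_on (by linarith) (hhc.intervalIntegrable _ _)
            (by simp) (fun x hx => ?_)
          refine family_end hW hc hr heta hrz hsmall ?_ (by linarith) ?_ ?_
          · rw [abs_le]; exact ⟨by linarith [hx.1], by linarith [hx.2]⟩
          · intro y hy
            rw [abs_le]; exact ⟨by linarith [hy.1], by linarith [hy.2]⟩
          · intro i hi
            rcases hI i hi with h1 | h1
            · exact Or.inr (Gam_le_right (a i) (b i) rho eta ze (v j) x hr heta h1 hze hsmall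
                hx.1 hx.2)
            · exact Or.inl h1
        refine this.trans (le_of_eq ?_)
        rw [intervalIntegral.integral_const, smul_eq_mul]
        ring
      · rw [if_neg hE, if_neg hE]
        have : ∫ x in (v j - ze)..(v j), h x = ∫ x in (v j - ze)..(v j), (0:ℝ) := by
          refine intervalIntegral.integral_congr (fun x hx => ?_)
          rw [uIcc_of_le (by linarith)] at hx
          refine box_w_zero hr (fun t ht => hER' j hj hE t ?_)
          rw [abs_le] at ht
          exact ⟨by linarith [hx.1], by linarith [hx.2]⟩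
        rw [this]; simp
    have hPP : (if EL j then 8 * ze / eta * ∫ x in (u j)..(u j + eta / 2), P x else 0)
        + (if ER j then 8 * ze / eta * ∫ x in (v j - eta / 2)..(v j), P x else 0)
        ≤ 8 * ze / eta * ∫ s in Ico (u j) (v j), P s := by
      rw [setIntegral_Ico_eq (huv j hj)]
      have hi : ∀ x y : ℝ, IntervalIntegrable P volume x y := fun x y => hPc.intervalIntegrable x y
      have hn : ∀ x y : ℝ, x ≤ y → 0 ≤ ∫ t in x..y, P t := fun x y hxy =>
        intervalIntegral.integral_nonneg hxy (fun t _ => hP0 t)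
      have hk : 0 ≤ 8 * ze / eta := by positivity
      by_cases hE : EL j
      · have hlong := hEL j hj hE
        have e1 : ∫ t in (u j)..(v j), P t = (∫ t in (u j)..(u j + eta / 2), P t)
            + (∫ t in (u j + eta / 2)..(v j - eta / 2), P t)
            + ∫ t in (v j - eta / 2)..(v j), P t := by
          rw [intervalIntegral.integral_add_adjacent_intervals (hi _ _) (hi _ _),
            intervalIntegral.integral_add_adjacent_intervals (hi _ _) (hi _ _)]
        have n1 := hn (u j) (u j + eta / 2) (by linarith)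
        have n2 := hn (u j + eta / 2) (v j - eta / 2) (by linarith)
        have n3 := hn (v j - eta / 2) (v j) (by linarith)
        by_cases hE2 : ER j
        · rw [if_pos hE, if_pos hE2, ← mul_add]
          exact mul_le_mul_of_nonneg_left (by rw [e1]; linarith) hk
        · rw [if_pos hE, if_neg hE2, add_zero]
          exact mul_le_mul_of_nonneg_left (by rw [e1]; linarith) hk
      · by_cases hE2 : ER j
        · have hlong := hER j hj hE2
          have e1 : ∫ t in (u j)..(v j), P t = (∫ t in (u j)..(v j - eta / 2), P t)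
              + ∫ t in (v j - eta / 2)..(v j), P t := by
            rw [intervalIntegral.integral_add_adjacent_intervals (hi _ _) (hi _ _)]
          have n1 := hn (u j) (v j - eta / 2) (by linarith)
          rw [if_neg hE, if_pos hE2, zero_add]
          exact mul_le_mul_of_nonneg_left (by rw [e1]; linarith) hk
        · rw [if_neg hE, if_neg hE2, add_zero]
          exact mul_nonneg hk (hn _ _ (huv j hj))
    linarith
  -- sum up
  have hPint : ∀ j ∈ T, ∫ s in Ico (u j) (v j), P s
      = (∫ s in Ico (u j) (v j), h s) + La * eta * ∫ s in Ico (u j) (v j), box f rho s := by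
    intro j hj
    rw [setIntegral_Ico_eq (huv j hj), setIntegral_Ico_eq (huv j hj),
      setIntegral_Ico_eq (huv j hj), ← intervalIntegral.integral_const_mul]
    exact intervalIntegral.integral_add (hhc.intervalIntegrable _ _)
      ((continuous_const.mul hbc).intervalIntegrable _ _)
  have hsum : ∑ j ∈ T, d j * ∫ s in Ico (u j) (v j), h s
      ≤ ∑ j ∈ T, d j * ((∫ s in Ico (u j + ze) (v j - ze), h s)
        + (if EL j then ze * ((w (u j) + 2 * La * ze) * box f rho (u j)) else 0)
        + (if ER j then ze * ((w (v j) + 2 * La * ze) * box f rho (v j)) else 0)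
        + 8 * ze / eta * ((∫ s in Ico (u j) (v j), h s)
          + La * eta * ∫ s in Ico (u j) (v j), box f rho s)) := by
    refine Finset.sum_le_sum (fun j hj => mul_le_mul_of_nonneg_left ?_ (hd j hj))
    have := key j hj
    rw [hPint j hj] at this
    exact this
  have hsplit : ∑ j ∈ T, d j * ((∫ s in Ico (u j + ze) (v j - ze), h s)
        + (if EL j then ze * ((w (u j) + 2 * La * ze) * box f rho (u j)) else 0)
        + (if ER j then ze * ((w (v j) + 2 * La * ze) * box f rho (v j)) else 0)
        + 8 * ze / eta * ((∫ s in Ico (u j) (v j), h s)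
          + La * eta * ∫ s in Ico (u j) (v j), box f rho s))
      = (∑ j ∈ T, d j * ∫ s in Ico (u j + ze) (v j - ze), h s)
        + ze * ∑ j ∈ T.filter EL, d j * ((w (u j) + 2 * La * ze) * box f rho (u j))
        + ze * ∑ j ∈ T.filter ER, d j * ((w (v j) + 2 * La * ze) * box f rho (v j))
        + 8 * ze / eta * (∑ j ∈ T, d j * ∫ s in Ico (u j) (v j), h s)
        + 8 * ze * La * ∑ j ∈ T, d j * ∫ s in Ico (u j) (v j), box f rho s := by
    rw [Finset.sum_filter, Finset.sum_filter]
    simp only [Finset.mul_sum]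
    rw [← Finset.sum_add_distrib, ← Finset.sum_add_distrib, ← Finset.sum_add_distrib,
      ← Finset.sum_add_distrib]
    refine Finset.sum_congr rfl (fun j _ => ?_)
    have e8 : 8 * ze / eta * (La * eta) = 8 * ze * La := by field_simp
    split_ifs <;> linear_combination (d j * ∫ s in Ico (u j) (v j), box f rho s) * e8
  rw [hsplit] at hsum
  linarith

/-! ## (X2b) the shrunk family is below all small translates of the family -/

lemma hat_le {κ : Type*} {T : Finset κ} {d u v : κ → ℝ} (hd : ∀ j ∈ T, 0 ≤ d j) {ze x : ℝ}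
    (hx : |x| ≤ ze) (s : ℝ) :
    stepf T d (fun j => u j + ze) (fun j => v j - ze) s ≤ stepf T d u v (s + x) := by
  unfold stepf
  refine Finset.sum_le_sum (fun j hj => ?_)
  rw [abs_le] at hx
  rw [Set.indicator_apply, Set.indicator_apply]
  by_cases h : s ∈ Ico (u j + ze) (v j - ze)
  · rw [if_pos h, if_pos (show s + x ∈ Ico (u j) (v j) from
      ⟨by linarith [h.1, hx.1], by linarith [h.2, hx.2]⟩)]
  · rw [if_neg h]
    split_ifs
    · exact hd j hj
    · exact le_rfl

/-- (X2b) box version; `G` is any function above the family. -/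
theorem box_hat_le {κ : Type*} {T : Finset κ} {d u v : κ → ℝ} (hd : ∀ j ∈ T, 0 ≤ d j)
    {ze x rho t : ℝ} (hr : 0 ≤ rho) (hx : |x| ≤ ze) {G : ℝ → ℝ} (hG : Continuous G)
    (hGg : ∀ s, stepf T d u v s ≤ G s) :
    box (stepf T d (fun j => u j + ze) (fun j => v j - ze)) rho t ≤ box G rho (t + x) := by
  have h1 : box G rho (t + x) = ∫ s in (t - rho)..(t + rho), G (s + x) := by
    unfold box
    rw [intervalIntegral.integral_comp_add_right (fun s => G s)]
    congr 1 <;> ring
  rw [h1]
  unfold box
  refine intervalIntegral.integral_mono_on (by linarith)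
    (stepf_integrable T d _ _).intervalIntegrable
    ((hG.comp (continuous_id.add continuous_const)).intervalIntegrable _ _) (fun s _ => ?_)
  exact (hat_le hd hx s).trans (hGg (s + x))

/-! ## (X3) the opening bound -/

/-- `ψ(t,x) = ∫_0^x (e^{-b t} σ)^{1/p} dσ = (p/(p+1)) e^{-b t/p} x^{(p+1)/p}` -/
noncomputable def psi (b p t x : ℝ) : ℝ :=
  p / (p + 1) * Real.exp (-(b * t) / p) * x ^ ((p + 1) / p)

/-- (X3) opening bound, pointwise in `t`: `K ≤ V` on the window `|x| ≤ ze` around `t`,
`F = e^{bt}V^p`, `y` dominates every common lower bound of `F` on the window. -/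
theorem opening_bound {b p ze t K y z : ℝ} (hp : 0 < p) (hK : 0 ≤ K)
    {V F : ℝ → ℝ} (hF : ∀ x, |x| ≤ ze → Real.exp (b * (t + x)) * V (t + x) ^ p ≤ F (t + x))
    (hKV : ∀ x, |x| ≤ ze → K ≤ V (t + x))
    (hy : ∀ σ, 0 ≤ σ → (∀ x, |x| ≤ ze → σ ≤ F (t + x)) → σ ≤ y)
    (hz0 : 0 ≤ z) (hzy : z ≤ y) :
    z * K ≤ Real.exp (|b| * ze / p) * ((p + 1) / p) * psi b p t y := by
  have hy0 : 0 ≤ y := hz0.trans hzy
  -- the common lower bound
  have h1 : Real.exp (b * t - |b| * ze) * K ^ p ≤ y := by
    refine hy _ (by positivity) (fun x hx => ?_)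
    refine le_trans ?_ (hF x hx)
    refine mul_le_mul (Real.exp_le_exp.2 ?_) (Real.rpow_le_rpow hK (hKV x hx) hp.le)
      (by positivity) (by positivity)
    have : |b * x| ≤ |b| * ze := by
      rw [abs_mul]; exact mul_le_mul_of_nonneg_left hx (abs_nonneg b)
    have := neg_abs_le (b * x)
    linarith
  have h2 : K ^ p ≤ Real.exp (|b| * ze - b * t) * y := by
    have h3 := mul_le_mul_of_nonneg_left h1 (Real.exp_pos (|b| * ze - b * t)).le
    rw [← mul_assoc, ← Real.exp_add] at h3
    have e : |b| * ze - b * t + (b * t - |b| * ze) = 0 := by ring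
    rw [e, Real.exp_zero, one_mul] at h3
    exact h3
  have h4 : K ≤ Real.exp ((|b| * ze - b * t) / p) * y ^ (1 / p) := by
    have h5 := Real.rpow_le_rpow (by positivity) h2 (by positivity : (0:ℝ) ≤ 1 / p)
    rw [← Real.rpow_mul hK, mul_one_div_cancel hp.ne', Real.rpow_one,
      Real.mul_rpow (Real.exp_pos _).le hy0, ← Real.exp_mul] at h5
    rwa [mul_one_div] at h5
  have h6 : z * K ≤ y * (Real.exp ((|b| * ze - b * t) / p) * y ^ (1 / p)) :=
    mul_le_mul hzy h4 hK hy0
  refine h6.trans (le_of_eq ?_)
  unfold psi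
  have e1 : Real.exp ((|b| * ze - b * t) / p)
      = Real.exp (|b| * ze / p) * Real.exp (-(b * t) / p) := by
    rw [← Real.exp_add]; congr 1; ring
  have e2 : y ^ ((p + 1) / p) = y * y ^ (1 / p) := by
    rcases eq_or_lt_of_le hy0 with h | h
    · rw [← h, Real.zero_rpow (by positivity), zero_mul]
    · rw [show (p + 1) / p = 1 + 1 / p by field_simp, Real.rpow_add h, Real.rpow_one]
  rw [e1, e2]
  field_simp

end Crest.Agent.R077.StepX
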