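import Crest.Agent.R077.Iface
import Crest.Agent.R077.StepX
import Crest.Agent.R077.Layers

/-!
# Row 77: `Stmt_X1`, `Stmt_X3`, `Stmt_X4` of the frozen interface (helper615)
-/

set_option autoImplicit false

namespace Crest.Agent.R077.StepX

open MeasureTheory Set

/-! ## adapters -/

lemma stepF_eq (x : ℕ → ℝ) (S : Finset (ℕ × ℕ)) (lam a : ℝ) (m : ℕ) :
    R077.stepF x S lam a m = stepf S (rc x) (lft lam a m) (rgt lam a m) := by
  funext t
  unfold R077.stepF stepf ind
  refine Finset.sum_congr rfl (fun i _ => ?_)
  rw [Set.indicator_apply]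
  by_cases h : t ∈ Ico (lft lam a m i) (rgt lam a m i)
  · rw [if_pos h, if_pos (show lft lam a m i ≤ t ∧ t < rgt lam a m i from ⟨h.1, h.2⟩), mul_one]
  · rw [if_neg h, if_neg (fun h' => h ⟨h'.1, h'.2⟩), mul_zero]

lemma stepShr_eq (x : ℕ → ℝ) (S : Finset (ℕ × ℕ)) (lam a : ℝ) (m : ℕ) (ze : ℝ) :
    stepShr x S lam a m ze
      = stepf S (rc x) (fun i => lft lam a m i + ze) (fun i => rgt lam a m i - ze) := by
  funext t
  unfold stepShr stepf
  refine Finset.sum_congr rfl (fun i _ => ?_)
  rw [Set.indicator_apply]
  by_cases h : t ∈ Ico (lft lam a m i + ze) (rgt lam a m i - ze)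
  · rw [if_pos h, if_pos (show lft lam a m i + ze ≤ t ∧ t < rgt lam a m i - ze from ⟨h.1, h.2⟩),
      mul_one]
  · rw [if_neg h, if_neg (fun h' => h ⟨h'.1, h'.2⟩), mul_zero]

lemma rc_nonneg (x : ℕ → ℝ) (i : ℕ × ℕ) : 0 ≤ rc x i := ENNReal.toReal_nonneg

lemma box_eq (f : ℝ → ℝ) (rho : ℝ) : R077.box f rho = box f rho := rfl

lemma msh_nonneg {a : ℝ} (ha : 0 < a) (m : ℕ) : 0 ≤ msh a m := by unfold msh; positivity

lemma msh_pos {a : ℝ} (ha : 0 < a) {m : ℕ} (hm : 1 ≤ m) : 0 < msh a m := by
  unfold msh
  have : (0:ℝ) < m := by exact_mod_cast hm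
  positivity

lemma mul_msh {a : ℝ} {m : ℕ} (hm : 1 ≤ m) : (m : ℝ) * msh a m = 2 * a := by
  unfold msh
  have : (m : ℝ) ≠ 0 := by positivity
  field_simp

lemma nd_mono {lam a : ℝ} (ha : 0 < a) (m : ℕ) {j k : ℕ} (h : j ≤ k) :
    nd lam a m j ≤ nd lam a m k := by
  unfold nd
  have := msh_nonneg ha m
  have h' : (j : ℝ) ≤ k := by exact_mod_cast h
  nlinarith

lemma mem_prs {m : ℕ} {i : ℕ × ℕ} : i ∈ prs m ↔ 1 ≤ i.1 ∧ i.1 ≤ i.2 ∧ i.2 ≤ m := by
  unfold prs
  simp only [Finset.mem_filter, Finset.mem_product, Finset.mem_Icc]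
  omega

lemma lft_le_rgt {lam a : ℝ} (ha : 0 < a) {m : ℕ} {i : ℕ × ℕ} (hi : i ∈ prs m) :
    lft lam a m i ≤ rgt lam a m i := by
  rw [mem_prs] at hi
  exact nd_mono ha m (by omega)

lemma rgt_sub_lft {lam a : ℝ} {m : ℕ} {i : ℕ × ℕ} (hi : i ∈ prs m) :
    rgt lam a m i - lft lam a m i = ((i.2 : ℝ) - i.1 + 1) * msh a m := by
  rw [mem_prs] at hi
  unfold rgt lft nd
  rw [Nat.cast_sub hi.1]
  push_cast
  ring

lemma longI_subset (a : ℝ) (m : ℕ) (eta : ℝ) : longI a m eta ⊆ prs m := Finset.sdiff_subset

/-- trichotomy for long intervals: honest long, or a boundary run -/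
lemma longI_cases {a : ℝ} {m : ℕ} {eta : ℝ} {i : ℕ × ℕ} (hi : i ∈ longI a m eta) :
    i ∈ prs m ∧ (i.1 = 1 ∨ i.2 = m ∨ eta ≤ ((i.2 : ℝ) - i.1 + 1) * msh a m) := by
  have hp := longI_subset a m eta hi
  refine ⟨hp, ?_⟩
  unfold longI shortI at hi
  rw [Finset.mem_sdiff, Finset.mem_filter] at hi
  have h2 := hi.2
  have hp' := mem_prs.1 hp
  by_contra hcon
  push Not at hcon
  exact h2 ⟨hp, by omega, by omega, hcon.2.2⟩

lemma tent_nonneg {lam a : ℝ} (t : ℝ) : 0 ≤ tent lam a t := by
  unfold tent
  exact mul_nonneg (by positivity) (le_max_left _ _)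

lemma tent_zero_left {lam a t : ℝ} (h : t ≤ lam) : tent lam a t = 0 := by
  unfold tent
  rw [max_eq_left, mul_zero]
  exact (min_le_left _ _).trans (by linarith)

lemma tent_zero_right {lam a t : ℝ} (h : lam + a ≤ t) : tent lam a t = 0 := by
  unfold tent
  rw [max_eq_left, mul_zero]
  exact (min_le_right _ _).trans (by linarith)

lemma tent_wt {lam a : ℝ} : Wt (tent lam a) (4 / a ^ 2) where
  nonneg := tent_nonneg
  La0 := by positivity
  lip := by
    intro s t
    unfold tent
    rw [← mul_sub, abs_mul, abs_of_nonneg (show (0:ℝ) ≤ 4 / a ^ 2 by positivity)]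
    refine mul_le_mul_of_nonneg_left ?_ (by positivity)
    calc |max 0 (min (s - lam) (lam + a - s)) - max 0 (min (t - lam) (lam + a - t))|
        ≤ max |(0:ℝ) - 0| |min (s - lam) (lam + a - s) - min (t - lam) (lam + a - t)| :=
          abs_max_sub_max_le_max _ _ _ _
      _ ≤ |s - t| := by
          refine max_le (by simp) ?_
          refine (abs_min_sub_min_le_max _ _ _ _).trans (max_le (le_of_eq ?_) (le_of_eq ?_))
          · congr 1; ring
          · rw [show lam + a - s - (lam + a - t) = -(s - t) by ring, abs_neg]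

/-- data on the step functions used below (delivered by the layer adapter) -/
def StepLe : Prop := ∀ (f : ℝ → ℝ) (x : ℕ → ℝ) (lam a : ℝ) (m : ℕ) (S : Finset (ℕ × ℕ)),
  0 < a → 1 ≤ m → Lay f x lam a m → S ⊆ prs m → ∀ t, R077.stepF x S lam a m t ≤ f t

theorem X1_of (hSL : StepLe) : Stmt_X1 := by
  intro g y lam a m eta ze ha hm heta hze hL t s hs
  rw [stepShr_eq]
  have h1 := hat_le (T := longI a m eta) (d := rc y) (u := lft lam a m) (v := rgt lam a m)
    (fun j _ => rc_nonneg y j) hs t
  refine h1.trans ?_
  rw [← stepF_eq]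
  exact hSL g y lam a m (longI a m eta) ha hm hL (longI_subset a m eta) (t + s)

lemma stepF_zero_out {x : ℕ → ℝ} {lam a : ℝ} {m : ℕ} (ha : 0 < a) (hm : 1 ≤ m)
    {S : Finset (ℕ × ℕ)} (hS : S ⊆ prs m) {t : ℝ}
    (ht : t ∉ Icc (lam - a / 2) (lam + 3 * a / 2)) : R077.stepF x S lam a m t = 0 := by
  unfold R077.stepF
  refine Finset.sum_eq_zero (fun i hi => ?_)
  have hp := mem_prs.1 (hS hi)
  unfold ind
  rw [if_neg, mul_zero]
  rintro ⟨h1, h2⟩
  apply ht
  have e0 : nd lam a m 0 = lam - a / 2 := by unfold nd; simp
  have em : nd lam a m m = lam + 3 * a / 2 := by unfold nd; rw [mul_msh hm]; ring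
  have l1 : nd lam a m 0 ≤ lft lam a m i := nd_mono ha m (Nat.zero_le _)
  have l2 : rgt lam a m i ≤ nd lam a m m := nd_mono ha m hp.2.2
  rw [e0] at l1
  rw [em] at l2
  exact ⟨by linarith, by linarith⟩

lemma nd_zero (lam a : ℝ) (m : ℕ) : nd lam a m 0 = lam - a / 2 := by unfold nd; simp

lemma nd_last (lam a : ℝ) {m : ℕ} (hm : 1 ≤ m) : nd lam a m m = lam + 3 * a / 2 := by
  unfold nd; rw [mul_msh hm]; ring

/-- a long pair is really long or far from the support of the tent -/
lemma long_or_far {lam a eta : ℝ} {m : ℕ} (ha : 0 < a) (hm : 1 ≤ m) (h8 : 8 * eta ≤ a)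
    {i : ℕ × ℕ} (hi : i ∈ longI a m eta) :
    eta ≤ rgt lam a m i - lft lam a m i ∨ rgt lam a m i < lam - 2 * eta
      ∨ lam + a + 2 * eta < lft lam a m i := by
  obtain ⟨hp, hc⟩ := longI_cases hi
  by_cases hlen : eta ≤ rgt lam a m i - lft lam a m i
  · exact Or.inl hlen
  · push Not at hlen
    right
    rcases hc with h1 | h1 | h1
    · left
      have : lft lam a m i = lam - a / 2 := by
        unfold lft; rw [h1]; exact nd_zero lam a m
      linarith
    · right
      have : rgt lam a m i = lam + 3 * a / 2 := by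
        unfold rgt; rw [h1]; exact nd_last lam a hm
      linarith
    · exfalso
      rw [← rgt_sub_lft (lam := lam) hp] at h1
      linarith

theorem X4_of (hSL : StepLe) : Stmt_X4 := by
  classical
  intro f g x y lam a m eta ze rho ha ha1 hm h8 hze h16 hrho h16r hmsh hLf hLg
  have heta : 0 < eta := by linarith
  set T := longI a m eta with hT
  have hTp : T ⊆ prs m := longI_subset a m eta
  set fL := stepf T (rc x) (lft lam a m) (rgt lam a m) with hfL
  set gL := stepf T (rc y) (lft lam a m) (rgt lam a m) with hgL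
  set gS := stepf T (rc y) (fun i => lft lam a m i + ze) (fun i => rgt lam a m i - ze) with hgS
  have eF : R077.stepF x T lam a m = fL := stepF_eq x T lam a m
  have eG : R077.stepF y T lam a m = gL := stepF_eq y T lam a m
  have eS : stepShr y T lam a m ze = gS := stepShr_eq y T lam a m ze
  rw [eF, eG, eS]
  have hW := tent_wt (lam := lam) (a := a)
  have hwc := hW.continuous
  set La : ℝ := 4 / a ^ 2 with hLa
  have hLa0 : 0 ≤ La := hW.La0
  -- integrability
  have iF : Integrable fL := stepf_integrable _ _ _ _
  have iG : Integrable gL := stepf_integrable _ _ _ _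
  have iS : Integrable gS := stepf_integrable _ _ _ _
  have iwF : Integrable (fun t => tent lam a t * fL t) := w_stepf_integrable hwc _ _ _ _
  have iwG : Integrable (fun t => tent lam a t * gL t) := w_stepf_integrable hwc _ _ _ _
  have cF := continuous_box iF rho
  have cG := continuous_box iG rho
  have cS := continuous_box iS rho
  have F0 : ∀ t, 0 ≤ fL t := stepf_nonneg (fun i _ => rc_nonneg x i)
  have G0 : ∀ t, 0 ≤ gL t := stepf_nonneg (fun i _ => rc_nonneg y i)
  have Ff : ∀ t, fL t ≤ f t := fun t => by
    rw [← eF]; exact hSL f x lam a m T ha hm hLf hTp t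
  have Gg : ∀ t, gL t ≤ g t := fun t => by
    rw [← eG]; exact hSL g y lam a m T ha hm hLg hTp t
  -- product integrable : step function times continuous
  have iprod : ∀ (R : Finset (ℕ × ℕ)) (c u v : ℕ × ℕ → ℝ) (k : ℝ → ℝ), Continuous k →
      Integrable (fun t => stepf R c u v t * k t) := by
    intro R c u v k hk
    refine (w_stepf_integrable hk R c u v).congr (Filter.Eventually.of_forall (fun t => ?_))
    simp only; ring
  have bFf : ∀ t, box fL rho t ≤ box f rho t := by
    intro t
    unfold box
    exact intervalIntegral.integral_mono_on (by linarith) iF.intervalIntegrable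
      (hLf.f_cont.intervalIntegrable _ _) (fun s _ => Ff s)
  have bF0 : ∀ t, 0 ≤ box fL rho t := box_nonneg F0 hrho.le
  -- the main inequality
  set EL : ℕ × ℕ → Prop := fun j => lam - 2 * eta ≤ lft lam a m j ∧ lft lam a m j ≤ lam + a + 2 * eta
    with hEL
  set ER : ℕ × ℕ → Prop := fun j => lam - 2 * eta ≤ rgt lam a m j ∧ rgt lam a m j ≤ lam + a + 2 * eta
    with hER
  have main := kap_bound hW (S := T) (c := rc x) (a := lft lam a m) (b := rgt lam a m)
    (fun i _ => rc_nonneg x i) (T := T) (d := rc y) (u := lft lam a m) (v := rgt lam a m)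
    (fun i _ => rc_nonneg y i) (fun j hj => lft_le_rgt ha (hTp hj)) EL ER
    (rho := rho) (eta := eta) (ze := ze) hrho.le heta (by linarith) (by linarith)
    (by
      intro i hi
      rcases long_or_far (lam := lam) ha hm h8 hi with h | h | h
      · exact Or.inl h
      · right
        intro t ht
        exact tent_zero_left (by linarith [ht.2])
      · right
        intro t ht
        exact tent_zero_right (by linarith [ht.1]))
    (by
      intro j hj hE
      rcases long_or_far (lam := lam) ha hm h8 hj with h | h | h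
      · exact h
      · exfalso
        have := lft_le_rgt (lam := lam) ha (hTp hj)
        linarith [hE.1]
      · exfalso
        linarith [hE.2])
    (by
      intro j hj hE
      rcases long_or_far (lam := lam) ha hm h8 hj with h | h | h
      · exact h
      · exfalso
        linarith [hE.1]
      · exfalso
        have := lft_le_rgt (lam := lam) ha (hTp hj)
        linarith [hE.2])
    (by
      intro j hj hE t ht
      rcases lt_or_ge (lft lam a m j) (lam - 2 * eta) with h | h
      · exact tent_zero_left (by linarith [ht.2])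
      · have : lam + a + 2 * eta < lft lam a m j := by
          by_contra hc; push Not at hc; exact hE ⟨h, hc⟩
        exact tent_zero_right (by linarith [ht.1]))
    (by
      intro j hj hE t ht
      rcases lt_or_ge (rgt lam a m j) (lam - 2 * eta) with h | h
      · exact tent_zero_left (by linarith [ht.2])
      · have : lam + a + 2 * eta < rgt lam a m j := by
          by_contra hc; push Not at hc; exact hE ⟨h, hc⟩
        exact tent_zero_right (by linarith [ht.1]))
  -- names
  set A := ∫ t, tent lam a t * fL t * box gL rho t with hA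
  set B := ∫ t, tent lam a t * fL t * box gS rho t with hB
  set C := ∫ t, tent lam a t * gL t * box fL rho t with hC
  set E := ∫ t, gL t * box fL rho t with hE
  set D := ∫ t in Icc (lam - a / 2) (lam + 3 * a / 2), g t * box f rho t with hD
  -- (1) the left side is A - B
  have e1 : ∫ t, tent lam a t * fL t * R077.box (fun s => gL s - gS s) rho t = A - B := by
    have hb : ∀ t, R077.box (fun s => gL s - gS s) rho t = box gL rho t - box gS rho t := by
      intro t
      show ∫ s in (t - rho)..(t + rho), (gL s - gS s) = _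
      unfold box
      exact intervalIntegral.integral_sub iG.intervalIntegrable iS.intervalIntegrable
    simp_rw [hb, mul_sub]
    rw [hA, hB]
    refine integral_sub ?_ ?_
    · refine (iprod T (rc x) (lft lam a m) (rgt lam a m) _ (hwc.mul cG)).congr
        (Filter.Eventually.of_forall (fun t => ?_))
      simp only [hfL, Pi.mul_apply]; ring
    · refine (iprod T (rc x) (lft lam a m) (rgt lam a m) _ (hwc.mul cS)).congr
        (Filter.Eventually.of_forall (fun t => ?_))
      simp only [hfL, Pi.mul_apply]; ring
  -- (2) A ≤ C + La ρ E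
  have e2 : A ≤ C + La * rho * E := by
    have : A = ∫ s, gL s * box (fun t => tent lam a t * fL t) rho s := by
      rw [hA]; exact box_swap iwF iG hrho.le
    rw [this, hC, hE, ← integral_const_mul, ← integral_add]
    · refine integral_mono ?_ ?_ (fun s => ?_)
      · exact iprod _ _ _ _ _ (continuous_box iwF rho)
      · exact ((iprod T (rc y) (lft lam a m) (rgt lam a m) _ (hwc.mul cF)).congr
          (Filter.Eventually.of_forall (fun t => by simp only [hgL, Pi.mul_apply]; ring))).add
          ((iprod T (rc y) (lft lam a m) (rgt lam a m) _ cF).const_mul (La * rho))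
      · show gL s * box (fun t => tent lam a t * fL t) rho s
          ≤ tent lam a s * gL s * box fL rho s + La * rho * (gL s * box fL rho s)
        have h1 : box (fun t => tent lam a t * fL t) rho s
            ≤ (tent lam a s + La * rho) * box fL rho s := by
          rw [← box_const_mul]
          refine box_mono_on iwF (iF.const_mul _) hrho.le (fun t ht => ?_)
          exact mul_le_mul_of_nonneg_right (hW.le t s ht) (F0 t)
        have h2 := mul_le_mul_of_nonneg_left h1 (G0 s)
        calc gL s * box (fun t => tent lam a t * fL t) rho s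
            ≤ gL s * ((tent lam a s + La * rho) * box fL rho s) := h2
          _ = _ := by ring
    · refine (iprod T (rc y) (lft lam a m) (rgt lam a m) _ (hwc.mul cF)).congr
        (Filter.Eventually.of_forall (fun t => by simp only [hgL, Pi.mul_apply]; ring))
    · exact (iprod T (rc y) (lft lam a m) (rgt lam a m) _ cF).const_mul (La * rho)
  -- (3) E = the swapped one, E ≤ D, C ≥ 0
  have e3 : ∫ t, fL t * box gL rho t = E := by
    rw [hE]; exact box_swap iF iG hrho.le
  have e4 : E ≤ D := by
    have h1 : E = ∫ t in Icc (lam - a / 2) (lam + 3 * a / 2), gL t * box fL rho t := by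
      rw [hE]
      refine (setIntegral_eq_integral_of_forall_compl_eq_zero (fun t ht => ?_)).symm
      rw [← eG, stepF_zero_out ha hm hTp ht, zero_mul]
    rw [h1, hD]
    refine setIntegral_mono_on ?_ ?_ measurableSet_Icc (fun t _ => ?_)
    · exact (iprod T (rc y) (lft lam a m) (rgt lam a m) _ cF).integrableOn
    · have cbf : Continuous (box f rho) := by
        unfold box
        have h2 : ∀ t : ℝ, ∫ s in (t - rho)..(t + rho), f s
            = (∫ s in (0:ℝ)..(t + rho), f s) - ∫ s in (0:ℝ)..(t - rho), f s := by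
          intro t
          rw [intervalIntegral.integral_interval_sub_left (hLf.f_cont.intervalIntegrable _ _)
            (hLf.f_cont.intervalIntegrable _ _)]
        simp_rw [h2]
        have hc : Continuous (fun x : ℝ => ∫ s in (0:ℝ)..x, f s) :=
          intervalIntegral.continuous_primitive (fun a b => hLf.f_cont.intervalIntegrable a b) 0
        exact (hc.comp (by fun_prop)).sub (hc.comp (by fun_prop))
      exact (hLg.f_cont.mul cbf).integrableOn_Icc
    · exact mul_le_mul (Gg t) (bFf t) (bF0 t) (hLg.f_nonneg t)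
  have e5 : 0 ≤ C := by
    rw [hC]
    exact integral_nonneg (fun t => mul_nonneg (mul_nonneg (tent_nonneg t) (G0 t)) (bF0 t))
  have e6 : 0 ≤ E := by
    rw [hE]
    exact integral_nonneg (fun t => mul_nonneg (G0 t) (bF0 t))
  -- (4) the end sums
  have e7 : (∑ j ∈ T.filter EL, rc y j * ((tent lam a (lft lam a m j) + 2 * La * ze)
        * box fL rho (lft lam a m j)))
      + (∑ j ∈ T.filter ER, rc y j * ((tent lam a (rgt lam a m j) + 2 * La * ze)
        * box fL rho (rgt lam a m j)))
      ≤ tvS (R077.box f rho) y T lam a m eta := by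
    unfold tvS
    rw [Finset.sum_filter, Finset.sum_filter, ← Finset.sum_add_distrib]
    refine Finset.sum_le_sum (fun j hj => ?_)
    have hrc := rc_nonneg y j
    have hend : ∀ z : ℝ, (if lam - 2 * eta ≤ z ∧ z ≤ lam + a + 2 * eta then
        rc y j * ((tent lam a z + 2 * La * ze) * box fL rho z) else 0)
        ≤ rc y j * (wend lam a eta z * R077.box f rho z) := by
      intro z
      unfold wend
      split_ifs with hz
      · refine mul_le_mul_of_nonneg_left ?_ hrc
        have h1 : 0 ≤ tent lam a z := tent_nonneg z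
        refine mul_le_mul ?_ (bFf z) (bF0 z) (by positivity)
        have : La * ze ≤ La * eta := mul_le_mul_of_nonneg_left (by linarith) hLa0
        linarith
      · simp
    have h1 := hend (lft lam a m j)
    have h2 := hend (rgt lam a m j)
    rw [mul_add]
    exact add_le_add h1 h2
  -- assemble
  rw [e1]
  rw [e3] at main
  have hq : 0 ≤ ze / eta := by positivity
  have m1 : A - B ≤ 8 * ze / eta * A + ze * tvS (R077.box f rho) y T lam a m eta
      + 8 * ze * La * E := by
    have := mul_le_mul_of_nonneg_left e7 hze.le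
    nlinarith [main]
  have m2 : 8 * ze / eta * A ≤ 8 * (ze / eta) * (C + La * rho * E) := by
    rw [mul_div_assoc]
    exact mul_le_mul_of_nonneg_left e2 (by positivity)
  have m3 : 8 * (ze / eta) * (La * rho * E) ≤ 8 * ze * La * E := by
    have : ze / eta * rho ≤ ze := by
      rw [div_mul_eq_mul_div, div_le_iff₀ heta]
      exact mul_le_mul_of_nonneg_left (by linarith) hze.le
    have h0 : 0 ≤ 8 * La * E := by positivity
    nlinarith [mul_le_mul_of_nonneg_left this h0]
  have m4 : 16 * ze * La * E ≤ 16 * (ze / eta) * La * eta * D := by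
    have e : 16 * (ze / eta) * La * eta = 16 * ze * La := by field_simp
    rw [e]
    exact mul_le_mul_of_nonneg_left e4 (by positivity)
  have m5 : 8 * (ze / eta) * C ≤ 16 * (ze / eta) * C := by
    have : 0 ≤ (ze / eta) * C := mul_nonneg hq e5
    linarith
  show A - B ≤ ze * tvS (R077.box f rho) y T lam a m eta + 16 * (ze / eta) * C
    + 16 * (ze / eta) * La * eta * D
  linarith

end Crest.Agent.R077.StepX
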